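import Crest.Agent.R165.Cl13_722
import Crest.Agent.R165.LimR_610
import Crest.Agent.R165.RIface_891

/-!
# Row 165, block R: the bridge from the limit laws (helper610) to the quadratic relations of
`half_disc_rot` and `branch_disc` (helper722)
-/

set_option autoImplicit false

noncomputable section

open MeasureTheory Set Filter Topology
open scoped ContDiff

namespace Crest.Agent.R165.Bd1x722

open Crest.Agent.R165.Tr1x40 hiding sq2
open Crest.Agent.R165.LimAx610 Crest.Agent.R165.LimQx610 Crest.Agent.R165.LimRx610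
open Crest.Agent.R165.RIfx891
open Cl1x722 Cl7x722

/-- `A0` on a light vector -/
theorem A0_lv (c : ℂ) (h : Fin 4) : A0 (lv c) h = xc * lv (-Complex.I * c) h := by
  have h2 := Tr1x40.sq2
  have h0 : Real.sqrt 2 ≠ 0 := Tr1x40.sq2_pos.ne'
  have e1 : (-Complex.I * c).re = c.im := by simp
  have e2 : (-Complex.I * c).im = -c.re := by simp
  fin_cases h
  · simp only [Fin.zero_eta, A0_zero, lv, e1, e2, xc, div_sq2]
    linear_combination (-(c.re - c.im) / 2) * h2
  · simp only [Fin.mk_one, A0_one, lv, e1, e2, xc, div_sq2]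
    ring
  · simp only [Fin.reduceFinMk, A0_two, lv, e1, e2, xc, div_sq2]
    linear_combination ((c.re + c.im) / 2) * h2
  · simp only [Fin.reduceFinMk, A0_three, lv, e1, e2, xc, div_sq2]
    ring

/-- the derivative relations -/
theorem two_dbar (χ : ℂ → ℝ) {z : ℂ} (h : DifferentiableAt ℝ χ z) (q : ℂ) :
    (q * dbar (cx χ) z).re = (q.re * fderiv ℝ χ z 1 - q.im * fderiv ℝ χ z Complex.I) / 2 ∧
    (q * dbar (cx χ) z).im = (q.im * fderiv ℝ χ z 1 + q.re * fderiv ℝ χ z Complex.I) / 2 := by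
  have e1 : ∀ e : ℂ, fderiv ℝ (cx χ) z e = ((fderiv ℝ χ z e : ℝ) : ℂ) := by
    intro e
    have : HasFDerivAt (cx χ) (Complex.ofRealCLM.comp (fderiv ℝ χ z)) z :=
      (Complex.ofRealCLM.hasFDerivAt).comp z h.hasFDerivAt
    rw [this.fderiv]; simp
  have e2 : dbar (cx χ) z = (((fderiv ℝ χ z 1 / 2 : ℝ) : ℂ) + ((fderiv ℝ χ z Complex.I / 2 : ℝ) : ℂ) * Complex.I) := by
    rw [dbar, e1, e1]; push_cast; ring
  rw [e2]
  constructor
  · simp; ring
  · simp; ring

/-- flux of the squares of a light field -/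
theorem sum_sq_lv (χ : ℂ → ℝ) {z : ℂ} (h : DifferentiableAt ℝ χ z) (c : ℂ) :
    ∑ k, dχ χ k z * (lv c k * lv c k) = 2 * (c ^ 2 * dbar (cx χ) z).re := by
  rw [(two_dbar χ h _).1, Fin.sum_univ_four, dχ_zero, dχ_one, dχ_two, dχ_three]
  have h2 := Tr1x40.sq2
  simp only [lv, div_sq2, pow_two, Complex.mul_re, Complex.mul_im]
  linear_combination ((fderiv ℝ χ z Complex.I) * ((c.im - c.re) ^ 2 - (c.re + c.im) ^ 2) / 4) * h2

theorem sum_A0_lv (χ : ℂ → ℝ) {z : ℂ} (h : DifferentiableAt ℝ χ z) (c : ℂ) :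
    ∑ k, dχ χ k z * (lv c k * A0 (lv c) k) = 2 * xc * (c ^ 2 * dbar (cx χ) z).im := by
  simp only [A0_lv]
  rw [(two_dbar χ h _).2, Fin.sum_univ_four, dχ_zero, dχ_one, dχ_two, dχ_three]
  have h2 := Tr1x40.sq2
  have e1 : (-Complex.I * c).re = c.im := by simp
  have e2 : (-Complex.I * c).im = -c.re := by simp
  simp only [lv, div_sq2, pow_two, Complex.mul_re, Complex.mul_im, e1, e2]
  linear_combination ((fderiv ℝ χ z Complex.I) * xc * ((c.im - c.re) * (-c.re - c.im) - (-(c.re + c.im)) * (-(c.im + -c.re))) / 4) * h2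

variable {ι : Type*} {l : Filter ι} {D B O : Set ℂ} {a : ι → ℝ} {w φ : ι → Fld}
  {Φ G : Fin 4 → ℂ → ℝ}

/-- **The bridge**: the quadratic relations for the limit amplitude. -/
theorem quad [l.NeBot] (H : LD l D B a w φ Φ G) (hG : ∀ h, ∀ᵐ z ∂(volume.restrict B), G h z = 0)
    {F : ℂ → ℂ} (hF : ∀ h, ∀ᵐ z ∂(volume.restrict B), z ∈ D → Φ h z = lv (F z) h)
    (hF2 : IntegrableOn (fun z => F z ^ 2) (O ∩ D)) (hO : MeasurableSet O)
    {χ : ℂ → ℝ} (hχ : RTest O χ) (hnb : ∃ δ > 0, Metric.thickening δ (tsupport χ) ⊆ B) :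
    (∫ z in O ∩ D, F z ^ 2 * dbar (cx χ) z).im = 0 ∧
    ((∀ z, 0 ≤ χ z) → 0 ≤ (∫ z in O ∩ D, F z ^ 2 * dbar (cx χ) z).re) := by
  have hc1 : ContDiff ℝ 1 χ := hχ.smooth.of_le (by exact_mod_cast le_top)
  have hdiff : ∀ z, DifferentiableAt ℝ χ z := fun z => hc1.differentiable one_ne_zero z
  obtain ⟨C, hC⟩ := hc1.lipschitzWith_of_hasCompactSupport hχ.cpt one_ne_zero
  have T : Test D B χ C := Test.of_contDiffOn H.opn hC hχ.cpt hnb hc1.contDiffOn
  have hsB : tsupport χ ⊆ B := by
    obtain ⟨δ, hδ, h⟩ := hnb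
    exact (Metric.self_subset_thickening hδ _).trans h
  have hDm : MeasurableSet D := H.opn.measurableSet
  -- the complex integral
  have hccx : ContDiff ℝ 1 (cx χ) := hχ.cx_smooth.of_le (by exact_mod_cast le_top)
  obtain ⟨M, hM⟩ := (Cl4x722.hasCompactSupport_dbar hχ.cx_cpt).exists_bound_of_continuous
    (Cl3x722.continuous_dbar hccx)
  have hint : IntegrableOn (fun z => F z ^ 2 * dbar (cx χ) z) (O ∩ D) :=
    hF2.mul_bdd (Cl3x722.continuous_dbar hccx).aestronglyMeasurable (Eventually.of_forall hM)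
  have hre : (∫ z in O ∩ D, F z ^ 2 * dbar (cx χ) z).re =
      ∫ z in O ∩ D, (F z ^ 2 * dbar (cx χ) z).re := by
    have := Complex.reCLM.integral_comp_comm hint
    exact this.symm
  have him : (∫ z in O ∩ D, F z ^ 2 * dbar (cx χ) z).im =
      ∫ z in O ∩ D, (F z ^ 2 * dbar (cx χ) z).im := by
    have := Complex.imCLM.integral_comp_comm hint
    exact this.symm
  -- off the support everything vanishes
  have hoff : ∀ z, z ∉ tsupport χ → dbar (cx χ) z = 0 := by
    intro z hz
    refine Cl3x722.dbar_zero_of_notMem fun h => hz ?_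
    refine (closure_mono fun w hw => ?_) h
    intro h0; exact hw (by simp [cx, h0])
  have hoffd : ∀ z, z ∉ tsupport χ → ∀ k, dχ χ k z = 0 := by
    intro z hz k
    have : fderiv ℝ χ z = 0 := by
      by_contra h
      exact hz (support_fderiv_subset ℝ h)
    simp [dχ, this]
  have hzero : ∀ᵐ z ∂(volume.restrict B), z ∉ D → ∀ h, Φ h z = 0 := by
    have := ae_all_iff.mpr H.zero
    filter_upwards [this] with z hz hzD h using hz h hzD
  have hFae : ∀ᵐ z ∂(volume.restrict B), z ∈ D → ∀ h, Φ h z = lv (F z) h := by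
    have := ae_all_iff.mpr hF
    filter_upwards [this] with z hz hzD h using hz h hzD
  have hzero' := (ae_restrict_iff' H.meas).mp hzero
  have hFae' := (ae_restrict_iff' H.meas).mp hFae
  have hGz : ∀ᵐ z ∂(volume.restrict B), ∀ h, G h z = 0 := ae_all_iff.mpr hG
  have key1 : ∫ z in B, ∑ h, (dχ χ h z * xc ^ 2) * (Φ h z * Φ h z) =
      2 * xc ^ 2 * ∫ z in O ∩ D, (F z ^ 2 * dbar (cx χ) z).re := by
    rw [← integral_const_mul, ← integral_indicator H.meas, ← integral_indicator (hO.inter hDm)]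
    refine integral_congr_ae ?_
    filter_upwards [hzero', hFae'] with z h1 h2
    by_cases hzs : z ∈ tsupport χ
    · have hzB := hsB hzs
      have hzO := hχ.supp hzs
      rw [indicator_of_mem hzB]
      by_cases hzD : z ∈ D
      · rw [indicator_of_mem (show z ∈ O ∩ D from ⟨hzO, hzD⟩)]
        have h3 : ∑ h, (dχ χ h z * xc ^ 2) * (Φ h z * Φ h z) =
            xc ^ 2 * ∑ k, dχ χ k z * (lv (F z) k * lv (F z) k) := by
          rw [Finset.mul_sum]
          refine Finset.sum_congr rfl fun k _ => ?_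
          rw [h2 hzB hzD k]; ring
        rw [h3, sum_sq_lv χ (hdiff z)]; ring
      · rw [indicator_of_notMem (fun h : z ∈ O ∩ D => hzD h.2)]
        refine Finset.sum_eq_zero fun k _ => ?_
        rw [h1 hzB hzD k]; ring
    · have e1 : B.indicator (fun z => ∑ h, (dχ χ h z * xc ^ 2) * (Φ h z * Φ h z)) z = 0 := by
        by_cases hzB : z ∈ B
        · rw [indicator_of_mem hzB]
          exact Finset.sum_eq_zero fun k _ => by rw [hoffd z hzs k]; ring
        · rw [indicator_of_notMem hzB]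
      have e2 : (O ∩ D).indicator (fun z => 2 * xc ^ 2 * (F z ^ 2 * dbar (cx χ) z).re) z = 0 := by
        by_cases hzB : z ∈ O ∩ D
        · rw [indicator_of_mem hzB, hoff z hzs]; simp
        · rw [indicator_of_notMem hzB]
      rw [e1, e2]
  have key2 : ∫ z in B, ∑ h, dχ χ h z * (Φ h z * A0c Φ h z) =
      2 * xc * ∫ z in O ∩ D, (F z ^ 2 * dbar (cx χ) z).im := by
    rw [← integral_const_mul, ← integral_indicator H.meas, ← integral_indicator (hO.inter hDm)]
    refine integral_congr_ae ?_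
    filter_upwards [hzero', hFae'] with z h1 h2
    by_cases hzs : z ∈ tsupport χ
    · have hzB := hsB hzs
      have hzO := hχ.supp hzs
      rw [indicator_of_mem hzB]
      by_cases hzD : z ∈ D
      · rw [indicator_of_mem (show z ∈ O ∩ D from ⟨hzO, hzD⟩)]
        have h4 : (fun j => Φ j z) = lv (F z) := funext fun j => h2 hzB hzD j
        have h3 : ∑ h, dχ χ h z * (Φ h z * A0c Φ h z) =
            ∑ k, dχ χ k z * (lv (F z) k * A0 (lv (F z)) k) := by
          refine Finset.sum_congr rfl fun k _ => ?_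
          rw [A0c, h4, h2 hzB hzD k]
        rw [h3, sum_A0_lv χ (hdiff z)]
      · rw [indicator_of_notMem (fun h : z ∈ O ∩ D => hzD h.2)]
        refine Finset.sum_eq_zero fun k _ => ?_
        rw [h1 hzB hzD k]; ring
    · have e1 : B.indicator (fun z => ∑ h, dχ χ h z * (Φ h z * A0c Φ h z)) z = 0 := by
        by_cases hzB : z ∈ B
        · rw [indicator_of_mem hzB]
          exact Finset.sum_eq_zero fun k _ => by rw [hoffd z hzs k]; ring
        · rw [indicator_of_notMem hzB]
      have e2 : (O ∩ D).indicator (fun z => 2 * xc * (F z ^ 2 * dbar (cx χ) z).im) z = 0 := by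
        by_cases hzB : z ∈ O ∩ D
        · rw [indicator_of_mem hzB, hoff z hzs]; simp
        · rw [indicator_of_notMem hzB]
      rw [e1, e2]
  have hs1 : ∫ z in B, ∑ h, χ z * (A0c Φ h z * G h z) = 0 := by
    have : (fun z => ∑ h, χ z * (A0c Φ h z * G h z)) =ᵐ[volume.restrict B] fun _ => 0 := by
      filter_upwards [hGz] with z hz
      exact Finset.sum_eq_zero fun k _ => by rw [hz k]; ring
    rw [integral_congr_ae this, integral_zero]
  have hs2 : ∫ z in B, ∑ h, χ z * (Φ h z * G h z) = 0 := by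
    have : (fun z => ∑ h, χ z * (Φ h z * G h z)) =ᵐ[volume.restrict B] fun _ => 0 := by
      filter_upwards [hGz] with z hz
      exact Finset.sum_eq_zero fun k _ => by rw [hz k]; ring
    rw [integral_congr_ae this, integral_zero]
  have hx := xc_pos
  constructor
  · rw [him]
    have := H.law2 T
    rw [key2, hs2, mul_zero] at this
    have h5 : (2 * xc : ℝ) ≠ 0 := by positivity
    exact (mul_eq_zero.mp this).resolve_left h5
  · intro h0
    rw [hre]
    have := H.law1 T h0
    rw [key1, hs1, mul_zero, zero_add] at this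
    exact nonneg_of_mul_nonneg_right this (by positivity)

end Crest.Agent.R165.Bd1x722
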