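import Crest.Agent.R165.Gk1_422
import Crest.Agent.R165.Red_541

/-!
# Row 165 (S0250): interface of block U5 (normalisation of spin correlations at `lam = 0`) (helper422)

See TEXT U5 (note 935).

* `Kc`, `TT D a`, `GB b T u` : spin correlations of the critical model on lattice points
* `Conf D n`, `LApp u x` : configurations, lattice approximations
* `SpinIn Lam` : inputs (I1) ratio limits and (I1c) covariance up to a constant
* `Merge` : merging, for discs (output of S1; input (I3))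
* `TwoPt g` : two-point function of discs (output of S2)
* `SLim b n D x F` : scaling limit of a spin correlation
* `SpinOut b` : final output for the boundary condition `b`
* `D0_eq_GB`, `spinLim_of_SLim` : bridge to `Top_683` / `Red_541`
-/

set_option autoImplicit false
set_option linter.unusedSectionVars false
set_option linter.unusedVariables false

noncomputable section

open Filter Topology Finset
open Crest.ProbabilityR.IsingModel

namespace Crest.Agent.R165.U5Px422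

open Crest.Agent.R165.Gk0x422
open Crest.Agent.R165.Gk1x422
open Crest.Agent.R165.Topx683
open Crest.Agent.R165.Redx541

/-- critical coupling `β_c J` at `J = 1` -/
def Kc : ℝ := criticalBeta 1

theorem Kc_nonneg : 0 ≤ Kc := by
  unfold Kc criticalBeta
  have h : 0 ≤ Real.log (1 + Real.sqrt 2) := Real.log_nonneg (by
    have := Real.sqrt_nonneg 2
    linarith)
  positivity

open Classical in
/-- the site set of `D` at mesh `a` as a finset (`∅` if infinite) -/
def TT (D : Set ℂ) (a : ℝ) : Finset (ℤ × ℤ) :=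
  if h : (domainSites D a).Finite then h.toFinset else ∅

theorem mem_TT {D : Set ℂ} (hD : Bornology.IsBounded D) {a : ℝ} (ha : 0 < a) {z : ℤ × ℤ} :
    z ∈ TT D a ↔ meshPoint a z ∈ D := by
  have h := domainSites_finite hD ha
  unfold TT
  rw [dif_pos h, Set.Finite.mem_toFinset]
  rfl

theorem TT_mono {D D' : Set ℂ} (hD' : Bornology.IsBounded D') (h : D ⊆ D') {a : ℝ} (ha : 0 < a) :
    TT D a ⊆ TT D' a := fun z hz =>
  (mem_TT hD' ha).2 (h ((mem_TT (hD'.subset h) ha).1 hz))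

/-- critical spin correlations on a finite set of sites -/
def GB (b : BoundaryCondition) (T : Finset (ℤ × ℤ)) {n : ℕ} (u : Fin n → ℤ × ℤ) : ℝ :=
  match b with
  | .plus => Gp Kc T u
  | .free => Gf Kc T u
  | .minus => (-1) ^ n * Gp Kc T u

/-- configurations of `n` distinct points of `D` -/
def Conf (D : Set ℂ) (n : ℕ) : Set (Fin n → ℂ) := {x | (∀ i, x i ∈ D) ∧ Function.Injective x}

/-- lattice approximation of `x` as the mesh `a ↓ 0` -/
def LApp {n : ℕ} (u : ℝ → Fin n → ℤ × ℤ) (x : Fin n → ℂ) : Prop :=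
  ∀ i, Tendsto (fun a : ℝ => meshPoint a (u a i)) (𝓝[>] 0) (𝓝 (x i))

/-- the cases in which the spin correlation is not zero for a trivial reason -/
def Allow (b : BoundaryCondition) (n : ℕ) : Prop := b = .plus ∨ (b = .free ∧ Even n)

/-- **inputs (I1), (I1c)** -/
structure SpinIn (Lam : BoundaryCondition → (n : ℕ) → Set ℂ → (Fin n → ℂ) → ℝ) : Prop where
  pos : ∀ b n D, Allow b n → IsC2JordanDomain D → ∀ x ∈ Conf D n, 0 < Lam b n D x
  ratio : ∀ b n D, Allow b n → IsC2JordanDomain D → ∀ x ∈ Conf D n, ∀ x' ∈ Conf D n,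
    ∀ u u' : ℝ → Fin n → ℤ × ℤ, LApp u x → LApp u' x' →
      Tendsto (fun a : ℝ => GB b (TT D a) (u a) / GB b (TT D a) (u' a)) (𝓝[>] 0)
        (𝓝 (Lam b n D x / Lam b n D x'))
  cov : ∀ b n D D', Allow b n → IsC2JordanDomain D → IsC2JordanDomain D' → ∀ φ : ℂ → ℂ,
    DifferentiableOn ℂ φ D → Set.BijOn φ D D' → ∃ k : ℝ, 0 < k ∧ ∀ x ∈ Conf D n,
      Lam b n D' (fun i => φ (x i)) * ∏ i, ‖deriv φ (x i)‖ ^ ((1 : ℝ) / 8) = k * Lam b n D x

/-- the plane correlations exist as limits of tori -/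
def PlaneLim (P : {n : ℕ} → (Fin n → ℤ × ℤ) → ℝ) : Prop :=
  ∀ (n : ℕ) (u : Fin n → ℤ × ℤ),
    Tendsto (fun L : ℕ => Gt (L + 1) Kc u) atTop (𝓝 (P u))

/-- **merging (S1)**, for discs: the plus and the free two-point functions are asymptotically equal
to the plane two-point function when the two points come together -/
def Merge (P : {n : ℕ} → (Fin n → ℤ × ℤ) → ℝ) : Prop :=
  ∀ (c : ℂ) (r : ℝ), 0 < r → ∀ z ∈ Metric.ball c r, ∀ ε > 0, ∃ δ > 0,
    ∀ x : Fin 2 → ℂ, x 0 ≠ x 1 → ‖x 0 - z‖ < δ → ‖x 1 - z‖ < δ → ∀ u, LApp u x →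
      ∀ᶠ a in 𝓝[>] (0 : ℝ), 0 < P (u a) ∧
        GB .plus (TT (Metric.ball c r) a) (u a) ≤ (1 + ε) * P (u a) ∧
        (1 - ε) * P (u a) ≤ GB .free (TT (Metric.ball c r) a) (u a)

/-- scaling limit of a spin correlation -/
def SLim (b : BoundaryCondition) {n : ℕ} (D : Set ℂ) (x : Fin n → ℂ) (F : ℝ) : Prop :=
  ∀ u : ℝ → Fin n → ℤ × ℤ, LApp u x →
    Tendsto (fun a : ℝ => a ^ (-((n : ℝ) / 8)) * GB b (TT D a) (u a)) (𝓝[>] 0) (𝓝 F)

/-- **two-point function of discs (S2)** -/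
structure TwoPt (g : ℂ → ℝ → (Fin 2 → ℂ) → ℝ) : Prop where
  pos : ∀ (c : ℂ) (r : ℝ), 0 < r → ∀ x ∈ Conf (Metric.ball c r) 2, 0 < g c r x
  lim : ∀ (c : ℂ) (r : ℝ), 0 < r → ∀ x ∈ Conf (Metric.ball c r) 2,
    SLim .plus (Metric.ball c r) x (g c r x)
  sim : ∀ (c : ℂ) (r : ℝ), 0 < r → ∀ x ∈ Conf (Metric.ball (0 : ℂ) 1) 2,
    g c r (fun i => c + r * x i) = r ^ (-(1 : ℝ) / 4) * g 0 1 x

/-- final output for the boundary condition `b` and `n` spins -/
def SpinOut (b : BoundaryCondition) (n : ℕ) : Prop :=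
  ∃ F : Set ℂ → (Fin n → ℂ) → ℝ,
    (∀ D, IsC2JordanDomain D → ∀ x ∈ Conf D n, 0 < F D x ∧ SLim b D x (F D x)) ∧
    ∀ D D', IsC2JordanDomain D → IsC2JordanDomain D' → ∀ φ : ℂ → ℂ,
      DifferentiableOn ℂ φ D → Set.BijOn φ D D' → ∀ x ∈ Conf D n,
        F D x = (∏ i, ‖deriv φ (x i)‖ ^ ((1 : ℝ) / 8)) * F D' (fun i => φ (x i))

/-! ### lattice approximations -/

theorem meshPoint_re (a : ℝ) (z : ℤ × ℤ) : (meshPoint a z).re = a * z.1 := rfl
theorem meshPoint_im (a : ℝ) (z : ℤ × ℤ) : (meshPoint a z).im = a * z.2 := rfl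

theorem meshPoint_meshIndex {a : ℝ} (ha : 0 < a) (x : ℂ) :
    ‖meshPoint a (meshIndex a x) - x‖ ≤ 2 * a := by
  have key : ∀ t : ℝ, |a * (⌊t / a⌋ : ℝ) - t| ≤ a := by
    intro t
    have h1 := Int.floor_le (t / a)
    have h2 := Int.lt_floor_add_one (t / a)
    rw [le_div_iff₀ ha] at h1
    rw [div_lt_iff₀ ha] at h2
    rw [abs_le]
    constructor <;> nlinarith
  refine (Complex.norm_le_abs_re_add_abs_im _).trans ?_
  rw [Complex.sub_re, Complex.sub_im, meshPoint_re, meshPoint_im]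
  have h1 := key x.re
  have h2 := key x.im
  unfold meshIndex
  simp only
  linarith

theorem lapp_meshIndex {n : ℕ} (x : Fin n → ℂ) : LApp (fun a i => meshIndex a (x i)) x := by
  intro i
  rw [tendsto_iff_norm_sub_tendsto_zero]
  have h : Tendsto (fun a : ℝ => 2 * a) (𝓝[>] 0) (𝓝 0) := by
    have : Tendsto (fun a : ℝ => 2 * a) (𝓝 0) (𝓝 (2 * 0)) := tendsto_id.const_mul 2
    rw [mul_zero] at this
    exact this.mono_left nhdsWithin_le_nhds
  refine squeeze_zero' (Eventually.of_forall fun _ => norm_nonneg _) ?_ h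
  filter_upwards [self_mem_nhdsWithin] with a ha
  exact meshPoint_meshIndex ha (x i)

theorem LApp.mem {n : ℕ} {u : ℝ → Fin n → ℤ × ℤ} {x : Fin n → ℂ} (h : LApp u x) {D : Set ℂ}
    (hD : Bornology.IsBounded D) (hO : IsOpen D) (hx : ∀ i, x i ∈ D) :
    ∀ᶠ a in 𝓝[>] (0 : ℝ), ∀ i, u a i ∈ TT D a := by
  have h1 : ∀ i, ∀ᶠ a in 𝓝[>] (0 : ℝ), meshPoint a (u a i) ∈ D := fun i =>
    (h i).eventually_mem (hO.mem_nhds (hx i))
  have h2 := eventually_all.2 h1
  filter_upwards [h2, self_mem_nhdsWithin] with a ha ha0 i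
  exact (mem_TT hD ha0).2 (ha i)

/-! ### bridge to `Top_683` / `Red_541` -/

theorem domainExpect_GB (D : Set ℂ) (hD : Bornology.IsBounded D) {a : ℝ} (ha : 0 < a)
    (b : BoundaryCondition) (hb : b ≠ .minus) {n : ℕ} (u : Fin n → ℤ × ℤ) :
    domainExpect D a b 1 0 0 (fun _ => 0) (criticalBeta 1) (sp u) = GB b (TT D a) u := by
  have h := domainSites_finite hD ha
  have hT : TT D a = h.toFinset := by unfold TT; rw [dif_pos h]
  cases b with
  | plus => rw [domainExpect_plus D a 1 0 _ _ h, mul_one, hT]; rfl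
  | free => rw [domainExpect_free D a 1 0 _ _ h, mul_one, hT]; rfl
  | minus => exact absurd rfl hb

theorem D0_eq_GB (D : Set ℂ) (hD : Bornology.IsBounded D) {a : ℝ} (ha : 0 < a)
    (b : BoundaryCondition) (hb : b ≠ .minus) {n : ℕ} (x : Fin n → ℂ) :
    D0 D a b x (![] : Fin 0 → ℂ) ![] = GB b (TT D a) fun i => meshIndex a (x i) := by
  rw [← domainExpect_GB D hD ha b hb]
  unfold D0 domainMixedCorr
  congr 1
  funext s
  simp [sp]

theorem D0c_eq_GB (D : Set ℂ) (hD : Bornology.IsBounded D) {a : ℝ} (ha : 0 < a)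
    (b : BoundaryCondition) (hb : b ≠ .minus) {n : ℕ} (x : Fin n → ℂ) :
    D0c D a b x (![] : Fin 0 → ℂ) ![] = GB b (TT D a) fun i => meshIndex a (x i) := by
  rw [← domainExpect_GB D hD ha b hb]
  unfold D0c Crest.Agent.R165.Centx541.domMom
  congr 1
  funext s
  simp [sp, Crest.Agent.R165.Centx541.obs]

/-- `SLim` gives the `SpinLim` of helper420 -/
theorem spinLim_of_SLim {D : Set ℂ} (hD : Bornology.IsBounded D) {b : BoundaryCondition}
    (hb : b ≠ .minus) {n : ℕ} {x : Fin n → ℂ} {F : ℝ} (h : SLim b D x F) :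
    Tendsto (fun a : ℝ => scl n 0 a * D0c D a b x (![] : Fin 0 → ℂ) ![]) (𝓝[>] 0) (𝓝 F) := by
  refine (h _ (lapp_meshIndex x)).congr' ?_
  filter_upwards [self_mem_nhdsWithin] with a ha
  rw [D0c_eq_GB D hD ha b hb]
  unfold scl
  simp

/-! ### elementary facts in this language -/

theorem GB_plus_mul_le (T : Finset (ℤ × ℤ)) {n m : ℕ} (u : Fin n → ℤ × ℤ) (v : Fin m → ℤ × ℤ) :
    GB .plus T u * GB .plus T v ≤ GB .plus T (Fin.append u v) := Gp_mul_le Kc_nonneg T u v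

theorem GB_free_mul_le (T : Finset (ℤ × ℤ)) {n m : ℕ} (u : Fin n → ℤ × ℤ) (v : Fin m → ℤ × ℤ) :
    GB .free T u * GB .free T v ≤ GB .free T (Fin.append u v) := Gf_mul_le Kc_nonneg T u v

theorem GB_plus_anti {T T' : Finset (ℤ × ℤ)} (h : T' ⊆ T) {n : ℕ} (u : Fin n → ℤ × ℤ) :
    GB .plus T u ≤ GB .plus T' u := Gp_anti Kc_nonneg h u

theorem GB_free_mono {T T' : Finset (ℤ × ℤ)} (h : T' ⊆ T) {n : ℕ} {u : Fin n → ℤ × ℤ}
    (hu : ∀ i, u i ∈ T') : GB .free T' u ≤ GB .free T u := Gf_mono Kc_nonneg h hu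

theorem GB_nonneg {b : BoundaryCondition} (hb : b ≠ .minus) (T : Finset (ℤ × ℤ)) {n : ℕ}
    (u : Fin n → ℤ × ℤ) : 0 ≤ GB b T u := by
  cases b with
  | plus => exact Gp_nonneg Kc_nonneg T u
  | free => exact Gf_nonneg Kc_nonneg T u
  | minus => exact absurd rfl hb

/-- the free correlations are below the plane -/
theorem free_le_plane {P : {n : ℕ} → (Fin n → ℤ × ℤ) → ℝ} (hP : PlaneLim P) {T : Finset (ℤ × ℤ)}
    {E : Finset ZB} (hE : E ⊆ freeE T) {n : ℕ} {u : Fin n → ℤ × ℤ} (hu : ∀ i, u i ∈ T) :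
    EX Kc zp zq T E (sp u) ≤ P u := by
  obtain ⟨N, hN⟩ := exists_inBox T
  refine ge_of_tendsto (hP n u) ?_
  filter_upwards [eventually_ge_atTop (2 * N.toNat + 1)] with L hL
  refine free_sub_le_torus Kc_nonneg (N := N) ?_ hN hE hu
  have h1 := Int.self_le_toNat N
  push_cast
  have h2 : ((2 * N.toNat + 1 : ℕ) : ℤ) ≤ (L : ℤ) := by exact_mod_cast hL
  push_cast at h2
  linarith

/-- the plane correlations are below plus -/
theorem plane_le_plus {P : {n : ℕ} → (Fin n → ℤ × ℤ) → ℝ} (hP : PlaneLim P) {T : Finset (ℤ × ℤ)}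
    {n : ℕ} {u : Fin n → ℤ × ℤ} (hu : ∀ i, u i ∈ T) : P u ≤ GB .plus T u := by
  obtain ⟨N, hN⟩ := exists_inBox T
  refine le_of_tendsto (hP n u) ?_
  filter_upwards [eventually_ge_atTop (2 * N.toNat + 1)] with L hL
  refine torus_le_plus Kc_nonneg (N := N) ?_ hN hu
  have h1 := Int.self_le_toNat N
  push_cast
  have h2 : ((2 * N.toNat + 1 : ℕ) : ℤ) ≤ (L : ℤ) := by exact_mod_cast hL
  push_cast at h2
  linarith

end Crest.Agent.R165.U5Px422
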