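import Crest.Agent.R165.UKer_420
import Crest.Agent.R165.Red2_541
import Crest.Agent.R165.U5Props_422

/-!
# Row 165 (S0250), U6-DOM final wiring (helper420)

`SpinLeaf` (block U5) + `KerLeaf` (blocks U3/U4) + `J2Leaf` (block J) imply `UDb` and `UCb` of
`Red2_541` (all domain clauses of the unperturbed model).
-/

set_option autoImplicit false

noncomputable section

open Filter Topology Finset
open Crest.ProbabilityR.IsingModel

namespace Crest.Agent.R165.UFinx420

open Crest.Agent.R165.Gr0x606 Crest.Agent.R165.Enx599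
open Crest.Agent.R165.Topx683 Crest.Agent.R165.Redx541 Crest.Agent.R165.Red2x541
  Crest.Agent.R165.Centx541
open Crest.Agent.R165.Latx683 (BW HE hp hq wDom ray wX IsCov covS formS Fld)
open Crest.Agent.R165.UDomBx420 Crest.Agent.R165.UKerx420

/-- block U5 -/
def SpinLeaf : Prop := ∀ (b : BoundaryCondition) (n : ℕ), 1 ≤ n → Rel b n → U5Px422.SpinOut b n

/-- boundary condition as a Boolean -/
def isF (b : BoundaryCondition) : Bool := decide (b = BoundaryCondition.free)

/-- existence of the covariance for small mesh -/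
def ExCov : Prop :=
  ∀ (b : BoundaryCondition) (n : ℕ), Rel b n → ∀ D : Set ℂ, IsC2JordanDomain D →
    ∀ x : Fin n → ℂ, (∀ i, x i ∈ D) → Function.Injective x →
      ∀ᶠ a in 𝓝[>] (0 : ℝ), ∃ S, IsCov (wD (isF b) D a (fun i => meshIndex a (x i))) S

/-- existence of the kernel limits -/
def KerEx : Prop :=
  ∀ (b : BoundaryCondition) (n : ℕ), Rel b n → ∀ D : Set ℂ, IsC2JordanDomain D →
    ∀ x : Fin n → ℂ, (∀ i, x i ∈ D) → Function.Injective x → ∃ bl rg, KerD (isF b) D x bl rg

/-- covariance of the kernel limits -/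
def KerCv : Prop :=
  ∀ (b : BoundaryCondition) (n : ℕ), Rel b n → ∀ D D' : Set ℂ, IsC2JordanDomain D →
    IsC2JordanDomain D' → ∀ φ : ℂ → ℂ, DifferentiableOn ℂ φ D → Set.BijOn φ D D' →
    ∀ x : Fin n → ℂ, (∀ i, x i ∈ D) → Function.Injective x →
      ∀ bl rg bl' rg', KerD (isF b) D x bl rg → KerD (isF b) D' (fun i => φ (x i)) bl' rg' →
        KerCov D x φ bl bl' rg rg'

/-- bonds as Grassmann bilinears (block J) -/
def J2Leaf : Prop :=
  ∀ (b : BoundaryCondition) (n : ℕ), Rel b n → ∀ D : Set ℂ, IsC2JordanDomain D →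
    ∀ (m : ℕ) (x : Fin n → ℂ) (y : Fin m → ℂ) (j : Fin m → Fin 2), (∀ i, x i ∈ D) →
      (∀ k, y k ∈ D) → Function.Injective (Fin.append x y) →
      ∀ᶠ a in 𝓝[>] (0 : ℝ), (∃ S, IsCov (wD (isF b) D a (fun i => meshIndex a (x i))) S) →
        D0c D a b x y j = D0c D a b x (![] : Fin 0 → ℂ) ![] *
          EE (Cof (wD (isF b) D a (fun i => meshIndex a (x i))))
            (bpr (fun k i => (Finsupp.single (hb (meshIndex a (y k)) (j k) i) 1 : Fld ℤ))
              (fun k => wD (isF b) D a (fun i => meshIndex a (x i)) (meshIndex a (y k)) (j k))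
              (fun _ => e0) (List.finRange m))

theorem inj_split {n m : ℕ} {x : Fin n → ℂ} {y : Fin m → ℂ}
    (h : Function.Injective (Fin.append x y)) :
    Function.Injective x ∧ Function.Injective y ∧ ∀ i k, x i ≠ y k := by
  refine ⟨fun i i' e => ?_, fun k k' e => ?_, fun i k e => ?_⟩
  · have := @h (Fin.castAdd m i) (Fin.castAdd m i') (by rw [Fin.append_left, Fin.append_left, e])
    exact Fin.castAdd_injective n m this
  · have := @h (Fin.natAdd n k) (Fin.natAdd n k') (by rw [Fin.append_right, Fin.append_right, e])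
    exact Fin.natAdd_injective m n this
  · have := @h (Fin.castAdd m i) (Fin.natAdd n k) (by rw [Fin.append_left, Fin.append_right, e])
    have h2 := congrArg Fin.val this
    simp only [Fin.val_castAdd, Fin.val_natAdd] at h2
    have := i.2
    omega

theorem rel_ne_minus {b : BoundaryCondition} {n : ℕ} (h : Rel b n) : b ≠ .minus := by
  rcases h with h | ⟨h, -⟩ <;> rw [h] <;> decide

/-- the spin limit, including `n = 0` -/
theorem spinLim (Sp : SpinLeaf) (b : BoundaryCondition) (n : ℕ) (hR : Rel b n) :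
    ∃ F : Set ℂ → (Fin n → ℂ) → ℝ,
      (∀ D, IsC2JordanDomain D → ∀ x ∈ U5Px422.Conf D n, SpinLim D b x (F D x)) ∧
      ∀ D D', IsC2JordanDomain D → IsC2JordanDomain D' → ∀ φ : ℂ → ℂ,
        DifferentiableOn ℂ φ D → Set.BijOn φ D D' → ∀ x ∈ U5Px422.Conf D n,
          F D x = (∏ i, ‖deriv φ (x i)‖ ^ ((1 : ℝ) / 8)) * F D' (fun i => φ (x i)) := by
  rcases Nat.eq_zero_or_pos n with rfl | hn
  · refine ⟨fun _ _ => 1, fun D hD x _ => ?_, fun _ _ _ _ _ _ _ _ _ => by simp⟩
    unfold SpinLim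
    refine tendsto_const_nhds.congr' ?_
    filter_upwards [self_mem_nhdsWithin] with a ha
    rw [scl_zero_zero, one_mul]
    have := domMom_zero_zero D a b 1 0 0 (fun _ => 0) (criticalBeta 1)
      (domainSites_finite (bounded_of_C2 hD) ha) x (![] : Fin 0 → ℂ) ![] (fun _ => e0)
    exact this.symm
  · obtain ⟨F, h1, h2⟩ := Sp b n hn hR
    exact ⟨F, fun D hD x hx => U5Px422.spinLim_of_SLim (bounded_of_C2 hD) (rel_ne_minus hR) (h1 D hD x hx).2,
      h2⟩

/-- the data for one `(D, b, x, y, j)` -/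
def mkData (hEx : ExCov) (hJ : J2Leaf) {b : BoundaryCondition} {n m : ℕ} (hR : Rel b n)
    {D : Set ℂ} (hD : IsC2JordanDomain D) {x : Fin n → ℂ} {y : Fin m → ℂ} (j : Fin m → Fin 2)
    (hx : ∀ i, x i ∈ D) (hy : ∀ k, y k ∈ D) (hinj : Function.Injective (Fin.append x y))
    {bl : ℂ → ℂ → LinearMap.BilinForm ℝ ℂ} {rg : ℂ → LinearMap.BilinForm ℝ ℂ}
    (K : KerD (isF b) D x bl rg) {F : ℝ} (hF : SpinLim D b x F) :
    DomData D b x y j (asmCov y bl rg
      (fun k l h => K.skew _ _ (hy k) (hy l) (fun e => h ((inj_split hinj).2.1 e)))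
        (fun k => K.alt _ (hy k))) F where
  W := fun _ => Fld ℤ
  grp := fun _ => inferInstance
  vsp := fun _ => inferInstance
  S := fun a => Cof (wD (isF b) D a (fun i => meshIndex a (x i)))
  p := fun a k i => Finsupp.single (hb (meshIndex a (y k)) (j k) i) 1
  w := fun a k => wD (isF b) D a (fun i => meshIndex a (x i)) (meshIndex a (y k)) (j k)
  j2 := by
    have h1 := hEx b n hR D hD x hx (inj_split hinj).1
    have h2 := hJ b n hR D hD m x y j hx hy hinj
    show ∀ᶠ a in 𝓝[>] (0 : ℝ), _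
    filter_upwards [h1, h2] with a h1 h2
    exact h2 h1
  ker := kerLim_of (isOpen_of_C2 hD) K (hEx b n hR D hD x hx (inj_split hinj).1) y j hy
    (inj_split hinj).2.2 (inj_split hinj).2.1
  spin := hF

/-- **the domain limits of the unperturbed model** -/
theorem UDb_of (Sp : SpinLeaf) (hEx : ExCov) (hK : KerEx) (hJ : J2Leaf) : UDb := by
  intro D hD b n m _ hR x y j hx hy hinj
  obtain ⟨F, h1, -⟩ := spinLim Sp b n hR
  obtain ⟨bl, rg, K⟩ := hK b n hR D hD x hx (inj_split hinj).1
  exact ⟨_, (mkData hEx hJ hR hD j hx hy hinj K (h1 D hD x ⟨hx, (inj_split hinj).1⟩)).limit⟩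

/-- **conformal covariance of the unperturbed model** -/
theorem UCb_of (Sp : SpinLeaf) (hEx : ExCov) (hK : KerEx) (hC : KerCv) (hJ : J2Leaf) : UCb := by
  intro D D' hD hD' φ hφ hbij b n m _ hR x y j hx hy hinj
  obtain ⟨F, h1, h2⟩ := spinLim Sp b n hR
  have hx' : ∀ i, φ (x i) ∈ D' := fun i => hbij.mapsTo (hx i)
  have hy' : ∀ k, φ (y k) ∈ D' := fun k => hbij.mapsTo (hy k)
  have hinj' : Function.Injective (Fin.append (fun i => φ (x i)) (fun k => φ (y k))) := by
    have e : (Fin.append (fun i => φ (x i)) (fun k => φ (y k))) = φ ∘ (Fin.append x y) := by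
      funext i
      refine Fin.addCases (fun i => ?_) (fun i => ?_) i <;> simp
    have hmem : ∀ i, Fin.append x y i ∈ D := by
      intro i
      refine Fin.addCases (fun i => ?_) (fun i => ?_) i
      · simpa using hx i
      · simpa using hy i
    rw [e]
    intro i j hij
    exact hinj (hbij.injOn (hmem i) (hmem j) hij)
  obtain ⟨bl, rg, K⟩ := hK b n hR D hD x hx (inj_split hinj).1
  obtain ⟨bl', rg', K'⟩ := hK b n hR D' hD' (fun i => φ (x i)) hx' (inj_split hinj').1
  obtain ⟨r, hr1, hr2, hr3⟩ := hC b n hR D D' hD hD' φ hφ hbij x hx (inj_split hinj).1 bl rg bl' rg'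
    K K'
  have hF1 := h1 D hD x ⟨hx, (inj_split hinj).1⟩
  have hF2 := h1 D' hD' (fun i => φ (x i)) ⟨hx', (inj_split hinj').1⟩
  refine domain_covariance (mkData hEx hJ hR hD j hx hy hinj K hF1)
    (mkData hEx hJ hR hD' j hx' hy' hinj' K' hF2) ⟨fun k => r (y k), ?_, ?_⟩
    (h2 D D' hD hD' φ hφ hbij x ⟨hx, (inj_split hinj).1⟩)
  · exact fun k => hr1 (y k) (hy k) (fun i => (inj_split hinj).2.2 i k)
  · intro k l c d
    show asm y bl rg _ _ = asm (fun k => φ (y k)) bl' rg' _ _
    rw [asm_single, asm_single]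
    by_cases h : k = l
    · subst h
      rw [if_pos rfl, if_pos rfl]
      exact hr3 (y k) (hy k) (fun i => (inj_split hinj).2.2 i k) c d
    · rw [if_neg h, if_neg h]
      exact hr2 (y k) (y l) (hy k) (hy l) (fun e => h ((inj_split hinj).2.1 e))
        (fun i => (inj_split hinj).2.2 i k) (fun i => (inj_split hinj).2.2 i l) c d

end Crest.Agent.R165.UFinx420
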