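import Crest.Agent.R165.BoxRay_432
import Crest.Agent.R165.Scale_900
import Crest.Agent.R165.Spin_930
import Crest.Agent.R165.UFin_420

/-!
# Row 165 (S0250): geometry of the domain backgrounds with insertions (helper900)

* `hl R U` : the smallest box containing the `R`-neighbourhood of `U`
* `isoAv` : on the hull of a set which avoids all insertions, `wX w X` is gauge equivalent to `w`
* `isoOne` : close to one insertion `X i` only this insertion is seen
* `isoDom1`, `isoDom0` : close to an interior point the domain is the plane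
* `dom_ball` : balls of radius `c / a` around an interior point are in the domain
-/

set_option autoImplicit false

noncomputable section

open Filter Topology
open scoped Classical
open Crest.ProbabilityR.IsingModel
open Crest.Agent.R165.Latx683 Crest.Agent.R165.GDefx387 Crest.Agent.R165.BgIsox432
open Crest.Agent.R165.Spinx930 Crest.Agent.R165.Scalex900

namespace Crest.Agent.R165.DomGeox900

/-! ### boxes -/

theorem mem_boxF {a b c d : ℤ} {f : ℤ × ℤ} :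
    f ∈ boxF a b c d ↔ a ≤ f.1 ∧ f.1 ≤ b ∧ c ≤ f.2 ∧ f.2 ≤ d := Iff.rfl

theorem ball_eq_box (x : ℤ × ℤ) (r : ℕ) :
    ball x r = boxF (x.1 - r) (x.1 + r) (x.2 - r) (x.2 + r) := by
  ext f
  rw [mem_ball, fd_int, mem_boxF]
  omega

theorem away_of_notMem {a b c d : ℤ} {x : ℤ × ℤ} (h : x ∉ boxF a b c d) : Away a b c d x := by
  rw [mem_boxF] at h
  unfold Away
  omega

variable {U : Finset (ℤ × ℤ)}

/-- left end of `U` -/
def lo1 (hU : U.Nonempty) : ℤ := U.inf' hU Prod.fst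
/-- right end of `U` -/
def hi1 (hU : U.Nonempty) : ℤ := U.sup' hU Prod.fst
/-- lower end of `U` -/
def lo2 (hU : U.Nonempty) : ℤ := U.inf' hU Prod.snd
/-- upper end of `U` -/
def hi2 (hU : U.Nonempty) : ℤ := U.sup' hU Prod.snd

/-- the smallest box containing the `R`-neighbourhood of `U` -/
def hl (R : ℕ) (hU : U.Nonempty) : Set (ℤ × ℤ) :=
  boxF (lo1 hU - R) (hi1 hU + R) (lo2 hU - R) (hi2 hU + R)

theorem nbhd_subset_hl (R : ℕ) (hU : U.Nonempty) : nbhd R U ⊆ hl R hU := by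
  rintro f ⟨u, hu, hf⟩
  rw [fd_int] at hf
  have h1 : lo1 hU ≤ u.1 := Finset.inf'_le _ hu
  have h2 : u.1 ≤ hi1 hU := Finset.le_sup' _ hu
  have h3 : lo2 hU ≤ u.2 := Finset.inf'_le _ hu
  have h4 : u.2 ≤ hi2 hU := Finset.le_sup' _ hu
  unfold hl
  rw [mem_boxF]
  omega

theorem coord_le {u v : ℤ × ℤ} {s : ℕ} (h : fd u v ≤ s) :
    u.1 - s ≤ v.1 ∧ v.1 ≤ u.1 + s ∧ u.2 - s ≤ v.2 ∧ v.2 ≤ u.2 + s := by
  rw [fd_int] at h
  omega

theorem hl_subset_ball {R s : ℕ} (hU : U.Nonempty) {u : ℤ × ℤ} (h : ∀ v ∈ U, fd u v ≤ s) :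
    hl R hU ⊆ ball u (s + R) := by
  intro f hf
  unfold hl at hf
  rw [mem_boxF] at hf
  have g1 : u.1 - s ≤ lo1 hU := Finset.le_inf' _ _ fun v hv => (coord_le (h v hv)).1
  have g2 : hi1 hU ≤ u.1 + s := Finset.sup'_le _ _ fun v hv => (coord_le (h v hv)).2.1
  have g3 : u.2 - s ≤ lo2 hU := Finset.le_inf' _ _ fun v hv => (coord_le (h v hv)).2.2.1
  have g4 : hi2 hU ≤ u.2 + s := Finset.sup'_le _ _ fun v hv => (coord_le (h v hv)).2.2.2
  obtain ⟨f1, f2, f3, f4⟩ := hf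
  rw [ball_eq_box, mem_boxF]
  push_cast
  refine ⟨?_, ?_, ?_, ?_⟩ <;> linarith

/-- an avoided point is not in the hull -/
theorem notMem_hl {R : ℕ} {x : ℤ × ℤ} (hU : U.Nonempty) (h : Avoids fd R x U) : x ∉ hl R hU := by
  obtain ⟨u, -, s, hs, hx⟩ := h
  intro hmem
  have := hl_subset_ball hU hs hmem
  rw [mem_ball] at this
  omega

/-! ### insertions -/

/-- **far from the insertions** the background `wX w X` is gauge equivalent to `w` -/
def isoAv {n : ℕ} (w : BW ℤ) (X : Fin n → ℤ × ℤ) {R : ℕ} (hU : U.Nonempty)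
    (h : ∀ i, Avoids fd R (X i) U) : BgIso (wX w X) w (hl R hU) :=
  rayIso0 w X fun i => away_of_notMem (notMem_hl hU (h i))

@[simp] theorem isoAv_τ {n : ℕ} (w : BW ℤ) (X : Fin n → ℤ × ℤ) {R : ℕ} (hU : U.Nonempty)
    (h : ∀ i, Avoids fd R (X i) U) (f : ℤ × ℤ) : (isoAv w X hU h).τ f = f := rfl

/-- **close to one insertion** only this insertion is seen -/
def isoOne {n : ℕ} (w : BW ℤ) (X : Fin n → ℤ × ℤ) (i : Fin n) (r : ℕ)
    (h : ∀ j, j ≠ i → r < fd (X i) (X j)) : BgIso (wX w X) (wX w ![X i]) (ball (X i) r) :=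
  (rayIso1 (a := (X i).1 - r) (b := (X i).1 + r) (c := (X i).2 - r) (d := (X i).2 + r) w X i
    fun j hj => away_of_notMem (by
      rw [← ball_eq_box, mem_ball, not_le]
      exact h j hj)).mono (by rw [ball_eq_box])

@[simp] theorem isoOne_τ {n : ℕ} (w : BW ℤ) (X : Fin n → ℤ × ℤ) (i : Fin n) (r : ℕ)
    (h : ∀ j, j ≠ i → r < fd (X i) (X j)) (f : ℤ × ℤ) : (isoOne w X i r h).τ f = f := rfl

/-- inside the domain the background with insertions is the plane background with insertions -/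
def isoDomX {T : Set (ℤ × ℤ)} (fr : Bool) {n : ℕ} (X : Fin n → ℤ × ℤ) {Z : Set (ℤ × ℤ)}
    (hZ : ∀ f ∈ Z, cornersIn T f) : BgIso (wX (wDom T fr) X) (wX (wPl ℤ) X) Z :=
  sameIso
    (fun f hf hf' => by
      have h1 := (critOn_dom hZ fr).1 f hf hf'
      have h1' : wDom T fr (f.1 + 1, f.2) 1 = xc := h1
      simp only [yE, wX, wPl, h1'])
    (fun f hf hf' => by
      have h1 := (critOn_dom hZ fr).2 f hf hf'
      have h1' : wDom T fr (f.1, f.2 + 1) 0 = xc := h1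
      simp only [yN, wX, wPl, h1'])

@[simp] theorem isoDomX_τ {T : Set (ℤ × ℤ)} (fr : Bool) {n : ℕ} (X : Fin n → ℤ × ℤ)
    {Z : Set (ℤ × ℤ)} (hZ : ∀ f ∈ Z, cornersIn T f) (f : ℤ × ℤ) : (isoDomX fr X hZ).τ f = f := rfl

/-- inside the domain: the background of the domain with the insertions `X` near `X i` is the plane
with one insertion -/
def isoDom1 {T : Set (ℤ × ℤ)} (fr : Bool) {n : ℕ} (X : Fin n → ℤ × ℤ) (i : Fin n) (r : ℕ)
    (h : ∀ j, j ≠ i → r < fd (X i) (X j)) (hZ : ∀ f ∈ ball (X i) r, cornersIn T f) :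
    BgIso (wX (wDom T fr) X) (wX (wPl ℤ) ![X i]) (ball (X i) r) :=
  (isoOne (wDom T fr) X i r h).trans (isoDomX fr ![X i] hZ) fun _ hf => hf

@[simp] theorem isoDom1_τ {T : Set (ℤ × ℤ)} (fr : Bool) {n : ℕ} (X : Fin n → ℤ × ℤ) (i : Fin n)
    (r : ℕ) (h : ∀ j, j ≠ i → r < fd (X i) (X j)) (hZ : ∀ f ∈ ball (X i) r, cornersIn T f)
    (f : ℤ × ℤ) : (isoDom1 fr X i r h hZ).τ f = f := rfl

/-- inside the domain without insertions -/
def isoDom0 {T : Set (ℤ × ℤ)} (fr : Bool) {Z : Set (ℤ × ℤ)} (hZ : ∀ f ∈ Z, cornersIn T f) :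
    BgIso (wDom T fr) (wPl ℤ) Z := critIso (critOn_dom hZ fr)

@[simp] theorem isoDom0_τ {T : Set (ℤ × ℤ)} (fr : Bool) {Z : Set (ℤ × ℤ)}
    (hZ : ∀ f ∈ Z, cornersIn T f) (f : ℤ × ℤ) : (isoDom0 fr hZ).τ f = f := rfl

/-! ### neighbourhoods of sets in a ball -/

theorem nbhd_subset_ball {x : ℤ × ℤ} {ρ R : ℕ} (h : ∀ u ∈ U, fd x u ≤ ρ) :
    nbhd R U ⊆ ball x (ρ + R) := by
  rintro f ⟨u, hu, hf⟩
  have h1 := h u hu
  have h2 := fd_triangle x u f
  rw [mem_ball]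
  omega

/-! ### domains as `a → 0+` -/

theorem meshPoint_dist {a : ℝ} (ha : 0 < a) (x : ℂ) (z : ℤ × ℤ) {r : ℝ}
    (h : (fd (meshIndex a x) z : ℝ) ≤ r) : ‖meshPoint a z - x‖ ≤ 2 * a * (r + 1) := by
  rw [fd_int] at h
  have h1 : (((meshIndex a x).1 - z.1).natAbs : ℝ) ≤ r :=
    le_trans (by exact_mod_cast le_max_left _ _) h
  have h2 : (((meshIndex a x).2 - z.2).natAbs : ℝ) ≤ r :=
    le_trans (by exact_mod_cast le_max_right _ _) h
  have key : ∀ (t : ℝ) (m : ℤ), (((⌊t / a⌋ - m).natAbs : ℕ) : ℝ) ≤ r → |a * m - t| ≤ a * (r + 1) := by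
    intro t m hm
    have e1 : (((⌊t / a⌋ - m).natAbs : ℕ) : ℝ) = |(⌊t / a⌋ : ℝ) - (m : ℝ)| := by
      rw [Nat.cast_natAbs, Int.cast_abs, Int.cast_sub]
    rw [e1] at hm
    have h3 := Int.floor_le (t / a)
    have h4 := Int.lt_floor_add_one (t / a)
    have h5 : |(m : ℝ) - t / a| ≤ r + 1 := by
      rw [abs_le] at hm ⊢
      constructor <;> linarith [hm.1, hm.2]
    have h6 : a * m - t = a * ((m : ℝ) - t / a) := by field_simp
    rw [h6, abs_mul, abs_of_pos ha]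
    exact mul_le_mul_of_nonneg_left h5 ha.le
  have k1 := key x.re z.1 h1
  have k2 := key x.im z.2 h2
  have e3 : meshPoint a z - x = ⟨a * z.1 - x.re, a * z.2 - x.im⟩ := by
    apply Complex.ext <;> simp [meshPoint]
  rw [e3]
  refine (Complex.norm_le_abs_re_add_abs_im _).trans ?_
  simp only
  linarith

/-- balls of radius `c / a` around an interior point lie in the domain -/
theorem dom_ball {D : Set ℂ} (hD : IsOpen D) {x : ℂ} (hx : x ∈ D) :
    ∃ c > 0, ∀ᶠ a : ℝ in 𝓝[>] 0, ∀ f : ℤ × ℤ, (fd (meshIndex a x) f : ℝ) ≤ c / a →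
      cornersIn (domainSites D a) f := by
  obtain ⟨ε, hε, hball⟩ := Metric.isOpen_iff.1 hD x hx
  refine ⟨ε / 8, by positivity, ?_⟩
  have hsmall : ∀ᶠ a : ℝ in 𝓝[>] 0, a < ε / 8 :=
    mem_of_superset (Ioo_mem_nhdsGT (by positivity : (0:ℝ) < ε / 8)) fun a ha => ha.2
  filter_upwards [hsmall, self_mem_nhdsWithin] with a ha1 ha0 f hf
  have ha : (0 : ℝ) < a := ha0
  have key : ∀ z : ℤ × ℤ, fd f z ≤ 1 → z ∈ domainSites D a := by
    intro z hz
    have h1 : (fd (meshIndex a x) z : ℝ) ≤ ε / 8 / a + 1 := by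
      have h2 : (fd (meshIndex a x) z : ℝ) ≤ (fd (meshIndex a x) f : ℝ) + (fd f z : ℝ) := by
        exact_mod_cast fd_triangle _ _ _
      have h3 : (fd f z : ℝ) ≤ 1 := by exact_mod_cast hz
      linarith
    have h2 := meshPoint_dist ha x z h1
    have h3 : 2 * a * (ε / 8 / a + 1 + 1) = ε / 4 + 4 * a := by field_simp; ring
    show meshPoint a z ∈ D
    apply hball
    rw [Metric.mem_ball, dist_eq_norm]
    linarith
  have h1 : ∀ (p q : ℤ), p.natAbs ≤ 1 → q.natAbs ≤ 1 → fd f (f.1 + p, f.2 + q) ≤ 1 := by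
    intro p q hp hq
    rw [fd_int]
    simp only
    omega
  refine ⟨key f (by rw [fd_self]; omega), key _ ?_, key _ ?_, key _ ?_⟩
  · simpa using h1 1 0 (by simp) (by simp)
  · simpa using h1 0 1 (by simp) (by simp)
  · exact h1 1 1 (by simp) (by simp)

/-- all interior points and separations at once -/
theorem geo_all {D : Set ℂ} (hD : IsOpen D) {n : ℕ} {x : Fin n → ℂ} (hx : ∀ i, x i ∈ D)
    (hinj : Function.Injective x) :
    ∃ c > 0, ∀ᶠ a : ℝ in 𝓝[>] 0,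
      (∀ i j, i ≠ j → c / a ≤ (fd (meshIndex a (x i)) (meshIndex a (x j)) : ℝ)) ∧
      ∀ i (f : ℤ × ℤ), (fd (meshIndex a (x i)) f : ℝ) ≤ c / a → cornersIn (domainSites D a) f := by
  obtain ⟨c₀, hc₀, h₀⟩ := fd_mesh hinj
  choose c hc h using fun i => dom_ball hD (hx i)
  obtain ⟨m, hm, hmle⟩ : ∃ m > 0, ∀ i, m ≤ c i := by
    rcases isEmpty_or_nonempty (Fin n) with he | hne
    · exact ⟨1, one_pos, fun i => he.elim i⟩
    · obtain ⟨i0, -, hi0⟩ := Finset.exists_min_image Finset.univ c Finset.univ_nonempty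
      exact ⟨c i0, hc i0, fun i => hi0 i (Finset.mem_univ _)⟩
  refine ⟨min c₀ m, lt_min hc₀ hm, ?_⟩
  have h1 : ∀ᶠ a : ℝ in 𝓝[>] 0, ∀ i, ∀ f : ℤ × ℤ, (fd (meshIndex a (x i)) f : ℝ) ≤ c i / a →
      cornersIn (domainSites D a) f := Filter.eventually_all.2 h
  filter_upwards [h₀, h1, self_mem_nhdsWithin] with a ha0 ha1 ha
  have ha' : (0 : ℝ) < a := ha
  refine ⟨fun i j hij => ?_, fun i f hf => ?_⟩
  · refine le_trans ?_ (ha0 i j hij)
    gcongr
    exact min_le_left _ _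
  · refine ha1 i f (hf.trans ?_)
    gcongr
    exact (min_le_right _ _).trans (hmle i)

/-- radius `⌊c / (m a)⌋` -/
def rad (c : ℝ) (m : ℕ) (a : ℝ) : ℕ := ⌊c / (m * a)⌋₊

theorem rad_le {c : ℝ} (hc : 0 < c) {m : ℕ} (hm : 0 < m) {a : ℝ} (ha : 0 < a) :
    ((m * rad c m a : ℕ) : ℝ) ≤ c / a := by
  have hm' : (0 : ℝ) < m := by exact_mod_cast hm
  have h1 : (rad c m a : ℝ) ≤ c / (m * a) := Nat.floor_le (by positivity)
  push_cast
  calc (m : ℝ) * rad c m a ≤ m * (c / (m * a)) := by gcongr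
    _ = c / a := by field_simp

theorem rad_tendsto {c : ℝ} (hc : 0 < c) {m : ℕ} (hm : 0 < m) :
    Tendsto (rad c m) (𝓝[>] (0 : ℝ)) atTop := by
  have hm' : (0 : ℝ) < m := by exact_mod_cast hm
  have h1 : Tendsto (fun a : ℝ => c / m / a) (𝓝[>] 0) atTop :=
    Tendsto.const_mul_atTop (by positivity) tendsto_inv_nhdsGT_zero
  refine (tendsto_nat_floor_atTop.comp h1).congr fun a => ?_
  simp only [rad, Function.comp_apply, div_div]

/-- the scales below `lastK p k0 (c / (m a))` see at most the radius `rad c m a` -/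
theorem scale_le_rad {p k0 k : ℕ} {c : ℝ} {m : ℕ} {a : ℝ}
    (h0 : (2 : ℝ) ^ (p * k0) ≤ c / (m * a)) (hk : k ≤ lastK p k0 (c / (m * a))) :
    2 ^ (p * (k0 + k)) ≤ rad c m a := by
  refine Nat.le_floor ?_
  have h1 := lastK_le h0
  refine le_trans ?_ h1
  push_cast
  exact pow_le_pow_right₀ (by norm_num) (Nat.mul_le_mul_left _ (by omega))

end Crest.Agent.R165.DomGeox900
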