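import Crest.Agent.R165.J4Lnk3_653

/-!
# Row 165 (S0250), block J4: the link with the initial activities (helper653)

* `bk`      : background data `Bk` from `(w : BW G, s, ok, R, t)` and bond sources `(v k, c k, as k)`
* `PL_tor`  : on the torus `PL B univ = GTor`
* `RescH`   : the rescaling identity (Resc_599) as a hypothesis
* `dom_final` : `domMom * EEG C0 (ZZ (=) Λ K0⁰) = D0c(σ_X) * EEG CX (coP univ (ZZ (=) Λ K0^{X,src}))`
-/

set_option autoImplicit false

noncomputable section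

open Finset
open Crest.ProbabilityR.IsingModel

namespace Crest.Agent.R165.J4Lnkx653

open Crest.Agent.R165.J4Defx653 Crest.Agent.R165.J4RRx653 Crest.Agent.R165.J4RRAx653
  Crest.Agent.R165.J4Pathx653
open Crest.Agent.R165.Gr0x606 Crest.Agent.R165.Gr1x606 Crest.Agent.R165.J1ax606
open Crest.Agent.R165.GeOpsx337 Crest.Agent.R165.SrcDefx991
open Crest.Agent.R165.J4K0x126 Crest.Agent.R165.J4Geox126
open Crest.Agent.R165.KStepx892 (ZZ)
open Crest.Agent.R165.Latx683 (xc wDom wX ray BW Fld)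
open Crest.Agent.R165.Centx541 (obs domMom)
open Crest.Agent.R165.Redx541 (D0c e0)
open Crest.Agent.R165.UKerx420 (wD)
open Crest.Agent.R165.UFinx420 (isF)

/-! ### background data -/

section bk

variable {G : Type} [CommRing G] [DecidableEq G]

/-- the source polynomial of one bond -/
def fsr (e : EG G) (c : ℝ) : RR (EG G) :=
  ep (Finsupp.single e 1) - algebraMap ℝ (RR (EG G)) c

theorem fsr_mem {e : EG G} {U : Set (EG G)} (he : e ∈ U) (c : ℝ) : fsr e c ∈ RIn U := by
  refine Subalgebra.sub_mem _ (ep_mem_RIn ?_) (Subalgebra.algebraMap_mem _ _)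
  intro e' he'
  have := Finsupp.support_single_subset (Finset.mem_coe.1 he')
  rw [Finset.mem_singleton] at this
  rw [this]; exact he

/-- background data with sources on bonds -/
def bk {κ A : Type*} [CommRing A] [Algebra ℝ A] (w : BW G) (s : G × G → ℝ)
    (ok : G × G → Finset (ℤ × ℤ) → Prop) (R : ℕ) (t : Finset (ℤ × ℤ) → ℝ)
    (v : κ → EG G) (c : κ → ℝ) (as : κ → A) : Bk G κ A where
  y e := w e.1 e.2
  s := s
  ok := ok
  t := t
  R := R
  Ys k := faE (v k)
  as := as
  Fs k := fsr (v k) (c k)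
  Fs_mem k := fsr_mem (fun _ h => h) _

theorem obR_eq {m : ℕ} (v : Fin m → EG G) (c : Fin m → ℝ) :
    obR v c = ∏ k, fsr (v k) (c k) := rfl

theorem srcs_univ {m : ℕ} {A : Type*} [CommRing A] [Algebra ℝ A] (w : BW G) (s : G × G → ℝ)
    (ok : G × G → Finset (ℤ × ℤ) → Prop) (R : ℕ) (t : Finset (ℤ × ℤ) → ℝ)
    (v : Fin m → EG G) (c : Fin m → ℝ) (as : Fin m → A) (Λ : Finset (G × G))
    (hv : ∀ k, faE (v k) ⊆ Λ) : (bk w s ok R t v c as).srcs Λ = univ := by
  unfold Bk.srcs
  rw [Finset.filter_true_of_mem]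
  intro k _
  exact ⟨faE_nonempty _, hv k⟩

end bk

/-! ### the torus -/

theorem ez_eq_torEd (L : ℕ) (u : ZMod L × ZMod L) : (ez u : Ed → EG (ZMod L)) = torEd L u := rfl

open Classical in
theorem PL_tor {L : ℕ} [NeZero L] {κ : Type*} {A : Type*} [CommRing A] [Algebra ℝ A]
    (B : Bk (ZMod L) κ A) (hok : ∀ u S, B.ok u S) (hev : ∀ S, B.t S ≠ 0 → Even S.card) :
    PL B (univ : Finset (ZMod L × ZMod L)) = GTor L B.R B.t := by
  rw [GTor, PL, Finset.prod_sigma']
  symm
  refine Finset.prod_bij_ne_one (fun p _ _ => (p.1, p.2)) ?_ ?_ ?_ ?_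
  · rintro ⟨u, S⟩ h hne
    simp only [mem_sigma, mem_univ, true_and] at h
    rw [Bk.mem_shp]
    refine ⟨⟨⟨h, ?_⟩, hok u S⟩, Finset.subset_univ _⟩
    by_contra hodd
    apply hne
    dsimp only
    have : B.t S = 0 := by
      by_contra h0
      exact hodd (hev S h0)
    rw [this, kB_zero, map_zero, add_zero]
  · rintro ⟨u, S⟩ _ _ ⟨u', S'⟩ _ _ heq
    simp only [Prod.mk.injEq] at heq
    obtain ⟨rfl, rfl⟩ := heq
    rfl
  · rintro ⟨u, S⟩ h _
    rw [Bk.mem_shp] at h
    refine ⟨⟨u, S⟩, ?_, ?_, rfl⟩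
    · simp only [mem_sigma, mem_univ, true_and]
      exact h.1.1.1
    · assumption
  · rintro ⟨u, S⟩ _ _
    rfl

/-! ### rescaling as a hypothesis -/

/-- the rescaling identity for the background `w`, constant `cs` -/
def RescH {G : Type} [CommRing G] [DecidableEq G] (C : Cov (Fld G)) (w : BW G) (s : G × G → ℝ)
    (Λ : Finset (G × G)) (cs : ℝ) : Prop :=
  ∀ F : RR (EG G), EG' C (TH (gs (fun e => w e.1 e.2) s) F * Ms (fun e => w e.1 e.2) s Λ) =
    cs * EG' C (TH (gw w) F)

/-- no rescaling -/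
theorem rescH_one {G : Type} [CommRing G] [DecidableEq G] (C : Cov (Fld G)) (w : BW G)
    (Λ : Finset (G × G)) : RescH C w (fun _ => 1) Λ 1 := by
  intro F
  have h1 : Ms (fun e : EG G => w e.1 e.2) (fun _ => 1) Λ = 1 := by
    unfold Ms
    rw [Finset.prod_eq_one, Finset.prod_eq_one, one_mul]
    · intro e _; simp
    · intro f _; simp
  have h2 : gs (fun e : EG G => w e.1 e.2) (fun _ => 1) = gw w := by
    funext e
    unfold gs gw
    rw [mul_one, mul_one]
  rw [h1, h2, mul_one, one_mul]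

/-! ### domains -/

/-- allowed shapes of a domain -/
def okD (T : Finset (ℤ × ℤ)) (b : BoundaryCondition) (R : ℕ) (u : ℤ × ℤ)
    (S : Finset (ℤ × ℤ)) : Prop := tr S u ∈ BB T b R

/-- **the link between the perturbed domain moments and the initial activities** (plus, free) -/
theorem dom_final (D : Set ℂ) (a : ℝ) (b : BoundaryCondition) (hb : b ≠ BoundaryCondition.minus)
    (hfin : (domainSites D a).Finite) {J : ℝ} (hJ : J ≠ 0) (lam β : ℝ) (R : ℕ)
    (V : Finset (ℤ × ℤ) → ℝ) (hV : TrInv V) (hr : Rng R V) (hev : ∀ A, V A ≠ 0 → Even A.card)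
    {n m : ℕ} (xs : Fin n → ℂ) (ys : Fin m → ℂ) (js : Fin m → Fin 2) (c : Fin m → ℝ)
    (CX C0 : Cov (Fld ℤ))
    (hX : J2On hfin.toFinset (wD (isF b) D a (fun i => meshIndex a (xs i))) CX
      (obR (fun k => (meshIndex a (ys k), js k)) c *
        GT hfin.toFinset b (max R 1) (tpot J lam β V)))
    (h0 : J2On hfin.toFinset (wDom (domainSites D a) (isF b)) C0
      (GT hfin.toFinset b (max R 1) (tpot J lam β V)))
    (s : ℤ × ℤ → ℝ) (Λ : Finset (ℤ × ℤ)) (hΛ : ∀ S ∈ BB hfin.toFinset b (max R 1), Yf S ⊆ Λ)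
    (hΛs : ∀ k, faE ((meshIndex a (ys k), js k) : EG ℤ) ⊆ Λ) (cs : ℝ)
    (hsX : RescH CX (wD (isF b) D a (fun i => meshIndex a (xs i))) s Λ cs)
    (hs0 : RescH C0 (wDom (domainSites D a) (isF b)) s Λ cs) :
    domMom D a b J lam R V β xs ys js c *
        EEG C0 (ZZ (fun f g : ℤ × ℤ => f = g) Λ
          ((bk (κ := Fin 0) (A := Ge (Fld ℤ)) (wDom (domainSites D a) (isF b)) s
            (okD hfin.toFinset b (max R 1)) (max R 1) (tpot J lam β V) ![] ![] ![]).K0 (frV ℤ))) =
      D0c D a b xs (![] : Fin 0 → ℂ) ![] *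
        EEG CX (coP univ (ZZ (fun f g : ℤ × ℤ => f = g) Λ
          ((bk (κ := Fin m) (A := Ge (VS (Fld ℤ) m))
            (wD (isF b) D a (fun i => meshIndex a (xs i))) s
            (okD hfin.toFinset b (max R 1)) (max R 1) (tpot J lam β V)
            (fun k => (meshIndex a (ys k), js k)) c tau).K0 (frS ℤ m)))) := by
  have h1 := domMom_link D a b hb hfin hJ lam β R V hV hr hev xs ys js c CX C0 hX h0
  have hP0 := PL_dom (bk (κ := Fin 0) (A := Ge (Fld ℤ)) (wDom (domainSites D a) (isF b)) s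
            (okD hfin.toFinset b (max R 1)) (max R 1) (tpot J lam β V) ![] ![] ![])
    hfin.toFinset b (fun _ _ => Iff.rfl) hV.tpot (tpot_rng hr) (tpot_even hev) Λ hΛ
  have hPX := PL_dom (bk (κ := Fin m) (A := Ge (VS (Fld ℤ) m))
            (wD (isF b) D a (fun i => meshIndex a (xs i))) s
            (okD hfin.toFinset b (max R 1)) (max R 1) (tpot J lam β V)
            (fun k => (meshIndex a (ys k), js k)) c tau)
    hfin.toFinset b (fun _ _ => Iff.rfl) hV.tpot (tpot_rng hr) (tpot_even hev) Λ hΛ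
  have hc := K0_coP (bk (κ := Fin m) (A := Ge (VS (Fld ℤ) m))
            (wD (isF b) D a (fun i => meshIndex a (xs i))) s
            (okD hfin.toFinset b (max R 1)) (max R 1) (tpot J lam β V)
            (fun k => (meshIndex a (ys k), js k)) c tau) rfl Λ univ
            (srcs_univ _ _ _ _ _ _ _ _ Λ hΛs).ge
  rw [hPX] at hc
  rw [K0_plain, hP0]
  have e0 : EEG C0 (TH (gs (fun e => wDom (domainSites D a) (isF b) e.1 e.2) s)
      (GT hfin.toFinset b (max R 1) (tpot J lam β V)) *
      Ms (fun e => wDom (domainSites D a) (isF b) e.1 e.2) s Λ) =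
      cs * EG' C0 (TH (gw (wDom (domainSites D a) (isF b)))
          (GT hfin.toFinset b (max R 1) (tpot J lam β V))) := hs0 _
  have eX : EEG CX (TH (gs (fun e => wD (isF b) D a (fun i => meshIndex a (xs i)) e.1 e.2) s)
      (GT hfin.toFinset b (max R 1) (tpot J lam β V) *
        ∏ k, fsr ((meshIndex a (ys k), js k) : EG ℤ) (c k)) *
      Ms (fun e => wD (isF b) D a (fun i => meshIndex a (xs i)) e.1 e.2) s Λ) =
      cs * EG' CX (TH (gw (wD (isF b) D a (fun i => meshIndex a (xs i))))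
          (obR (fun k => (meshIndex a (ys k), js k)) c *
            GT hfin.toFinset b (max R 1) (tpot J lam β V))) := by
    rw [obR_eq, mul_comm (∏ k, fsr ((meshIndex a (ys k), js k) : EG ℤ) (c k))]
    exact hsX _
  have e2 : ∀ x y z u : ℝ, x * y = z * u → x * (cs * y) = z * (cs * u) := by
    intro x y z u h
    calc x * (cs * y) = cs * (x * y) := by ring
      _ = cs * (z * u) := by rw [h]
      _ = z * (cs * u) := by ring
  refine Eq.trans (congrArg _ e0) (Eq.trans ?_ (congrArg _ (congrArg (EEG CX) hc)).symm)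
  refine Eq.trans ?_ (congrArg _ eX).symm
  exact e2 _ _ _ _ h1

end Crest.Agent.R165.J4Lnkx653
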