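import Crest.Agent.R165.CmpBg_432
import Crest.Agent.R165.J4K0Map_126
import Crest.Agent.R165.J4Lnk4_653
import Crest.Agent.R165.KInit_892
import Crest.Agent.R165.DomGeo_900

/-!
# Row 165 (S0250): the initial activities correspond under isomorphisms of backgrounds (helper900)

The hypothesis `hK0` of `CmpBg_432` for the activities of helper126 (`J4K0_126`), background data
`bk` and frames `frV`, `frS` of `J4Lnk_653`, reclustered (`K1` of `KInit_892`).

* `steps_of` : a `BgIso` respects the unit steps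
* `chart0_of` : the hypotheses `Chart0` of `J4K0Map_126`, any frames, any sources
* `K0_iso` : `mpG b.push (K0 U) = K0' (U.image b.τ)` without sources
* `K1_iso` : the same for the reclustered activities
* `okD_iff`, `sD` : domain data
-/

set_option autoImplicit false
set_option linter.unusedSectionVars false

noncomputable section

open Crest.ProbabilityR.IsingModel
open Crest.Agent.R165.Gr0x606 Crest.Agent.R165.Gr1x606 Crest.Agent.R165.Latx683
open Crest.Agent.R165.GDefx387 Crest.Agent.R165.GeOpsx337 Crest.Agent.R165.BgIsox432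
open Crest.Agent.R165.J4K0x126 Crest.Agent.R165.J4K0Mapx126 Crest.Agent.R165.J4Geox126
open Crest.Agent.R165.J4Lnkx653 Crest.Agent.R165.J4Defx653 Crest.Agent.R165.J4RRx653
open Crest.Agent.R165.KInitx892 Crest.Agent.R165.KMapx892
open Crest.Agent.R165.J1ax606 (EG pe qe pe_zero pe_one qe_zero qe_one)

namespace Crest.Agent.R165.K0Isox900

variable {G G' : Type} [CommRing G] [CN G] [DecidableEq G] [CommRing G'] [CN G'] [DecidableEq G']
  {w : BW G} {w' : BW G'} {Z : Set (G × G)}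

theorem add_e1 {H : Type*} [CommRing H] (f : H × H) : f + (1, 0) = (f.1 + 1, f.2) := by
  ext <;> simp

theorem add_e2 {H : Type*} [CommRing H] (f : H × H) : f + (0, 1) = (f.1, f.2 + 1) := by
  ext <;> simp

/-- a `BgIso` respects and reflects the unit steps -/
theorem steps_of (b : BgIso w w' Z) {U : Finset (G × G)} (hU : ∀ f ∈ U, ball f 1 ⊆ Z) :
    Steps b.τ U := by
  have hm : ∀ f ∈ U, f ∈ Z := fun f hf => hU f hf (mem_ball_self f 1)
  refine ⟨fun f hf g hg h => b.injOn (hm f hf) (hm g hg) h, ?_, ?_, ?_, ?_⟩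
  · intro f hf hf'
    rw [add_e1] at hf' ⊢
    rw [add_e1, b.e1 f (hm f hf) (hm _ hf')]
  · intro f hf hf'
    rw [add_e2] at hf' ⊢
    rw [add_e2, b.e2 f (hm f hf) (hm _ hf')]
  · intro f hf h
    obtain ⟨g, hg, hgf⟩ := Finset.mem_image.1 h
    have h1 : f + (1, 0) ∈ Z := by
      rw [add_e1]; exact hU f hf (mem_ball1_add1 f)
    have h2 : b.τ (f + (1, 0)) = b.τ f + (1, 0) := by
      rw [add_e1] at h1 ⊢
      rw [add_e1, b.e1 f (hm f hf) h1]
    rw [← b.injOn (hm g hg) h1 (hgf.trans h2.symm)]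
    exact hg
  · intro f hf h
    obtain ⟨g, hg, hgf⟩ := Finset.mem_image.1 h
    have h1 : f + (0, 1) ∈ Z := by
      rw [add_e2]; exact hU f hf (mem_ball1_add2 f)
    have h2 : b.τ (f + (0, 1)) = b.τ f + (0, 1) := by
      rw [add_e2] at h1 ⊢
      rw [add_e2, b.e2 f (hm f hf) h1]
    rw [← b.injOn (hm g hg) h1 (hgf.trans h2.symm)]
    exact hg

/-- the bond weights correspond -/
theorem y_of (b : BgIso w w' Z) {U : Finset (G × G)} (hU : ∀ f ∈ U, ball f 1 ⊆ Z) {e : EG G}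
    (he : faE e ⊆ U) :
    w e.1 e.2 * (b.s (pe e).1 * b.s (qe e).1) = w' (ebm b.τ e).1 (ebm b.τ e).2 := by
  have hm : ∀ f ∈ U, f ∈ Z := fun f hf => hU f hf (mem_ball_self f 1)
  have hS := steps_of b hU
  obtain ⟨z, j⟩ := e
  rcases fin2 j with rfl | rfl
  · rw [faE_zero, Finset.insert_subset_iff, Finset.singleton_subset_iff] at he
    rw [pe_zero, qe_zero]
    dsimp only [ebm]
    have h0 : z - (0, 1) + (0, 1) = z := sub_add_cancel _ _
    have h1 : ((z - (0, 1)).1, (z - (0, 1)).2 + 1) = z := by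
      rw [← add_e2]; exact h0
    have h2 := b.wN (z - (0, 1)) (hm _ he.2) (by rw [h1]; exact hm _ he.1)
    have h3 : b.τ z = ((b.τ (z - (0, 1))).1, (b.τ (z - (0, 1))).2 + 1) := by
      have h4 := hS.e2 (z - (0, 1)) he.2 (by rw [h0]; exact he.1)
      rw [h0, add_e2] at h4
      exact h4
    unfold yN at h2
    rw [h1, ← h3] at h2
    rw [h2]
    have s1 := b.sq z
    have s2 := b.sq (z - (0, 1))
    calc _ = (b.s z * b.s z) * (b.s (z - (0, 1)) * b.s (z - (0, 1))) * w' (b.τ z) 0 := by ring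
      _ = _ := by rw [s1, s2, one_mul, one_mul]
  · rw [faE_one, Finset.insert_subset_iff, Finset.singleton_subset_iff] at he
    rw [pe_one, qe_one]
    dsimp only [ebm]
    have h0 : z - (1, 0) + (1, 0) = z := sub_add_cancel _ _
    have h1 : ((z - (1, 0)).1 + 1, (z - (1, 0)).2) = z := by
      rw [← add_e1]; exact h0
    have h2 := b.wE (z - (1, 0)) (hm _ he.1) (by rw [h1]; exact hm _ he.2)
    have h3 : b.τ z = ((b.τ (z - (1, 0))).1 + 1, (b.τ (z - (1, 0))).2) := by
      have h4 := hS.e1 (z - (1, 0)) he.1 (by rw [h0]; exact he.2)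
      rw [h0, add_e1] at h4
      exact h4
    unfold yE at h2
    rw [h1, ← h3] at h2
    rw [h2]
    have s1 := b.sq z
    have s2 := b.sq (z - (1, 0))
    calc _ = (b.s z * b.s z) * (b.s (z - (1, 0)) * b.s (z - (1, 0))) * w' (b.τ z) 1 := by ring
      _ = _ := by rw [s1, s2, one_mul, one_mul]

section general

variable {A A' : Type*} [CommRing A] [Algebra ℝ A] [CommRing A'] [Algebra ℝ A']
  {κ κ' : Type*} [DecidableEq κ] [Fintype κ] [DecidableEq κ'] [Fintype κ']

/-- **the hypotheses of `K0_chart`** for an isomorphism of backgrounds, any frames and sources -/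
theorem chart0_of (b : BgIso w w' Z) {U : Finset (G × G)} (hU : ∀ f ∈ U, ball f 1 ⊆ Z)
    {fr : Fr G A} {fr' : Fr G' A'} {τ : A →ₐ[ℝ] A'}
    (hb : ∀ e, faE e ⊆ U → τ (fr.b e) = (b.s (pe e).1 * b.s (qe e).1) • fr'.b (ebm b.τ e))
    (hI : ∀ f ∈ U, τ (fr.I4 f) = fr'.I4 (b.τ f)) {B : Bk G κ A} {B' : Bk G' κ' A'}
    (hy : ∀ e, B.y e = w e.1 e.2) (hy' : ∀ e, B'.y e = w' e.1 e.2)
    (hs : ∀ f ∈ U, B.s f = B'.s (b.τ f)) (hR : B.R = B'.R)
    (ht : ∀ S ∈ Can B.R, Even S.card → B.t S = B'.t S)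
    (hok : ∀ u ∈ U, ∀ S ∈ Can B.R, Even S.card → (Yf S).image (fz u) ⊆ U →
      (B.ok u S ↔ B'.ok (b.τ u) S)) {sm : κ → Option κ'}
    (hsrc : ∀ k, (B.Ys k).Nonempty → B.Ys k ⊆ U → ∃ k', sm k = some k' ∧
      B'.Ys k' = (B.Ys k).image b.τ ∧ τ (B.as k) = B'.as k' ∧ B'.Fs k' = em (ebm b.τ) (B.Fs k))
    (hinj : ∀ k, (B.Ys k).Nonempty → B.Ys k ⊆ U → ∀ l, (B.Ys l).Nonempty → B.Ys l ⊆ U →
      sm k = sm l → k = l)
    (hsurj : ∀ k', (B'.Ys k').Nonempty → B'.Ys k' ⊆ U.image b.τ →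
      ∃ k, (B.Ys k).Nonempty ∧ B.Ys k ⊆ U ∧ sm k = some k') :
    Chart0 fr B fr' B' b.τ sm τ U where
  toSteps := steps_of b hU
  yb e he := by
    rw [map_smul, hb e he, smul_smul, hy, hy', y_of b hU he]
  s := hs
  I4 := hI
  R := hR
  t := ht
  ok := hok
  src := hsrc
  src_inj := hinj
  src_surj := hsurj

end general

/-! ### the frames of the fields -/

theorem push_one (b : BgIso w w' Z) (h : HE G) :
    b.push (Finsupp.single h 1) = b.s h.1 • Finsupp.single (b.τ h.1, h.2) (1 : ℝ) := by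
  rw [b.push_single, Finsupp.smul_single, smul_eq_mul, mul_one, one_mul]

theorem bi_smul_smul {V : Type*} [AddCommGroup V] [Module ℝ V] (a c : ℝ) (x y : V) :
    bi (a • x) (c • y) = (a * c) • bi x y := by
  apply ge_ext
  rw [coe_bi, Ge.coe_smul, coe_bi, fi_smul, fi_smul, smul_mul_smul_comm]

theorem hb_V (b : BgIso w w' Z) {U : Finset (G × G)} (hU : ∀ f ∈ U, ball f 1 ⊆ Z) (e : EG G)
    (he : faE e ⊆ U) : mpG b.push ((frV G).b e) =
      (b.s (pe e).1 * b.s (qe e).1) • (frV G').b (ebm b.τ e) := by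
  have hS := steps_of b hU
  show mpG b.push (J1ax606.bb e) = (b.s (pe e).1 * b.s (qe e).1) • J1ax606.bb (ebm b.τ e)
  have hp : ((b.τ (pe e).1, (pe e).2) : HE G') = pe (ebm b.τ e) ∧
      ((b.τ (qe e).1, (qe e).2) : HE G') = qe (ebm b.τ e) := by
    obtain ⟨z, j⟩ := e
    rcases fin2 j with rfl | rfl
    · rw [faE_zero, Finset.insert_subset_iff, Finset.singleton_subset_iff] at he
      unfold ebm
      rw [pe_zero, qe_zero, pe_zero, qe_zero]
      dsimp only
      refine ⟨rfl, ?_⟩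
      have h1 := hS.e2 (z - (0, 1)) he.2 (by rw [sub_add_cancel]; exact he.1)
      rw [sub_add_cancel] at h1
      rw [h1, add_sub_cancel_right]
    · rw [faE_one, Finset.insert_subset_iff, Finset.singleton_subset_iff] at he
      unfold ebm
      rw [pe_one, qe_one, pe_one, qe_one]
      dsimp only
      refine ⟨?_, rfl⟩
      have h1 := hS.e1 (z - (1, 0)) he.1 (by rw [sub_add_cancel]; exact he.2)
      rw [sub_add_cancel] at h1
      rw [h1, add_sub_cancel_right]
  unfold J1ax606.bb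
  rw [mpG_bi, push_one, push_one, bi_smul_smul, hp.1, hp.2]

theorem hI_V (b : BgIso w w' Z) (f : G × G) :
    mpG b.push ((frV G).I4 f) = (frV G').I4 (b.τ f) := by
  show mpG b.push (I4 f) = I4 (b.τ f)
  unfold I4
  rw [map_sum]
  refine Finset.sum_congr rfl fun p _ => ?_
  rw [mpG_bi, push_one, push_one, bi_smul_smul]
  dsimp only
  rw [b.sq, one_smul]

/-- **the initial activities correspond** (no sources) -/
theorem K0_iso {κ κ' : Type*} [DecidableEq κ] [Fintype κ] [IsEmpty κ] [DecidableEq κ'] [Fintype κ']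
    [IsEmpty κ'] (b : BgIso w w' Z) {U : Finset (G × G)} (hU : ∀ f ∈ U, ball f 1 ⊆ Z)
    {B : Bk G κ (Ge (Fld G))} {B' : Bk G' κ' (Ge (Fld G'))}
    (hy : ∀ e, B.y e = w e.1 e.2) (hy' : ∀ e, B'.y e = w' e.1 e.2)
    (hs : ∀ f ∈ U, B.s f = B'.s (b.τ f)) (hR : B.R = B'.R)
    (ht : ∀ S ∈ Can B.R, Even S.card → B.t S = B'.t S)
    (hok : ∀ u ∈ U, ∀ S ∈ Can B.R, Even S.card → (Yf S).image (fz u) ⊆ U →
      (B.ok u S ↔ B'.ok (b.τ u) S)) :
    mpG b.push (B.K0 (frV G) U) = B'.K0 (frV G') (U.image b.τ) :=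
  K0_chart (chart0_of (sm := fun k => isEmptyElim k) b hU (hb_V b hU) (fun f _ => hI_V b f) hy hy'
    hs hR ht hok (fun k => isEmptyElim k) (fun k => isEmptyElim k) fun k => isEmptyElim k)

/-- reclustering -/
theorem K1_iso (b : BgIso w w' Z) (l k0 : ℕ) {W : Finset (G × G)} (hW : ∀ f ∈ W, f ∈ Z)
    {K0 : Finset (G × G) → Ge (Fld G)} {K0' : Finset (G' × G') → Ge (Fld G')}
    (hK : ∀ U ⊆ W, U.Nonempty → mpG b.push (K0 U) = K0' (U.image b.τ)) :
    mpG b.push (K1 (GSysx387.near l k0 0) K0 W) =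
      K1 (GSysx387.near l k0 0) K0' (W.image b.τ) := by
  have hp : PIso (fun a c : G × G => a = c) (GSysx387.near l k0 0)
      (fun a c : G' × G' => a = c) (GSysx387.near l k0 0) W b.τ b.inv := by
    refine ⟨fun a ha => b.inv_tau (hW a ha), fun a ha c hc => ?_, fun a ha c hc => ?_⟩
    · exact ⟨fun h => by rw [h], fun h => b.injOn (hW a ha) (hW c hc) h⟩
    · unfold GSysx387.near
      rw [b.iso a (hW a ha) c (hW c hc)]
  exact K1_map hp (mpG b.push).toRingHom hK

end Crest.Agent.R165.K0Isox900
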