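import Crest.Agent.R165.Bkg_683
import Crest.Agent.R165.K0Iso_900
import Crest.Agent.R165.CmpSrc_432

/-!
# Row 165 (S0250), block F: the initial activities under isomorphisms of backgrounds (helper683)

On the names of `Bkg_683` (any two backgrounds `B : Bg G`, `B' : Bg G'`, `b : BgIso B.w B'.w Z`):

* `K0_isoV` : no sources, fields `Fld G` (hypothesis `hK0` of `CmpBg_432`)
* `K0_isoS` : bond sources, fields `VS (Fld G) m`, source map `σ` (hypothesis `hK0` of `CmpSrc_432`)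
-/

set_option autoImplicit false
set_option linter.unusedSectionVars false

noncomputable section

open Crest.ProbabilityR.IsingModel
open Crest.Agent.R165.Gr0x606 Crest.Agent.R165.Gr1x606 Crest.Agent.R165.GeOpsx337
open Crest.Agent.R165.GDefx387 Crest.Agent.R165.GSysx387 Crest.Agent.R165.KFlowx337
open Crest.Agent.R165.KInitx892 Crest.Agent.R165.SrcDefx991 Crest.Agent.R165.KMapx892
open Crest.Agent.R165.BgIsox432 Crest.Agent.R165.CmpBgx432 Crest.Agent.R165.K0Isox900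
open Crest.Agent.R165.J4K0x126 Crest.Agent.R165.J4K0Mapx126 Crest.Agent.R165.J4Geox126
open Crest.Agent.R165.J4Defx653 (tpot BB tr Can)
open Crest.Agent.R165.J4RRx653 (RR ep RIn ep_mem_RIn TH em em_ep)
open Crest.Agent.R165.J1ax606 (pe qe pe_zero pe_one qe_zero qe_one)
open Crest.Agent.R165.Latx683 (BW HE Fld)
open Crest.Agent.R165.Bkgx683

namespace Crest.Agent.R165.Bkg2x683

variable {G G' : Type} [CommRing G] [CN G] [DecidableEq G] [CommRing G'] [CN G'] [DecidableEq G']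
  {w : BW G} {w' : BW G'} {Z : Set (G × G)}

section frames

variable {V V' : Type*} [AddCommGroup V] [Module ℝ V] [AddCommGroup V'] [Module ℝ V']
  {ι : Fld G →ₗ[ℝ] V} {ι' : Fld G' →ₗ[ℝ] V'}

theorem half_edges (b : BgIso w w' Z) {U : Finset (G × G)} (hU : ∀ f ∈ U, ball f 1 ⊆ Z)
    (e : Bkgx683.EG G) (he : faE e ⊆ U) :
    ((b.τ (pe e).1, (pe e).2) : HE G') = pe (ebm b.τ e) ∧
      ((b.τ (qe e).1, (qe e).2) : HE G') = qe (ebm b.τ e) := by
  have hS := steps_of b hU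
  obtain ⟨z, j⟩ := e
  rcases fin2 j with rfl | rfl
  · rw [faE_zero, Finset.insert_subset_iff, Finset.singleton_subset_iff] at he
    unfold ebm
    rw [pe_zero, qe_zero, pe_zero, qe_zero]
    dsimp only
    refine ⟨rfl, ?_⟩
    have h1 := hS.e2 (z - (0, 1)) he.2 (by rw [sub_add_cancel]; exact he.1)
    rw [sub_add_cancel] at h1
    rw [h1, add_sub_cancel_right]
  · rw [faE_one, Finset.insert_subset_iff, Finset.singleton_subset_iff] at he
    unfold ebm
    rw [pe_one, qe_one, pe_one, qe_one]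
    dsimp only
    refine ⟨?_, rfl⟩
    have h1 := hS.e1 (z - (1, 0)) he.1 (by rw [sub_add_cancel]; exact he.2)
    rw [sub_add_cancel] at h1
    rw [h1, add_sub_cancel_right]

theorem hb_G (b : BgIso w w' Z) {Φ : V →ₗ[ℝ] V'} (hΦ : ∀ x, Φ (ι x) = ι' (b.push x))
    {U : Finset (G × G)} (hU : ∀ f ∈ U, ball f 1 ⊆ Z) (e : Bkgx683.EG G) (he : faE e ⊆ U) :
    mpG Φ ((frG ι).b e) = (b.s (pe e).1 * b.s (qe e).1) • (frG ι').b (ebm b.τ e) := by
  have hp := half_edges b hU e he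
  rw [frG_b, frG_b, mpG_bi, hΦ, hΦ, push_one, push_one, map_smul, map_smul, bi_smul_smul,
    hp.1, hp.2]

theorem hI_G (b : BgIso w w' Z) {Φ : V →ₗ[ℝ] V'} (hΦ : ∀ x, Φ (ι x) = ι' (b.push x)) (f : G × G) :
    mpG Φ ((frG ι).I4 f) = (frG ι').I4 (b.τ f) := by
  rw [frG_I4, frG_I4, map_sum]
  refine Finset.sum_congr rfl fun p _ => ?_
  rw [mpG_bi, hΦ, hΦ, push_one, push_one, map_smul, map_smul, bi_smul_smul]
  dsimp only
  rw [b.sq, one_smul]

end frames

/-- the two backgrounds correspond on the faces of `U` -/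
structure BgOn (B : Bg G) (B' : Bg G') (R : ℕ) (τ : G × G → G' × G') (U : Finset (G × G)) :
    Prop where
  tch : ∀ f ∈ U, (B.tch f ↔ B'.tch (τ f))
  ok : ∀ u ∈ U, ∀ S ∈ Can R, Even S.card → (Yf S).image (fz u) ⊆ U →
    (B.ok R u S ↔ B'.ok R (τ u) S)

theorem BgOn.mono {B : Bg G} {B' : Bg G'} {R : ℕ} {τ : G × G → G' × G'} {U W : Finset (G × G)}
    (h : BgOn B B' R τ U) (hW : W ⊆ U) : BgOn B B' R τ W :=
  ⟨fun f hf => h.tch f (hW hf), fun u hu S hS he hY => h.ok u (hW hu) S hS he (hY.trans hW)⟩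

variable {B : Bg G} {B' : Bg G'}

theorem sc_eq (P : MPar) {f : G × G} {f' : G' × G'} (h : B.tch f ↔ B'.tch f') :
    B.sc P f = B'.sc P f' := by
  unfold Bg.sc
  by_cases h1 : B.tch f
  · rw [if_pos h1, if_pos (h.1 h1)]
  · rw [if_neg h1, if_neg fun h2 => h1 (h.2 h2)]

/-- **no sources** -/
theorem K0_isoV (b : BgIso B.w B'.w Z) (P : MPar) (l k0 : ℕ) {U : Finset (G × G)}
    (hU : ∀ f ∈ U, ball f 1 ⊆ Z) (h : BgOn B B' P.R b.τ U) :
    mpG b.push (B.K0 P LinearMap.id (noSrc G (Ge (Fld G))) l k0 U) =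
      B'.K0 P LinearMap.id (noSrc G' (Ge (Fld G'))) l k0 (U.image b.τ) := by
  unfold Bg.K0
  refine K1_iso b l k0 (fun f hf => hU f hf (mem_ball_self f 1)) fun W hW _ => ?_
  have hW' := h.mono hW
  have hUW : ∀ f ∈ W, ball f 1 ⊆ Z := fun f hf => hU f (hW hf)
  have hs : ∀ f ∈ W, B.sc P f = B'.sc P (b.τ f) := fun f hf => sc_eq P (hW'.tch f hf)
  have hc : Chart0 (frG LinearMap.id) (B.bk P (noSrc G (Ge (Fld G)))) (frG LinearMap.id)
      (B'.bk P (noSrc G' (Ge (Fld G')))) b.τ (fun k : Fin 0 => k.elim0) (mpG b.push) W := by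
    have hΦ : ∀ x, b.push ((LinearMap.id : Fld G →ₗ[ℝ] Fld G) x) =
        (LinearMap.id : Fld G' →ₗ[ℝ] Fld G') (b.push x) := fun _ => rfl
    have e1 := hb_G (ι := LinearMap.id) (ι' := LinearMap.id) b (Φ := b.push) hΦ hUW
    have e2 : ∀ f ∈ W, mpG b.push ((frG (LinearMap.id : Fld G →ₗ[ℝ] Fld G)).I4 f) =
        (frG (LinearMap.id : Fld G' →ₗ[ℝ] Fld G')).I4 (b.τ f) := fun f _ => hI_G b hΦ f
    exact chart0_of (B := B.bk P (noSrc G (Ge (Fld G)))) (B' := B'.bk P (noSrc G' (Ge (Fld G'))))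
      b hUW e1 e2
      (fun _ => rfl) (fun _ => rfl) hs rfl (fun _ _ _ => rfl) hW'.ok
      (fun k => k.elim0) (fun k => k.elim0) fun k => k.elim0
  exact K0_chart hc

open Classical in
/-- the map of the labels -/
def smo {m m' : ℕ} (σ : Fin m' → Fin m) (i : Fin m) : Option (Fin m') :=
  if h : ∃ j, σ j = i then some h.choose else none

theorem smo_eq {m m' : ℕ} {σ : Fin m' → Fin m} (hσ : Function.Injective σ) (j : Fin m') :
    smo σ (σ j) = some j := by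
  unfold smo
  have h : ∃ j', σ j' = σ j := ⟨j, rfl⟩
  rw [dif_pos h]
  exact congrArg some (hσ h.choose_spec)

/-- reclustering, any fields -/
theorem K1_isoG {V V' : Type*} [AddCommGroup V] [Module ℝ V] [AddCommGroup V'] [Module ℝ V']
    (b : BgIso w w' Z) (Φ : V →ₗ[ℝ] V') (l k0 : ℕ) {W : Finset (G × G)} (hW : ∀ f ∈ W, f ∈ Z)
    {K0 : Finset (G × G) → Ge V} {K0' : Finset (G' × G') → Ge V'}
    (hK : ∀ U ⊆ W, U.Nonempty → mpG Φ (K0 U) = K0' (U.image b.τ)) :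
    mpG Φ (K1 (GSysx387.near l k0 0) K0 W) =
      K1 (GSysx387.near l k0 0) K0' (W.image b.τ) := by
  have hp : PIso (fun a c : G × G => a = c) (GSysx387.near l k0 0)
      (fun a c : G' × G' => a = c) (GSysx387.near l k0 0) W b.τ b.inv := by
    refine ⟨fun a ha => b.inv_tau (hW a ha), fun a ha c hc => ?_, fun a ha c hc => ?_⟩
    · exact ⟨fun h => by rw [h], fun h => b.injOn (hW a ha) (hW c hc) h⟩
    · unfold GSysx387.near
      rw [b.iso a (hW a ha) c (hW c hc)]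
  exact K1_map hp (mpG Φ).toRingHom hK

/-- **bond sources** -/
theorem K0_isoS [CNZ G] [CNZ G'] {m m' : ℕ} (b : BgIso B.w B'.w Z) (P : MPar) (l k0 : ℕ) {U : Finset (G × G)}
    (hU : ∀ f ∈ U, ball f 1 ⊆ Z) (h : BgOn B B' P.R b.τ U) {σ : Fin m' → Fin m}
    (hσ : Function.Injective σ) {e : Fin m → Bkgx683.EG G} {e' : Fin m' → Bkgx683.EG G'}
    (h1 : ∀ i, faE (e i) ⊆ U → ∃ j, σ j = i)
    (h2 : ∀ j, faE (e (σ j)) ⊆ U → e' j = ebm b.τ (e (σ j)))
    (h3 : ∀ j, faE (e' j) ⊆ U.image b.τ → faE (e (σ j)) ⊆ U) :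
    mpG (pS b σ) (B.K0 P (LinearMap.inl ℝ (Fld G) (Src m)) (bondSrc (Fld G) e) l k0 U) =
      B'.K0 P (LinearMap.inl ℝ (Fld G') (Src m')) (bondSrc (Fld G') e') l k0 (U.image b.τ) := by
  unfold Bg.K0
  have hm : ∀ f ∈ U, f ∈ Z := fun f hf => hU f hf (mem_ball_self f 1)
  refine K1_isoG b (pS b σ) l k0 hm fun W hW _ => ?_
  have hW' := h.mono hW
  have hUW : ∀ f ∈ W, ball f 1 ⊆ Z := fun f hf => hU f (hW hf)
  have hS := steps_of b hUW
  have hΦ : ∀ x, pS b σ ((LinearMap.inl ℝ (Fld G) (Src m)) x) =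
      (LinearMap.inl ℝ (Fld G') (Src m')) (b.push x) := fun x => pS_inl b σ x
  have hs : ∀ f ∈ W, B.sc P f = B'.sc P (b.τ f) := fun f hf => sc_eq P (hW'.tch f hf)
  have hc : Chart0 (frG (LinearMap.inl ℝ (Fld G) (Src m))) (B.bk P (bondSrc (Fld G) e))
      (frG (LinearMap.inl ℝ (Fld G') (Src m'))) (B'.bk P (bondSrc (Fld G') e')) b.τ (smo σ)
      (mpG (pS b σ)) W := by
    have e1 := hb_G b hΦ hUW
    have e2 : ∀ f ∈ W, mpG (pS b σ) ((frG (LinearMap.inl ℝ (Fld G) (Src m))).I4 f) =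
        (frG (LinearMap.inl ℝ (Fld G') (Src m'))).I4 (b.τ f) := fun f _ => hI_G b hΦ f
    refine chart0_of (B := B.bk P (bondSrc (Fld G) e)) (B' := B'.bk P (bondSrc (Fld G') e'))
      b hUW e1 e2 (fun _ => rfl) (fun _ => rfl)
      hs rfl (fun _ _ _ => rfl) hW'.ok ?_ ?_ ?_
    · intro i _ hi
      have hi' : faE (e i) ⊆ W := hi
      obtain ⟨j, rfl⟩ := h1 i (hi'.trans hW)
      refine ⟨j, smo_eq hσ j, ?_, ?_, ?_⟩
      · show faE (e' j) = (faE (e (σ j))).image b.τ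
        rw [h2 j (hi'.trans hW)]
        exact hS.faE hi'
      · exact pS_tau b hσ j
      · show ep (Finsupp.single (e' j) 1) - 1 = em (ebm b.τ) (ep (Finsupp.single (e (σ j)) 1) - 1)
        rw [map_sub, map_one, em_ep, Finsupp.mapDomain_single, h2 j (hi'.trans hW)]
    · intro i _ hi i' _ hi' hii
      have hi1 : faE (e i) ⊆ W := hi
      have hi2 : faE (e i') ⊆ W := hi'
      obtain ⟨j, rfl⟩ := h1 i (hi1.trans hW)
      obtain ⟨j', rfl⟩ := h1 i' (hi2.trans hW)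
      rw [smo_eq hσ, smo_eq hσ, Option.some.injEq] at hii
      rw [hii]
    · intro j _ hj
      have hj' : faE (e' j) ⊆ W.image b.τ := hj
      have h4 : faE (e (σ j)) ⊆ U := h3 j (hj'.trans (Finset.image_subset_image hW))
      have h5 : faE (e' j) = (faE (e (σ j))).image b.τ := by
        rw [h2 j h4]
        exact (steps_of b hU).faE h4
      refine ⟨σ j, faE_nonempty _, ?_, smo_eq hσ j⟩
      intro f hf
      have h6 : b.τ f ∈ W.image b.τ := hj' (by rw [h5]; exact Finset.mem_image_of_mem _ hf)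
      obtain ⟨g, hg, hgf⟩ := Finset.mem_image.1 h6
      rw [← b.injOn (hm g (hW hg)) (hm f (h4 hf)) hgf]
      exact hg
  exact K0_chart hc

/-! ### the backgrounds of the list -/

/-- on `U` all faces have rescaled fields and all shapes are allowed -/
def Full (B : Bg G) (R : ℕ) (U : Finset (G × G)) : Prop :=
  (∀ f ∈ U, B.tch f) ∧
    ∀ u ∈ U, ∀ S ∈ Can R, Even S.card → (Yf S).image (fz u) ⊆ U → B.ok R u S

theorem Full.mono {R : ℕ} {U W : Finset (G × G)} (h : Full B R U) (hW : W ⊆ U) : Full B R W :=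
  ⟨fun f hf => h.1 f (hW hf), fun u hu S hS he hY => h.2 u (hW hu) S hS he (hY.trans hW)⟩

/-- two full backgrounds correspond -/
theorem BgOn.of_full {R : ℕ} (b : BgIso w w' Z) {U : Finset (G × G)}
    (hU : ∀ f ∈ U, ball f 1 ⊆ Z) (h : Full B R U) (h' : Full B' R (U.image b.τ)) :
    BgOn B B' R b.τ U := by
  refine ⟨fun f hf => ⟨fun _ => h'.1 _ (Finset.mem_image_of_mem _ hf), fun _ => h.1 f hf⟩, ?_⟩
  intro u hu S hS he hY
  refine ⟨fun _ => h'.2 _ (Finset.mem_image_of_mem _ hu) S hS he ?_, fun _ => h.2 u hu S hS he hY⟩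
  intro x hx
  obtain ⟨z, hz, rfl⟩ := Finset.mem_image.1 hx
  rw [← (steps_of b hU).fwd (J4Defx653.mem_Can.1 hS).2.1 hY z hz]
  exact Finset.mem_image_of_mem _ (hY (Finset.mem_image_of_mem _ hz))

theorem full_pl (R : ℕ) (U : Finset (ℤ × ℤ)) : Full Bg.pl R U :=
  ⟨fun _ _ => trivial, fun _ _ _ _ _ _ => trivial⟩

theorem full_br (x : ℤ × ℤ) (R : ℕ) (U : Finset (ℤ × ℤ)) : Full (Bg.br x) R U :=
  ⟨fun _ _ => trivial, fun _ _ _ _ _ _ => trivial⟩

theorem full_tor (M : ℕ) [NeZero M] (ε₁ ε₂ : ℝ) (R : ℕ) (U : Finset (ZMod M × ZMod M)) :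
    Full (Bg.tor M ε₁ ε₂) R U :=
  ⟨fun _ _ => trivial, fun _ _ _ _ _ _ => trivial⟩

/-- faces all of whose corners are in the domain -/
theorem full_dom (T : Finset (ℤ × ℤ)) (b : BoundaryCondition) {n : ℕ} (X : Fin n → ℤ × ℤ) (R : ℕ)
    {U : Finset (ℤ × ℤ)} (hU : ∀ f ∈ U, cornersIn (T : Set (ℤ × ℤ)) f) :
    Full (Bg.dom T b X) R U := by
  refine ⟨fun f hf => Or.inl (hU f hf).1, ?_⟩
  intro u hu S hS _ hY
  show tr S u ∈ BB T b R
  have h1 : tr S u ⊆ T := by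
    intro x hx
    rw [J4Defx653.mem_tr] at hx
    have h2 : fz u (x - u) ∈ U :=
      hY (Finset.mem_image_of_mem _ (subset_Yf S hx))
    have h3 : fz u (x - u) = x := by
      unfold fz cz
      ext <;> simp
    rw [h3] at h2
    exact (hU x h2).1
  rw [J4Defx653.mem_BB]
  refine ⟨h1.trans J4Defx653.subset_thick, fun _ => h1, ?_⟩
  have h0 := (J4Defx653.mem_Can.1 hS).2.1
  have h4 : u ∈ tr S u := by
    rw [J4Defx653.mem_tr, sub_self]; exact h0
  exact ⟨u, Finset.mem_inter.2 ⟨h4, h1 h4⟩⟩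

/-- the same domain with other insertions, identity chart -/
theorem bgOn_dom (T : Finset (ℤ × ℤ)) (b : BoundaryCondition) {n m : ℕ} (X : Fin n → ℤ × ℤ)
    (X' : Fin m → ℤ × ℤ) (R : ℕ) {τ : ℤ × ℤ → ℤ × ℤ} {U : Finset (ℤ × ℤ)} (hτ : ∀ f ∈ U, τ f = f) :
    BgOn (Bg.dom T b X) (Bg.dom T b X') R τ U :=
  ⟨fun f hf => by rw [hτ f hf]; exact Iff.rfl, fun u hu S _ _ _ => by rw [hτ u hu]; exact Iff.rfl⟩

end Crest.Agent.R165.Bkg2x683
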