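import Crest.Agent.R165.K0IsoB_900

/-!
# Row 165 (S0250): the initial activities with a real source (helper722)

* `act_dead`    : items of weight zero do not change the activities
* `K00_dead`, `K0_dead` : dead sources (outside `U` or with constant `0`) can be dropped
* `K0_bg_src`   : charts between two backgrounds with arbitrary sources
* `IsReal src Y S t` : `src` is the real source `1 + t ∏_{e ∈ S} eps_e` with support `Y`
* `K0_t`        : no dependence on `t` when `Y ⊄ U`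
* `K0_zero`     : `t = 0` is the system without source
* `K0_iso_src`  : correspondence with real sources on both sides
* `K0_iso_far`  : correspondence, real sources, both supports not inside `U`
-/

set_option autoImplicit false
set_option linter.unusedSectionVars false

noncomputable section

open Crest.ProbabilityR.IsingModel
open Crest.Agent.R165.Gr0x606 Crest.Agent.R165.Gr1x606 Crest.Agent.R165.Latx683
open Crest.Agent.R165.GDefx387 Crest.Agent.R165.GeOpsx337 Crest.Agent.R165.BgIsox432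
open Crest.Agent.R165.J4K0x126 Crest.Agent.R165.J4K0Mapx126 Crest.Agent.R165.J4Geox126
open Crest.Agent.R165.J4Lnkx653 Crest.Agent.R165.J4Defx653 Crest.Agent.R165.J4RRx653
open Crest.Agent.R165.KInitx892 Crest.Agent.R165.KMapx892 Crest.Agent.R165.GSysx387
open Crest.Agent.R165.Bkgx683 (Bg MPar noSrc frG cor Srcs realSrc)
open Crest.Agent.R165.K0Isox900 Crest.Agent.R165.DomGeox900 Crest.Agent.R165.K0IsoBx900
open Crest.Agent.R165.J1ax606 (EG pe qe pe_zero pe_one qe_zero qe_one)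

namespace Crest.Agent.R165.K0Srcx722

/-! ### dead items -/

section dead

open Crest.Agent.R165.J4Actx126 Crest.Agent.R165.KCompx892

variable {ι ι' F RR' A : Type*} [DecidableEq ι] [DecidableEq ι'] [DecidableEq F] [CommRing RR']
  [CommRing A]

/-- items of weight zero do not change the activities -/
theorem act_dead [Fintype ι] [Fintype ι'] {I : Items ι F RR' A} {I' : Items ι' F RR' A}
    {e : ι → ι'} (he : Function.Injective e) (hY : ∀ i, I'.Y (e i) = I.Y i)
    (hw : ∀ T : Finset ι, I'.w (T.image e) = I.w T)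
    (hdead : ∀ T' : Finset ι', (∃ i' ∈ T', ∀ i, e i ≠ i') → I'.w T' = 0) (U : Finset F) :
    I'.act U = I.act U := by
  classical
  have hsupp : ∀ T : Finset ι, J4Actx126.supp I'.Y (T.image e) = J4Actx126.supp I.Y T := by
    intro T
    unfold J4Actx126.supp
    rw [Finset.image_biUnion]
    exact Finset.biUnion_congr rfl fun i _ => hY i
  have hconn : ∀ T : Finset ι, KCompx892.Conn (J4Actx126.touch I'.Y) (T.image e) ↔
      KCompx892.Conn (J4Actx126.touch I.Y) T := by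
    intro T
    refine conn_image he.injOn fun i _ j _ => ?_
    unfold J4Actx126.touch
    rw [hY, hY]
  unfold Items.act
  symm
  have h1 : ∑ T : Finset ι with KCompx892.Conn (J4Actx126.touch I.Y) T ∧ J4Actx126.supp I.Y T = U, I.w T =
      ∑ T' ∈ ((Finset.univ : Finset (Finset ι)).filter
        (fun T => KCompx892.Conn (J4Actx126.touch I.Y) T ∧ J4Actx126.supp I.Y T = U)).image (fun T => T.image e), I'.w T' := by
    rw [Finset.sum_image fun T _ T' _ h => Finset.image_injective he h]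
    exact Finset.sum_congr rfl fun T _ => (hw T).symm
  rw [h1]
  refine Finset.sum_subset ?_ ?_
  · intro T' hT'
    obtain ⟨T, hT, rfl⟩ := Finset.mem_image.1 hT'
    rw [Finset.mem_filter] at hT ⊢
    exact ⟨Finset.mem_univ _, (hconn T).2 hT.2.1, (hsupp T).trans hT.2.2⟩
  · intro T' hT' hn
    rw [Finset.mem_filter] at hT'
    by_contra hne
    have hall : ∀ i' ∈ T', ∃ i, e i = i' := by
      intro i' hi'
      by_contra hc
      push Not at hc
      exact hne (hdead T' ⟨i', hi', hc⟩)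
    have hT : (Finset.univ.filter fun i => e i ∈ T').image e = T' := by
      ext i'
      rw [Finset.mem_image]
      constructor
      · rintro ⟨i, hi, rfl⟩
        exact (Finset.mem_filter.1 hi).2
      · intro hi'
        obtain ⟨i, rfl⟩ := hall i' hi'
        exact ⟨i, Finset.mem_filter.2 ⟨Finset.mem_univ _, hi'⟩, rfl⟩
    refine hn (Finset.mem_image.2 ⟨Finset.univ.filter fun i => e i ∈ T', ?_, hT⟩)
    rw [Finset.mem_filter]
    refine ⟨Finset.mem_univ _, ?_, ?_⟩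
    · rw [← hconn, hT]; exact hT'.2.1
    · rw [← hsupp, hT]; exact hT'.2.2

end dead

/-! ### dead sources -/

section bk

open Crest.Agent.R165.J4Datx126

variable {G : Type} [CommRing G] [DecidableEq G]
variable {A : Type*} [CommRing A] [Algebra ℝ A] {κ κ' : Type*} [DecidableEq κ] [DecidableEq κ']

/-- the background without its sources -/
def noS (B : Bk G κ A) (κ' : Type*) : Bk G κ' A where
  y := B.y
  s := B.s
  ok := B.ok
  t := B.t
  R := B.R
  Ys _ := ∅
  as _ := 0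
  Fs _ := 0
  Fs_mem _ := Subalgebra.zero_mem _

/-- the label map without sources -/
def em0 : Ix G κ' → Option (Ix G κ)
  | .inl p => some (.inl p)
  | .inr (.inl f) => some (.inr (.inl f))
  | .inr (.inr (.inl e)) => some (.inr (.inr (.inl e)))
  | .inr (.inr (.inr _)) => none

theorem K00_noS [Fintype κ] (fr : Fr G A) (B : Bk G κ A) {U : Finset (G × G)}
    (hd : ∀ k, (B.Ys k).Nonempty → B.Ys k ⊆ U → B.as k = 0) :
    B.K0 fr U = (noS B (Fin 0)).K0 fr U := by
  classical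
  have hok : ∀ i : {i // i ∈ (noS B (Fin 0)).ixs U},
      (noS B (Fin 0)).okI i.1 ∧ (noS B (Fin 0)).YI i.1 ⊆ U :=
    fun i => (noS B (Fin 0)).mem_ixs.1 i.2
  let e0 : Ix G (Fin 0) → Ix G κ := fun i => match i with
    | .inl p => .inl p
    | .inr (.inl f) => .inr (.inl f)
    | .inr (.inr (.inl e)) => .inr (.inr (.inl e))
    | .inr (.inr (.inr k)) => k.elim0
  have he0 : Function.Injective e0 := by
    intro i j h
    rcases i with p | f | e | k
    · rcases j with p' | f' | e' | k'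
      · exact congrArg Sum.inl (Sum.inl.inj h)
      · cases h
      · cases h
      · exact k'.elim0
    · rcases j with p' | f' | e' | k'
      · cases h
      · exact congrArg (fun x => Sum.inr (Sum.inl x)) (Sum.inl.inj (Sum.inr.inj h))
      · cases h
      · exact k'.elim0
    · rcases j with p' | f' | e' | k'
      · cases h
      · cases h
      · exact congrArg (fun x => Sum.inr (Sum.inr (Sum.inl x)))
          (Sum.inl.inj (Sum.inr.inj (Sum.inr.inj h)))
      · exact k'.elim0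
    · exact k.elim0
  have hY0 : ∀ i, B.YI (e0 i) = (noS B (Fin 0)).YI i := by
    intro i
    rcases i with p | f | e | k
    · rfl
    · rfl
    · rfl
    · exact k.elim0
  have hok0 : ∀ i, (noS B (Fin 0)).okI i → B.okI (e0 i) := by
    intro i hi
    rcases i with p | f | e | k
    · exact hi
    · exact hi
    · exact hi
    · exact k.elim0
  have hmem : ∀ i : {i // i ∈ (noS B (Fin 0)).ixs U}, e0 i.1 ∈ B.ixs U := fun i =>
    B.mem_ixs.2 ⟨hok0 _ (hok i).1, by rw [hY0]; exact (hok i).2⟩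
  have ha0 : ∀ i, B.aI fr (e0 i) = (noS B (Fin 0)).aI fr i := by
    intro i
    rcases i with p | f | e | k
    · rfl
    · rfl
    · rfl
    · exact k.elim0
  have hF0 : ∀ i, B.FI (e0 i) = (noS B (Fin 0)).FI i := by
    intro i
    rcases i with p | f | e | k
    · rfl
    · rfl
    · rfl
    · exact k.elim0
  refine act_dead (I := ((noS B (Fin 0)).datU fr U).items) (I' := (B.datU fr U).items)
    (e := fun i => (⟨e0 i.1, hmem i⟩ : {i // i ∈ B.ixs U})) ?_ ?_ ?_ ?_ U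
  · intro i j h
    exact Subtype.ext (he0 (congrArg Subtype.val h))
  · intro i
    exact hY0 i.1
  · intro T
    have hinj : Set.InjOn (fun i : {i // i ∈ (noS B (Fin 0)).ixs U} =>
        (⟨e0 i.1, hmem i⟩ : {i // i ∈ B.ixs U})) T := fun i _ j _ h =>
      Subtype.ext (he0 (congrArg Subtype.val h))
    rw [Dat.w_eq, Dat.w_eq, Finset.prod_image hinj, Finset.prod_image hinj]
    congr 1
    · exact Finset.prod_congr rfl fun i _ => ha0 i.1
    · change TH (B.g fr) (∏ i ∈ T, B.FI (e0 i.1)) = TH ((noS B (Fin 0)).g fr) _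
      rw [Finset.prod_congr rfl fun i _ => hF0 i.1]
      rfl
  · rintro T' ⟨⟨i', hi'⟩, hiT, hne⟩
    rw [Dat.w_eq]
    refine mul_eq_zero_of_left ?_ _
    refine Finset.prod_eq_zero hiT ?_
    change B.aI fr i' = 0
    have hi := B.mem_ixs.1 hi'
    rcases i' with p | f | e | k
    · exact absurd rfl (hne ⟨.inl p, (noS B (Fin 0)).mem_ixs.2 hi⟩)
    · exact absurd rfl (hne ⟨.inr (.inl f), (noS B (Fin 0)).mem_ixs.2 hi⟩)
    · exact absurd rfl (hne ⟨.inr (.inr (.inl e)), (noS B (Fin 0)).mem_ixs.2 hi⟩)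
    · exact hd k hi.1 hi.2

/-- **dead sources can be dropped** -/
theorem K00_dead [Fintype κ] [Fintype κ'] (fr : Fr G A) {B : Bk G κ A} {B' : Bk G κ' A}
    {U : Finset (G × G)} (hy : B.y = B'.y) (hs : B.s = B'.s) (hok : B.ok = B'.ok)
    (ht : B.t = B'.t) (hR : B.R = B'.R)
    (hd : ∀ k, (B.Ys k).Nonempty → B.Ys k ⊆ U → B.as k = 0)
    (hd' : ∀ k, (B'.Ys k).Nonempty → B'.Ys k ⊆ U → B'.as k = 0) :
    B.K0 fr U = B'.K0 fr U := by
  rw [K00_noS fr B hd, K00_noS fr B' hd']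
  have : noS B (Fin 0) = noS B' (Fin 0) := by
    unfold noS
    rw [Bk.mk.injEq]
    exact ⟨hy, hs, hok, ht, hR, rfl, rfl, rfl⟩
  rw [this]

end bk

/-! ### backgrounds -/

variable {G G' : Type} [CommRing G] [CN G] [DecidableEq G] [CommRing G'] [CN G'] [DecidableEq G']

section gen

variable {κ κ' : Type} [DecidableEq κ] [Fintype κ] [DecidableEq κ'] [Fintype κ']

/-- `K1` only depends on the subsets of `U` -/
theorem K1_congr {V : Type*} [AddCommGroup V] [Module ℝ V] {r : G × G → G × G → Prop}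
    {K K' : Finset (G × G) → Ge V} {U : Finset (G × G)}
    (h : ∀ W ⊆ U, W.Nonempty → K W = K' W) : K1 r K U = K1 r K' U := by
  have hp : PIso (fun a c : G × G => a = c) r (fun a c : G × G => a = c) r U id id := by
    refine ⟨fun a _ => rfl, fun a _ c _ => Iff.rfl, fun a _ c _ => Iff.rfl⟩
  have := K1_map hp (RingHom.id (Ge V)) (K₀ := K) (K₀' := K') fun W hW hne => by
    rw [Finset.image_id]; exact h W hW hne
  rw [Finset.image_id] at this
  exact this

/-- **dead sources can be dropped**, reclustered activities -/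
theorem K0_dead {V : Type*} [AddCommGroup V] [Module ℝ V] (B : Bg G) (P : MPar)
    (i : Fld G →ₗ[ℝ] V) (src : Srcs κ G (Ge V)) (src' : Srcs κ' G (Ge V)) (l k0 : ℕ)
    {U : Finset (G × G)} (hd : ∀ k, (src.Ys k).Nonempty → src.Ys k ⊆ U → src.as k = 0)
    (hd' : ∀ k, (src'.Ys k).Nonempty → src'.Ys k ⊆ U → src'.as k = 0) :
    B.K0 P i src l k0 U = B.K0 P i src' l k0 U := by
  refine K1_congr fun W hW _ => ?_
  exact K00_dead (frG i) (B := B.bk P src) (B' := B.bk P src') rfl rfl rfl rfl rfl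
    (fun k h1 h2 => hd k h1 (h2.trans hW)) fun k h1 h2 => hd' k h1 (h2.trans hW)

/-- **charts with arbitrary sources**, hard core activities -/
theorem K00_src {w : BW G} {w' : BW G'} {Z : Set (G × G)} (b : BgIso w w' Z)
    {U : Finset (G × G)} (hU : ∀ f ∈ U, ball f 1 ⊆ Z)
    {B : Bk G κ (Ge (Fld G))} {B' : Bk G' κ' (Ge (Fld G'))}
    (hy : ∀ e, B.y e = w e.1 e.2) (hy' : ∀ e, B'.y e = w' e.1 e.2)
    (hs : ∀ f ∈ U, B.s f = B'.s (b.τ f)) (hR : B.R = B'.R)
    (ht : ∀ S ∈ Can B.R, Even S.card → B.t S = B'.t S)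
    (hok : ∀ u ∈ U, ∀ S ∈ Can B.R, Even S.card → (Yf S).image (fz u) ⊆ U →
      (B.ok u S ↔ B'.ok (b.τ u) S)) (sm : κ → Option κ')
    (hsrc : ∀ k, (B.Ys k).Nonempty → B.Ys k ⊆ U → ∃ k', sm k = some k' ∧
      B'.Ys k' = (B.Ys k).image b.τ ∧ mpG b.push (B.as k) = B'.as k' ∧
      B'.Fs k' = em (ebm b.τ) (B.Fs k))
    (hinj : ∀ k, (B.Ys k).Nonempty → B.Ys k ⊆ U → ∀ l, (B.Ys l).Nonempty → B.Ys l ⊆ U →
      sm k = sm l → k = l)
    (hsurj : ∀ k', (B'.Ys k').Nonempty → B'.Ys k' ⊆ U.image b.τ →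
      ∃ k, (B.Ys k).Nonempty ∧ B.Ys k ⊆ U ∧ sm k = some k') :
    mpG b.push (B.K0 (frV G) U) = B'.K0 (frV G') (U.image b.τ) :=
  K0_chart (chart0_of (sm := sm) b hU (hb_V b hU) (fun f _ => hI_V b f) hy hy'
    hs hR ht hok hsrc hinj hsurj)

/-- **charts between two backgrounds with arbitrary sources** -/
theorem K0_bg_src {B : Bg G} {B' : Bg G'} {Z : Set (G × G)} (b : BgIso B.w B'.w Z) (P : MPar)
    (l k0 : ℕ) {U : Finset (G × G)} (hU : ∀ f ∈ U, ball f 1 ⊆ Z)
    (htch : ∀ f ∈ U, (B.tch f ↔ B'.tch (b.τ f)))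
    (hok : ∀ u ∈ U, ∀ S ∈ Can P.R, Even S.card → (Yf S).image (fz u) ⊆ U →
      (B.ok P.R u S ↔ B'.ok P.R (b.τ u) S))
    (src : Srcs κ G (Ge (Fld G))) (src' : Srcs κ' G' (Ge (Fld G'))) (sm : κ → Option κ')
    (hsrc : ∀ k, (src.Ys k).Nonempty → src.Ys k ⊆ U → ∃ k', sm k = some k' ∧
      src'.Ys k' = (src.Ys k).image b.τ ∧ mpG b.push (src.as k) = src'.as k' ∧
      src'.Fs k' = em (ebm b.τ) (src.Fs k))
    (hinj : ∀ k, (src.Ys k).Nonempty → src.Ys k ⊆ U → ∀ l, (src.Ys l).Nonempty → src.Ys l ⊆ U →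
      sm k = sm l → k = l)
    (hsurj : ∀ k', (src'.Ys k').Nonempty → src'.Ys k' ⊆ U.image b.τ →
      ∃ k, (src.Ys k).Nonempty ∧ src.Ys k ⊆ U ∧ sm k = some k') :
    mpG b.push (B.K0 P LinearMap.id src l k0 U) =
      B'.K0 P LinearMap.id src' l k0 (U.image b.τ) := by
  have hUZ : ∀ f ∈ U, f ∈ Z := fun f hf => hU f hf (mem_ball_self f 1)
  refine K1_iso b l k0 hUZ fun U₁ hU₁ _ => ?_
  show mpG b.push ((B.bk P src).K0 (frG LinearMap.id) U₁) =
    (B'.bk P src').K0 (frG LinearMap.id) (U₁.image b.τ)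
  rw [frG_id, frG_id]
  have hs : ∀ f ∈ U₁, (B.bk P src).s f = (B'.bk P src').s (b.τ f) := by
    intro f hf
    show B.sc P f = B'.sc P (b.τ f)
    unfold Bg.sc
    by_cases h : B.tch f
    · rw [if_pos h, if_pos ((htch f (hU₁ hf)).1 h)]
    · rw [if_neg h, if_neg fun h' => h ((htch f (hU₁ hf)).2 h')]
  have hsu : ∀ k', ((B'.bk P src').Ys k').Nonempty → (B'.bk P src').Ys k' ⊆ U₁.image b.τ →
      ∃ k, ((B.bk P src).Ys k).Nonempty ∧ (B.bk P src).Ys k ⊆ U₁ ∧ sm k = some k' := by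
    intro k' h1 h2
    obtain ⟨k, h3, h4, h5⟩ := hsurj k' h1 (h2.trans (Finset.image_subset_image hU₁))
    refine ⟨k, h3, fun f hf => ?_, h5⟩
    obtain ⟨k'', h6, h7, -⟩ := hsrc k h3 h4
    have : k' = k'' := Option.some.inj (h5.symm.trans h6)
    subst this
    have h8 : b.τ f ∈ U₁.image b.τ := by
      refine h2 ?_
      show b.τ f ∈ src'.Ys k'
      rw [h7]
      exact Finset.mem_image_of_mem _ hf
    obtain ⟨g, hg, hgf⟩ := Finset.mem_image.1 h8
    rw [← b.injOn (hUZ g (hU₁ hg)) (hUZ f (h4 hf)) hgf]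
    exact hg
  exact K00_src (B := B.bk P src) (B' := B'.bk P src') b (fun f hf => hU f (hU₁ hf))
    (fun _ => rfl) (fun _ => rfl) hs rfl (fun _ _ _ => rfl)
    (fun u hu S hS hev hSU => hok u (hU₁ hu) S hS hev (hSU.trans hU₁)) sm
    (fun k h1 h2 => hsrc k h1 (h2.trans hU₁))
    (fun k h1 h2 l h3 h4 => hinj k h1 (h2.trans hU₁) l h3 (h4.trans hU₁)) hsu

end gen

/-! ### real sources -/

/-- `src` is the real source `1 + t ∏_{e ∈ S} eps_e` with support `Y` -/
structure IsReal {A : Type*} [CommRing A] [Algebra ℝ A] (src : Srcs (Fin 1) G A)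
    (Y : Finset (G × G)) (S : Finset (EG G)) (t : ℝ) : Prop where
  Ys : src.Ys 0 = Y
  as : src.as 0 = algebraMap ℝ A t
  Fs : src.Fs 0 = ∏ e ∈ S, ep (Finsupp.single e 1)

theorem isReal_realSrc (A : Type*) [CommRing A] [Algebra ℝ A] (f₀ : G × G) (S : Finset (EG G))
    (t : ℝ) : IsReal (realSrc A f₀ S t) (insert f₀ (S.biUnion faE)) S t := ⟨rfl, rfl, rfl⟩

section real

variable {V : Type*} [AddCommGroup V] [Module ℝ V]

/-- **(1)** no dependence on the source when its support is not inside `U` -/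
theorem K0_far {κ κ' : Type} [DecidableEq κ] [Fintype κ] [DecidableEq κ'] [Fintype κ'] (B : Bg G)
    (P : MPar) (i : Fld G →ₗ[ℝ] V) (src : Srcs κ G (Ge V)) (src' : Srcs κ' G (Ge V)) (l k0 : ℕ)
    {U : Finset (G × G)} (h : ∀ k, ¬ src.Ys k ⊆ U) (h' : ∀ k, ¬ src'.Ys k ⊆ U) :
    B.K0 P i src l k0 U = B.K0 P i src' l k0 U :=
  K0_dead B P i src src' l k0 (fun k _ h2 => absurd h2 (h k)) fun k _ h2 => absurd h2 (h' k)

/-- **(1)** no dependence on `t` -/
theorem K0_t (B : Bg G) (P : MPar) (i : Fld G →ₗ[ℝ] V) {src src' : Srcs (Fin 1) G (Ge V)}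
    {Y Y' : Finset (G × G)} {S S' : Finset (EG G)} {t t' : ℝ} (hs : IsReal src Y S t)
    (hs' : IsReal src' Y' S' t') (l k0 : ℕ) {f₀ : G × G} (h1 : f₀ ∈ Y) (h1' : f₀ ∈ Y')
    {U : Finset (G × G)} (h : f₀ ∉ U) :
    B.K0 P i src l k0 U = B.K0 P i src' l k0 U := by
  refine K0_far B P i src src' l k0 (fun k hk => ?_) fun k hk => ?_
  · obtain rfl : k = 0 := Subsingleton.elim _ _
    rw [hs.Ys] at hk
    exact h (hk h1)
  · obtain rfl : k = 0 := Subsingleton.elim _ _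
    rw [hs'.Ys] at hk
    exact h (hk h1')

/-- **(1)** the real source can be dropped away from its support -/
theorem K0_off (B : Bg G) (P : MPar) (i : Fld G →ₗ[ℝ] V) {src : Srcs (Fin 1) G (Ge V)}
    {Y : Finset (G × G)} {S : Finset (EG G)} {t : ℝ} (hs : IsReal src Y S t) (l k0 : ℕ)
    {U : Finset (G × G)} (h : ¬ Y ⊆ U) :
    B.K0 P i src l k0 U = B.K0 P i (noSrc G (Ge V)) l k0 U := by
  refine K0_far B P i src _ l k0 (fun k hk => ?_) fun k => k.elim0
  obtain rfl : k = 0 := Subsingleton.elim _ _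
  rw [hs.Ys] at hk
  exact h hk

/-- **(1)** `t = 0` is the system without source -/
theorem K0_zero (B : Bg G) (P : MPar) (i : Fld G →ₗ[ℝ] V) {src : Srcs (Fin 1) G (Ge V)}
    {Y : Finset (G × G)} {S : Finset (EG G)} (hs : IsReal src Y S 0) (l k0 : ℕ)
    (U : Finset (G × G)) :
    B.K0 P i src l k0 U = B.K0 P i (noSrc G (Ge V)) l k0 U := by
  refine K0_dead B P i src _ l k0 (fun k _ _ => ?_) fun k => k.elim0
  obtain rfl : k = 0 := Subsingleton.elim _ _
  rw [hs.as, map_zero]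

end real

theorem fst_mem_of_faE {S : Finset (EG G)} {Y : Finset (G × G)} (hS : ∀ e ∈ S, faE e ⊆ Y)
    {e : EG G} (he : e ∈ S) : e.1 ∈ Y := hS e he (Bk.fst_mem_faE e)

/-- the bond polynomial of a real source is transported -/
theorem em_prod {ψ : G × G → G' × G'} {S : Finset (EG G)} {Y : Finset (G × G)}
    (hS : ∀ e ∈ S, faE e ⊆ Y) (hψ : Set.InjOn ψ Y) :
    (∏ e' ∈ S.image (ebm ψ), ep (Finsupp.single e' 1) : RR (EG G')) =
      em (ebm ψ) (∏ e ∈ S, ep (Finsupp.single e 1)) := by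
  rw [Finset.prod_image fun e he e' he' h => ebm_injOn hψ (hS e he) (hS e' he') h, map_prod]
  refine Finset.prod_congr rfl fun e _ => ?_
  rw [em_ep, Finsupp.mapDomain_single]

/-- **(2) the initial activities with real sources correspond** -/
theorem K0_iso_src {B : Bg G} {B' : Bg G'} {Z : Set (G × G)} (b : BgIso B.w B'.w Z) (P : MPar)
    (l k0 : ℕ) {U : Finset (G × G)} (hU : ∀ f ∈ U, ball f 1 ⊆ Z)
    (htch : ∀ f ∈ U, (B.tch f ↔ B'.tch (b.τ f)))
    (hok : ∀ u ∈ U, ∀ S ∈ Can P.R, Even S.card → (Yf S).image (fz u) ⊆ U →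
      (B.ok P.R u S ↔ B'.ok P.R (b.τ u) S))
    {src : Srcs (Fin 1) G (Ge (Fld G))} {src' : Srcs (Fin 1) G' (Ge (Fld G'))}
    {Y : Finset (G × G)} {Y' : Finset (G' × G')} {S : Finset (EG G)} {S' : Finset (EG G')} {t : ℝ}
    (hs : IsReal src Y S t) (hs' : IsReal src' Y' S' t) (hSY : ∀ e ∈ S, faE e ⊆ Y)
    (h1 : Y ⊆ U → Y' = Y.image b.τ ∧ S' = S.image (ebm b.τ))
    (h2 : Y' ⊆ U.image b.τ → Y ⊆ U) :
    mpG b.push (B.K0 P LinearMap.id src l k0 U) =
      B'.K0 P LinearMap.id src' l k0 (U.image b.τ) := by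
  have hUZ : ∀ f ∈ U, f ∈ Z := fun f hf => hU f hf (mem_ball_self f 1)
  refine K0_bg_src b P l k0 hU htch hok src src' some ?_ ?_ ?_
  · intro k hk hkU
    obtain rfl : k = 0 := Subsingleton.elim _ _
    rw [hs.Ys] at hk hkU
    obtain ⟨a1, a2⟩ := h1 hkU
    refine ⟨0, rfl, ?_, ?_, ?_⟩
    · rw [hs'.Ys, hs.Ys, a1]
    · rw [hs.as, hs'.as, AlgHom.commutes]
    · rw [hs'.Fs, hs.Fs, a2]
      exact em_prod hSY fun x hx y hy h => b.injOn (hUZ x (hkU hx)) (hUZ y (hkU hy)) h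
  · intro k _ _ l _ _ _
    exact Subsingleton.elim _ _
  · intro k' hk' hkU'
    obtain rfl : k' = 0 := Subsingleton.elim _ _
    rw [hs'.Ys] at hk' hkU'
    have h3 := h2 hkU'
    refine ⟨0, ?_, by rw [hs.Ys]; exact h3, rfl⟩
    rw [hs.Ys]
    rw [(h1 h3).1, Finset.image_nonempty] at hk'
    exact hk'

/-- all shapes allowed, all fields rescaled on both sides (plane, branch point, torus) -/
theorem hK0_top_src {B : Bg G} {B' : Bg G'} {Z : Set (G × G)} (b : BgIso B.w B'.w Z) (P : MPar)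
    (l k0 : ℕ) (a1 : ∀ f, B.tch f) (a2 : ∀ f, B'.tch f) (a3 : ∀ u S, B.ok P.R u S)
    (a4 : ∀ u S, B'.ok P.R u S)
    {src : Srcs (Fin 1) G (Ge (Fld G))} {src' : Srcs (Fin 1) G' (Ge (Fld G'))}
    {Y : Finset (G × G)} {Y' : Finset (G' × G')} {S : Finset (EG G)} {S' : Finset (EG G')} {t : ℝ}
    (hs : IsReal src Y S t) (hs' : IsReal src' Y' S' t) (hSY : ∀ e ∈ S, faE e ⊆ Y)
    (U : Finset (G × G)) (_ : U.Nonempty) (hU : nbhd (s2 * rr l k0 0) U ⊆ Z)
    (h1 : Y ⊆ U → Y' = Y.image b.τ ∧ S' = S.image (ebm b.τ))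
    (h2 : Y' ⊆ U.image b.τ → Y ⊆ U) :
    mpG b.push (B.K0 P LinearMap.id src l k0 U) =
      B'.K0 P LinearMap.id src' l k0 (U.image b.τ) :=
  K0_iso_src b P l k0 (fun _ hf => ball_of_nbhd hU hf) (fun _ _ => ⟨fun _ => a2 _, fun _ => a1 _⟩)
    (fun _ _ _ _ _ _ => ⟨fun _ => a4 _ _, fun _ => a3 _ _⟩) hs hs' hSY h1 h2

/-- domain / plane in the interior, identity chart, same real source -/
theorem hK0_dom_pl_src {T : Finset (ℤ × ℤ)} {bc : BoundaryCondition} {n : ℕ} {X : Fin n → ℤ × ℤ}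
    {B' : Bg ℤ} {Z : Set (ℤ × ℤ)} (b : BgIso (Bg.dom T bc X).w B'.w Z) (hτ : ∀ f, b.τ f = f)
    (hZ : ∀ f ∈ Z, cornersIn (T : Set (ℤ × ℤ)) f) (P : MPar) (l k0 : ℕ)
    (a2 : ∀ f, B'.tch f) (a4 : ∀ u S, B'.ok P.R u S)
    {src src' : Srcs (Fin 1) ℤ (Ge (Fld ℤ))}
    {Y : Finset (ℤ × ℤ)} {S : Finset (EG ℤ)} {t : ℝ}
    (hs : IsReal src Y S t) (hs' : IsReal src' Y S t) (hSY : ∀ e ∈ S, faE e ⊆ Y)
    (U : Finset (ℤ × ℤ)) (_ : U.Nonempty) (hU : nbhd (s2 * rr l k0 0) U ⊆ Z) :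
    mpG b.push ((Bg.dom T bc X).K0 P LinearMap.id src l k0 U) =
      B'.K0 P LinearMap.id src' l k0 (U.image b.τ) := by
  have hid : b.τ = id := funext hτ
  have hUZ : ∀ f ∈ U, f ∈ Z := fun f hf => ball_of_nbhd hU hf (mem_ball_self f 1)
  refine K0_iso_src b P l k0 (fun _ hf => ball_of_nbhd hU hf) (fun f hf => ?_)
    (fun u _ S hS _ hSU => ?_) hs hs' hSY ?_ ?_
  · refine ⟨fun _ => a2 _, fun _ => Or.inl ?_⟩
    exact Finset.mem_coe.1 (hZ f (hUZ f hf)).1
  · refine ⟨fun _ => a4 _ _, fun _ => ?_⟩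
    exact ok_of_corners hS hSU fun f hf => Finset.mem_coe.1 (hZ f (hUZ f hf)).1
  · intro _
    have he : (ebm (id : ℤ × ℤ → ℤ × ℤ)) = (id : EG ℤ → EG ℤ) := rfl
    rw [hid, he, Finset.image_id, Finset.image_id]
    exact ⟨rfl, rfl⟩
  · intro h
    rw [hid, Finset.image_id] at h
    exact h

/-- same sites, different insertions, identity chart, same real source -/
theorem hK0_same_src {T : Finset (ℤ × ℤ)} {bc : BoundaryCondition} {n m : ℕ} {X : Fin n → ℤ × ℤ}
    {X' : Fin m → ℤ × ℤ} {Z : Set (ℤ × ℤ)} (b : BgIso (Bg.dom T bc X).w (Bg.dom T bc X').w Z)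
    (hτ : ∀ f, b.τ f = f) (P : MPar) (l k0 : ℕ)
    {src src' : Srcs (Fin 1) ℤ (Ge (Fld ℤ))}
    {Y : Finset (ℤ × ℤ)} {S : Finset (EG ℤ)} {t : ℝ}
    (hs : IsReal src Y S t) (hs' : IsReal src' Y S t) (hSY : ∀ e ∈ S, faE e ⊆ Y)
    (U : Finset (ℤ × ℤ)) (_ : U.Nonempty) (hU : nbhd (s2 * rr l k0 0) U ⊆ Z) :
    mpG b.push ((Bg.dom T bc X).K0 P LinearMap.id src l k0 U) =
      (Bg.dom T bc X').K0 P LinearMap.id src' l k0 (U.image b.τ) := by
  have hid : b.τ = id := funext hτ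
  refine K0_iso_src b P l k0 (fun _ hf => ball_of_nbhd hU hf)
    (fun f _ => by rw [hτ]; exact Iff.rfl) (fun u _ S _ _ _ => by rw [hτ]; exact Iff.rfl)
    hs hs' hSY ?_ ?_
  · intro _
    have he : (ebm (id : ℤ × ℤ → ℤ × ℤ)) = (id : EG ℤ → EG ℤ) := rfl
    rw [hid, he, Finset.image_id, Finset.image_id]
    exact ⟨rfl, rfl⟩
  · intro h
    rw [hid, Finset.image_id] at h
    exact h

end Crest.Agent.R165.K0Srcx722
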