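import Crest.Agent.R165.J4Lnk1_653
import Crest.Agent.R165.TorusJ2_922
import Crest.Agent.R165.Sym_541

/-!
# Row 165 (S0250), block J4: products over (position, canonical shape); torus link (helper653)

* `GT_prod`   : `GT T b R t = ∏_u ∏_{A ∈ Can R, tr A u ∈ BB} (1 + em (trEd u) (kB (t A) A))`
* `torEd L u` : bonds of `ℤ²` read on the torus, translated by `u`
* `GTor L R t = ∏_u ∏_{A ∈ Can R} (1 + em (torEd L u) (kB (t A) A))`
* `torBonds_link` : `⟨∏_{e ∈ S} eps_e⟩_{torus, lam} = Z4 (eps_S * GTor) / Z4 GTor`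
-/

set_option autoImplicit false

noncomputable section

open Finset
open Crest.ProbabilityR.IsingModel

namespace Crest.Agent.R165.J4Lnkx653

open Crest.Agent.R165.J4Defx653 Crest.Agent.R165.J4RRx653 Crest.Agent.R165.J4Pathx653
open Crest.Agent.R165.TorusJ2x922 (Z4 evT evT_mul evT_prod torusExpect_RR pertT)
open Crest.Agent.R165.Symx541 (torBonds)

/-! ### the domain polynomial through canonical shapes -/

theorem BB_prod (T : Finset (ℤ × ℤ)) (b : BoundaryCondition) (R : ℕ) {M : Type*} [CommMonoid M]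
    (g : Finset (ℤ × ℤ) → M) (hr : ∀ B, g B ≠ 1 → ∀ x ∈ B, ∀ y ∈ B,
      |x.1 - y.1| ≤ (R : ℤ) ∧ |x.2 - y.2| ≤ (R : ℤ)) :
    ∏ B ∈ BB T b R, g B =
      ∏ u ∈ thick T R, ∏ A ∈ (Can R).filter (fun A => tr A u ∈ BB T b R), g (tr A u) := by
  rw [Finset.prod_sigma']
  symm
  refine Finset.prod_bij_ne_one (fun p _ _ => tr p.2 p.1) ?_ ?_ ?_ ?_
  · rintro ⟨u, A⟩ h _
    simp only [mem_sigma, mem_filter] at h
    exact h.2.2
  · rintro ⟨u, A⟩ h _ ⟨u', A'⟩ h' _ heq
    simp only [mem_sigma, mem_filter] at h h'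
    dsimp only at heq
    have hm := ((mem_Can.1 h.2.1).2).tr u
    have hm' := ((mem_Can.1 h'.2.1).2).tr u'
    rw [heq] at hm
    have hu : u = u' := by simpa using hm.unique hm'
    subst hu
    have := tr_injective u heq
    subst this
    rfl
  · intro B hB hne
    have hB' := mem_BB.1 hB
    have hBne : B.Nonempty := by
      obtain ⟨x, hx⟩ := hB'.2.2
      exact ⟨x, (mem_inter.1 hx).1⟩
    obtain ⟨m, hm⟩ := exists_lexMin hBne
    refine ⟨⟨m, tr B (-m)⟩, ?_, ?_, ?_⟩
    · simp only [mem_sigma, mem_filter]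
      refine ⟨hB'.1 hm.1, mem_Can.2 ⟨?_, ?_⟩, ?_⟩
      · intro x hx
        rw [mem_tr] at hx
        have := hr B hne _ hx _ hm.1
        rw [mem_bx]
        simpa using this
      · simpa using hm.tr (-m)
      · rw [tr_tr]; simpa using hB
    · dsimp only
      rw [tr_tr]
      simpa using hne
    · dsimp only
      rw [tr_tr]; simp
  · rintro ⟨u, A⟩ _ _
    rfl

theorem GT_prod (T : Finset (ℤ × ℤ)) (b : BoundaryCondition) (R : ℕ)
    (t : Finset (ℤ × ℤ) → ℝ) (ht : TrInv t) (hr : Rng R t) :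
    GT T b R t = ∏ u ∈ thick T R, ∏ A ∈ (Can R).filter (fun A => tr A u ∈ BB T b R),
      (1 + em (trEd u) (kB (t A) A)) := by
  rw [GT, BB_prod T b R (fun B => 1 + kB (t B) B)]
  · refine Finset.prod_congr rfl fun u _ => Finset.prod_congr rfl fun A hA => ?_
    rw [ht, kB_tr _ _ (Can.nonempty (Finset.mem_filter.1 hA).1)]
  · intro B hB
    refine hr B fun h0 => hB ?_
    rw [h0, kB_zero, add_zero]

/-- the range of the total potential -/
theorem tpot_rng {J lam β : ℝ} {R : ℕ} {V : Finset (ℤ × ℤ) → ℝ} (hr : Rng R V) :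
    Rng (max R 1) (tpot J lam β V) := by
  classical
  intro A hA x hx y hy
  by_cases h1 : V A = 0
  · by_cases h2 : IsNN A
    · obtain ⟨e, rfl⟩ := h2
      have h3 : (1 : ℤ) ≤ ((max R 1 : ℕ) : ℤ) := by exact_mod_cast le_max_right R 1
      obtain ⟨⟨z1, z2⟩, j⟩ := e
      simp only [pr, mem_insert, mem_singleton] at hx hy
      fin_cases j <;> simp only [Fin.zero_eta, Fin.mk_one, unitVec_zero, unitVec_one,
        Prod.mk_add_mk, add_zero] at hx hy <;>
      rcases hx with rfl | rfl <;> rcases hy with rfl | rfl <;> simp <;> omega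
    · exact absurd (by unfold tpot; rw [if_neg h2, h1]; ring) hA
  · have := hr A h1 x hx y hy
    have h3 : (R : ℤ) ≤ ((max R 1 : ℕ) : ℤ) := by exact_mod_cast le_max_left R 1
    exact ⟨this.1.trans h3, this.2.trans h3⟩

/-! ### the torus -/

section torus

variable {L : ℕ}

/-- bonds of the torus -/
abbrev EdT (L : ℕ) : Type := (ZMod L × ZMod L) × Fin 2

/-- a bond of the plane read on the torus, translated by `u` -/
def torEd (L : ℕ) (u : ZMod L × ZMod L) (e : Ed) : EdT L := (u + toTorus L e.1, e.2)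

theorem epsT_torEd (σ : TorusConfig L) (u : ZMod L × ZMod L) (e : Ed) :
    J4Defx653.epsT σ (torEd L u e) = epsE (fun z => σ (u + toTorus L z)) e := by
  unfold J4Defx653.epsT torEd epsE
  simp only [toTorus_add, add_assoc]

theorem sT_eq (σ : TorusConfig L) (u : ZMod L × ZMod L) (A : Finset (ℤ × ℤ)) :
    sT σ u A = sB (fun z => σ (u + toTorus L z)) A := rfl

theorem epsT_sq' (σ : TorusConfig L) (e : EdT L) :
    J4Defx653.epsT σ e * J4Defx653.epsT σ e = 1 := by
  unfold J4Defx653.epsT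
  rw [mul_mul_mul_comm, spinSign_sq, spinSign_sq, one_mul]

variable [NeZero L]

theorem evT_eq (σ : TorusConfig L) (F : RR (EdT L)) : evT σ F = TH (J4Defx653.epsT σ) F := by
  unfold evT
  congr 1
  exact congrArg _ (funext fun e => (TorusJ2x922.epsT_eq_653 σ e).symm)

/-- evaluation of an element of the plane algebra read on the torus -/
theorem evT_em (σ : TorusConfig L) (u : ZMod L × ZMod L) (F : RR Ed) :
    evT σ (em (torEd L u) F) = TH (epsE fun z => σ (u + toTorus L z)) F := by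
  rw [evT_eq, TH_em_sq _ _ (epsT_sq' σ)]
  congr 1
  exact congrArg _ (funext fun e => epsT_torEd σ u e)

/-- the polynomial in the bonds of the perturbation, torus -/
def GTor (L : ℕ) [NeZero L] (R : ℕ) (t : Finset (ℤ × ℤ) → ℝ) : RR (EdT L) :=
  ∏ u : ZMod L × ZMod L, ∏ A ∈ Can R, (1 + em (torEd L u) (kB (t A) A))

theorem GTor_eval (R : ℕ) (t : Finset (ℤ × ℤ) → ℝ) (ht : ∀ B, t B ≠ 0 → Even B.card)
    (σ : TorusConfig L) :
    evT σ (GTor L R t) = Real.exp (∑ u : ZMod L × ZMod L, ∑ A ∈ Can R, t A * sT σ u A) := by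
  rw [GTor, evT_prod, Real.exp_sum]
  refine Finset.prod_congr rfl fun u _ => ?_
  rw [evT_prod, Real.exp_sum]
  refine Finset.prod_congr rfl fun A _ => ?_
  have h1 : evT σ (1 + em (torEd L u) (kB (t A) A)) = evT σ (em (torEd L u) (1 + kB (t A) A)) := by
    rw [map_add, map_one]
  rw [h1, evT_em, sT_eq]
  by_cases h : t A = 0
  · simp [h]
  · exact kB_eval _ _ (ht A h) _

/-- the monomial of a finite set of bonds of the plane, read on the torus -/
def epTor (L : ℕ) (S : Finset Ed) : RR (EdT L) :=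
  ∏ e ∈ S, ep (Finsupp.single (torEd L 0 e) 1)

theorem epTor_eval (S : Finset Ed) (σ : TorusConfig L) :
    evT σ (epTor L S) = ∏ e ∈ S, epsE (fun z => σ (toTorus L z)) e := by
  rw [epTor, evT_prod]
  refine Finset.prod_congr rfl fun e _ => ?_
  have h1 : (ep (Finsupp.single (torEd L 0 e) 1) : RR (EdT L)) =
      em (torEd L 0) (ep (Finsupp.single e 1)) := by
    rw [em_ep, Finsupp.mapDomain_single]
  rw [h1, evT_em, TH_single]
  simp only [zero_add]

/-- **the link, torus**: bond correlations of the perturbed model as ratios of four-sector sums -/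
theorem torusBonds_link (hL : 2 ≤ L) {J : ℝ} (hJ : J ≠ 0) (lam β : ℝ) (R : ℕ)
    (V : Finset (ℤ × ℤ) → ℝ) (hV : TrInv V) (hr : Rng R V) (hev : ∀ A, V A ≠ 0 → Even A.card)
    (S : Finset Ed) :
    torusExpect L J lam R V β (fun σ => ∏ e ∈ S, epsE (fun z => σ (toTorus L z)) e) =
      Z4 (epTor L S * GTor L (max R 1) (tpot J lam β V)) /
        Z4 (GTor L (max R 1) (tpot J lam β V)) := by
  refine torusExpect_RR hL hJ lam β R V hV hr _ _ _ ?_ ?_
  · intro σ
    rw [evT_mul, epTor_eval, GTor_eval _ _ (tpot_even hev)]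
    rfl
  · intro σ
    rw [GTor_eval _ _ (tpot_even hev)]
    rfl

end torus

/-- **the link, torus** in the form of `PRatioB` (side `L + 1`) -/
theorem torBonds_link {L : ℕ} (hL : 1 ≤ L) {J : ℝ} (hJ : J ≠ 0) (lam β : ℝ) (R : ℕ)
    (V : Finset (ℤ × ℤ) → ℝ) (hV : TrInv V) (hr : Rng R V) (hev : ∀ A, V A ≠ 0 → Even A.card)
    (S : Finset Ed) :
    torBonds L J lam R V β S =
      Z4 (epTor (L + 1) S * GTor (L + 1) (max R 1) (tpot J lam β V)) /
        Z4 (GTor (L + 1) (max R 1) (tpot J lam β V)) :=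
  torusBonds_link (by omega) hJ lam β R V hV hr hev S

end Crest.Agent.R165.J4Lnkx653
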