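import Crest.Agent.R165.J4K0Map_126
import Crest.Agent.R165.J4Lnk2_653
import Crest.Agent.R165.SrcDef_991
import Crest.Agent.R165.KInit_892
import Crest.Agent.R165.GSys_387
import Crest.Agent.R165.TorChart_723

/-!
# Row 165 (S0250), block F: THE LIST OF BACKGROUNDS AND THE SYSTEMS (helper683)

* `frG ι`      : the algebraic frame of 126 in `Ge V`, fields through `ι : Fld G →ₗ V`
* `MPar`, `mpar J lam R V β z` : potential, range, field rescaling (`s_f² = 1 + z`)
* `Srcs`       : local sources; `noSrc`, `bondSrc e` (`1 + τ_i (eps_{e_i} - 1)`),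
                 `realSrc f₀ S t` (`1 + t ∏_{e ∈ S} eps_e`, mark `f₀`)
* `Bg G`       : a background = signed weights, faces with rescaled fields, allowed shapes;
                 `Bg.pl`, `Bg.br x`, `Bg.dom T b X`, `Bg.tor M ε₁ ε₂`
* `Bg.bk`      : the instance of 126's `Bk`;  `Bg.K00` : activities of 126;
  `Bg.K0 l k0` : reclustered at the touching relation of step `0` (892's `K1`)
* `Bg.flow`    : **the flow without source generators** (`GSysx387.sys`; real source, marks `mk`)
* `Bg.flowS`   : **the flow with `m` sources** (`GSysx387.sysS`)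
-/

set_option autoImplicit false
set_option linter.unusedSectionVars false

noncomputable section

open Crest.ProbabilityR.IsingModel
open Crest.Agent.R165.Gr0x606 Crest.Agent.R165.Gr1x606 Crest.Agent.R165.GeOpsx337
open Crest.Agent.R165.GDefx387 Crest.Agent.R165.GSysx387 Crest.Agent.R165.KFlowx337
open Crest.Agent.R165.KInitx892 Crest.Agent.R165.SrcDefx991 Crest.Agent.R165.FRDPolyx439
open Crest.Agent.R165.BgIsox432 Crest.Agent.R165.TorChartx723
open Crest.Agent.R165.J4K0x126 Crest.Agent.R165.J4Geox126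
open Crest.Agent.R165.J4Defx653 (tpot BB tr)
open Crest.Agent.R165.J4RRx653 (RR ep RIn ep_mem_RIn TH)
open Crest.Agent.R165.J1ax606 (pe qe)
open Crest.Agent.R165.Latx683 (xc wPl wDom wX BW HE Fld)

namespace Crest.Agent.R165.Bkgx683

/-- bonds -/
abbrev EG (G : Type) : Type := (G × G) × Fin 2

section

variable {G : Type} [CommRing G]
variable {V : Type*} [AddCommGroup V] [Module ℝ V]

/-- the algebraic frame: the bilinears of the bonds and the intra-face quadratic forms -/
def frG (ι : Fld G →ₗ[ℝ] V) : Fr G (Ge V) where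
  b e := bi (ι (Finsupp.single (pe e) 1)) (ι (Finsupp.single (qe e) 1))
  I4 f := ∑ p ∈ (Finset.univ : Finset (Fin 4 × Fin 4)).filter (fun p => p.1 < p.2),
    bi (ι (Finsupp.single (f, p.1) 1)) (ι (Finsupp.single (f, p.2) 1))

theorem frG_b (ι : Fld G →ₗ[ℝ] V) (e : EG G) :
    (frG ι).b e = bi (ι (Finsupp.single (pe e) 1)) (ι (Finsupp.single (qe e) 1)) := rfl

theorem frG_I4 (ι : Fld G →ₗ[ℝ] V) (f : G × G) :
    (frG ι).I4 f = ∑ p ∈ (Finset.univ : Finset (Fin 4 × Fin 4)).filter (fun p => p.1 < p.2),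
      bi (ι (Finsupp.single (f, p.1) 1)) (ι (Finsupp.single (f, p.2) 1)) := rfl

end

/-! ### parameters -/

/-- the parameters of the model: potential on canonical shapes, range, rescaling -/
structure MPar where
  /-- potential -/
  t : Finset (ℤ × ℤ) → ℝ
  /-- range -/
  R : ℕ
  /-- rescaling of the fields: `s_f² = 1 + z` -/
  z : ℝ

/-- the parameters of the perturbed Ising model -/
def mpar (J lam : ℝ) (R : ℕ) (V : Finset (ℤ × ℤ) → ℝ) (β z : ℝ) : MPar :=
  ⟨tpot J lam β V, max R 1, z⟩

/-! ### sources -/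

/-- local sources -/
structure Srcs (κ : Type) (G : Type) [CommRing G] [DecidableEq G] (A : Type*) [CommRing A] where
  /-- supports -/
  Ys : κ → Finset (G × G)
  /-- constants -/
  as : κ → A
  /-- bond polynomials -/
  Fs : κ → RR (EG G)
  Fs_mem : ∀ k, Fs k ∈ RIn {e | faE e ⊆ Ys k}

section src

variable {G : Type} [CommRing G] [DecidableEq G]

/-- no source -/
def noSrc (G : Type) [CommRing G] [DecidableEq G] (A : Type*) [CommRing A] : Srcs (Fin 0) G A where
  Ys _ := ∅
  as _ := 0
  Fs _ := 0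
  Fs_mem k := k.elim0

/-- bond sources `1 + τ_i (eps_{e_i} - 1)` -/
def bondSrc (V : Type*) [AddCommGroup V] [Module ℝ V] {m : ℕ} (e : Fin m → EG G) :
    Srcs (Fin m) G (Ge (VS V m)) where
  Ys i := faE (e i)
  as i := tau i
  Fs i := ep (Finsupp.single (e i) 1) - 1
  Fs_mem i := by
    refine Subalgebra.sub_mem _ (ep_mem_RIn ?_) (Subalgebra.one_mem _)
    intro x hx
    rw [Finsupp.support_single _ one_ne_zero, Finset.mem_coe, Finset.mem_singleton] at hx
    subst hx
    exact Finset.Subset.refl _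

/-- a real source `1 + t ∏_{e ∈ S} eps_e` with the mark `f₀` -/
def realSrc (A : Type*) [CommRing A] [Algebra ℝ A] (f₀ : G × G) (S : Finset (EG G)) (t : ℝ) :
    Srcs (Fin 1) G A where
  Ys _ := insert f₀ (S.biUnion faE)
  as _ := algebraMap ℝ A t
  Fs _ := ∏ e ∈ S, ep (Finsupp.single e 1)
  Fs_mem _ := by
    refine Subalgebra.prod_mem _ fun e he => ep_mem_RIn ?_
    intro x hx
    rw [Finsupp.support_single _ one_ne_zero, Finset.mem_coe, Finset.mem_singleton] at hx
    subst hx
    exact (Finset.subset_biUnion_of_mem _ he).trans (Finset.subset_insert _ _)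

end src

/-! ### backgrounds -/

/-- a background -/
structure Bg (G : Type) where
  /-- signed weights -/
  w : BW G
  /-- the faces with rescaled fields -/
  tch : G × G → Prop
  /-- the allowed shapes, given the range -/
  ok : ℕ → G × G → Finset (ℤ × ℤ) → Prop

/-- face `f` has a corner in `T` -/
def cor (T : Finset (ℤ × ℤ)) (f : ℤ × ℤ) : Prop :=
  f ∈ T ∨ (f.1 + 1, f.2) ∈ T ∨ (f.1, f.2 + 1) ∈ T ∨ (f.1 + 1, f.2 + 1) ∈ T

/-- free boundary condition -/
abbrev isF (b : BoundaryCondition) : Bool := decide (b = BoundaryCondition.free)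

namespace Bg

/-- the plane -/
def pl : Bg ℤ := ⟨wPl ℤ, fun _ => True, fun _ _ _ => True⟩

/-- the plane with one branch point -/
def br (x : ℤ × ℤ) : Bg ℤ := ⟨wX (wPl ℤ) ![x], fun _ => True, fun _ _ _ => True⟩

/-- the domain `T` (free or plus boundary condition) with the insertions `X` -/
def dom (T : Finset (ℤ × ℤ)) (b : BoundaryCondition) {n : ℕ} (X : Fin n → ℤ × ℤ) : Bg ℤ :=
  ⟨wX (wDom (T : Set (ℤ × ℤ)) (isF b)) X, cor T, fun R u S => tr S u ∈ BB T b R⟩

/-- the torus of side `M` in a sector -/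
def tor (M : ℕ) (ε₁ ε₂ : ℝ) : Bg (ZMod M) := ⟨wTor M ε₁ ε₂, fun _ => True, fun _ _ _ => True⟩

section bk

variable {G : Type} [CommRing G] [DecidableEq G] (B : Bg G) (P : MPar)
variable {κ : Type} {A : Type*} [CommRing A] [Algebra ℝ A]

open Classical in
/-- rescaling of the fields -/
def sc (f : G × G) : ℝ := if B.tch f then Real.sqrt (1 + P.z) else 1

/-- the background as an instance of 126's `Bk` -/
def bk (src : Srcs κ G A) : Bk G κ A where
  y e := B.w e.1 e.2
  s := B.sc P
  ok := B.ok P.R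
  t := P.t
  R := P.R
  Ys := src.Ys
  as := src.as
  Fs := src.Fs
  Fs_mem := src.Fs_mem

/-- the initial activities of 126 (hard core: equality) -/
def K00 [DecidableEq κ] [Fintype κ] {V : Type*} [AddCommGroup V] [Module ℝ V] (ι : Fld G →ₗ[ℝ] V)
    (src : Srcs κ G (Ge V)) : Finset (G × G) → Ge V := (B.bk P src).K0 (frG ι)

variable [CN G]

/-- **the initial activities**, reclustered at the touching relation of step `0` -/
def K0 [DecidableEq κ] [Fintype κ] {V : Type*} [AddCommGroup V] [Module ℝ V] (ι : Fld G →ₗ[ℝ] V)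
    (src : Srcs κ G (Ge V)) (l k0 : ℕ) : Finset (G × G) → Ge V :=
  K1 (near l k0 0) (B.K00 P ι src)

/-- **the flow** without source generators (`src` = `noSrc` or `realSrc`; `mk` = marks) -/
def flow [CNZ G] [DecidableEq κ] [Fintype κ] {M K : ℕ} (D : FRD 16 M K) (mk : Finset (G × G))
    (src : Srcs κ G (Ge (Fld G))) (l k0 : ℕ) : Sys (G × G) (Fld G) :=
  sys D B.w mk l k0 (B.K0 P LinearMap.id src l k0)

/-- **the flow** with `m` bond sources; `e2` = the extraction of the source terms -/
def flowS [CNZ G] {M K m : ℕ} (D : FRD 16 M K) (mk : Finset (G × G)) (e : Fin m → EG G)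
    (e2 : ℕ → Extr (G × G) (VS (Fld G) m)) (l k0 : ℕ) : Sys (G × G) (VS (Fld G) m) :=
  sysS D B.w mk l k0 (fun i => faE (e i)) e2
    (B.K0 P (LinearMap.inl ℝ (Fld G) (Src m)) (bondSrc (Fld G) e) l k0)

end bk

end Bg

end Crest.Agent.R165.Bkgx683
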