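import Crest.Agent.R165.Bkg_683
import Crest.Agent.R165.PEnd_683
import Crest.Agent.R165.SpinSys_892

/-!
# Row 165 (S0250), block F: the literal names of the outputs of the flow (helper683)

* `DD` : the decomposition of the covariances (439)
* `plF c P`, `brF c P x`, `domF c P T b X`, `torF c P M ε₁ ε₂` : the flows (no sources) with the
  constants `c : Cst` and the model parameters `P : MPar`
* `fl`, `flt` : the flow of any background without source / with the real source
  `1 + t ∏_{e ∈ S} eps_e` and the mark `f₀`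
* `amp c n = A₀ (1 + δ n)` : the amplitudes of the weights
* `PF J R V C c lam β z` : the plane flow is controlled (output of the shooting, P7)
* `zetaK`, `Zs` : the spin renormalisation
-/

set_option autoImplicit false
set_option linter.unusedSectionVars false

noncomputable section

open scoped ENNReal
open Crest.ProbabilityR.IsingModel
open Crest.Agent.R165.Gr0x606 Crest.Agent.R165.Gr1x606 Crest.Agent.R165.GeOpsx337
open Crest.Agent.R165.Latx683 Crest.Agent.R165.GDefx387 Crest.Agent.R165.GSysx387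
open Crest.Agent.R165.KFlowx337 Crest.Agent.R165.Telx337 Crest.Agent.R165.FRDPolyx439
open Crest.Agent.R165.BgIsox432
open Crest.Agent.R165.Bkgx683 Crest.Agent.R165.PEndx683

namespace Crest.Agent.R165.Outx683

/-- the polynomial decomposition used for all backgrounds -/
def DD : FRD 16 8 64 := frd 16 (by norm_num) 8 64 (by norm_num)

/-- the amplitudes of the weights -/
def amp (c : Cst) (n : ℕ) : ℝ := c.A0 * (1 + c.δ * n)

/-! ### the flows -/

/-- the flow of a background without sources -/
def fl {G : Type} [CommRing G] [CN G] [CNZ G] [DecidableEq G] (c : Cst) (P : MPar) (B : Bg G) :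
    Sys (G × G) (Fld G) := B.flow P DD ∅ (noSrc G (Ge (Fld G))) c.p c.k0

/-- the flow of a background with the real source `1 + t ∏_{e ∈ S} eps_e` and the mark `f₀` -/
def flt {G : Type} [CommRing G] [CN G] [CNZ G] [DecidableEq G] (c : Cst) (P : MPar) (B : Bg G)
    (f₀ : G × G) (S : Finset (Bkgx683.EG G)) (t : ℝ) : Sys (G × G) (Fld G) :=
  B.flow P DD {f₀} (realSrc (Ge (Fld G)) f₀ S t) c.p c.k0

/-- the plane -/
abbrev plF (c : Cst) (P : MPar) : Sys (ℤ × ℤ) (Fld ℤ) := fl c P Bg.pl

/-- the plane with one branch point -/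
abbrev brF (c : Cst) (P : MPar) (x : ℤ × ℤ) : Sys (ℤ × ℤ) (Fld ℤ) := fl c P (Bg.br x)

/-- the domain `T` with the insertions `X` -/
abbrev domF (c : Cst) (P : MPar) (T : Finset (ℤ × ℤ)) (b : BoundaryCondition) {n : ℕ}
    (X : Fin n → ℤ × ℤ) : Sys (ℤ × ℤ) (Fld ℤ) := fl c P (Bg.dom T b X)

/-- a sector of the torus of side `M` -/
abbrev torF (c : Cst) (P : MPar) (M : ℕ) [NeZero M] (ε₁ ε₂ : ℝ) :
    Sys (ZMod M × ZMod M) (Fld (ZMod M)) := fl c P (Bg.tor M ε₁ ε₂)

/-! ### the controlled plane flow -/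

/-- **the field `PF` of `FlowOut`**: the plane flow is controlled with the constant `C`, constant
amplitude `A₀`, rate `1/4` -/
def PF (J : ℝ) (R : ℕ) (V : Finset (ℤ × ℤ) → ℝ) (C : ℝ) (c : Cst) (lam β z : ℝ) : Prop :=
  ∀ n, NK (wPl ℤ) c.A0 (rr c.p c.k0 n) (ENNReal.ofReal c.Γ) (fun _ => True)
    (fun U => (((plF c (mpar J lam R V β z)).K n U : Ge (Fld ℤ)) : Gr (Fld ℤ))) ≤
      ENNReal.ofReal (C * |lam| * (1 / 4) ^ n)

/-! ### the spin renormalisation -/

/-- the contribution of one branch point at step `k` -/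
def zetaK (c : Cst) (P : MPar) (k : ℕ) : ℝ :=
  ∑' U, (cc (brF c P 0) k U - cc (plF c P) k U)

/-- **the field `Zs` of `FlowOut`** -/
def Zs (J : ℝ) (R : ℕ) (V : Finset (ℤ × ℤ) → ℝ) (c : Cst) (lam β z : ℝ) : ℝ :=
  Real.exp (∑' k, zetaK c (mpar J lam R V β z) k)

end Crest.Agent.R165.Outx683
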