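import Crest.Agent.R165.Comp3_889
import Crest.Agent.R165.StepGlue_897
import Crest.Agent.R165.SpinSys_892
import Crest.Agent.R165.Out_683

/-!
# Row 165, block F, leaf P8: the norm bounds in real form, at the scales of `GSys_387` (helper889)

* `Ctl c CF a D w ac em K`  : the flow `D` is controlled up to step `K` (structure `Str`, and
  `StepOK` at every step, contraction `1/4`, first order constant `CF`)
* `Ctl.bound`  : deep part `≤ m t 2^-k`, initial defect part `≤ m t` ⟹ everything `≤ M t 2^-k`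
* `CtlJ`, `CtlJ.bound` : the same with crude steps
* `Ctl.bd` : the bounds of the constants as `SpinSysx892.Bd`
-/

set_option autoImplicit false
set_option linter.unusedSectionVars false

noncomputable section

open scoped ENNReal

namespace Crest.Agent.R165.Compx889

open Crest.Agent.R165.Gr0x606 Crest.Agent.R165.Gr1x606 Crest.Agent.R165.GeOpsx337
  Crest.Agent.R165.ExpGx337 Crest.Agent.R165.KFlowx337
open Crest.Agent.R165.Latx683 Crest.Agent.R165.PNormx417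
open Crest.Agent.R165.GDefx387 Crest.Agent.R165.Packx915 Crest.Agent.R165.NSumx915
open Crest.Agent.R165.Bridgex915 Crest.Agent.R165.NKDefx915 Crest.Agent.R165.DefRecx915
open Crest.Agent.R165.GSysx387 Crest.Agent.R165.PEndx683 Crest.Agent.R165.Telx337
open Crest.Agent.R165.SpinSysx892

/-! ### real numbers -/

theorem half_eq : (1 / 2 : ℝ≥0∞) = ENNReal.ofReal (1 / 2) := by
  rw [ENNReal.ofReal_div_of_pos (by norm_num)]; simp

theorem half_le_one : (1 / 2 : ℝ≥0∞) ≤ 1 := by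
  rw [one_div]; exact ENNReal.inv_le_one.2 (by norm_num)

/-- a real threshold below a positive extended one -/
theorem exists_real_le {e₀ : ℝ≥0∞} (he₀ : e₀ ≠ 0) : ∃ ε₀ : ℝ, 0 < ε₀ ∧ ENNReal.ofReal ε₀ ≤ e₀ := by
  rcases eq_or_ne e₀ ∞ with h | h
  · exact ⟨1, one_pos, by rw [h]; exact le_top⟩
  · exact ⟨e₀.toReal, ENNReal.toReal_pos he₀ h, by rw [ENNReal.ofReal_toReal h]⟩

/-- a real bound above a finite extended one -/
theorem exists_real_ge {M₀ : ℝ≥0∞} (hM₀ : M₀ ≠ ∞) : ∃ M : ℝ, 0 < M ∧ M₀ ≤ ENNReal.ofReal M :=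
  ⟨M₀.toReal + 1, by positivity, by
    calc M₀ = ENNReal.ofReal M₀.toReal := (ENNReal.ofReal_toReal hM₀).symm
      _ ≤ _ := ENNReal.ofReal_le_ofReal (by linarith)⟩

theorem geo_real {t : ℝ} (ht : 0 ≤ t) (k : ℕ) :
    ENNReal.ofReal (t * (1 / 2) ^ k) = ENNReal.ofReal t * (1 / 2) ^ k := by
  rw [ENNReal.ofReal_mul ht, ENNReal.ofReal_pow (by norm_num), half_eq]

theorem geo_real' {M t : ℝ} (hM : 0 ≤ M) (ht : 0 ≤ t) (k : ℕ) :
    ENNReal.ofReal (M * t * (1 / 2) ^ k) =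
      ENNReal.ofReal M * (ENNReal.ofReal t * (1 / 2) ^ k) := by
  rw [mul_assoc, ENNReal.ofReal_mul hM, geo_real ht]

/-! ### controlled flows -/

section ctl

variable {G : Type} [CommRing G] [CN G] [DecidableEq G]

/-- the flow `D` on the background `w` is controlled up to step `K`; amplitudes `a`, active
polymers `ac`, deep polymers `em`, first order constant `CF` -/
structure Ctl (c : Cst) (CF : ℝ≥0∞) (a : ℕ → ℝ) (D : Sys (G × G) (Fld G)) (w : BW G)
    (ac em : ℕ → Finset (G × G) → Prop) (K : ℕ) : Prop where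
  str : Str D (rr c.p c.k0) (nearR c.p c.k0) (ENNReal.ofReal c.Γ) ac em K
  step : ∀ k, k < K → StepOK D w (ENNReal.ofReal c.Γ) k (a k) (a (k + 1)) (rr c.p c.k0 k)
    (rr c.p c.k0 (k + 1)) (ac k) (em k) (1 / 4) CF

/-- the same with crude steps (`¬ good`), constant `CF'`, at most `J` of them -/
structure CtlJ (c : Cst) (CF CF' : ℝ≥0∞) (J : ℕ) (good : ℕ → Prop) (a : ℕ → ℝ)
    (D : Sys (G × G) (Fld G)) (w : BW G) (ac em : ℕ → Finset (G × G) → Prop) (K : ℕ) : Prop where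
  str : Str D (rr c.p c.k0) (nearR c.p c.k0) (ENNReal.ofReal c.Γ) ac em K
  step : ∀ k, k < K → good k → StepOK D w (ENNReal.ofReal c.Γ) k (a k) (a (k + 1))
    (rr c.p c.k0 k) (rr c.p c.k0 (k + 1)) (ac k) (em k) (1 / 4) CF
  crude : ∀ k, k < K → ¬ good k → StepOK D w (ENNReal.ofReal c.Γ) k (a k) (a (k + 1))
    (rr c.p c.k0 k) (rr c.p c.k0 (k + 1)) (ac k) (em k) CF' CF'
  count : cr good K ≤ J

/-- a smaller number of steps -/
theorem Str.mono {D : Sys (G × G) (Fld G)} {r R : ℕ → ℕ} {Γ : ℝ≥0∞}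
    {ac em : ℕ → Finset (G × G) → Prop} {K K' : ℕ} (h : Str D r R Γ ac em K) (hK : K' ≤ K) :
    Str D r R Γ ac em K' where
  r_pos := h.r_pos
  r_mono := h.r_mono
  Γ1 := h.Γ1
  vac := h.vac
  near k hk := h.near k (hk.trans_le hK)
  hac k hk := h.hac k (hk.trans_le hK)
  ne k hk := h.ne k (hk.trans_le hK)
  deep k hk := h.deep k (hk.trans_le hK)
  ext k hk := h.ext k (hk.trans_le hK)

theorem Ctl.mono {c : Cst} {CF : ℝ≥0∞} {a : ℕ → ℝ} {D : Sys (G × G) (Fld G)} {w : BW G}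
    {ac em : ℕ → Finset (G × G) → Prop} {K K' : ℕ} (h : Ctl c CF a D w ac em K) (hK : K' ≤ K) :
    Ctl c CF a D w ac em K' := ⟨h.str.mono hK, fun k hk => h.step k (hk.trans_le hK)⟩

theorem StepOK.mono {D : Sys (G × G) (Fld G)} {w : BW G} {Γ : ℝ≥0∞} {k : ℕ} {a a' : ℝ}
    {r r' : ℕ} {ac em : Finset (G × G) → Prop} {κ₀ κ₀' CF CF' : ℝ≥0∞}
    (h : StepOK D w Γ k a a' r r' ac em κ₀ CF) (h1 : κ₀ ≤ κ₀') (h2 : CF ≤ CF') :
    StepOK D w Γ k a a' r r' ac em κ₀' CF' := by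
  obtain ⟨κ, i, A, m, N, q, qL, qT, CX, H, hX, hκ, hF⟩ := h
  exact ⟨κ, i, A, m, N, q, qL, qT, CX, H, hX, hκ.trans h1, hF.trans h2⟩

theorem Ctl.mono_CF {c : Cst} {CF CF' : ℝ≥0∞} {a : ℕ → ℝ} {D : Sys (G × G) (Fld G)} {w : BW G}
    {ac em : ℕ → Finset (G × G) → Prop} {K : ℕ} (h : Ctl c CF a D w ac em K) (hF : CF ≤ CF') :
    Ctl c CF' a D w ac em K := ⟨h.str, fun k hk => (h.step k hk).mono le_rfl hF⟩

end ctl

/-- covering number of the output balls at the scales of the system -/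
theorem nn3_rr (c : Cst) (k : ℕ) : (nn3 (rr c.p c.k0 (k + 1)) (nearR c.p c.k0 (k + 1)) : ℝ≥0∞) ≤
    (StepGluex897.N3 c.p : ℝ≥0∞) := by
  exact_mod_cast StepGluex897.nn3_le c.p c.k0 k

/-- the norm of the activities, norm of the constants, at the scales of the system -/
abbrev NPc {G : Type} [CommRing G] [CN G] [DecidableEq G] (c : Cst) (D : Sys (G × G) (Fld G))
    (w : BW G) (a : ℕ → ℝ) (p : Finset (G × G) → Prop) (k : ℕ) : ℝ≥0∞ :=
  NP D w a (rr c.p c.k0) (ENNReal.ofReal c.Γ) p k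

/-- the norm of the constants at the scales of the system -/
abbrev NCc {G : Type} [CommRing G] [CN G] [DecidableEq G] (c : Cst) (D : Sys (G × G) (Fld G))
    (k : ℕ) : ℝ≥0∞ := NC D (rr c.p c.k0) (ENNReal.ofReal c.Γ) k

/-- **(P8), real form.**  `M`, `ε` depend only on `c`, `CF`, `m`. -/
theorem Ctl.bound (c : Cst) {CF : ℝ≥0∞} (hCF : CF ≠ ∞) (m : ℝ) :
    ∃ M ε : ℝ, 0 < M ∧ 0 < ε ∧
      ∀ (G : Type) [CommRing G] [CN G] [DecidableEq G] [GoodG G] (D : Sys (G × G) (Fld G))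
        (w : BW G) (a : ℕ → ℝ) (ac em : ℕ → Finset (G × G) → Prop) (K : ℕ) (t : ℝ),
        Ctl c CF a D w ac em K → 0 ≤ t → t ≤ ε →
        (∀ k, k ≤ K → NPc c D w a (em k) k ≤ ENNReal.ofReal (m * t * (1 / 2) ^ k)) →
        NPc c D w a (fun U => ¬ em 0 U) 0 ≤ ENNReal.ofReal (m * t) →
        (∀ k, k ≤ K → NPc c D w a allP k ≤ ENNReal.ofReal (M * t * (1 / 2) ^ k)) ∧
        (∀ k, k < K → NCc c D k ≤ ENNReal.ofReal (M * t * (1 / 2) ^ k)) := by
  set m' : ℝ := |m| + 1 with hm'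
  have hm0 : 0 < m' := by positivity
  have hmm : m ≤ m' := (le_abs_self m).trans (by linarith)
  obtain ⟨M₀, e₀, hM₀, he₀, h0⟩ := comp_good CF (StepGluex897.N3 c.p : ℝ≥0∞) 1 hCF
    (ENNReal.natCast_ne_top _) ENNReal.one_ne_top
  obtain ⟨e, he, hle⟩ := exists_real_le he₀
  obtain ⟨M, hM, hge⟩ := exists_real_ge hM₀
  refine ⟨M * m', e / m', by positivity, by positivity, ?_⟩
  intro G _ _ _ _ D w a ac em K t h ht htε hb hc0
  have hmt : 0 ≤ m' * t := by positivity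
  have hmte : m' * t ≤ e := by
    rw [le_div_iff₀ hm0] at htε
    linarith
  have key := h0 G D w a (rr c.p c.k0) (nearR c.p c.k0) (ENNReal.ofReal c.Γ) ac em K
    (ENNReal.ofReal (m' * t)) (1 / 2) le_rfl half_le_one
    ((ENNReal.ofReal_le_ofReal hmte).trans hle) h.str (fun k _ => nn3_rr c k) h.step
    (fun k hk => (hb k hk).trans (by
      rw [← geo_real hmt]
      refine ENNReal.ofReal_le_ofReal ?_
      gcongr))
    (hc0.trans (by
      rw [one_mul]
      refine ENNReal.ofReal_le_ofReal ?_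
      gcongr))
  have fin : ∀ k : ℕ, M₀ * (ENNReal.ofReal (m' * t) * (1 / 2) ^ k) ≤
      ENNReal.ofReal (M * m' * t * (1 / 2) ^ k) := by
    intro k
    rw [mul_assoc M m' t, geo_real' hM.le hmt]
    exact mul_le_mul_left hge _
  exact ⟨fun k hk => (key.1 k hk).trans (fin k), fun k hk => (key.2 k hk).trans (fin k)⟩

/-- **(P8), real form, with crude steps.**  `M`, `ε` depend only on `c`, `CF`, `m`; `MJ`, `eJ` on
`CF'`, `J` too. -/
theorem CtlJ.bound (c : Cst) {CF : ℝ≥0∞} (hCF : CF ≠ ∞) (m : ℝ) :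
    ∃ M ε : ℝ, 0 < M ∧ 0 < ε ∧ ∀ (CF' : ℝ≥0∞) (J : ℕ), CF' ≠ ∞ →
      ∃ MJ eJ : ℝ, 0 < MJ ∧ 0 < eJ ∧
      ∀ (G : Type) [CommRing G] [CN G] [DecidableEq G] [GoodG G] (D : Sys (G × G) (Fld G))
        (w : BW G) (a : ℕ → ℝ) (ac em : ℕ → Finset (G × G) → Prop) (K : ℕ) (good : ℕ → Prop)
        (t : ℝ), CtlJ c CF CF' J good a D w ac em K → 0 ≤ t → t ≤ ε →
        (∀ k, k < K → ¬ good k → t * (1 / 2) ^ k ≤ eJ) →
        (∀ k, k ≤ K → NPc c D w a (em k) k ≤ ENNReal.ofReal (m * t * (1 / 2) ^ k)) →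
        NPc c D w a (fun U => ¬ em 0 U) 0 ≤ ENNReal.ofReal (m * t) →
        (∀ k, k ≤ K → NPc c D w a allP k ≤ ENNReal.ofReal (MJ * t * (1 / 2) ^ k)) ∧
        (∀ k, k < K → NCc c D k ≤ ENNReal.ofReal (MJ * t * (1 / 2) ^ k)) ∧
        (∀ k, k ≤ K → (∀ i, i < k → good i) →
          NPc c D w a allP k ≤ ENNReal.ofReal (M * t * (1 / 2) ^ k)) ∧
        (∀ k, k < K → (∀ i, i ≤ k → good i) →
          NCc c D k ≤ ENNReal.ofReal (M * t * (1 / 2) ^ k)) := by
  set m' : ℝ := |m| + 1 with hm'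
  have hm0 : 0 < m' := by positivity
  have hmm : m ≤ m' := (le_abs_self m).trans (by linarith)
  obtain ⟨M₀, e₀, hM₀, he₀, h0⟩ := comp CF (StepGluex897.N3 c.p : ℝ≥0∞) 1 hCF
    (ENNReal.natCast_ne_top _) ENNReal.one_ne_top
  obtain ⟨e, he, hle⟩ := exists_real_le he₀
  obtain ⟨M, hM, hge⟩ := exists_real_ge hM₀
  refine ⟨M * m', e / m', by positivity, by positivity, fun CF' J hCF' => ?_⟩
  obtain ⟨MJ₀, eJ₀, hMJ₀, heJ₀, h1⟩ := h0 CF' J hCF'
  obtain ⟨eJ, heJ, hleJ⟩ := exists_real_le heJ₀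
  obtain ⟨MJ, hMJ, hgeJ⟩ := exists_real_ge hMJ₀
  refine ⟨MJ * m', eJ / m', by positivity, by positivity, ?_⟩
  intro G _ _ _ _ D w a ac em K good t h ht htε hbad hb hc0
  have hmt : 0 ≤ m' * t := by positivity
  have hmte : m' * t ≤ e := by
    rw [le_div_iff₀ hm0] at htε
    linarith
  have key := h1 G D w a (rr c.p c.k0) (nearR c.p c.k0) (ENNReal.ofReal c.Γ) ac em K good
    (ENNReal.ofReal (m' * t)) (1 / 2) le_rfl half_le_one
    ((ENNReal.ofReal_le_ofReal hmte).trans hle) h.str (fun k _ => nn3_rr c k) h.step h.count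
    (fun k hk hg => by
      refine le_trans ?_ hleJ
      rw [← geo_real hmt]
      refine ENNReal.ofReal_le_ofReal ?_
      have h2 := hbad k hk hg
      rw [le_div_iff₀ hm0] at h2
      linarith)
    h.crude
    (fun k hk => (hb k hk).trans (by
      rw [← geo_real hmt]
      refine ENNReal.ofReal_le_ofReal ?_
      gcongr))
    (hc0.trans (by
      rw [one_mul]
      refine ENNReal.ofReal_le_ofReal ?_
      gcongr))
  have fin : ∀ k : ℕ, M₀ * (ENNReal.ofReal (m' * t) * (1 / 2) ^ k) ≤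
      ENNReal.ofReal (M * m' * t * (1 / 2) ^ k) := by
    intro k
    rw [mul_assoc M m' t, geo_real' hM.le hmt]
    exact mul_le_mul_left hge _
  have finJ : ∀ k : ℕ, MJ₀ * (ENNReal.ofReal (m' * t) * (1 / 2) ^ k) ≤
      ENNReal.ofReal (MJ * m' * t * (1 / 2) ^ k) := by
    intro k
    rw [mul_assoc MJ m' t, geo_real' hMJ.le hmt]
    exact mul_le_mul_left hgeJ _
  obtain ⟨k1, k2, k3, k4⟩ := key
  exact ⟨fun k hk => (k1 k hk).trans (finJ k), fun k hk => (k2 k hk).trans (finJ k),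
    fun k hk hg => (k3 k hk hg).trans (fin k), fun k hk hg => (k4 k hk hg).trans (fin k)⟩

/-! ### the constants in the form of `SpinSys_892` -/

section bd

variable {G : Type} [CommRing G] [CN G] [DecidableEq G]

/-- the bounds of the constants as `Bd` -/
theorem bd_of {c : Cst} {D : Sys (G × G) (Fld G)} {K : ℕ} {E : ℕ → ℝ}
    (hNC : ∀ k, k < K → NCc c D k ≤ ENNReal.ofReal (E k))
    (hconn : ∀ k, k < K → ∀ U, cc D k U ≠ 0 →
      U.Nonempty ∧ Packx915.Conn fd (nearR c.p c.k0 k) U) :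
    Bd D fd (fun k => rr c.p c.k0 (k + 1)) (nearR c.p c.k0) (ENNReal.ofReal c.Γ) E K :=
  ⟨fun k hk => hNC k hk, hconn⟩

/-- a constant which does not vanish has an active polymer -/
theorem cc_ne_zero {D : Sys (G × G) (Fld G)} {k : ℕ} {U : Finset (G × G)} (h : cc D k U ≠ 0) :
    D.K k U ≠ 0 := fun h0 => h (by rw [cc, Sys.H, h0, map_zero, map_zero])

/-- the bounds of the constants as `Bd`, connectedness from the active polymers -/
theorem bd_of_ac {c : Cst} {D : Sys (G × G) (Fld G)} {K : ℕ} {E : ℕ → ℝ}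
    (hNC : ∀ k, k < K → NCc c D k ≤ ENNReal.ofReal (E k))
    (hac : ∀ k, k < K → ∀ U, D.K k U ≠ 0 →
      U.Nonempty ∧ Packx915.Conn fd (nearR c.p c.k0 k) U) :
    Bd D fd (fun k => rr c.p c.k0 (k + 1)) (nearR c.p c.k0) (ENNReal.ofReal c.Γ) E K :=
  bd_of hNC fun k hk U hU => hac k hk U (cc_ne_zero hU)

end bd

end Crest.Agent.R165.Compx889
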