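import Crest.Agent.R165.Bkg_683
import Crest.Agent.R165.K0Loc_950
import Crest.Agent.R165.GSysOK_439
import Crest.Agent.R165.J2a_606

/-!
# Row 165 (S0250), block J/P, leaf JVol: the volume of a domain, supports, locality and
connectedness of the initial activities of `Bkg_683` (helper950)

* `Wf T` : the faces with a corner in `T` (where the fields are rescaled), `mem_Wf`, `sc_off`
* `Vol T b R Ys Λ` : the volume `Λ` contains `Wf T`, its neighbours, the faces of the shapes of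
  `BB T b R` and the supports of the sources;  `exists_vol`, `Vol.mono`
* `Vol.supp`, `Vol.supp1`, `Vol.srcs` : consequences for `K00`, `K0` and `srcs`
* `K00_mem`, `K0_mem` : locality for any system of submodules; `K00_fldU`, `K0_fldU` (`ι = id`),
  `K00_fldUS`, `K0_fldUS` (sources `bondSrc e`)
* `K00_empty`, `K0_empty`, `K00_conn` (range `2R+1`), `K0_conn`
-/

set_option autoImplicit false
set_option linter.unusedSectionVars false

open Finset

noncomputable section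

namespace Crest.Agent.R165.JVolx950

open Crest.ProbabilityR.IsingModel
open Crest.Agent.R165.Gr0x606 Crest.Agent.R165.Gr1x606 Crest.Agent.R165.GeOpsx337
open Crest.Agent.R165.GDefx387 Crest.Agent.R165.GSysx387 Crest.Agent.R165.GSysOKx439
open Crest.Agent.R165.KInitx892 Crest.Agent.R165.SrcDefx991 Crest.Agent.R165.GrLocx337
open Crest.Agent.R165.BgIsox432 Crest.Agent.R165.K0Locx950 Crest.Agent.R165.Bkgx683
open Crest.Agent.R165.J4K0x126 Crest.Agent.R165.J4Geox126
open Crest.Agent.R165.J4Defx653 (tpot BB tr bx mem_bx mem_tr)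
open Crest.Agent.R165.J4Pathx653
open Crest.Agent.R165.J4RRx653 (RR ep RIn TH)
open Crest.Agent.R165.J1ax606 (pe qe pe_zero pe_one qe_zero qe_one)
open Crest.Agent.R165.J2ax606 (bar ed he_cases bar_pe bar_qe ed_pe ed_qe)
open Crest.Agent.R165.Latx683 (xc wPl wDom wX BW HE Fld)

/-! ### locality -/

section loc

variable {G : Type} [CommRing G] [DecidableEq G] (B : Bg G) (P : MPar)
variable {κ : Type} [DecidableEq κ] [Fintype κ]
variable {V : Type*} [AddCommGroup V] [Module ℝ V]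

omit [CommRing G] [DecidableEq G] in
theorem bi_mem_grG {W : Submodule ℝ V} {x y : V} (hx : x ∈ W) (hy : y ∈ W) : bi x y ∈ grG W := by
  rw [mem_grG, coe_bi]
  exact mul_mem (fi_mem_gr hx) (fi_mem_gr hy)

omit [CommRing G] [DecidableEq G] in
theorem grG_mono {W W' : Submodule ℝ V} (h : W ≤ W') : grG W ≤ grG W' := fun _ ha => gr_mono h ha

theorem K00_empty (ι : Fld G →ₗ[ℝ] V) (src : Srcs κ G (Ge V)) : B.K00 P ι src ∅ = 0 :=
  K0Locx950.K0_empty _ _

/-- **locality** of the activities of 126, general fields -/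
theorem K00_mem (ι : Fld G →ₗ[ℝ] V) (src : Srcs κ G (Ge V)) (W : Finset (G × G) → Submodule ℝ V)
    (hW : ∀ U U', U ⊆ U' → W U ≤ W U') (hι : ∀ h : HE G, ι (Finsupp.single h 1) ∈ W {h.1})
    (hs : ∀ k, (src.Ys k).Nonempty → src.as k ∈ grG (W (src.Ys k))) (U : Finset (G × G)) :
    B.K00 P ι src U ∈ grG (W U) := by
  refine K0Locx950.K0_mem (frG ι) (B.bk P src) (fun U => grG (W U))
    (fun _ _ h => grG_mono (hW _ _ h)) ?_ ?_ hs U
  · intro e
    refine bi_mem_grG (hW _ _ ?_ (hι _)) (hW _ _ ?_ (hι _))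
    · exact Finset.singleton_subset_iff.2 (Finset.mem_insert_self _ _)
    · exact Finset.singleton_subset_iff.2 (Finset.mem_insert_of_mem (Finset.mem_singleton_self _))
  · intro f
    exact Subalgebra.sum_mem _ fun p _ => bi_mem_grG (hι (f, p.1)) (hι (f, p.2))

variable [CN G]

theorem K0_empty (ι : Fld G →ₗ[ℝ] V) (src : Srcs κ G (Ge V)) (l k0 : ℕ) :
    B.K0 P ι src l k0 ∅ = 0 := K1_empty _ _

theorem K0_mem (ι : Fld G →ₗ[ℝ] V) (src : Srcs κ G (Ge V)) (W : Finset (G × G) → Submodule ℝ V)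
    (hW : ∀ U U', U ⊆ U' → W U ≤ W U') (hι : ∀ h : HE G, ι (Finsupp.single h 1) ∈ W {h.1})
    (hs : ∀ k, (src.Ys k).Nonempty → src.as k ∈ grG (W (src.Ys k))) (l k0 : ℕ)
    (U : Finset (G × G)) : B.K0 P ι src l k0 U ∈ grG (W U) :=
  K1_mem (fun U => grG (W U)) (fun _ _ h => grG_mono (hW _ _ h)) _ U
    fun U' _ => K00_mem B P ι src W hW hι hs U'

omit [DecidableEq G] in
theorem single_mem_fldU (h : HE G) : (Finsupp.single h 1 : Fld G) ∈ fldU {h.1} :=
  single_mem_fldS (show h.1 ∈ nbhd 1 {h.1} from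
    ⟨h.1, Finset.mem_singleton_self _, by rw [fd_self]; exact Nat.zero_le _⟩) 1

/-- **locality**, no source generators -/
theorem K00_fldU (src : Srcs κ G (Ge (Fld G)))
    (hs : ∀ k, (src.Ys k).Nonempty → src.as k ∈ grG (fldU (src.Ys k))) (U : Finset (G × G)) :
    B.K00 P LinearMap.id src U ∈ grG (fldU U) :=
  K00_mem B P LinearMap.id src fldU (fun _ _ h => fldU_mono h) single_mem_fldU hs U

theorem K0_fldU (src : Srcs κ G (Ge (Fld G)))
    (hs : ∀ k, (src.Ys k).Nonempty → src.as k ∈ grG (fldU (src.Ys k))) (l k0 : ℕ)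
    (U : Finset (G × G)) : B.K0 P LinearMap.id src l k0 U ∈ grG (fldU U) :=
  K0_mem B P LinearMap.id src fldU (fun _ _ h => fldU_mono h) single_mem_fldU hs l k0 U

theorem noSrc_mem (k : Fin 0) (_ : ((noSrc G (Ge (Fld G))).Ys k).Nonempty) :
    (noSrc G (Ge (Fld G))).as k ∈ grG (fldU ((noSrc G (Ge (Fld G))).Ys k)) := k.elim0

theorem realSrc_mem (f₀ : G × G) (S : Finset (Bkgx683.EG G)) (t : ℝ) (k : Fin 1)
    (_ : ((realSrc (Ge (Fld G)) f₀ S t).Ys k).Nonempty) :
    (realSrc (Ge (Fld G)) f₀ S t).as k ∈ grG (fldU ((realSrc (Ge (Fld G)) f₀ S t).Ys k)) :=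
  Subalgebra.algebraMap_mem _ _

theorem K00_noSrc_mem (U : Finset (G × G)) :
    B.K00 P LinearMap.id (noSrc G (Ge (Fld G))) U ∈ grG (fldU U) :=
  K00_fldU B P _ noSrc_mem U

theorem K0_noSrc_mem (l k0 : ℕ) (U : Finset (G × G)) :
    B.K0 P LinearMap.id (noSrc G (Ge (Fld G))) l k0 U ∈ grG (fldU U) :=
  K0_fldU B P _ noSrc_mem l k0 U

theorem K0_realSrc_mem (f₀ : G × G) (S : Finset (Bkgx683.EG G)) (t : ℝ) (l k0 : ℕ)
    (U : Finset (G × G)) :
    B.K0 P LinearMap.id (realSrc (Ge (Fld G)) f₀ S t) l k0 U ∈ grG (fldU U) :=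
  K0_fldU B P _ (realSrc_mem f₀ S t) l k0 U

section bond

variable {m : ℕ} (e : Fin m → Bkgx683.EG G)

theorem single_mem_fldUS (h : HE G) :
    LinearMap.inl ℝ (Fld G) (Src m) (Finsupp.single h 1) ∈ fldUS (fun i => faE (e i)) {h.1} :=
  ⟨single_mem_fldU h, fun _ hi => absurd rfl hi⟩

theorem tau_mem_fldUS (k : Fin m) :
    (tau k : Ge (VS (Fld G) m)) ∈ grG (fldUS (fun i => faE (e i)) (faE (e k))) := by
  obtain ⟨f, hf⟩ := faE_nonempty (e k)
  refine bi_mem_grG ⟨zero_mem _, fun i hi => ?_⟩ ⟨zero_mem _, fun i hi => ?_⟩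
  · have : i = k := by
      by_contra hne
      exact hi (by rw [th]; exact Pi.single_eq_of_ne hne _)
    subst this
    exact ⟨f, hf, hf⟩
  · have : i = k := by
      by_contra hne
      exact hi (by rw [th']; exact Pi.single_eq_of_ne hne _)
    subst this
    exact ⟨f, hf, hf⟩

theorem K00_fldUS (U : Finset (G × G)) :
    B.K00 P (LinearMap.inl ℝ (Fld G) (Src m)) (bondSrc (Fld G) e) U ∈
      grG (fldUS (fun i => faE (e i)) U) :=
  K00_mem (V := VS (Fld G) m) B P (LinearMap.inl ℝ (Fld G) (Src m)) (bondSrc (Fld G) e)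
    (fldUS fun i => faE (e i)) (fun _ _ h => fldUS_mono (fun i => faE (e i)) h)
    (single_mem_fldUS e) (fun k _ => tau_mem_fldUS e k) U

theorem K0_fldUS (l k0 : ℕ) (U : Finset (G × G)) :
    B.K0 P (LinearMap.inl ℝ (Fld G) (Src m)) (bondSrc (Fld G) e) l k0 U ∈
      grG (fldUS (fun i => faE (e i)) U) :=
  K0_mem (V := VS (Fld G) m) B P (LinearMap.inl ℝ (Fld G) (Src m)) (bondSrc (Fld G) e)
    (fldUS fun i => faE (e i)) (fun _ _ h => fldUS_mono (fun i => faE (e i)) h)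
    (single_mem_fldUS e) (fun k _ => tau_mem_fldUS e k) l k0 U

end bond

/-! ### connectedness -/

omit [DecidableEq G] in
theorem cn_nat (n : ℕ) : cn ((n : ℕ) : G) ≤ n := by
  induction n with
  | zero => rw [Nat.cast_zero, CN.cn_zero]
  | succ n ih =>
    rw [Nat.cast_succ]
    exact (CN.cn_add _ _).trans (Nat.add_le_add ih CN.cn_one)

omit [DecidableEq G] in
theorem cn_int (n : ℤ) : cn ((n : ℤ) : G) ≤ n.natAbs := by
  rcases Int.natAbs_eq n with h | h
  · rw [h, Int.cast_natCast, Int.natAbs_natCast]; exact cn_nat _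
  · rw [h, Int.cast_neg, Int.cast_natCast, CN.cn_neg, Int.natAbs_neg, Int.natAbs_natCast]
    exact cn_nat _

omit [DecidableEq G] in
theorem fd_fz (u : G × G) {a b : ℤ × ℤ} {s : ℕ} (h1 : (a.1 - b.1).natAbs ≤ s)
    (h2 : (a.2 - b.2).natAbs ≤ s) : fd (fz u a) (fz u b) ≤ s := by
  unfold fd fz cz
  have e1 : (u + ((a.1 : G), (a.2 : G))).1 - (u + ((b.1 : G), (b.2 : G))).1 =
      ((a.1 - b.1 : ℤ) : G) := by
    simp only [Prod.fst_add]; push_cast; ring
  have e2 : (u + ((a.1 : G), (a.2 : G))).2 - (u + ((b.1 : G), (b.2 : G))).2 =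
      ((a.2 - b.2 : ℤ) : G) := by
    simp only [Prod.snd_add]; push_cast; ring
  rw [e1, e2]
  exact max_le ((cn_int _).trans h1) ((cn_int _).trans h2)

theorem shape_diam (u : G × G) {S : Finset (ℤ × ℤ)} {R : ℕ} (hS : S ⊆ bx R) :
    ∀ x ∈ (Yf S).image (fz u), ∀ y ∈ (Yf S).image (fz u), fd x y ≤ 2 * R + 1 := by
  intro x hx y hy
  obtain ⟨a, ha, rfl⟩ := Finset.mem_image.1 hx
  obtain ⟨b, hb, rfl⟩ := Finset.mem_image.1 hy
  have ha' := Yf_subset hS ha
  have hb' := Yf_subset hS hb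
  simp only [Finset.mem_product, Finset.mem_Icc] at ha' hb'
  exact fd_fz u (by omega) (by omega)

theorem faE_diam (e : Bkgx683.EG G) : ∀ x ∈ faE e, ∀ y ∈ faE e, fd x y ≤ 1 := by
  have h : fd (pe e).1 (qe e).1 ≤ 1 := by
    obtain ⟨z, j⟩ := e
    have hj : j = 0 ∨ j = 1 := by
      fin_cases j
      · exact Or.inl rfl
      · exact Or.inr rfl
    rcases hj with rfl | rfl
    · rw [pe_zero, qe_zero]
      unfold fd
      have e1 : z.1 - (z - (0, 1)).1 = 0 := by simp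
      have e2 : z.2 - (z - (0, 1)).2 = 1 := by simp
      rw [e1, e2, CN.cn_zero]
      exact max_le (Nat.zero_le _) CN.cn_one
    · rw [pe_one, qe_one]
      unfold fd
      have e1 : (z - (1, 0)).1 - z.1 = -1 := by simp
      have e2 : (z - (1, 0)).2 - z.2 = 0 := by simp
      rw [e1, e2, CN.cn_zero, CN.cn_neg]
      exact max_le CN.cn_one (Nat.zero_le _)
  intro x hx y hy
  unfold faE at hx hy
  rw [Finset.mem_insert, Finset.mem_singleton] at hx hy
  rcases hx with rfl | rfl <;> rcases hy with rfl | rfl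
  · rw [fd_self]; exact Nat.zero_le _
  · exact h
  · rw [fd_comm]; exact h
  · rw [fd_self]; exact Nat.zero_le _

/-- **connectedness** of the supports, range `2R+1` -/
theorem K00_conn (ι : Fld G →ₗ[ℝ] V) (src : Srcs κ G (Ge V))
    (hs : ∀ k, Packx915.Conn fd (2 * P.R + 1) (src.Ys k)) {U : Finset (G × G)}
    (hU : B.K00 P ι src U ≠ 0) : Packx915.Conn fd (2 * P.R + 1) U := by
  refine K0Locx950.K0_conn (frG ι) (B.bk P src) (d := fd) (fun a => fd_self a) ?_ hU
  intro i hi _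
  rcases i with p | f | e | k
  · exact Packx915.conn_of_diam (shape_diam p.1 (J4Defx653.mem_Can.1 hi.1.1).1)
  · exact Packx915.conn_singleton f
  · exact Packx915.conn_of_diam fun x hx y hy => (faE_diam e x hx y hy).trans (by omega)
  · exact hs k

theorem noSrc_conn (A : Type*) [CommRing A] (R : ℕ) (k : Fin 0) :
    Packx915.Conn fd R ((noSrc G A).Ys k) := k.elim0

theorem bondSrc_conn {m : ℕ} (e : Fin m → Bkgx683.EG G) {R : ℕ} (hR : 1 ≤ R) (k : Fin m) :
    Packx915.Conn fd R ((bondSrc V e).Ys k) :=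
  Packx915.conn_of_diam fun x hx y hy => (faE_diam (e k) x hx y hy).trans hR

/-- **connectedness** of the supports of the reclustered activities -/
theorem K0_conn (ι : Fld G →ₗ[ℝ] V) (src : Srcs κ G (Ge V)) {l k0 : ℕ}
    (hR : 2 * P.R + 1 ≤ nearR l k0 0)
    (hs : ∀ k, Packx915.Conn fd (2 * P.R + 1) (src.Ys k)) {U : Finset (G × G)}
    (hU : B.K0 P ι src l k0 U ≠ 0) : Packx915.Conn fd (nearR l k0 0) U :=
  K1_conn Bridgex915.pd_fd hR (fun _ h => K00_conn B P ι src hs h) hU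

end loc

/-! ### the volume of a domain -/

section dom

/-- the faces with a corner in `T` -/
def Wf (T : Finset (ℤ × ℤ)) : Finset (ℤ × ℤ) :=
  T ∪ (T.image fun z => (z.1 - 1, z.2)) ∪ (T.image fun z => (z.1, z.2 - 1)) ∪
    T.image fun z => (z.1 - 1, z.2 - 1)

theorem mem_Wf {T : Finset (ℤ × ℤ)} {f : ℤ × ℤ} : f ∈ Wf T ↔ cor T f := by
  unfold Wf cor
  simp only [Finset.mem_union, Finset.mem_image]
  constructor
  · rintro (((h | ⟨z, hz, rfl⟩) | ⟨z, hz, rfl⟩) | ⟨z, hz, rfl⟩)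
    · exact Or.inl h
    · exact Or.inr (Or.inl (by simpa using hz))
    · exact Or.inr (Or.inr (Or.inl (by simpa using hz)))
    · exact Or.inr (Or.inr (Or.inr (by simpa using hz)))
  · rintro (h | h | h | h)
    · exact Or.inl (Or.inl (Or.inl h))
    · exact Or.inl (Or.inl (Or.inr ⟨_, h, by simp⟩))
    · exact Or.inl (Or.inr ⟨_, h, by simp⟩)
    · exact Or.inr ⟨_, h, by simp⟩

variable {T : Finset (ℤ × ℤ)} {b : BoundaryCondition} {n : ℕ} {X : Fin n → ℤ × ℤ} {P : MPar}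
variable {κ : Type} [DecidableEq κ] [Fintype κ]
variable {V : Type*} [AddCommGroup V] [Module ℝ V]

theorem sc_off {f : ℤ × ℤ} (hf : f ∉ Wf T) : (Bg.dom T b X).sc P f = 1 := by
  unfold Bg.sc
  exact if_neg fun h => hf (mem_Wf.2 h)

theorem bk_s_off {A : Type*} [CommRing A] [Algebra ℝ A] (src : Srcs κ ℤ A) {f : ℤ × ℤ}
    (hf : f ∉ Wf T) : ((Bg.dom T b X).bk P src).s f = 1 := sc_off hf

/-- **the volume** contains everything which is needed -/
structure Vol (T : Finset (ℤ × ℤ)) (b : BoundaryCondition) (R : ℕ) {κ : Type}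
    (Ys : κ → Finset (ℤ × ℤ)) (Λ : Finset (ℤ × ℤ)) : Prop where
  W : Wf T ⊆ Λ
  nb : ∀ h : HE ℤ, h.1 ∈ Wf T → (bar h).1 ∈ Λ
  BB : ∀ S ∈ BB T b R, Yf S ⊆ Λ
  src : ∀ k, Ys k ⊆ Λ

theorem Vol.mono {R : ℕ} {Ys : κ → Finset (ℤ × ℤ)} {Λ Λ' : Finset (ℤ × ℤ)} (h : Λ ⊆ Λ')
    (v : Vol T b R Ys Λ) : Vol T b R Ys Λ' :=
  ⟨v.W.trans h, fun k hk => h (v.nb k hk), fun S hS => (v.BB S hS).trans h,
    fun k => (v.src k).trans h⟩

theorem exists_vol (T : Finset (ℤ × ℤ)) (b : BoundaryCondition) (R : ℕ)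
    (Ys : κ → Finset (ℤ × ℤ)) (A₀ : Finset (ℤ × ℤ)) : ∃ Λ, A₀ ⊆ Λ ∧ Vol T b R Ys Λ := by
  classical
  refine ⟨A₀ ∪ Wf T ∪ ((Wf T).biUnion fun f => univ.image fun a : Fin 4 => (bar (f, a)).1) ∪
    (J4Defx653.BB T b R).biUnion Yf ∪ univ.biUnion Ys, ?_, ?_⟩
  · intro f hf
    simp only [Finset.mem_union]
    exact Or.inl (Or.inl (Or.inl (Or.inl hf)))
  · refine ⟨fun f hf => ?_, fun h hh => ?_, fun S hS f hf => ?_, fun k f hf => ?_⟩
    · simp only [Finset.mem_union]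
      exact Or.inl (Or.inl (Or.inl (Or.inr hf)))
    · simp only [Finset.mem_union]
      refine Or.inl (Or.inl (Or.inr (Finset.mem_biUnion.2 ⟨h.1, hh, Finset.mem_image.2
        ⟨h.2, Finset.mem_univ _, rfl⟩⟩)))
    · simp only [Finset.mem_union]
      exact Or.inl (Or.inr (Finset.mem_biUnion.2 ⟨S, hS, hf⟩))
    · simp only [Finset.mem_union]
      exact Or.inr (Finset.mem_biUnion.2 ⟨k, Finset.mem_univ _, hf⟩)

/-- the volume contains the supports of the live labels -/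
theorem Vol.live {src : Srcs κ ℤ (Ge V)} {Λ : Finset (ℤ × ℤ)}
    (v : Vol T b P.R src.Ys Λ) (ι : Fld ℤ →ₗ[ℝ] V) (i : Ix ℤ κ)
    (hi : ((Bg.dom T b X).bk P src).okI i) (hd : ¬ dead (frG ι) ((Bg.dom T b X).bk P src) i) :
    ((Bg.dom T b X).bk P src).YI i ⊆ Λ := by
  rcases i with p | f | e | k
  · have h1 : tr p.2 p.1 ∈ J4Defx653.BB T b P.R := hi.2
    have h2 := v.BB _ h1
    rw [Yf_tr] at h2
    have h3 : (fun f : ℤ × ℤ => f + p.1) = fz p.1 := by
      funext f; unfold fz cz; rw [add_comm]; simp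
    rwa [h3] at h2
  · change ({f} : Finset (ℤ × ℤ)) ⊆ Λ
    rw [Finset.singleton_subset_iff]
    by_contra hf
    apply hd
    left
    have hs : ((Bg.dom T b X).bk P src).s f = 1 := bk_s_off src fun h => hf (v.W h)
    have hc : ((Bg.dom T b X).bk P src).cI f = 0 := by
      unfold Bk.cI; rw [hs]; ring
    change ((Bg.dom T b X).bk P src).cI f • _ + _ = _
    rw [hc]
    simp
  · change faE e ⊆ Λ
    by_cases hp : (pe e).1 ∈ Wf T
    · have hq := v.nb (pe e) hp
      rw [bar_pe] at hq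
      unfold faE
      rw [Finset.insert_subset_iff, Finset.singleton_subset_iff]
      exact ⟨v.W hp, hq⟩
    · by_cases hq : (qe e).1 ∈ Wf T
      · have hp' := v.nb (qe e) hq
        rw [bar_qe] at hp'
        unfold faE
        rw [Finset.insert_subset_iff, Finset.singleton_subset_iff]
        exact ⟨hp', v.W hq⟩
      · exfalso
        apply hd
        left
        change (_ * (((Bg.dom T b X).bk P src).s (pe e).1 *
          ((Bg.dom T b X).bk P src).s (qe e).1 - 1)) • _ = _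
        rw [bk_s_off src hp, bk_s_off src hq]
        simp
  · exact v.src k

/-- **supports** of the activities of 126 -/
theorem Vol.supp {src : Srcs κ ℤ (Ge V)} {Λ : Finset (ℤ × ℤ)} (v : Vol T b P.R src.Ys Λ)
    (ι : Fld ℤ →ₗ[ℝ] V) (U : Finset (ℤ × ℤ)) (hU : ¬ U ⊆ Λ) :
    (Bg.dom T b X).K00 P ι src U = 0 :=
  K0_supp (frG ι) _ (v.live ι) hU

/-- **supports** of the reclustered activities -/
theorem Vol.supp1 {src : Srcs κ ℤ (Ge V)} {Λ : Finset (ℤ × ℤ)} (v : Vol T b P.R src.Ys Λ)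
    (ι : Fld ℤ →ₗ[ℝ] V) (l k0 : ℕ) (U : Finset (ℤ × ℤ)) (hU : ¬ U ⊆ Λ) :
    (Bg.dom T b X).K0 P ι src l k0 U = 0 :=
  K1_supp (fun W hW => v.supp ι W hW) hU

/-- the sources inside the volume -/
theorem Vol.srcs {A : Type*} [CommRing A] [Algebra ℝ A] {src : Srcs κ ℤ A}
    {Λ : Finset (ℤ × ℤ)} (v : Vol T b P.R src.Ys Λ) (hne : ∀ k, (src.Ys k).Nonempty) :
    ((Bg.dom T b X).bk P src).srcs Λ = univ := by
  ext k
  simp only [Bk.srcs, Finset.mem_filter, Finset.mem_univ, true_and, iff_true]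
  exact ⟨hne k, v.src k⟩

/-- faces where the scale is not `1` -/
theorem Vol.face {A : Type*} [CommRing A] [Algebra ℝ A] {src : Srcs κ ℤ A}
    {Λ : Finset (ℤ × ℤ)} (v : Vol T b P.R src.Ys Λ) {g : ℤ × ℤ}
    (hg : ((Bg.dom T b X).bk P src).s g ≠ 1) : g ∈ Λ :=
  v.W (by_contra fun h => hg (bk_s_off src h))

/-- the frames of 653 -/
theorem frG_id (G : Type) [CommRing G] [DecidableEq G] :
    (frG (LinearMap.id : Fld G →ₗ[ℝ] Fld G)).b = J1ax606.bb := rfl

end dom

end Crest.Agent.R165.JVolx950
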