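import Crest.Agent.R165.SpinDom_432
import Crest.Agent.R165.J4K0N_126
import Crest.Agent.R165.JVol_950
import Crest.Agent.R165.XBd_915
import Crest.Agent.R165.Comp4_889
import Crest.Agent.R165.Const_891
import Crest.Agent.R165.FarB_900

/-!
# Row 165 (S0250), block F: the inputs of `Comp4_889` for the flows without sources (helper387)

* `str_sys`, `str_fl` : the structural hypotheses (`Str` of `Comp2_889`)
* `fl_ac` : the activities are nonempty, connected
* `fl0_le`, `k0_bound` : the norm of the initial activities is `O(|lam|)`, every background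
-/

set_option autoImplicit false
set_option linter.unusedSectionVars false

noncomputable section

open Filter Topology
open scoped ENNReal
open Crest.ProbabilityR.IsingModel
open Crest.Agent.R165.Gr0x606 Crest.Agent.R165.Gr1x606 Crest.Agent.R165.GeOpsx337
open Crest.Agent.R165.Latx683 Crest.Agent.R165.GDefx387 Crest.Agent.R165.GSysx387
open Crest.Agent.R165.KFlowx337 Crest.Agent.R165.FRDPolyx439 Crest.Agent.R165.BgIsox432
open Crest.Agent.R165.Packx915 Crest.Agent.R165.NSumx915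
open Crest.Agent.R165.DefRecx915 Crest.Agent.R165.XBdx915 Crest.Agent.R165.Bridgex915
open Crest.Agent.R165.Bkgx683 Crest.Agent.R165.PEndx683 Crest.Agent.R165.Outx683
open Crest.Agent.R165.Compx889 Crest.Agent.R165.Constx891 Crest.Agent.R165.KInitx892
open Crest.Agent.R165.J4K0Nx126 Crest.Agent.R165.J4K0Bx126

namespace Crest.Agent.R165.FlNx387

/-! ### structure -/

section str

variable {G : Type} [CommRing G] [CN G] [CNZ G] [DecidableEq G]

theorem one_le_Γ {c : Cst} (hΓ : 1 ≤ c.Γ) : (1 : ℝ≥0∞) ≤ ENNReal.ofReal c.Γ := by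
  rw [← ENNReal.ofReal_one]; exact ENNReal.ofReal_le_ofReal hΓ

/-- **structural hypotheses** of the composition, any initial activities and marks -/
theorem str_sys [GoodG G] {c : Cst} (hp : 1 ≤ c.p) (hΓ : 1 ≤ c.Γ) {w : BW G}
    {mk : Finset (G × G)} {K0 : Finset (G × G) → Ge (Fld G)} {Λ : Set (G × G)}
    (h0 : ∀ U, K0 U ≠ 0 → acS fd (nearR c.p c.k0 0) Λ U) (K : ℕ) :
    Str (sys DD w mk c.p c.k0 K0) (rr c.p c.k0) (nearR c.p c.k0) (ENNReal.ofReal c.Γ)
      (fun n => acS fd (nearR c.p c.k0 n) Λ)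
      (fun n => emM w (mk : Set (G × G)) (rr c.p c.k0 n)) K where
  r_pos := rr_pos c.p c.k0
  r_mono k := rr_mono c.p c.k0 (Nat.le_succ k)
  Γ1 := one_le_Γ hΓ
  vac := vacCt_sys DD
  near k _ := near_sys DD (k + 1)
  hac k _ U hU := ac_sys DD h0 k U hU
  ne _ _ _ h := h.1
  deep k _ := deep_sys hp k
  ext k _ := embExtr_sys DD k

/-- the initial activities are nonempty and connected -/
theorem bg_ac0 (B : Bg G) {c : Cst} {P : MPar} (hR : 2 * P.R + 1 ≤ nearR c.p c.k0 0)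
    {U : Finset (G × G)} (hU : B.K0 P LinearMap.id (noSrc G (Ge (Fld G))) c.p c.k0 U ≠ 0) :
    acS fd (nearR c.p c.k0 0) Set.univ U := by
  refine ⟨?_, JVolx950.K0_conn B P LinearMap.id (noSrc G (Ge (Fld G))) hR
      (fun k => k.elim0) hU, Set.subset_univ _⟩
  rw [Finset.nonempty_iff_ne_empty]
  intro he
  rw [he] at hU
  exact hU (SpinDomx432.bgK0_empty B P c.p c.k0)

/-- the polymers of the flow are nonempty and connected -/
theorem fl_ac (B : Bg G) {c : Cst} {P : MPar} (hR : 2 * P.R + 1 ≤ nearR c.p c.k0 0) (k : ℕ)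
    {U : Finset (G × G)} (hU : (fl c P B).K k U ≠ 0) :
    acS fd (nearR c.p c.k0 k) Set.univ U :=
  ac_sys DD (fun _ h => bg_ac0 B hR h) k U hU

/-- **structural hypotheses** of the composition, flows without sources -/
theorem str_fl [GoodG G] {c : Cst} (hp : 1 ≤ c.p) (hΓ : 1 ≤ c.Γ) (B : Bg G) {P : MPar}
    (hR : 2 * P.R + 1 ≤ nearR c.p c.k0 0) (K : ℕ) :
    Str (fl c P B) (rr c.p c.k0) (nearR c.p c.k0) (ENNReal.ofReal c.Γ)
      (fun n => acS fd (nearR c.p c.k0 n) Set.univ)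
      (fun n => emM B.w ((∅ : Finset (G × G)) : Set (G × G)) (rr c.p c.k0 n)) K :=
  str_sys hp hΓ (fun _ h => bg_ac0 B hR h) K

end str

/-! ### the initial activities -/

section init

variable {G : Type} [CommRing G] [CN G] [CNZ G] [DecidableEq G] [GoodG G]

/-- **norm of the initial activities** with parameters `≤ θ`, every background -/
theorem fl0_le {c : Cst} {P : MPar} {θ a : ℝ} (B : Bg G) (hw : ∀ z j, |B.w z j| ≤ 1)
    (hP : PLe P θ) (ha : 0 ≤ a) (hΓ : 3 ≤ c.Γ) (h6 : 4 * (2 * P.R + 1) + 2 ≤ rr c.p c.k0 0)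
    (hsm : 4 * (Kc P.R c.Γ (cN a (rr c.p c.k0 0)) * θ) * m0 P.R ≤ 1)
    (hs2 : mI (rr c.p c.k0 0) (nearR c.p c.k0 0) * (3 * nI (rr c.p c.k0 0) *
      ENNReal.ofReal (2 * (Kc P.R c.Γ (cN a (rr c.p c.k0 0)) * θ))) ≤ 1)
    (p : Finset (G × G) → Prop) :
    NK B.w a (rr c.p c.k0 0) (ENNReal.ofReal c.Γ) p
        (fun U => (((fl c P B).K 0 U : Ge (Fld G)) : Gr (Fld G))) ≤
      ENNReal.ofReal (8 * nI (rr c.p c.k0 0) * (Kc P.R c.Γ (cN a (rr c.p c.k0 0)) * θ)) := by
  have hΓ3 : (3 : ℝ≥0∞) ≤ ENNReal.ofReal c.Γ := by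
    rw [show (3 : ℝ≥0∞) = ENNReal.ofReal 3 by norm_num]
    exact ENNReal.ofReal_le_ofReal hΓ
  set κ := Kc P.R c.Γ (cN a (rr c.p c.k0 0)) * θ with hκ
  set r := rr c.p c.k0 0 with hr
  have h1 := K00_NI B B.w hw hP ha (by linarith : 1 ≤ c.Γ) hsm
  have h2 := K1_NK B.w a (r' := r) (R := 2 * P.R + 1) (R' := nearR c.p c.k0 0) hΓ3 h6
    (K₀ := B.K00 P LinearMap.id (noSrc G (Ge (Fld G))))
    (fun U hU => JVolx950.K00_conn B P LinearMap.id _ (fun k => k.elim0) hU) h1 hs2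
    ENNReal.ofReal_ne_top p
  refine le_trans h2 ?_
  set ε : ℝ≥0∞ := ENNReal.ofReal (2 * κ) with hε
  calc (nI r : ℝ≥0∞) * ε + mI r (nearR c.p c.k0 0) * (3 * nI r * ε) ^ 2
      = nI r * ε + (mI r (nearR c.p c.k0 0) * (3 * nI r * ε)) * (3 * nI r * ε) := by ring
    _ ≤ nI r * ε + 1 * (3 * nI r * ε) := by gcongr
    _ = ENNReal.ofReal (4 * nI r) * ε := by
        rw [ENNReal.ofReal_mul (by norm_num), ENNReal.ofReal_natCast, ENNReal.ofReal_ofNat]
        ring
    _ = ENNReal.ofReal (8 * nI r * κ) := by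
        rw [hε, ← ENNReal.ofReal_mul (by positivity)]
        congr 1
        ring

end init

/-! ### parameters near the critical point -/

/-- size of the parameters in terms of `lam` -/
def tC (J C : ℝ) (R : ℕ) (V : Finset (ℤ × ℤ) → ℝ) : ℝ :=
  (|criticalBeta J| + |C|) * Vs R V + |C| * |J| + |C|

theorem tC_nonneg (J C : ℝ) (R : ℕ) (V : Finset (ℤ × ℤ) → ℝ) : 0 ≤ tC J C R V := by
  unfold tC
  have := Vs_nonneg R V
  positivity

/-- the parameters are `O(|lam|)` -/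
theorem ple_of_near {J C lam β z : ℝ} (R : ℕ) (V : Finset (ℤ × ℤ) → ℝ) (h : NearP J C lam β z)
    (hl : |lam| ≤ 1) (hl2 : tC J C R V * |lam| ≤ 1 / 2) :
    PLe (mpar J lam R V β z) (tC J C R V * |lam|) := by
  refine mpar_le hl2 ?_
  have h0 : |β - criticalBeta J| + |z| ≤ |C| * |lam| :=
    h.trans (mul_le_mul_of_nonneg_right (le_abs_self C) (abs_nonneg lam))
  have hV := Vs_nonneg R V
  have ha := abs_nonneg lam
  have hJ := abs_nonneg J
  have hC := abs_nonneg C
  have h1 : |β - criticalBeta J| ≤ |C| * |lam| := by linarith [abs_nonneg z]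
  have h2 : |z| ≤ |C| * |lam| := by linarith [abs_nonneg (β - criticalBeta J)]
  have h3 : |β| ≤ |criticalBeta J| + |C| := by
    have h4 : |β| ≤ |criticalBeta J| + |β - criticalBeta J| := by
      have := abs_add_le (criticalBeta J) (β - criticalBeta J)
      rwa [add_sub_cancel] at this
    nlinarith
  unfold tC
  have h5 : |β| * |lam| * Vs R V ≤ (|criticalBeta J| + |C|) * |lam| * Vs R V := by gcongr
  have h6 : |β - criticalBeta J| * |J| ≤ |C| * |lam| * |J| := by gcongr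
  nlinarith

/-- **the norm of the initial activities is `O(|lam|)`**, every background (no sources) -/
theorem k0_bound (J : ℝ) (R : ℕ) (V : Finset (ℤ × ℤ) → ℝ) {c : Cst} (hΓ : 3 ≤ c.Γ)
    (hA : 0 ≤ c.A0) (h6 : 4 * (2 * max R 1 + 1) + 2 ≤ rr c.p c.k0 0) (C : ℝ) :
    ∃ ε > 0, ∃ N : ℝ, 0 ≤ N ∧ ∀ lam β z : ℝ, |lam| < ε → NearP J C lam β z →
      ∀ (G : Type) [CommRing G] [CN G] [CNZ G] [DecidableEq G] [GoodG G] (B : Bg G),
        (∀ z j, |B.w z j| ≤ 1) → ∀ p : Finset (G × G) → Prop,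
        NK B.w c.A0 (rr c.p c.k0 0) (ENNReal.ofReal c.Γ) p
          (fun U => (((fl c (mpar J lam R V β z) B).K 0 U : Ge (Fld G)) : Gr (Fld G))) ≤
        ENNReal.ofReal (N * |lam|) := by
  set T := tC J C R V with hT
  have hT0 : 0 ≤ T := tC_nonneg J C R V
  set κ := Kc (max R 1) c.Γ (cN c.A0 (rr c.p c.k0 0)) with hκ
  set r := rr c.p c.k0 0 with hr
  set nr : ℝ := 3 * nI r with hnr
  set mr : ℝ := (mI r (nearR c.p c.k0 0) : ℝ) with hmr
  have hnr0 : 0 ≤ nr := by positivity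
  have hmr0 : 0 ≤ mr := by positivity
  -- smallness
  have hev : ∀ᶠ l : ℝ in 𝓝 0, (l < 1 ∧ T * l < 1 / 2) ∧
      (4 * (κ * (T * l)) * m0 (max R 1) < 1 ∧ mr * (nr * (2 * (κ * (T * l)))) < 1) := by
    have c1 : Tendsto (fun l : ℝ => l) (𝓝 0) (𝓝 0) := tendsto_id
    have c2 : Tendsto (fun l : ℝ => T * l) (𝓝 0) (𝓝 0) := by
      have := c1.const_mul T; rwa [mul_zero] at this
    have c3 : Tendsto (fun l : ℝ => 4 * (κ * (T * l)) * m0 (max R 1)) (𝓝 0) (𝓝 0) := by
      have := ((c2.const_mul κ).const_mul 4).mul_const (m0 (max R 1) : ℝ)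
      simpa using this
    have c4 : Tendsto (fun l : ℝ => mr * (nr * (2 * (κ * (T * l))))) (𝓝 0) (𝓝 0) := by
      have := (((c2.const_mul κ).const_mul 2).const_mul nr).const_mul mr
      simpa using this
    exact ((c1.eventually (gt_mem_nhds (by norm_num))).and
      (c2.eventually (gt_mem_nhds (by norm_num)))).and
      ((c3.eventually (gt_mem_nhds (by norm_num))).and (c4.eventually (gt_mem_nhds (by norm_num))))
  obtain ⟨ε, hε, hεl⟩ := Metric.eventually_nhds_iff.1 hev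
  refine ⟨ε, hε, 8 * nI r * (|κ| * T), by positivity, ?_⟩
  intro lam β z hl hn G _ _ _ _ _ B hw p
  have hd : dist |lam| 0 < ε := by rwa [dist_zero_right, Real.norm_eq_abs, abs_abs]
  obtain ⟨⟨s1, s2⟩, s3, s4⟩ := hεl hd
  have hP := ple_of_near R V hn s1.le s2.le
  refine (fl0_le (c := c) B hw hP hA hΓ h6 s3.le ?_ p).trans (ENNReal.ofReal_le_ofReal ?_)
  · rw [show (mI r (nearR c.p c.k0 0) : ℝ≥0∞) = ENNReal.ofReal mr by
        rw [hmr, ENNReal.ofReal_natCast],
      show (3 * nI r : ℝ≥0∞) = ENNReal.ofReal nr by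
        rw [hnr, ENNReal.ofReal_mul (by norm_num), ENNReal.ofReal_natCast, ENNReal.ofReal_ofNat],
      ← ENNReal.ofReal_mul hnr0, ← ENNReal.ofReal_mul hmr0, ← ENNReal.ofReal_one]
    exact ENNReal.ofReal_le_ofReal s4.le
  · show 8 * (nI r : ℝ) * (κ * (T * |lam|)) ≤ 8 * nI r * (|κ| * T) * |lam|
    have : κ * (T * |lam|) ≤ |κ| * (T * |lam|) :=
      mul_le_mul_of_nonneg_right (le_abs_self κ) (by positivity)
    have h8 : (0 : ℝ) ≤ 8 * nI r := by positivity
    calc 8 * (nI r : ℝ) * (κ * (T * |lam|)) ≤ 8 * nI r * (|κ| * (T * |lam|)) :=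
          mul_le_mul_of_nonneg_left this h8
      _ = _ := by ring

end Crest.Agent.R165.FlNx387
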