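import Crest.Agent.R165.K0Big_806
import Crest.Agent.R165.FlN_387
import Crest.Agent.R165.K0Src_722

/-!
# Row 165 (S0250): the initial activities with a real source are small (helper583)

* `src_NI`  : 892's input norm of the activities of 126 with a real source of connected support
* `c0_real` : norm of the initial activities, explicit smallness
* `c0G`     : in terms of the constants; every background, uniform in the size of the system; the
  bound on `lam` does not depend on the source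
-/

set_option autoImplicit false
set_option linter.unusedSectionVars false

noncomputable section

open Filter Topology Finset
open scoped ENNReal
open Crest.ProbabilityR.IsingModel
open Crest.Agent.R165.Gr0x606 Crest.Agent.R165.Gr1x606 Crest.Agent.R165.GeOpsx337
open Crest.Agent.R165.Latx683 Crest.Agent.R165.PNormx417
open Crest.Agent.R165.GDefx387 Crest.Agent.R165.GSysx387 Crest.Agent.R165.KInitx892
open Crest.Agent.R165.Bkgx683 Crest.Agent.R165.Outx683 Crest.Agent.R165.PEndx683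
open Crest.Agent.R165.J4Datx126 Crest.Agent.R165.J4Geox126 Crest.Agent.R165.J4K0x126
open Crest.Agent.R165.J4K0Bx126 Crest.Agent.R165.J4K0Nx126 Crest.Agent.R165.K0Bigx806
open Crest.Agent.R165.J4Defx653 Crest.Agent.R165.J4RRx653
open Crest.Agent.R165.K0Srcx722 Crest.Agent.R165.FlNx387
open Crest.Agent.R165.Bridgex915 Crest.Agent.R165.BgIsox432

namespace Crest.Agent.R165.C0Gx583

/-- norm of `∏_{e ∈ S} eps_e` -/
theorem nmE_epS {E : Type*} {w : ℝ≥0∞} (hw : 1 ≤ w) (S : Finset E) :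
    nmE (fun _ => w) (∏ e ∈ S, ep (Finsupp.single e 1) : RR E) ≤ w ^ S.card := by
  classical
  refine (nmE_prod_le (fun _ => hw) S _).trans ?_
  rw [← Finset.prod_const]
  refine Finset.prod_le_prod' fun e _ => ?_
  rw [nmE_ep, wtS, Finsupp.support_single _ one_ne_zero, Finset.prod_singleton]

section bg

variable {G : Type} [CommRing G] [CN G] [CNZ G] [DecidableEq G] [GoodG G]

/-- weight of the source -/
def eS (Γ c t : ℝ) (nY nS : ℕ) : ℝ := (3 * Γ) ^ nY * (|t| * wc c ^ nS)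

/-- **input norm of the activities with a real source** -/
theorem src_NI (B : Bg G) (w : BW G) {P : MPar} {θ Γ a t : ℝ} {r nY nS : ℕ}
    (hw : ∀ z j, |B.w z j| ≤ 1) (hP : PLe P θ) (ha : 0 ≤ a) (hΓ : 1 ≤ Γ)
    {src : Srcs (Fin 1) G (Ge (Fld G))} {Y : Finset (G × G)} {S : Finset (EG G)}
    (h : IsReal src Y S t) (hY : Y.card ≤ nY) (hS : S.card ≤ nS)
    (hsm : 4 * (Kc P.R Γ (cN a r) * θ + eS Γ (cN a r) t nY nS) * m0 P.R ≤ 1) :
    NI (ENNReal.ofReal Γ) (fun U => pG (wU w a r U) (B.K00 P LinearMap.id src U)) ≤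
      ENNReal.ofReal (2 * (Kc P.R Γ (cN a r) * θ + eS Γ (cN a r) t nY nS)) := by
  have hc1 := cN_one a r
  have hwc := wc_one hc1
  have hwc' : (1 : ℝ≥0∞) ≤ ENNReal.ofReal (wc (cN a r)) := by
    rw [← ENNReal.ofReal_one]; exact ENNReal.ofReal_le_ofReal hwc
  have hN := nhyp_wU w ha r
  have hes : 0 ≤ eS Γ (cN a r) t nY nS := by
    unfold eS
    have : 0 ≤ wc (cN a r) := by linarith
    positivity
  have hS0 : SHyp0 (B.bk P src) (fun U x => pG (wU w a r U) x) (cN a r)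
      (fun _ => ENNReal.ofReal |t|) (fun _ => ENNReal.ofReal (wc (cN a r)) ^ nS) := by
    refine ⟨fun _ => ENNReal.ofReal_ne_top, fun _ => ENNReal.pow_ne_top ENNReal.ofReal_ne_top,
      fun k U _ => ?_, fun k => ?_⟩
    · rw [Subsingleton.elim k 0]
      show pG (wU w a r U) (src.as 0) ≤ _
      rw [h.as, Algebra.algebraMap_eq_smul_one]
      refine ((hN.semi U).smul t 1).trans ?_
      rw [Real.enorm_eq_ofReal_abs]
      exact (mul_le_mul_right ((hN.semi U).one) _).trans (mul_one _).le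
    · rw [Subsingleton.elim k 0]
      show nmE _ (src.Fs 0) ≤ _
      rw [h.Fs]
      exact (nmE_epS hwc' S).trans (pow_le_pow_right₀ hwc' hS)
  refine NI_le fun f 𝒮 => ?_
  refine K0_bound_big (B := B.bk P src) hN (bhyp_bk B hw hP src) hΓ hes hS0 ?_ hsm f 𝒮
  intro f
  refine (Finset.sum_le_sum_of_subset (Finset.filter_subset _ _)).trans ?_
  rw [Fin.sum_univ_one]
  show ENNReal.ofReal (3 * Γ) ^ (src.Ys 0).card * (ENNReal.ofReal |t| *
    ENNReal.ofReal (wc (cN a r)) ^ nS) ≤ _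
  have e : ENNReal.ofReal (eS Γ (cN a r) t nY nS) =
      ENNReal.ofReal (3 * Γ) ^ nY *
        (ENNReal.ofReal |t| * ENNReal.ofReal (wc (cN a r)) ^ nS) := by
    rw [eS, ENNReal.ofReal_mul (p := (3 * Γ) ^ nY) (by positivity),
      ENNReal.ofReal_mul (p := |t|) (abs_nonneg t),
      ENNReal.ofReal_pow (by linarith), ENNReal.ofReal_pow (by linarith)]
  rw [h.Ys, e]
  refine mul_le_mul' (pow_le_pow_right₀ ?_ hY) le_rfl
  rw [← ENNReal.ofReal_one]
  exact ENNReal.ofReal_le_ofReal (by linarith)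

/-- **the norm of the initial activities with a real source**, explicit smallness -/
theorem c0_real (B : Bg G) (w : BW G) {P : MPar} {θ Γ a t : ℝ} {l k0 nY nS : ℕ}
    (hw : ∀ z j, |B.w z j| ≤ 1) (hP : PLe P θ) (ha : 0 ≤ a) (hΓ : 3 ≤ Γ)
    {src : Srcs (Fin 1) G (Ge (Fld G))} {Y : Finset (G × G)} {S : Finset (EG G)}
    (h : IsReal src Y S t) (hYc : Packx915.Conn fd 1 Y) (hY : Y.card ≤ nY) (hS : S.card ≤ nS)
    (h6 : 6 ≤ rr l k0 0)
    (hsm : 4 * (Kc P.R Γ (cN a (rr l k0 0)) * θ + eS Γ (cN a (rr l k0 0)) t nY nS) * m0 P.R ≤ 1)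
    (hs2 : mI (rr l k0 0) (nearR l k0 0) * (3 * nI (rr l k0 0) * ENNReal.ofReal
      (2 * (Kc P.R Γ (cN a (rr l k0 0)) * θ + eS Γ (cN a (rr l k0 0)) t nY nS))) ≤ 1)
    (p : Finset (G × G) → Prop) :
    NK w a (rr l k0 0) (ENNReal.ofReal Γ) p
        (fun U => ((B.K0 P LinearMap.id src l k0 U : Ge (Fld G)) : Gr (Fld G))) ≤
      ENNReal.ofReal (8 * nI (rr l k0 0) *
        (Kc P.R Γ (cN a (rr l k0 0)) * θ + eS Γ (cN a (rr l k0 0)) t nY nS)) := by
  have hΓ3 : (3 : ℝ≥0∞) ≤ ENNReal.ofReal Γ := by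
    rw [show (3 : ℝ≥0∞) = ENNReal.ofReal 3 by norm_num]
    exact ENNReal.ofReal_le_ofReal hΓ
  set r := rr l k0 0 with hr
  set κ := Kc P.R Γ (cN a r) * θ + eS Γ (cN a r) t nY nS with hκ
  have h1 := src_NI B w hw hP ha (by linarith : 1 ≤ Γ) h hY hS hsm
  have hYc' : ∀ k, Packx915.Conn fd 1 ((B.bk P src).Ys k) := fun k => by
    rw [Subsingleton.elim k 0]
    show Packx915.Conn fd 1 (src.Ys 0)
    rw [h.Ys]; exact hYc
  have h2 := K1_NK w a (r' := r) (R := 1) (R' := nearR l k0 0) hΓ3 (by omega)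
    (K₀ := B.K00 P LinearMap.id src)
    (fun U hU => J4K0Lx126.K0_conn1 hYc' hU) h1 hs2 ENNReal.ofReal_ne_top p
  refine le_trans h2 ?_
  set ε : ℝ≥0∞ := ENNReal.ofReal (2 * κ) with hε
  calc (nI r : ℝ≥0∞) * ε + mI r (nearR l k0 0) * (3 * nI r * ε) ^ 2
      = nI r * ε + (mI r (nearR l k0 0) * (3 * nI r * ε)) * (3 * nI r * ε) := by ring
    _ ≤ nI r * ε + 1 * (3 * nI r * ε) := by gcongr
    _ = ENNReal.ofReal (4 * nI r) * ε := by
        rw [ENNReal.ofReal_mul (by norm_num), ENNReal.ofReal_natCast, ENNReal.ofReal_ofNat]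
        ring
    _ = ENNReal.ofReal (8 * nI r * κ) := by
        rw [hε, ← ENNReal.ofReal_mul (by positivity)]
        congr 1
        ring

end bg

/-- **the initial activities with a real source are small**: every background, uniform in the size
of the system; the bound on `lam` is chosen before the source -/
def C0G (J : ℝ) (R : ℕ) (V : Finset (ℤ × ℤ) → ℝ) : Prop :=
  EvC fun c => ∀ C η : ℝ, 0 < η → ∃ ε > 0, ∀ nY nS : ℕ, ∃ t0 > 0, ∀ lam β z t : ℝ, |lam| < ε →
    NearP J C lam β z → |t| < t0 →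
    ∀ (G : Type) [CommRing G] [CN G] [CNZ G] [DecidableEq G] [GoodG G] (B : Bg G),
      (∀ z j, |B.w z j| ≤ 1) → ∀ (Y : Finset (G × G)) (S : Finset (EG G))
        (src : Srcs (Fin 1) G (Ge (Fld G))), IsReal src Y S t → Packx915.Conn fd 1 Y →
        Y.card ≤ nY → S.card ≤ nS → ∀ (w : BW G) (p : Finset (G × G) → Prop),
        NK w c.A0 (rr c.p c.k0 0) (ENNReal.ofReal c.Γ) p
          (fun U => ((B.K0 (mpar J lam R V β z) LinearMap.id src c.p c.k0 U : Ge (Fld G)) :
            Gr (Fld G))) ≤ ENNReal.ofReal η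

theorem c0G (J : ℝ) (R : ℕ) (V : Finset (ℤ × ℤ) → ℝ) : C0G J R V := by
  have hev : EvC fun c : Cst => (3 ≤ c.Γ ∧ 0 ≤ c.A0) ∧ 6 ≤ rr c.p c.k0 0 := by
    have h1 := Constx891.ev_std
    refine h1.mono fun c hc => ⟨⟨hc.Γ_ge, by linarith [hc.A0_ge]⟩, ?_⟩
    have h2 : 4 ≤ c.p * (c.k0 + 0) := by
      have := hc.p_pos
      have := hc.k0_pos
      nlinarith
    have h3 : 2 ^ 4 ≤ 2 ^ (c.p * (c.k0 + 0)) := Nat.pow_le_pow_right (by norm_num) h2
    have h4 : rr c.p c.k0 0 = 2 ^ (c.p * (c.k0 + 0)) := rfl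
    rw [h4]; omega
  refine hev.mono fun c hc C η hη => ?_
  obtain ⟨⟨hΓ, hA⟩, h6⟩ := hc
  set T := tC J C R V with hT
  have hT0 : 0 ≤ T := tC_nonneg J C R V
  set r := rr c.p c.k0 0 with hr
  set κ := Kc (max R 1) c.Γ (cN c.A0 r) with hκ
  have hκ0 : 0 ≤ κ := Kc_nonneg _ (by linarith) (cN_one _ _)
  set nr : ℝ := 3 * nI r with hnr
  set mr : ℝ := (mI r (nearR c.p c.k0 0) : ℝ) with hmr
  have hnr0 : 0 ≤ nr := by positivity
  have hmr0 : 0 ≤ mr := by positivity
  -- a threshold for the total size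
  obtain ⟨s, hs, hsl⟩ : ∃ s > 0, ∀ x : ℝ, 0 ≤ x → x ≤ s → 4 * x * m0 (max R 1) ≤ 1 ∧
      mr * (nr * (2 * x)) ≤ 1 ∧ 8 * nI r * x ≤ η := by
    have hev : ∀ᶠ x : ℝ in 𝓝 0, 4 * x * m0 (max R 1) < 1 ∧
        (mr * (nr * (2 * x)) < 1 ∧ 8 * nI r * x < η) := by
      have c1 : Tendsto (fun x : ℝ => x) (𝓝 0) (𝓝 0) := tendsto_id
      have c3 : Tendsto (fun x : ℝ => 4 * x * m0 (max R 1)) (𝓝 0) (𝓝 0) := by
        have := (c1.const_mul 4).mul_const (m0 (max R 1) : ℝ)
        simpa using this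
      have c4 : Tendsto (fun x : ℝ => mr * (nr * (2 * x))) (𝓝 0) (𝓝 0) := by
        have := ((c1.const_mul 2).const_mul nr).const_mul mr
        simpa using this
      have c5 : Tendsto (fun x : ℝ => 8 * nI r * x) (𝓝 0) (𝓝 0) := by
        have := c1.const_mul (8 * (nI r : ℝ))
        simpa using this
      exact (c3.eventually (gt_mem_nhds (by norm_num))).and
        ((c4.eventually (gt_mem_nhds (by norm_num))).and (c5.eventually (gt_mem_nhds hη)))
    obtain ⟨s, hs, h⟩ := Metric.eventually_nhds_iff.1 hev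
    refine ⟨s / 2, by positivity, fun x hx hxs => ?_⟩
    have hd : dist x 0 < s := by
      rw [dist_zero_right, Real.norm_eq_abs, abs_of_nonneg hx]; linarith
    obtain ⟨a1, a2, a3⟩ := h hd
    exact ⟨a1.le, a2.le, a3.le⟩
  have hε : 0 < min (min 1 (1 / (2 * (T + 1)))) (s / 2 / (κ * T + 1)) := by positivity
  refine ⟨_, hε, fun nY nS => ?_⟩
  set E := (3 * c.Γ) ^ nY * wc (cN c.A0 r) ^ nS with hE
  have hwc := wc_one (cN_one c.A0 r)
  have hE0 : 0 ≤ E := by
    have : 0 ≤ wc (cN c.A0 r) := by linarith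
    positivity
  refine ⟨s / 2 / (E + 1), by positivity, ?_⟩
  intro lam β z t hl hn ht G _ _ _ _ _ B hw Y S src hsrc hYc hY hS w p
  have hl1 : |lam| < 1 := hl.trans_le ((min_le_left _ _).trans (min_le_left _ _))
  have hl2 : |lam| * (2 * (T + 1)) < 1 := by
    have := hl.trans_le ((min_le_left _ _).trans (min_le_right _ _))
    rwa [lt_div_iff₀ (by positivity)] at this
  have hl3 : |lam| * (κ * T + 1) < s / 2 := by
    have := hl.trans_le (min_le_right _ _)
    rwa [lt_div_iff₀ (by positivity)] at this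
  have ht' : |t| * (E + 1) < s / 2 := by rwa [lt_div_iff₀ (by positivity)] at ht
  have ha := abs_nonneg lam
  have hta := abs_nonneg t
  have hP := ple_of_near R V hn hl1.le (by nlinarith)
  have hes : eS c.Γ (cN c.A0 r) t nY nS = |t| * E := by rw [eS, hE]; ring
  have hx0 : 0 ≤ κ * (T * |lam|) + |t| * E := by positivity
  have hxs : κ * (T * |lam|) + |t| * E ≤ s := by nlinarith
  obtain ⟨b1, b2, b3⟩ := hsl _ hx0 hxs
  refine (c0_real B w hw hP hA hΓ hsrc hYc hY hS h6 ?_ ?_ p).trans (ENNReal.ofReal_le_ofReal ?_)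
  · rw [← hr, hes]; exact b1
  · rw [← hr, hes]
    rw [show (mI r (nearR c.p c.k0 0) : ℝ≥0∞) = ENNReal.ofReal mr by
        rw [hmr, ENNReal.ofReal_natCast],
      show (3 * nI r : ℝ≥0∞) = ENNReal.ofReal nr by
        rw [hnr, ENNReal.ofReal_mul (by norm_num), ENNReal.ofReal_natCast, ENNReal.ofReal_ofNat],
      ← ENNReal.ofReal_mul hnr0, ← ENNReal.ofReal_mul hmr0, ← ENNReal.ofReal_one]
    exact ENNReal.ofReal_le_ofReal b2
  · rw [← hr, hes]; exact b3

end Crest.Agent.R165.C0Gx583
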