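import Crest.Agent.R165.PTop3_386
import Crest.Agent.R165.Bkg3_683

/-!
# Row 165 (S0250), block F: the universality half from its leaves, connected real sources (helper683)

The limits of the bond expectations are taken with the real source `1 + t ∏_{e ∈ S} eps_e` of support
`boxS S` (connected box around the mark `0`).

* `expoS c P S t` : the limit exponent
* `TorL3`, `DisL3` : torus / disc half;  `Leaves4`, `pflow_of_leaves4 : Leaves4 → PFlow`
-/

set_option autoImplicit false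
set_option linter.unusedSectionVars false

noncomputable section

open Filter Topology
open scoped ENNReal
open Crest.ProbabilityR.IsingModel
open Crest.Agent.R165.Bkgx683 Crest.Agent.R165.Bkg3x683 Crest.Agent.R165.PEndx683
open Crest.Agent.R165.Outx683 Crest.Agent.R165.PinSysx723 Crest.Agent.R165.PTopx386
open Crest.Agent.R165.Symx541 Crest.Agent.R165.Redx541 Crest.Agent.R165.Red2x541
open Crest.Agent.R165.Centx541 Crest.Agent.R165.Mastx541 Crest.Agent.R165.SRx541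
open Crest.Agent.R165.Topx683

namespace Crest.Agent.R165.PTop4x683

/-- the limit exponent of the real source `1 + t ∏_{e ∈ S} eps_e` in the plane -/
def expoS (c : Cst) (P : MPar) (S : Finset ((ℤ × ℤ) × Fin 2)) (t : ℝ) : ℝ :=
  expo (fltY c P Bg.pl 0 (boxS S) S t) (fltY c P Bg.pl 0 (boxS S) S 0)

variable (J : ℝ) (R : ℕ) (V : Finset (ℤ × ℤ) → ℝ)

/-- **torus half** of the limit of the bond expectations -/
def TorL3 : Prop :=
  ForP J (PF J R V) fun c lam β z => ∀ S : Finset ((ℤ × ℤ) × Fin 2), ∃ t0 > 0, ∀ t : ℝ, 0 < t →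
    t < t0 → Tendsto (fun L : ℕ => torBonds L J lam R V β S) atTop
      (𝓝 ((Real.exp (expoS c (mpar J lam R V β z) S t) - 1) / t))

/-- **disc half** of the limit of the bond expectations -/
def DisL3 : Prop :=
  ForP J (PF J R V) fun c lam β z => ∀ S : Finset ((ℤ × ℤ) × Fin 2), ∃ t0 > 0, ∀ t : ℝ, 0 < t →
    t < t0 → Tendsto (fun B : ℝ => 1 + t * discBonds B J lam R V β S) atTop
      (𝓝 (Real.exp (expoS c (mpar J lam R V β z) S t)))

/-- **all leaves** -/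
structure Leaves4 : Prop where
  p7 : ∀ J : ℝ, 0 < J → ∀ (R : ℕ) (V : Finset (ℤ × ℤ) → ℝ), VHyp R V → P7L J R V
  zeta : ∀ J : ℝ, 0 < J → ∀ (R : ℕ) (V : Finset (ℤ × ℤ) → ℝ), VHyp R V → ZetaL J R V
  spd : ∀ J : ℝ, 0 < J → ∀ (R : ℕ) (V : Finset (ℤ × ℤ) → ℝ), VHyp R V → SpDL J R V
  spp : ∀ J : ℝ, 0 < J → ∀ (R : ℕ) (V : Finset (ℤ × ℤ) → ℝ), VHyp R V → SpPL J R V
  en : ∀ J : ℝ, 0 < J → ∀ (R : ℕ) (V : Finset (ℤ × ℤ) → ℝ), VHyp R V →
    ∃ (Ze : Cst → ℝ → ℝ → ℝ → ℝ) (eb : Cst → ℝ → ℝ → ℝ → Fin 2 → ℝ), EnR J R V Ze eb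
  tor : ∀ J : ℝ, 0 < J → ∀ (R : ℕ) (V : Finset (ℤ × ℤ) → ℝ), VHyp R V → TorL3 J R V
  dis : ∀ J : ℝ, 0 < J → ∀ (R : ℕ) (V : Finset (ℤ × ℤ) → ℝ), VHyp R V → DisL3 J R V

variable {J R V}

/-- the field `dl` -/
theorem dl3 (hT : TorL3 J R V) (hD : DisL3 J R V) :
    ForP J (PF J R V) fun _ lam β _ => DiscLim J lam R V β := by
  refine PTopx386.ForP.imp (PEndx683.ForP.and hT hD) fun c lam β z h S => ?_
  obtain ⟨t0, ht0, h1⟩ := h.1 S
  obtain ⟨t1, ht1, h2⟩ := h.2 S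
  have hm : 0 < min t0 t1 / 2 := by have := lt_min ht0 ht1; linarith
  set t := min t0 t1 / 2 with ht
  have htlt : t < min t0 t1 := by rw [ht]; linarith
  refine ⟨_, h1 t hm (htlt.trans_le (min_le_left _ _)), ?_⟩
  exact lin_of_ratio hm.ne' (h2 t hm (htlt.trans_le (min_le_right _ _)))
    (Eventually.of_forall fun _ => rfl)

/-- **the instance of `FlowOut2`** -/
theorem flowOut2_of4 (h7 : P7L J R V) (hz : ZetaL J R V) (hsd : SpDL J R V) (hsp : SpPL J R V)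
    {Ze : Cst → ℝ → ℝ → ℝ → ℝ} {eb : Cst → ℝ → ℝ → ℝ → Fin 2 → ℝ} (he : EnR J R V Ze eb)
    (hT : TorL3 J R V) (hD : DisL3 J R V) : Nonempty (FlowOut2 J R V) :=
  ⟨⟨PF J R V, Zs J R V, Ze, eb, h7, hz.zs, he.one, srd hz hsd, he.dom, srp hz hsp, he.disc,
    dl3 hT hD⟩⟩

/-- **`PFlow` from the leaves** -/
theorem pflow_of_leaves4 (h : Leaves4) : PFlow := by
  refine pflow_of2 TorusUTx922.UTb_proof fun J hJ R V hV => ?_
  obtain ⟨Ze, eb, he⟩ := h.en J hJ R V hV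
  exact flowOut2_of4 (h.p7 J hJ R V hV) (h.zeta J hJ R V hV) (h.spd J hJ R V hV)
    (h.spp J hJ R V hV) he (h.tor J hJ R V hV) (h.dis J hJ R V hV)

end Crest.Agent.R165.PTop4x683
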