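import Crest.Agent.R165.DisL_892
import Crest.Agent.R165.PTop4_683

/-!
# Row 165 (S0250): the leaf `DisL3` from the smallness of the initial activities (helper892)
-/

set_option autoImplicit false

noncomputable section

open Crest.Agent.R165.Topx683 (VHyp)

namespace Crest.Agent.R165.DisLx892

/-- **the leaf `DisL3`** -/
theorem disL3 {J : ℝ} (hJ : 0 < J) {R : ℕ} {V : Finset (ℤ × ℤ) → ℝ} (hV : VHyp R V)
    (hc0 : DisGx892.C0R J R V) : PTop4x683.DisL3 J R V := disL_box hJ.ne' hV hc0

end Crest.Agent.R165.DisLx892
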