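import Crest.Agent.R165.C0G_583
import Crest.Agent.R165.DisL3_892

/-!
# Row 165 (S0250): the leaf `DisL3` (helper583, from 892's `DisL3_892` and `C0G_583`)
-/

set_option autoImplicit false

noncomputable section

open Crest.Agent.R165.Topx683 (VHyp)

namespace Crest.Agent.R165.C0Rx583

/-- **the initial activities with a real source are small**: 892's form -/
theorem c0R (J : ℝ) (R : ℕ) (V : Finset (ℤ × ℤ) → ℝ) : DisGx892.C0R J R V := by
  refine (C0Gx583.c0G J R V).mono fun c hc C η hη => ?_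
  obtain ⟨ε, hε, H⟩ := hc C η hη
  refine ⟨ε, hε, fun lam β z hl hn Y hY S => ?_⟩
  obtain ⟨t0, ht0, H⟩ := H Y.card S.card
  exact ⟨t0, ht0, fun t ht B hB src hs =>
    H lam β z t hl hn ht ℤ B hB Y S src hs hY le_rfl le_rfl B.w (fun _ => True)⟩

/-- **the leaf `DisL3`** -/
theorem disL3 {J : ℝ} (hJ : 0 < J) {R : ℕ} {V : Finset (ℤ × ℤ) → ℝ} (hV : VHyp R V) :
    PTop4x683.DisL3 J R V := DisLx892.disL3 hJ hV (c0R J R V)

end Crest.Agent.R165.C0Rx583
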