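import Crest.Agent.R165.C0_950
import Crest.Agent.R165.SrcAlg_991

/-!
# Row 165 (S0250): the initial norm of the flow with bond sources (helper950)

* `shyp_bond` : 126's `SHyp` for `bondSrc V e` in the norms `pG (wS (W U) v)`, `v i ≤ v0`, distinct
  bonds: `εs = eS c Γ v0 = 4 Γ² v0² (1 + wc c)`
* `c0_flS_NN` : `NN (pG (wS (wU w a r U) v)) (K 0) ≤ 8 nI (KA θ + εs)`
* `smS`       : the smallness condition for `v0² ≤ ..`
-/

set_option autoImplicit false
set_option linter.unusedSectionVars false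

noncomputable section

open Finset Filter Topology
open scoped ENNReal
open Crest.ProbabilityR.IsingModel
open Crest.Agent.R165.Gr0x606 Crest.Agent.R165.Gr1x606 Crest.Agent.R165.GeOpsx337
open Crest.Agent.R165.GDefx387 Crest.Agent.R165.GSysx387 Crest.Agent.R165.KFlowx337
open Crest.Agent.R165.SrcDefx991 Crest.Agent.R165.TorChartx723
open Crest.Agent.R165.J4K0x126 Crest.Agent.R165.J4Geox126 Crest.Agent.R165.J4K0Bx126
open Crest.Agent.R165.J4Datx126
open Crest.Agent.R165.J4Defx653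
open Crest.Agent.R165.J4RRx653
open Crest.Agent.R165.J1ax606 (pe qe)
open Crest.Agent.R165.Latx683 (xc wPl wDom wX BW HE Fld ray)
open Crest.Agent.R165.Bkgx683 Crest.Agent.R165.PEndx683 Crest.Agent.R165.Outx683
open Crest.Agent.R165.C0ax950 Crest.Agent.R165.InitNx682 Crest.Agent.R165.KInitx892
open Crest.Agent.R165.NSumx915 Crest.Agent.R165.Bridgex915 Crest.Agent.R165.Quad2x897
open Crest.Agent.R165.PNormx417 Crest.Agent.R165.BgIsox432 Crest.Agent.R165.Quadx897
open Crest.Agent.R165.FRDPolyx439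

namespace Crest.Agent.R165.C0x950

theorem nmE_ep_single_sub_one {E : Type*} [DecidableEq E] (w : ℝ≥0∞) (e : E) :
    nmE (fun _ => w) (ep (Finsupp.single e 1) - 1 : RR E) ≤ 1 + w := by
  have h1 : (ep (Finsupp.single e 1) - 1 : RR E) = ep (Finsupp.single e 1) + (-1 : ℝ) • (1 : RR E) := by
    rw [neg_one_smul, sub_eq_add_neg]
  rw [h1]
  refine (nmE_add_le _ _ _).trans ?_
  rw [nmE_ep]
  have h2 : wtS (fun _ => w) (Finsupp.single e (1 : ZMod 2)) = w := by
    unfold wtS
    rw [Finsupp.support_single _ one_ne_zero, Finset.prod_singleton]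
  rw [h2, add_comm]
  refine add_le_add ((nmE_smul_le _ _ _).trans ?_) le_rfl
  rw [nmE_one, mul_one, enorm_neg, enorm_one]

/-- the total weight of the sources at a face -/
def eS (c Γ v0 : ℝ) : ℝ := 4 * (Γ ^ 2 * (v0 ^ 2 * (1 + wc c)))

theorem eS_nonneg {c Γ v0 : ℝ} (hc : 1 ≤ c) : 0 ≤ eS c Γ v0 := by
  have := wc_one hc
  unfold eS
  positivity

section

variable {G : Type} [CommRing G] [DecidableEq G] {V : Type*} [AddCommGroup V] [Module ℝ V]

/-- **126's hypothesis for the bond sources** -/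
theorem shyp_bond (B : Bg G) (P : MPar) {m : ℕ} {e : Fin m → Bkgx683.EG G}
    (he : Function.Injective e) {W : Finset (G × G) → V → ℝ≥0∞}
    (hW : ∀ U : Finset (G × G), U.Nonempty → W U 0 = 0) {v : Fin m → ℝ≥0∞} {v0 c Γ : ℝ}
    (hv : ∀ i, v i ≤ ENNReal.ofReal v0) (hv0 : 0 ≤ v0) (hc : 1 ≤ c) (hΓ : 1 ≤ Γ) :
    SHyp (B.bk P (bondSrc V e)) (fun U a => pG (wS (W U) v) a) c Γ (eS c Γ v0)
      (fun _ => ENNReal.ofReal (v0 ^ 2)) (fun _ => ENNReal.ofReal (1 + wc c)) where
  αt _ := ENNReal.ofReal_ne_top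
  φt _ := ENNReal.ofReal_ne_top
  a k U hU := by
    change pG (wS (W U) v) (tau k) ≤ _
    have hne : U.Nonempty := (faE_nonempty (e k)).mono hU
    refine (pG_tau_le (hW U hne) k).trans ?_
    rw [ENNReal.ofReal_pow hv0]
    exact pow_le_pow_left' (hv k) 2
  F k := by
    change nmE (fun _ => ENNReal.ofReal (wc c)) (ep (Finsupp.single (e k) 1) - 1) ≤ _
    refine (nmE_ep_single_sub_one _ _).trans (le_of_eq ?_)
    rw [ENNReal.ofReal_add (by norm_num) (by linarith [wc_one hc]), ENNReal.ofReal_one]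
  card k := by
    change (faE (e k)).card ≤ m0 P.R
    have h1 : (faE (e k)).card ≤ 2 := by unfold faE; exact Finset.card_le_two
    have h2 := two_le_m0 P.R
    omega
  tot f := by
    have hΓ1 : (1 : ℝ≥0∞) ≤ ENNReal.ofReal Γ := by
      rw [← ENNReal.ofReal_one]; exact ENNReal.ofReal_le_ofReal hΓ
    change ∑ k with f ∈ faE (e k), ENNReal.ofReal Γ ^ (faE (e k)).card *
      (ENNReal.ofReal (v0 ^ 2) * ENNReal.ofReal (1 + wc c)) ≤ _
    have h1 : ∀ k ∈ univ.filter (fun k => f ∈ faE (e k)),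
        ENNReal.ofReal Γ ^ (faE (e k)).card *
          (ENNReal.ofReal (v0 ^ 2) * ENNReal.ofReal (1 + wc c)) ≤
        ENNReal.ofReal (Γ ^ 2 * (v0 ^ 2 * (1 + wc c))) := by
      intro k _
      have h2 : (faE (e k)).card ≤ 2 := by unfold faE; exact Finset.card_le_two
      rw [ENNReal.ofReal_mul (p := Γ ^ 2) (by positivity),
        ENNReal.ofReal_mul (p := v0 ^ 2) (by positivity),
        ENNReal.ofReal_pow (p := Γ) (by linarith)]
      exact mul_le_mul_left (pow_le_pow_right₀ hΓ1 h2) _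
    refine (Finset.sum_le_sum h1).trans ?_
    rw [Finset.sum_const, nsmul_eq_mul]
    have h3 : (univ.filter (fun k => f ∈ faE (e k))).card ≤ 4 := by
      have h4 : ((univ.filter (fun k => f ∈ faE (e k))).image e).card =
          (univ.filter (fun k => f ∈ faE (e k))).card := Finset.card_image_of_injective _ he
      rw [← h4]
      refine (Finset.card_le_card ?_).trans (card_edgF f)
      intro x hx
      obtain ⟨k, hk, rfl⟩ := Finset.mem_image.1 hx
      exact mem_edgF (Finset.mem_filter.1 hk).2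
    have h5 : ((univ.filter (fun k => f ∈ faE (e k))).card : ℝ≥0∞) ≤ ENNReal.ofReal 4 := by
      rw [ENNReal.ofReal_ofNat]
      exact_mod_cast h3
    refine (mul_le_mul_left h5 _).trans (le_of_eq ?_)
    rw [← ENNReal.ofReal_mul (by norm_num)]
    rfl

end

section

variable {G : Type} [CommRing G] [CN G] [GoodG G] [CNZ G] [DecidableEq G]

theorem wU_zero (w : BW G) (a : ℝ) (r : ℕ) {U : Finset (G × G)} (hU : U.Nonempty) :
    wU w a r U 0 = 0 := by
  classical
  obtain ⟨x, hx⟩ := hU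
  refine le_antisymm ?_ zero_le
  unfold wU
  refine (iInf₂_le x hx).trans ?_
  have hs : SuppL (ball x (s0 * r)) (0 : Fld G) := fun h hh => absurd rfl hh
  rw [if_pos hs]
  unfold wt
  have h1 : (⨆ f : {f : HE G → ℝ // nnB w r x f ≤ 1}, ENNReal.ofReal |pair (0 : Fld G) f.1|) = 0 := by
    refine le_antisymm (iSup_le fun f => ?_) zero_le
    have h2 : pair (0 : Fld G) f.1 = 0 := by unfold pair; exact Finsupp.sum_zero_index
    rw [h2, abs_zero, ENNReal.ofReal_zero]
  rw [h1, mul_zero]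

/-- **THE INITIAL NORM OF THE FLOW WITH BOND SOURCES** (any mark, any extraction `e2`) -/
theorem c0_flS_NN {J : ℝ} {R : ℕ} {V : Finset (ℤ × ℤ) → ℝ} {c : Cst} (hc : COK c) {lam β z : ℝ}
    (B : Bg G) (hw : W1 B.w) (w : BW G) {m : ℕ} {e : Fin m → Bkgx683.EG G}
    (he : Function.Injective e) {v : Fin m → ℝ≥0∞} {v0 : ℝ}
    (hv : ∀ i, v i ≤ ENNReal.ofReal v0) (hv0 : 0 ≤ v0)
    (h : CT J R V * tht J lam β z ≤ 1)
    (h' : D0c (max R 1) c * (KA (max R 1) c * (CT J R V * tht J lam β z) +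
      eS (cc0 c) c.Γ v0) ≤ 1) :
    NN fd (r0 c) (ENNReal.ofReal c.Γ) (fun U => pG (wS (wU w c.A0 (r0 c) U) v)
      (B.K0 (mpar J lam R V β z) (LinearMap.inl ℝ (Fld G) (Src m)) (bondSrc (Fld G) e)
        c.p c.k0 U)) ≤
      ENNReal.ofReal (8 * nI (r0 c) * (KA (max R 1) c * (CT J R V * tht J lam β z) +
        eS (cc0 c) c.Γ v0)) :=
  c0_gen (B := B.bk (mpar J lam R V β z) (bondSrc (Fld G) e)) hc
    (nhyp_src w hc.A (r0 c) m v) (normFam_src w c.A0 (r0 c) m v) (bhyp hw h _)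
    (eS_nonneg (one_le_cB _ _))
    (shyp_bond B _ he (fun U hU => wU_zero w c.A0 (r0 c) hU) hv hv0 (one_le_cB _ _)
      (by linarith [hc.Γ]))
    (fun k => J4K0Lx126.conn_faE (e k)) h'

end

end Crest.Agent.R165.C0x950

end
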