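import Crest.Agent.R165.C0_950
import Crest.Agent.R165.K0Big_806
import Crest.Agent.R165.K0Src_722
import Crest.Agent.R165.Crude_386
import Crest.Agent.R165.JVol_950

/-!
# Row 165 (S0250): the initial norm of the flows with a real source (helper806)

`src` is any source record with `IsReal src Y S t` (support `Y` connected by unit steps, bonds `S`,
constant `t`), `B` any background with weights at most one.

* `init_NN_of`    : 682's `init_NN` from a bound of `K0` (any family of norms)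
* `shyp_real`     : `SHyp0` for a real source, `α = |t|`, `φ = wc^{#S}`
* `c0_gen_big`    : sources of arbitrary support, any family of norms
* `c0s_NN`        : `NN (K0) ≤ C0c * tht + CSc #Y #S * |t|`
* `c0_src_ev`     : the same with the filters of `ForP`:
  `∃ ε m, ∀ nY nS, ∃ mS t0, ∀ lam β z t B src ..: NK (K0) ≤ m |lam| + mS |t|`, every amplitude
  `a ≤ 2 A0`, every weight, every class; `c0_src_flow_ev` for `(B.flow ..).K 0`
* `K0_real_struct`: nonempty, connected, local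
-/

set_option autoImplicit false
set_option linter.unusedSectionVars false

noncomputable section

open Finset Filter Topology
open scoped ENNReal
open Crest.ProbabilityR.IsingModel
open Crest.Agent.R165.Gr0x606 Crest.Agent.R165.Gr1x606 Crest.Agent.R165.GeOpsx337
open Crest.Agent.R165.GDefx387 Crest.Agent.R165.GSysx387 Crest.Agent.R165.KFlowx337
open Crest.Agent.R165.SrcDefx991 Crest.Agent.R165.TorChartx723
open Crest.Agent.R165.J4K0x126 Crest.Agent.R165.J4Geox126 Crest.Agent.R165.J4K0Bx126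
open Crest.Agent.R165.J4Datx126
open Crest.Agent.R165.J4Defx653
open Crest.Agent.R165.J4RRx653
open Crest.Agent.R165.J1ax606 (pe qe)
open Crest.Agent.R165.Latx683 (xc wPl wDom wX BW HE Fld ray)
open Crest.Agent.R165.Bkgx683 Crest.Agent.R165.PEndx683 Crest.Agent.R165.Outx683
open Crest.Agent.R165.C0ax950 Crest.Agent.R165.InitNx682 Crest.Agent.R165.KInitx892
open Crest.Agent.R165.NSumx915 Crest.Agent.R165.Bridgex915 Crest.Agent.R165.Quad2x897
open Crest.Agent.R165.PNormx417 Crest.Agent.R165.BgIsox432 Crest.Agent.R165.Quadx897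
open Crest.Agent.R165.C0x950 Crest.Agent.R165.K0Bigx806 Crest.Agent.R165.K0Srcx722

namespace Crest.Agent.R165.C0Srcx806

/-! ### the reclustering step, from a bound of `K0` -/

section gen

variable {G : Type} [CommRing G] [CN G] [GoodG G] [DecidableEq G]
variable {A : Type*} [CommRing A] [Algebra ℝ A]
variable {nm : Finset (G × G) → A → ℝ≥0∞} {Γ s : ℝ} {r' R₀ R' : ℕ}

theorem init_NN_of (hF : NormFam nm) (hΓ : 3 ≤ Γ) (hR1 : 1 ≤ R₀) (hRr : 4 * R₀ + 2 ≤ r')
    (hs0 : 0 ≤ s) (hs : (mI r' R' : ℝ) * (24 * nI r' * s) ≤ 1) {K : Finset (G × G) → A}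
    (hK : ∀ U, K U ≠ 0 → Packx915.Conn fd R₀ U)
    (h : NN fd 0 (ENNReal.ofReal Γ) (fun U => nm U (K U)) ≤ ENNReal.ofReal (2 * s)) :
    NN fd r' (ENNReal.ofReal Γ) (fun U => nm U (K1 (fun a b => fd a b ≤ R') K U)) ≤
      ENNReal.ofReal (8 * nI r' * s) := by
  have hr' : 0 < r' := by omega
  have e1 : (nI r' : ℝ≥0∞) = ENNReal.ofReal (nI r') := (ENNReal.ofReal_natCast _).symm
  have e2 : (mI r' R' : ℝ≥0∞) = ENNReal.ofReal (mI r' R') := (ENNReal.ofReal_natCast _).symm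
  have e3 : (3 : ℝ≥0∞) * nI r' * ENNReal.ofReal (2 * s) = ENNReal.ofReal (6 * nI r' * s) := by
    rw [e1, ← ENNReal.ofReal_ofNat 3, ← ENNReal.ofReal_mul (by norm_num),
      ← ENNReal.ofReal_mul (by positivity)]
    congr 1; ring
  have hsm : (mI r' R' : ℝ) * (6 * nI r' * s) ≤ 1 := by
    have h2 : (0 : ℝ) ≤ (mI r' R' : ℝ) * (nI r' * s) := by positivity
    nlinarith
  have key := K1_NN (R' := R') (n := mI r' R') (n' := nI r') (Γ := ENNReal.ofReal Γ) pd_fd
    (three_le_ofReal hΓ) hRr (cov_fd hr' _) (cov_card r') hF hK h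
    (by rw [e3, e2, ← ENNReal.ofReal_mul (by positivity), ← ENNReal.ofReal_one]
        exact ENNReal.ofReal_le_ofReal hsm) ENNReal.ofReal_ne_top
  refine key.trans ?_
  rw [e3, e2, e1, ← ENNReal.ofReal_pow (by positivity), ← ENNReal.ofReal_mul (by positivity),
    ← ENNReal.ofReal_mul (by positivity), ← ENNReal.ofReal_add (by positivity) (by positivity)]
  refine ENNReal.ofReal_le_ofReal ?_
  have h3 : (mI r' R' : ℝ) * (6 * nI r' * s) ^ 2 ≤ 6 * nI r' * s := by
    have h4 : (0 : ℝ) ≤ 6 * nI r' * s := by positivity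
    calc (mI r' R' : ℝ) * (6 * nI r' * s) ^ 2 = ((mI r' R' : ℝ) * (6 * nI r' * s)) *
          (6 * nI r' * s) := by ring
      _ ≤ 1 * (6 * nI r' * s) := mul_le_mul_of_nonneg_right hsm h4
      _ = _ := one_mul _
  linarith

variable {κ : Type*} [DecidableEq κ] [Fintype κ]
variable {fr : Fr G A} {B : Bk G κ A} {θ εs : ℝ} {α φ : κ → ℝ≥0∞}

/-- **sources of arbitrary support, any family of norms** -/
theorem c0_gen_big {c : Cst} (hc : COK c) (hN : NHyp fr nm (cc0 c)) (hF : NormFam nm)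
    (hB : BHyp B θ) (hεs : 0 ≤ εs) (hS : SHyp0 B nm (cc0 c) α φ)
    (htot : ∀ f, ∑ k with f ∈ B.Ys k,
      ENNReal.ofReal (3 * c.Γ) ^ (B.Ys k).card * (α k * φ k) ≤ ENNReal.ofReal εs)
    (hk : ∀ k, Packx915.Conn fd 1 (B.Ys k)) (h : D0c B.R c * (KA B.R c * θ + εs) ≤ 1) :
    NN fd (r0 c) (ENNReal.ofReal c.Γ)
      (fun U => nm U (K1 (near c.p c.k0 0) (B.K0 fr) U)) ≤
      ENNReal.ofReal (8 * nI (r0 c) * (KA B.R c * θ + εs)) := by
  have hn := num hc hB.θ0 hεs h
  have hs0 : 0 ≤ KA B.R c * θ + εs := by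
    have h1 := KA_nonneg B.R hc
    have h2 := hB.θ0
    positivity
  have h3 := hc.Γ
  exact init_NN_of hF hc.Γ le_rfl hn.Rr hs0 hn.sm'
    (fun U hU => K0_connR (fr := fr) (B := B) le_rfl hk hU)
    (NN_le_of fun f 𝒮 => K0_bound_big hN hB (by linarith) hεs hS htot hn.sm f 𝒮)

end gen

/-! ### a real source -/

section real

variable {G : Type} [CommRing G] [DecidableEq G] {V : Type*} [AddCommGroup V] [Module ℝ V]

theorem nmE_prod_ep_le {w : ℝ≥0∞} (hw : 1 ≤ w) (S : Finset (EG G)) :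
    nmE (fun _ => w) (∏ e ∈ S, ep (Finsupp.single e 1) : RR (EG G)) ≤ w ^ S.card := by
  classical
  refine (nmE_prod_le (fun _ => hw) _ _).trans ?_
  rw [← Finset.prod_const]
  refine Finset.prod_le_prod' fun e _ => ?_
  rw [nmE_ep, wtS, Finsupp.support_single _ one_ne_zero, Finset.prod_singleton]

theorem shyp_real {A : Type*} [CommRing A] [Algebra ℝ A] (B : Bg G) (P : MPar)
    {src : Srcs (Fin 1) G A} {Y : Finset (G × G)} {S : Finset (EG G)} {t : ℝ}
    (hs : IsReal src Y S t) {nm : Finset (G × G) → A → ℝ≥0∞} (hnm : ∀ U, FSemi (nm U)) {c : ℝ}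
    (hc : 1 ≤ c) :
    SHyp0 (B.bk P src) nm c (fun _ => ENNReal.ofReal |t|)
      (fun _ => ENNReal.ofReal (wc c ^ S.card)) where
  αt _ := ENNReal.ofReal_ne_top
  φt _ := ENNReal.ofReal_ne_top
  a k U _ := by
    obtain rfl : k = 0 := Subsingleton.elim _ _
    change nm U (src.as 0) ≤ _
    rw [hs.as, Algebra.algebraMap_eq_smul_one]
    refine ((hnm U).smul _ _).trans ?_
    rw [Real.enorm_eq_ofReal_abs]
    calc ENNReal.ofReal |t| * nm U 1 ≤ ENNReal.ofReal |t| * 1 :=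
          mul_le_mul_right (hnm U).one _
      _ = _ := mul_one _
  F k := by
    obtain rfl : k = 0 := Subsingleton.elim _ _
    change nmE _ (src.Fs 0) ≤ _
    rw [hs.Fs, ENNReal.ofReal_pow (by linarith [wc_one hc])]
    refine nmE_prod_ep_le ?_ S
    rw [← ENNReal.ofReal_one]; exact ENNReal.ofReal_le_ofReal (wc_one hc)

/-- the size of a real source -/
def eS (Γ c : ℝ) (nY nS : ℕ) : ℝ := (3 * Γ) ^ nY * wc c ^ nS

theorem eS_nonneg {Γ c : ℝ} (hΓ : 3 ≤ Γ) (hc : 1 ≤ c) (nY nS : ℕ) : 0 ≤ eS Γ c nY nS := by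
  have := wc_one hc
  unfold eS
  positivity

theorem tot_real {A : Type*} [CommRing A] [Algebra ℝ A] (B : Bg G) (P : MPar)
    {src : Srcs (Fin 1) G A} {Y : Finset (G × G)} {S : Finset (EG G)} {t : ℝ}
    (hs : IsReal src Y S t) {Γ c : ℝ} (hΓ : 3 ≤ Γ) (hc : 1 ≤ c) {nY nS : ℕ} (hY : Y.card ≤ nY)
    (hS : S.card ≤ nS) (f : G × G) :
    ∑ k with f ∈ (B.bk P src).Ys k, ENNReal.ofReal (3 * Γ) ^ ((B.bk P src).Ys k).card *
      ((fun _ : Fin 1 => ENNReal.ofReal |t|) k *
        (fun _ : Fin 1 => ENNReal.ofReal (wc c ^ S.card)) k) ≤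
      ENNReal.ofReal (eS Γ c nY nS * |t|) := by
  have hw := wc_one hc
  refine (Finset.sum_le_sum_of_subset (Finset.filter_subset _ _)).trans ?_
  rw [Fin.sum_univ_one]
  change ENNReal.ofReal (3 * Γ) ^ (src.Ys 0).card *
    (ENNReal.ofReal |t| * ENNReal.ofReal (wc c ^ S.card)) ≤ _
  rw [hs.Ys, ← ENNReal.ofReal_pow (by linarith), ← ENNReal.ofReal_mul (abs_nonneg _),
    ← ENNReal.ofReal_mul (by positivity)]
  refine ENNReal.ofReal_le_ofReal ?_
  have h1 : (3 * Γ) ^ Y.card ≤ (3 * Γ) ^ nY := pow_le_pow_right₀ (by linarith) hY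
  have h2 : wc c ^ S.card ≤ wc c ^ nS := pow_le_pow_right₀ hw hS
  calc (3 * Γ) ^ Y.card * (|t| * wc c ^ S.card) ≤ (3 * Γ) ^ nY * (|t| * wc c ^ nS) := by
        gcongr
    _ = eS Γ c nY nS * |t| := by unfold eS; ring

end real

/-! ### the bound for the backgrounds -/

section main

variable {G : Type} [CommRing G] [CN G] [GoodG G] [DecidableEq G]

/-- the coefficient of `|t|` -/
def CSc (c : Cst) (nY nS : ℕ) : ℝ := 8 * nI (r0 c) * eS c.Γ (cc0 c) nY nS

theorem CSc_nonneg {c : Cst} (hc : COK c) (nY nS : ℕ) : 0 ≤ CSc c nY nS := by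
  have := eS_nonneg hc.Γ (one_le_cB c.A0 (r0 c)) nY nS
  unfold CSc
  positivity

/-- **the initial norm with a real source** -/
theorem c0s_NN {J : ℝ} {R : ℕ} {V : Finset (ℤ × ℤ) → ℝ} {c : Cst} (hc : COK c) {lam β z t : ℝ}
    {nY nS : ℕ} (h1 : CT J R V * tht J lam β z ≤ 1)
    (h : D0c (max R 1) c * (KA (max R 1) c * (CT J R V * tht J lam β z) +
      eS c.Γ (cc0 c) nY nS * |t|) ≤ 1)
    (B : Bg G) (hw : W1 B.w) {src : Srcs (Fin 1) G (Ge (Fld G))} {Y : Finset (G × G)}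
    {S : Finset (EG G)} (hs : IsReal src Y S t) (hY : Y.card ≤ nY) (hS : S.card ≤ nS)
    (hk : Packx915.Conn fd 1 Y) (w : BW G) :
    NN fd (r0 c) (ENNReal.ofReal c.Γ) (fun U => pG (wU w c.A0 (r0 c) U)
      (B.K0 (mpar J lam R V β z) LinearMap.id src c.p c.k0 U)) ≤
      ENNReal.ofReal (C0c J R V c * tht J lam β z + CSc c nY nS * |t|) := by
  have hcc : 1 ≤ cc0 c := one_le_cB c.A0 (r0 c)
  have he := eS_nonneg hc.Γ hcc nY nS
  have key := c0_gen_big (B := B.bk (mpar J lam R V β z) src) hc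
    (nhyp_id w hc.A (r0 c)) (normFam_pG w c.A0 (r0 c)) (bhyp hw h1 _)
    (εs := eS c.Γ (cc0 c) nY nS * |t|) (by positivity)
    (shyp_real B (mpar J lam R V β z) hs (fun U => fsemi_pG _) hcc)
    (tot_real B (mpar J lam R V β z) hs hc.Γ hcc hY hS)
    (fun k => by
      obtain rfl : k = 0 := Subsingleton.elim _ _
      change Packx915.Conn fd 1 (src.Ys 0)
      rw [hs.Ys]; exact hk) h
  refine le_trans key (le_of_eq ?_)
  congr 1
  change 8 * nI (r0 c) * (KA (max R 1) c * (CT J R V * tht J lam β z) +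
    eS c.Γ (cc0 c) nY nS * |t|) = _
  unfold C0c CSc
  ring

theorem c0s_NK {J : ℝ} {R : ℕ} {V : Finset (ℤ × ℤ) → ℝ} {c : Cst} (hc : COK c) {lam β z t : ℝ}
    {nY nS : ℕ} (h1 : CT J R V * tht J lam β z ≤ 1)
    (h : D0c (max R 1) c * (KA (max R 1) c * (CT J R V * tht J lam β z) +
      eS c.Γ (cc0 c) nY nS * |t|) ≤ 1)
    (B : Bg G) (hw : W1 B.w) {src : Srcs (Fin 1) G (Ge (Fld G))} {Y : Finset (G × G)}
    {S : Finset (EG G)} (hs : IsReal src Y S t) (hY : Y.card ≤ nY) (hS : S.card ≤ nS)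
    (hk : Packx915.Conn fd 1 Y) (w : BW G) {a : ℝ} (ha : a ≤ c.A0)
    (p : Finset (G × G) → Prop) :
    NK w a (rr c.p c.k0 0) (ENNReal.ofReal c.Γ) p
      (fun U => (B.K0 (mpar J lam R V β z) LinearMap.id src c.p c.k0 U : Gr (Fld G))) ≤
      ENNReal.ofReal (C0c J R V c * tht J lam β z + CSc c nY nS * |t|) :=
  (Crudex386.NK_amp_mono w ha _ _ p _).trans
    ((NK_le_NN w c.A0 (r0 c) _ p _).trans (c0s_NN hc h1 h B hw hs hY hS hk w))

/-- nonempty, connected, local -/
theorem K0_real_struct (B : Bg G) (P : MPar) {src : Srcs (Fin 1) G (Ge (Fld G))}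
    {Y : Finset (G × G)} {S : Finset (EG G)} {t : ℝ} (hs : IsReal src Y S t)
    (hk : Packx915.Conn fd 1 Y) {l k0 : ℕ} (hn : 1 ≤ nearR l k0 0) (U : Finset (G × G)) :
    (B.K0 P LinearMap.id src l k0 U ≠ 0 →
      U.Nonempty ∧ Packx915.Conn fd (nearR l k0 0) U) ∧
    B.K0 P LinearMap.id src l k0 U ∈ grG (fldU U) := by
  refine ⟨fun h => ⟨?_, ?_⟩, ?_⟩
  · rw [Finset.nonempty_iff_ne_empty]
    rintro rfl
    exact h (K1_empty _ _)
  · refine K1_conn pd_fd hn (fun W hW => ?_) h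
    refine K0_connR (fr := frG LinearMap.id) (B := B.bk P src) le_rfl (fun k => ?_) hW
    obtain rfl : k = 0 := Subsingleton.elim _ _
    change Packx915.Conn fd 1 (src.Ys 0)
    rw [hs.Ys]; exact hk
  · refine JVolx950.K0_fldU B P _ (fun k _ => ?_) l k0 U
    obtain rfl : k = 0 := Subsingleton.elim _ _
    rw [hs.as]
    exact Subalgebra.algebraMap_mem _ _

end main

/-! ### the filters of the constants -/

/-- the amplitude `2 A0` -/
def c2 (c : Cst) : Cst := ⟨c.p, c.Γ, c.k0, 2 * c.A0, c.δ⟩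

theorem COK.two {c : Cst} (hc : COK c) : COK (c2 c) where
  Γ := hc.Γ
  A := by change 0 ≤ 2 * c.A0; linarith [hc.A]
  r := hc.r

/-- **c_0 WITH A REAL SOURCE, in the form of `ForP`**: `ε` and the coefficient `m` of `|lam|` do not
depend on the source; every background with weights at most one, every amplitude `a ≤ 2 A0`, every
weight `w` of the norm, every class `p` -/
theorem c0_src_ev (J : ℝ) (R : ℕ) (V : Finset (ℤ × ℤ) → ℝ) : EvC fun c => ∀ C : ℝ, ∃ ε > 0,
    ∃ m ≥ 0, ∀ nY nS : ℕ, ∃ mS ≥ 0, ∃ t0 > 0, ∀ lam β z t : ℝ, |lam| < ε →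
      NearP J C lam β z → |t| ≤ t0 →
      ∀ (G : Type) [CommRing G] [CN G] [GoodG G] [DecidableEq G] (B : Bg G), W1 B.w →
        ∀ (src : Srcs (Fin 1) G (Ge (Fld G))) (Y : Finset (G × G)) (S : Finset (EG G)),
          IsReal src Y S t → Y.card ≤ nY → S.card ≤ nS → Packx915.Conn fd 1 Y →
          ∀ (w : BW G) (a : ℝ), a ≤ 2 * c.A0 → ∀ p : Finset (G × G) → Prop,
            NK w a (rr c.p c.k0 0) (ENNReal.ofReal c.Γ) p
              (fun U => (B.K0 (mpar J lam R V β z) LinearMap.id src c.p c.k0 U : Gr (Fld G))) ≤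
              ENNReal.ofReal (m * |lam| + mS * |t|) := by
  refine evC_COK.mono fun c hc C => ?_
  have hc' := COK.two hc
  have h1 : 0 < 1 + |C| := by positivity
  have h2 := C0c_nonneg J R V hc'
  have hK := KA_nonneg (max R 1) hc'
  have hD := D0c_nonneg (max R 1) (c2 c)
  have hT := one_le_CT J R V
  have hD1 : 0 < 1 + D0c (max R 1) (c2 c) * (KA (max R 1) (c2 c) * CT J R V) := by positivity
  -- the bound on `lam`
  set X : ℝ := (CT J R V + (1 + D0c (max R 1) (c2 c) * (KA (max R 1) (c2 c) * CT J R V))) *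
    (1 + |C|) with hX
  have hX0 : 0 < X := by positivity
  refine ⟨1 / (2 * X), by positivity, C0c J R V (c2 c) * (1 + |C|), by positivity,
    fun nY nS => ?_⟩
  have he := eS_nonneg hc'.Γ (one_le_cB (c2 c).A0 (r0 (c2 c))) nY nS
  set E : ℝ := eS (c2 c).Γ (cc0 (c2 c)) nY nS with hE
  have hE1 : 0 < 1 + D0c (max R 1) (c2 c) * E := by positivity
  refine ⟨CSc (c2 c) nY nS, CSc_nonneg hc' nY nS, 1 / (2 * (1 + D0c (max R 1) (c2 c) * E)),
    by positivity, ?_⟩
  intro lam β z t hl hn ht G _ _ _ _ B hw src Y S hs hY hS hk w a ha p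
  have h4 := tht_le_of_near hn
  have h40 := tht_nonneg J lam β z
  have h5 : X * |lam| ≤ 1 / 2 := by
    have : |lam| ≤ 1 / (2 * X) := hl.le
    calc X * |lam| ≤ X * (1 / (2 * X)) := by gcongr
      _ = 1 / 2 := by field_simp
  have h6 : (CT J R V + (1 + D0c (max R 1) (c2 c) * (KA (max R 1) (c2 c) * CT J R V))) *
      tht J lam β z ≤ 1 / 2 := by
    refine le_trans ?_ h5
    rw [hX, mul_assoc]
    exact mul_le_mul_of_nonneg_left h4 (by positivity)
  have h7 : 0 ≤ D0c (max R 1) (c2 c) * (KA (max R 1) (c2 c) * CT J R V) * tht J lam β z := by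
    positivity
  have h8 : 0 ≤ CT J R V * tht J lam β z := by positivity
  have h9 : D0c (max R 1) (c2 c) * E * |t| ≤ 1 / 2 := by
    calc D0c (max R 1) (c2 c) * E * |t| ≤ (1 + D0c (max R 1) (c2 c) * E) * |t| := by
          have := abs_nonneg t
          nlinarith
      _ ≤ (1 + D0c (max R 1) (c2 c) * E) * (1 / (2 * (1 + D0c (max R 1) (c2 c) * E))) := by
          gcongr
      _ = 1 / 2 := by field_simp
  have key := c0s_NK (J := J) (R := R) (V := V) (c := c2 c) (β := β) (z := z) (t := t)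
    (lam := lam) (nY := nY) (nS := nS) hc' (by nlinarith)
    (by
      rw [← hE]
      have e1 : D0c (max R 1) (c2 c) * (KA (max R 1) (c2 c) * (CT J R V * tht J lam β z) +
          E * |t|) = D0c (max R 1) (c2 c) * (KA (max R 1) (c2 c) * CT J R V) * tht J lam β z +
            D0c (max R 1) (c2 c) * E * |t| := by ring
      rw [e1]
      nlinarith)
    B hw hs hY hS hk w (a := a) ha p
  refine le_trans key (ENNReal.ofReal_le_ofReal ?_)
  have h10 : C0c J R V (c2 c) * tht J lam β z ≤ C0c J R V (c2 c) * (1 + |C|) * |lam| := by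
    rw [mul_assoc]
    exact mul_le_mul_of_nonneg_left h4 h2
  linarith

/-- **the same for the flow of the background** -/
theorem c0_src_flow_ev (J : ℝ) (R : ℕ) (V : Finset (ℤ × ℤ) → ℝ) : EvC fun c => ∀ C : ℝ, ∃ ε > 0,
    ∃ m ≥ 0, ∀ nY nS : ℕ, ∃ mS ≥ 0, ∃ t0 > 0, ∀ lam β z t : ℝ, |lam| < ε →
      NearP J C lam β z → |t| ≤ t0 →
      ∀ (G : Type) [CommRing G] [CN G] [GoodG G] [CNZ G] [DecidableEq G] (B : Bg G), W1 B.w →
        ∀ (src : Srcs (Fin 1) G (Ge (Fld G))) (Y : Finset (G × G)) (S : Finset (EG G)),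
          IsReal src Y S t → Y.card ≤ nY → S.card ≤ nS → Packx915.Conn fd 1 Y →
          ∀ (mk : Finset (G × G)) (w : BW G) (a : ℝ), a ≤ 2 * c.A0 →
            ∀ p : Finset (G × G) → Prop,
            NK w a (rr c.p c.k0 0) (ENNReal.ofReal c.Γ) p
              (fun U => (((B.flow (mpar J lam R V β z) DD mk src c.p c.k0).K 0 U :
                Ge (Fld G)) : Gr (Fld G))) ≤
              ENNReal.ofReal (m * |lam| + mS * |t|) := by
  refine (c0_src_ev J R V).mono fun c hc C => ?_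
  obtain ⟨ε, hε, m, hm, h⟩ := hc C
  refine ⟨ε, hε, m, hm, fun nY nS => ?_⟩
  obtain ⟨mS, hmS, t0, ht0, h'⟩ := h nY nS
  refine ⟨mS, hmS, t0, ht0, ?_⟩
  intro lam β z t hl hn ht G _ _ _ _ _ B hw src Y S hs hY hS hk mk w a ha p
  exact h' lam β z t hl hn ht G B hw src Y S hs hY hS hk w a ha p

end Crest.Agent.R165.C0Srcx806
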