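import Crest.Agent.R165.J4K0B_126
import Crest.Agent.R165.J4K0L_126
import Crest.Agent.R165.Bkg_683
import Crest.Agent.R165.SrcAlg_991
import Crest.Agent.R165.WtIso_898

/-!
# Row 165 (S0250), leaf INIT-R: the initial activities in the norms of the flow (helper682)

* `nhyp`, `nhyp_id`, `nhyp_src` : the norms `pG (W U)` of the flow satisfy `NHyp` of `J4K0B_126`
  for the frame `frG ι`, with `c = cB a r = 1 + 6 a² r`
* `K0_connR`  : supports of the initial activities are connected at range `R₀`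
* `NN_le_of`  : bounds over finite families give bounds of `NN fd 0`
* `init_NN`, `init_NN_sub`, `init_NN_lip`, `init_NN_lip2` : the reclustered activities
  `K1 (fd ≤ R') (B.K0 fr)` in any family of norms:
  `N(K1) ≤ 8 n S`, `N(K1 - K01) ≤ C S²`, `N(K1 - K1') ≤ 42 n η S`,
  `N((K1 - K01) - (K1' - K01')) ≤ C' η S²`, with `S = Kc * θ + εs`
* `init_NK ..` : the same in the norms `NK` of `GDef_387`, for every background of `Bkg_683`
-/

set_option autoImplicit false
set_option linter.unusedSectionVars false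

noncomputable section

open Finset
open scoped ENNReal

namespace Crest.Agent.R165.InitNx682

open Crest.Agent.R165.KCompx892 Crest.Agent.R165.J4Actx126
open Crest.Agent.R165.J4Datx126 Crest.Agent.R165.J4Geox126 Crest.Agent.R165.J4K0x126
open Crest.Agent.R165.J4K0Bx126 Crest.Agent.R165.J4K0Lx126
open Crest.Agent.R165.J4Defx653 Crest.Agent.R165.J4Pathx653
open Crest.Agent.R165.J4RRx653 Crest.Agent.R165.J4RRAx653
open Crest.Agent.R165.Gr0x606 Crest.Agent.R165.Gr1x606
open Crest.Agent.R165.J1ax606 (pe qe)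
open Crest.Agent.R165.GeOpsx337 Crest.Agent.R165.PNormx417 Crest.Agent.R165.GDefx387
open Crest.Agent.R165.Latx683 (HE Fld BW xc wPl wDom wX)
open Crest.Agent.R165.Quadx897 Crest.Agent.R165.Quad2x897
open Crest.Agent.R165.Packx915 (PD)
open Crest.Agent.R165.NSumx915 Crest.Agent.R165.Bridgex915 Crest.Agent.R165.KInitx892
open Crest.Agent.R165.SrcDefx991 Crest.Agent.R165.Bkgx683

/-! ### the norms -/

section norms

variable {V : Type*} [AddCommGroup V] [Module ℝ V]

theorem fsemi_pG (W : V → ℝ≥0∞) : FSemi (fun a : Ge V => pG W a) where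
  zero := pG_zero W
  one := pG_one_le W
  add := pG_add_le W
  smul := pG_smul_le W
  mul _ _ _ _ hs ht hs' ht' := pG_mul_le' hs ht hs' ht'

theorem pG_bi_le (W : V → ℝ≥0∞) (x y : V) : pG W (bi x y) ≤ W x * W y := by
  have h := pnorm_mono_le W [x, y]
  rw [mwt_cons, mwt_cons, mwt_nil, mul_one] at h
  rw [pG_def, coe_bi]
  simpa using h

section lat

variable {G : Type} [CommRing G] [CN G]

theorem suppL_single {U : Set (G × G)} {f : G × G} (hf : f ∈ U) (j : Fin 4) :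
    SuppL U (Finsupp.single ((f, j) : HE G) (1 : ℝ)) := by
  classical
  intro h hh
  rw [Finsupp.single_apply] at hh
  split_ifs at hh with h1
  · rw [← h1]; exact hf
  · exact absurd rfl hh

theorem wt_single_le (w : BW G) (a : ℝ) (r : ℕ) (f : G × G) (j : Fin 4) :
    wt w a r f (Finsupp.single ((f, j) : HE G) (1 : ℝ)) ≤ ENNReal.ofReal (a * Real.sqrt r) := by
  unfold wt
  refine (mul_le_mul_right (iSup_le fun g => ?_) _).trans (le_of_eq (mul_one _))
  have h1 : |pair (Finsupp.single ((f, j) : HE G) (1 : ℝ)) g.1| ≤ 1 := by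
    rw [Wtx898.pair_single, one_mul]
    refine (Wtx898.abs_le_L2on (ball_finite f (s1 * r)) g.1 ?_).trans
      ((Wtx898.L2on_le_nnB g.1).trans g.2)
    change fd f f ≤ _
    rw [fd_self]; exact Nat.zero_le _
  calc ENNReal.ofReal |pair (Finsupp.single ((f, j) : HE G) (1 : ℝ)) g.1| ≤ ENNReal.ofReal 1 :=
        ENNReal.ofReal_le_ofReal h1
    _ = 1 := ENNReal.ofReal_one

theorem wU_single_le (w : BW G) (a : ℝ) (r : ℕ) {U : Finset (G × G)} {f : G × G}
    (hf : f ∈ U) (j : Fin 4) :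
    wU w a r U (Finsupp.single ((f, j) : HE G) (1 : ℝ)) ≤ ENNReal.ofReal (a * Real.sqrt r) := by
  classical
  unfold wU
  refine (iInf₂_le f hf).trans ?_
  rw [if_pos]
  · exact wt_single_le w a r f j
  · refine suppL_single ?_ j
    change fd f f ≤ _
    rw [fd_self]; exact Nat.zero_le _

/-- the constant of the norms -/
def cB (a : ℝ) (r : ℕ) : ℝ := 1 + 6 * (a ^ 2 * r)

theorem one_le_cB (a : ℝ) (r : ℕ) : 1 ≤ cB a r := by
  unfold cB
  have : 0 ≤ a ^ 2 * (r : ℝ) := by positivity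
  linarith

section gen

variable {W : Finset (G × G) → V → ℝ≥0∞} {ι : Fld G →ₗ[ℝ] V} {a : ℝ} {r : ℕ}

theorem pG_bi_single (ha : 0 ≤ a)
    (hW : ∀ U : Finset (G × G), ∀ f ∈ U, ∀ j : Fin 4,
      W U (ι (Finsupp.single ((f, j) : HE G) 1)) ≤ ENNReal.ofReal (a * Real.sqrt r))
    {U : Finset (G × G)} {f f' : G × G} (hf : f ∈ U) (hf' : f' ∈ U) (j j' : Fin 4) :
    pG (W U) (bi (ι (Finsupp.single ((f, j) : HE G) (1 : ℝ)))
      (ι (Finsupp.single ((f', j') : HE G) 1))) ≤ ENNReal.ofReal (a ^ 2 * r) := by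
  refine (pG_bi_le _ _ _).trans ((mul_le_mul' (hW U f hf j) (hW U f' hf' j')).trans (le_of_eq ?_))
  rw [← ENNReal.ofReal_mul (by positivity)]
  congr 1
  rw [mul_mul_mul_comm, Real.mul_self_sqrt (Nat.cast_nonneg r), sq]

/-- **the norms of the flow** -/
theorem nhyp [DecidableEq G] (ha : 0 ≤ a)
    (hW : ∀ U : Finset (G × G), ∀ f ∈ U, ∀ j : Fin 4,
      W U (ι (Finsupp.single ((f, j) : HE G) 1)) ≤ ENNReal.ofReal (a * Real.sqrt r)) :
    NHyp (frG ι) (fun U x => pG (W U) x) (cB a r) where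
  semi _ := fsemi_pG _
  c1 := one_le_cB a r
  b U e he := by
    have h1 : (pe e).1 ∈ U := he (Finset.mem_insert_self _ _)
    have h2 : (qe e).1 ∈ U := he (Finset.mem_insert_of_mem (Finset.mem_singleton_self _))
    refine (pG_bi_single ha hW h1 h2 (pe e).2 (qe e).2).trans (ENNReal.ofReal_le_ofReal ?_)
    unfold cB
    have : 0 ≤ a ^ 2 * (r : ℝ) := by positivity
    linarith
  I4 U f hf := by
    rw [frG_I4]
    refine (pG_sum_le _ _ _).trans ((Finset.sum_le_sum fun p _ =>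
      pG_bi_single ha hW hf hf p.1 p.2).trans ?_)
    rw [Finset.sum_const, nsmul_eq_mul]
    have h6 : ((univ : Finset (Fin 4 × Fin 4)).filter (fun p => p.1 < p.2)).card = 6 := by decide
    rw [h6, ← ENNReal.ofReal_natCast, ← ENNReal.ofReal_mul (by positivity)]
    refine ENNReal.ofReal_le_ofReal ?_
    unfold cB
    push_cast
    linarith

end gen

/-- the norms without sources -/
theorem nhyp_id [DecidableEq G] (w : BW G) {a : ℝ} (ha : 0 ≤ a) (r : ℕ) :
    NHyp (frG (LinearMap.id : Fld G →ₗ[ℝ] Fld G)) (fun U x => pG (wU w a r U) x) (cB a r) :=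
  nhyp ha fun _ _ hf j => wU_single_le w a r hf j

/-- the norms with sources -/
theorem nhyp_src [DecidableEq G] (w : BW G) {a : ℝ} (ha : 0 ≤ a) (r m : ℕ) (v : Fin m → ℝ≥0∞) :
    NHyp (frG (LinearMap.inl ℝ (Fld G) (Src m))) (fun U x => pG (wS (wU w a r U) v) x)
      (cB a r) :=
  nhyp ha fun U f hf j => by
    have h : wS (wU w a r U) v (LinearMap.inl ℝ (Fld G) (Src m)
        (Finsupp.single ((f, j) : HE G) 1)) = wU w a r U (Finsupp.single ((f, j) : HE G) 1) := by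
      simp [wS, vS]
    rw [h]
    exact wU_single_le w a r hf j

theorem normFam_src [DecidableEq G] (w : BW G) (a : ℝ) (r m : ℕ) (v : Fin m → ℝ≥0∞) :
    NormFam (fun U (x : Ge (VS (Fld G) m)) => pG (wS (wU w a r U) v) x) :=
  normFam_of_anti _ fun _ _ h l => add_le_add (wU_anti w a r h l.1) le_rfl

end lat

end norms

/-! ### connectedness -/

section conn

variable {G : Type} [CommRing G] [CN G] [DecidableEq G]
variable {A : Type*} [CommRing A] [Algebra ℝ A] {κ : Type*} [DecidableEq κ] [Fintype κ]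

/-- **connectedness of the supports** at range `R₀ ≥ 1` (sources with larger supports) -/
theorem K0_connR {fr : Fr G A} {B : Bk G κ A} {R₀ : ℕ} (hR : 1 ≤ R₀)
    (hk : ∀ k, Packx915.Conn fd R₀ (B.Ys k)) {U : Finset (G × G)} (h : B.K0 fr U ≠ 0) :
    Packx915.Conn fd R₀ U := by
  obtain ⟨T, hT, hs, -⟩ := K0_ne h
  suffices key : Packx915.Conn fd R₀ (@Finset.biUnion {i // i ∈ B.ixs U} (G × G)
      (fun a b => Classical.propDecidable (a = b)) T fun i => B.YI i.1) by
    have e : (@Finset.biUnion {i // i ∈ B.ixs U} (G × G)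
      (fun a b => Classical.propDecidable (a = b)) T fun i => B.YI i.1) = U := by
      refine Eq.trans ?_ hs
      unfold supp
      congr!
    rwa [e] at key
  refine Packx915.conn_biUnion T (fun i => B.YI i.1) (fun i _ => ?_) ?_
  · rcases hi : i.1 with p | f | e | k
    · have := B.ixs_ok i.1 i.2
      rw [hi] at this
      exact (conn_Yf (mem_Can.1 this.1.1).2.1 p.1).mono hR
    · exact Packx915.conn_singleton f
    · exact (conn_faE e).mono hR
    · exact hk k
  · intro J hJ hne hneT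
    by_contra hcon
    push Not at hcon
    apply hneT
    refine hT.2 J hJ hne ?_
    intro i hi j hj hij
    rw [Finset.mem_sdiff] at hj
    have h1 : ¬ Disjoint ((B.datU fr U).Y i) ((B.datU fr U).Y j) := hij
    rw [Finset.not_disjoint_iff] at h1
    obtain ⟨a, ha, hb⟩ := h1
    have := hcon i hi j hj.1 hj.2 a ha a hb
    rw [fd_self] at this
    omega

end conn

/-! ### from finite families to `NN` -/

section nn

variable {G : Type} [CommRing G] [CN G] [GoodG G] [DecidableEq G]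

theorem NN_le_of {Γ ε : ℝ≥0∞} {x : Finset (G × G) → ℝ≥0∞}
    (h : ∀ (f : G × G) (𝒮 : Finset (Finset (G × G))), ∑ U ∈ 𝒮 with f ∈ U, Γ ^ U.card * x U ≤ ε) :
    NN fd 0 Γ x ≤ ε := by
  refine NN_card_le pd_fd (fun _ _ h => fd_eq_zero h) fun f => ?_
  rw [ENNReal.tsum_eq_iSup_sum]
  refine iSup_le fun 𝒮 => le_trans (le_of_eq ?_) (h f 𝒮)
  rw [Finset.sum_filter]
  refine Finset.sum_congr rfl fun U _ => ?_
  by_cases hU : f ∈ U
  · rw [if_pos hU, Set.indicator_of_mem (show U ∈ {U : Finset (G × G) | f ∈ U} from hU)]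
  · rw [if_neg hU, Set.indicator_of_notMem (show U ∉ {U : Finset (G × G) | f ∈ U} from hU)]

end nn

/-! ### the reclustered activities, any family of norms -/

section main

variable {G : Type} [CommRing G] [CN G] [GoodG G] [DecidableEq G]
variable {A : Type*} [CommRing A] [Algebra ℝ A] {κ : Type*} [DecidableEq κ] [Fintype κ]
variable {fr : Fr G A} {B B' : Bk G κ A} {nm : Finset (G × G) → A → ℝ≥0∞} {c θ Γ εs : ℝ}
variable {α φ : κ → ℝ≥0∞} {r' R₀ R' : ℕ}

/-- the size of the initial activities -/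
def SS (R : ℕ) (Γ c θ εs : ℝ) : ℝ := Kc R Γ c * θ + εs

/-- the hypotheses on the numbers -/
structure Num (R r' R₀ R' : ℕ) (Γ c θ εs : ℝ) : Prop where
  Γ3 : 3 ≤ Γ
  R1 : 1 ≤ R₀
  Rr : 4 * R₀ + 2 ≤ r'
  εs0 : 0 ≤ εs
  sm : 4 * SS R Γ c θ εs * m0 R ≤ 1
  sm' : (mI r' R' : ℝ) * (24 * nI r' * SS R Γ c θ εs) ≤ 1

theorem SS_nonneg (hN : NHyp fr nm c) (hB : BHyp B θ) (h : Num B.R r' R₀ R' Γ c θ εs) :
    0 ≤ SS B.R Γ c θ εs := by
  have h1 := Kc_nonneg B.R (by linarith [h.Γ3] : (1 : ℝ) ≤ Γ) hN.c1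
  have h2 := hB.θ0
  have h3 := h.εs0
  unfold SS
  positivity

theorem K0_NN (hN : NHyp fr nm c) (hB : BHyp B θ) (hS : SHyp B nm c Γ εs α φ)
    (h : Num B.R r' R₀ R' Γ c θ εs) :
    NN fd 0 (ENNReal.ofReal Γ) (fun U => nm U (B.K0 fr U)) ≤
      ENNReal.ofReal (2 * SS B.R Γ c θ εs) :=
  NN_le_of fun f 𝒮 => K0_bound hN hB (by linarith [h.Γ3]) h.εs0 hS h.sm f 𝒮

theorem three_le_ofReal {Γ : ℝ} (h : 3 ≤ Γ) : (3 : ℝ≥0∞) ≤ ENNReal.ofReal Γ := by
  have : ENNReal.ofReal 3 ≤ ENNReal.ofReal Γ := ENNReal.ofReal_le_ofReal h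
  simpa using this

/-- **the norm of the reclustered initial activities** -/
theorem init_NN (hN : NHyp fr nm c) (hF : NormFam nm) (hB : BHyp B θ)
    (hS : SHyp B nm c Γ εs α φ) (hk : ∀ k, Packx915.Conn fd R₀ (B.Ys k))
    (h : Num B.R r' R₀ R' Γ c θ εs) :
    NN fd r' (ENNReal.ofReal Γ) (fun U => nm U (K1 (fun a b => fd a b ≤ R') (B.K0 fr) U)) ≤
      ENNReal.ofReal (8 * nI r' * SS B.R Γ c θ εs) := by
  have hS0 := SS_nonneg hN hB h
  have hr' : 0 < r' := by have := h.Rr; have := h.R1; omega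
  set s := SS B.R Γ c θ εs with hs
  have e1 : (nI r' : ℝ≥0∞) = ENNReal.ofReal (nI r') := (ENNReal.ofReal_natCast _).symm
  have e2 : (mI r' R' : ℝ≥0∞) = ENNReal.ofReal (mI r' R') := (ENNReal.ofReal_natCast _).symm
  have e3 : (3 : ℝ≥0∞) * nI r' * ENNReal.ofReal (2 * s) = ENNReal.ofReal (6 * nI r' * s) := by
    rw [e1, ← ENNReal.ofReal_ofNat 3, ← ENNReal.ofReal_mul (by norm_num),
      ← ENNReal.ofReal_mul (by positivity)]
    congr 1; ring
  have hsm : (mI r' R' : ℝ) * (6 * nI r' * s) ≤ 1 := by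
    have h1 := h.sm'
    rw [← hs] at h1
    have h2 : (0 : ℝ) ≤ (mI r' R' : ℝ) * (nI r' * s) := by positivity
    nlinarith
  have key := K1_NN (R' := R') (n := mI r' R') (n' := nI r') (Γ := ENNReal.ofReal Γ) pd_fd
    (three_le_ofReal h.Γ3) h.Rr (cov_fd hr' _) (cov_card r') hF
    (fun U hU => K0_connR (fr := fr) (B := B) h.R1 hk hU) (K0_NN hN hB hS h)
    (by rw [e3, e2, ← ENNReal.ofReal_mul (by positivity), ← ENNReal.ofReal_one]
        exact ENNReal.ofReal_le_ofReal hsm) ENNReal.ofReal_ne_top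
  refine key.trans ?_
  rw [← hs, e3, e2, e1, ← ENNReal.ofReal_pow (by positivity), ← ENNReal.ofReal_mul (by positivity),
    ← ENNReal.ofReal_mul (by positivity), ← ENNReal.ofReal_add (by positivity) (by positivity)]
  refine ENNReal.ofReal_le_ofReal ?_
  have h3 : (mI r' R' : ℝ) * (6 * nI r' * s) ^ 2 ≤ 6 * nI r' * s := by
    have h4 : (0 : ℝ) ≤ 6 * nI r' * s := by positivity
    calc (mI r' R' : ℝ) * (6 * nI r' * s) ^ 2 = ((mI r' R' : ℝ) * (6 * nI r' * s)) *
          (6 * nI r' * s) := by ring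
      _ ≤ 1 * (6 * nI r' * s) := mul_le_mul_of_nonneg_right hsm h4
      _ = _ := one_mul _
  linarith

/-- **the second order part** -/
theorem init_NN_sub (hN : NHyp fr nm c) (hF : NormFam nm) (hB : BHyp B θ)
    (hS : SHyp B nm c Γ εs α φ) (hk : ∀ k, Packx915.Conn fd R₀ (B.Ys k))
    (h : Num B.R r' R₀ R' Γ c θ εs) :
    NN fd r' (ENNReal.ofReal Γ)
      (fun U => nm U (K1 (fun a b => fd a b ≤ R') (B.K0 fr) U - K01 fr B U)) ≤
      ENNReal.ofReal ((36 * mI r' R' * (nI r') ^ 2 + 4 * nI r' * m0 B.R) *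
        SS B.R Γ c θ εs ^ 2) := by
  have hS0 := SS_nonneg hN hB h
  have hr' : 0 < r' := by have := h.Rr; have := h.R1; omega
  set s := SS B.R Γ c θ εs with hs
  have e1 : (nI r' : ℝ≥0∞) = ENNReal.ofReal (nI r') := (ENNReal.ofReal_natCast _).symm
  have e2 : (mI r' R' : ℝ≥0∞) = ENNReal.ofReal (mI r' R') := (ENNReal.ofReal_natCast _).symm
  have e3 : (3 : ℝ≥0∞) * nI r' * ENNReal.ofReal (2 * s) = ENNReal.ofReal (6 * nI r' * s) := by
    rw [e1, ← ENNReal.ofReal_ofNat 3, ← ENNReal.ofReal_mul (by norm_num),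
      ← ENNReal.ofReal_mul (by positivity)]
    congr 1; ring
  have hsm : (mI r' R' : ℝ) * (6 * nI r' * s) ≤ 1 := by
    have h1 := h.sm'
    rw [← hs] at h1
    have h2 : (0 : ℝ) ≤ (mI r' R' : ℝ) * (nI r' * s) := by positivity
    nlinarith
  have key := K1_sub_NN (R' := R') (n := mI r' R') (n' := nI r') (Γ := ENNReal.ofReal Γ) pd_fd
    (three_le_ofReal h.Γ3) h.Rr (cov_fd hr' _) (cov_card r') hF
    (fun U hU => K0_connR (fr := fr) (B := B) h.R1 hk hU) (K0_NN hN hB hS h)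
    (by rw [e3, e2, ← ENNReal.ofReal_mul (by positivity), ← ENNReal.ofReal_one]
        exact ENNReal.ofReal_le_ofReal hsm) ENNReal.ofReal_ne_top
  have key2 : NN fd 0 (ENNReal.ofReal Γ) (fun U => nm U (B.K0 fr U - K01 fr B U)) ≤
      ENNReal.ofReal (4 * m0 B.R * s ^ 2) :=
    NN_le_of fun f 𝒮 => K0_quad hN hB (by linarith [h.Γ3]) h.εs0 hS h.sm f 𝒮
  have key3 : NN fd r' (ENNReal.ofReal Γ) (fun U => nm U (B.K0 fr U - K01 fr B U)) ≤
      ENNReal.ofReal (nI r' * (4 * m0 B.R * s ^ 2)) := by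
    rw [ENNReal.ofReal_mul (by positivity), ← e1]
    exact (NN_scale (le_trans (by norm_num) (three_le_ofReal h.Γ3)) (Nat.zero_le _)
      (cov_card r') _).trans (mul_le_mul_right key2 _)
  have h1 : NN fd r' (ENNReal.ofReal Γ)
      (fun U => nm U (K1 (fun a b => fd a b ≤ R') (B.K0 fr) U - K01 fr B U)) ≤
      NN fd r' (ENNReal.ofReal Γ)
        (fun U => nm U (K1 (fun a b => fd a b ≤ R') (B.K0 fr) U - B.K0 fr U) +
          nm U (B.K0 fr U - K01 fr B U)) :=
    NN_mono fun U => by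
      refine le_trans (le_of_eq ?_) (hF.add U _ _)
      rw [sub_add_sub_cancel]
  refine h1.trans ((NN_add_le _ _).trans ((add_le_add key key3).trans ?_))
  rw [← hs, e3, e2, ← ENNReal.ofReal_pow (by positivity), ← ENNReal.ofReal_mul (by positivity),
    ← ENNReal.ofReal_add (by positivity) (by positivity)]
  refine ENNReal.ofReal_le_ofReal (le_of_eq ?_)
  ring

/-- a common index set: the two backgrounds have the same supports of sources -/
theorem Same.conn (h : Same B B') (hk : ∀ k, Packx915.Conn fd R₀ (B.Ys k)) :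
    ∀ k, Packx915.Conn fd R₀ (B'.Ys k) := fun k => by rw [h.Ys]; exact hk k

/-- the bounds of the sources for the second background -/
theorem SHyp.same (h : Same B B') (hS : SHyp B nm c Γ εs α φ) : SHyp B' nm c Γ εs α φ where
  αt := hS.αt
  φt := hS.φt
  a k U hU := by rw [h.as]; exact hS.a k U (by rw [← h.Ys]; exact hU)
  F k := by rw [h.Fs]; exact hS.F k
  card k := by rw [h.Ys, h.R]; exact hS.card k
  tot f := by
    simp only [h.Ys]
    exact hS.tot f

theorem Num.same (h : Same B B') (hn : Num B.R r' R₀ R' Γ c θ εs) :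
    Num B'.R r' R₀ R' Γ c θ εs := by rw [h.R]; exact hn

/-- the quadratic part of the reclustering is Lipschitz -/
theorem QQ_lip_aux (hN : NHyp fr nm c) (hF : NormFam nm) (hB : BHyp B θ) (hB' : BHyp B' θ)
    (hS : SHyp B nm c Γ εs α φ) (hk : ∀ k, Packx915.Conn fd R₀ (B.Ys k))
    (h : Num B.R r' R₀ R' Γ c θ εs) (hsame : Same B B') {δ : ℝ}
    (hs : ∀ f, |B.s f - B'.s f| ≤ δ)
    (ht : ∀ S ∈ Can B.R, Even S.card → |B.t S - B'.t S| ≤ δ)
    {η : ℝ} (hη : δ ≤ η * θ) (hη0 : 0 ≤ η) :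
    NN fd r' (ENNReal.ofReal Γ)
      (fun U => nm U ((K1 (fun a b => fd a b ≤ R') (B.K0 fr) U - B.K0 fr U) -
        (K1 (fun a b => fd a b ≤ R') (B'.K0 fr) U - B'.K0 fr U))) ≤
      ENNReal.ofReal (864 * mI r' R' * (nI r') ^ 2 * η * SS B.R Γ c θ εs ^ 2) := by
  have hS0 := SS_nonneg hN hB h
  have hr' : 0 < r' := by have := h.Rr; have := h.R1; omega
  have hz : NN fd 0 (ENNReal.ofReal Γ) (fun U : Finset (G × G) => nm U (0 : A)) ≤ 0 := by
    simp only [hF.zero]; exact NSumx915.NN_zero.le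
  have hK := K0_NN hN hB hS h
  have hK' : NN fd 0 (ENNReal.ofReal Γ) (fun U => nm U (B'.K0 fr U)) ≤
      ENNReal.ofReal (2 * SS B.R Γ c θ εs) := by
    have := K0_NN hN hB' (SHyp.same hsame hS) (Num.same hsame h)
    rwa [hsame.R] at this
  have hd : NN fd 0 (ENNReal.ofReal Γ) (fun U => nm U (B.K0 fr U - B'.K0 fr U)) ≤
      ENNReal.ofReal (6 * η * SS B.R Γ c θ εs) :=
    NN_le_of fun f 𝒮 => K0_lip hN hB hB' (by linarith [h.Γ3]) h.εs0 hS h.sm hsame hs ht hη hη0 f 𝒮
  set s := SS B.R Γ c θ εs with hs'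
  have e1 : (nI r' : ℝ≥0∞) = ENNReal.ofReal (nI r') := (ENNReal.ofReal_natCast _).symm
  have e2 : (mI r' R' : ℝ≥0∞) = ENNReal.ofReal (mI r' R') := (ENNReal.ofReal_natCast _).symm
  have e4 : ENNReal.ofReal (2 * s) + ENNReal.ofReal (2 * s) + (0 + 0) =
      ENNReal.ofReal (4 * s) := by
    rw [add_zero, add_zero, ← ENNReal.ofReal_add (by positivity) (by positivity)]
    congr 1; ring
  have key := QQ_NN_lip (r := 0) (R' := R') (n := mI r' R') (n' := nI r')
    (Γ := ENNReal.ofReal Γ) pd_fd (three_le_ofReal h.Γ3) (by have := h.Rr; omega) (cov_fd hr' _)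
    (cov_card r') hF (fun U hU => K0_connR (fr := fr) (B := B) h.R1 hk hU)
    (B := fun _ => (0 : A)) (fun _ h => absurd rfl h)
    (fun U hU => K0_connR (fr := fr) (B := B') h.R1 (Same.conn hsame hk) hU)
    (B₂ := fun _ => (0 : A)) (fun _ h => absurd rfl h) hK hz hK' hz hd
    (by simp only [sub_zero]; exact hz)
    (by
      rw [e4, e1, e2, ← ENNReal.ofReal_ofNat 3, ← ENNReal.ofReal_ofNat 2,
        ← ENNReal.ofReal_mul (by norm_num), ← ENNReal.ofReal_mul (by positivity),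
        ← ENNReal.ofReal_mul (by norm_num), ← ENNReal.ofReal_mul (by positivity),
        ← ENNReal.ofReal_one]
      refine ENNReal.ofReal_le_ofReal ?_
      have h1 := h.sm'
      rw [← hs'] at h1
      refine le_trans (le_of_eq ?_) h1
      ring)
    ENNReal.ofReal_ne_top ENNReal.zero_ne_top ENNReal.ofReal_ne_top ENNReal.zero_ne_top
    ENNReal.ofReal_ne_top ENNReal.zero_ne_top (fun a b => a = b)
  have h1 : NN fd r' (ENNReal.ofReal Γ)
      (fun U => nm U ((K1 (fun a b => fd a b ≤ R') (B.K0 fr) U - B.K0 fr U) -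
        (K1 (fun a b => fd a b ≤ R') (B'.K0 fr) U - B'.K0 fr U))) ≤
      NN fd r' (ENNReal.ofReal Γ)
        (fun W => nm W (QQ (fun a b => a = b) (fun a b => fd a b ≤ R') (B.K0 fr) (fun _ => 0) W
          - QQ (fun a b => a = b) (fun a b => fd a b ≤ R') (B'.K0 fr) (fun _ => 0) W)) := by
    refine NN_mono_ne fun W hW => le_of_eq ?_
    rw [K1_eq _ hW, K1_eq _ hW, add_sub_cancel_left, add_sub_cancel_left]
  refine h1.trans (key.trans ?_)
  rw [e4, e1, e2, add_zero, ← ENNReal.ofReal_ofNat 3, ← ENNReal.ofReal_ofNat 4,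
    ← ENNReal.ofReal_mul (by norm_num), ← ENNReal.ofReal_mul (by norm_num),
    ← ENNReal.ofReal_pow (by positivity), ← ENNReal.ofReal_mul (by positivity),
    ← ENNReal.ofReal_mul (by positivity), ← ENNReal.ofReal_mul (by positivity)]
  refine ENNReal.ofReal_le_ofReal (le_of_eq ?_)
  ring

/-- **Lipschitz bound** -/
theorem init_NN_lip (hN : NHyp fr nm c) (hF : NormFam nm) (hB : BHyp B θ) (hB' : BHyp B' θ)
    (hS : SHyp B nm c Γ εs α φ) (hk : ∀ k, Packx915.Conn fd R₀ (B.Ys k))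
    (h : Num B.R r' R₀ R' Γ c θ εs) (hsame : Same B B') {δ : ℝ}
    (hs : ∀ f, |B.s f - B'.s f| ≤ δ)
    (ht : ∀ S ∈ Can B.R, Even S.card → |B.t S - B'.t S| ≤ δ)
    {η : ℝ} (hη : δ ≤ η * θ) (hη0 : 0 ≤ η) :
    NN fd r' (ENNReal.ofReal Γ)
      (fun U => nm U (K1 (fun a b => fd a b ≤ R') (B.K0 fr) U -
        K1 (fun a b => fd a b ≤ R') (B'.K0 fr) U)) ≤
      ENNReal.ofReal (42 * nI r' * η * SS B.R Γ c θ εs) := by
  have hS0 := SS_nonneg hN hB h
  have h1 := QQ_lip_aux hN hF hB hB' hS hk h hsame hs ht hη hη0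
  have hd : NN fd 0 (ENNReal.ofReal Γ) (fun U => nm U (B.K0 fr U - B'.K0 fr U)) ≤
      ENNReal.ofReal (6 * η * SS B.R Γ c θ εs) :=
    NN_le_of fun f 𝒮 => K0_lip hN hB hB' (by linarith [h.Γ3]) h.εs0 hS h.sm hsame hs ht hη hη0 f 𝒮
  set s := SS B.R Γ c θ εs with hs'
  have e1 : (nI r' : ℝ≥0∞) = ENNReal.ofReal (nI r') := (ENNReal.ofReal_natCast _).symm
  have h2 : NN fd r' (ENNReal.ofReal Γ) (fun U => nm U (B.K0 fr U - B'.K0 fr U)) ≤
      ENNReal.ofReal (nI r' * (6 * η * s)) := by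
    rw [ENNReal.ofReal_mul (by positivity), ← e1]
    exact (NN_scale (le_trans (by norm_num) (three_le_ofReal h.Γ3)) (Nat.zero_le _)
      (cov_card r') _).trans (mul_le_mul_right hd _)
  have h3 : NN fd r' (ENNReal.ofReal Γ)
      (fun U => nm U (K1 (fun a b => fd a b ≤ R') (B.K0 fr) U -
        K1 (fun a b => fd a b ≤ R') (B'.K0 fr) U)) ≤
      NN fd r' (ENNReal.ofReal Γ)
        (fun U => nm U ((K1 (fun a b => fd a b ≤ R') (B.K0 fr) U - B.K0 fr U) -
          (K1 (fun a b => fd a b ≤ R') (B'.K0 fr) U - B'.K0 fr U)) +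
          nm U (B.K0 fr U - B'.K0 fr U)) :=
    NN_mono fun U => by
      refine le_trans (le_of_eq ?_) (hF.add U _ _)
      congr 1
      ring
  refine h3.trans ((NN_add_le _ _).trans ((add_le_add h1 h2).trans ?_))
  rw [← ENNReal.ofReal_add (by positivity) (by positivity)]
  refine ENNReal.ofReal_le_ofReal ?_
  have h4 := h.sm'
  rw [← hs'] at h4
  have h5 : (864 * mI r' R' * (nI r') ^ 2 * η * s ^ 2 : ℝ) =
      36 * nI r' * η * s * ((mI r' R' : ℝ) * (24 * nI r' * s)) := by ring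
  have h6 : (0 : ℝ) ≤ 36 * nI r' * η * s := by positivity
  rw [h5]
  have h7 := mul_le_mul_of_nonneg_left h4 h6
  linarith

/-- **Lipschitz bound of the second order part** -/
theorem init_NN_lip2 (hN : NHyp fr nm c) (hF : NormFam nm) (hB : BHyp B θ) (hB' : BHyp B' θ)
    (hS : SHyp B nm c Γ εs α φ) (hk : ∀ k, Packx915.Conn fd R₀ (B.Ys k))
    (h : Num B.R r' R₀ R' Γ c θ εs) (hsame : Same B B') {δ : ℝ}
    (hs : ∀ f, |B.s f - B'.s f| ≤ δ)
    (ht : ∀ S ∈ Can B.R, Even S.card → |B.t S - B'.t S| ≤ δ)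
    {η : ℝ} (hη : δ ≤ η * θ) (hη0 : 0 ≤ η) :
    NN fd r' (ENNReal.ofReal Γ)
      (fun U => nm U ((K1 (fun a b => fd a b ≤ R') (B.K0 fr) U - K01 fr B U) -
        (K1 (fun a b => fd a b ≤ R') (B'.K0 fr) U - K01 fr B' U))) ≤
      ENNReal.ofReal ((864 * mI r' R' * (nI r') ^ 2 + 12 * nI r' * m0 B.R) * η *
        SS B.R Γ c θ εs ^ 2) := by
  have hS0 := SS_nonneg hN hB h
  have h1 := QQ_lip_aux hN hF hB hB' hS hk h hsame hs ht hη hη0
  have hd : NN fd 0 (ENNReal.ofReal Γ)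
      (fun U => nm U ((B.K0 fr U - K01 fr B U) - (B'.K0 fr U - K01 fr B' U))) ≤
      ENNReal.ofReal (12 * η * m0 B.R * SS B.R Γ c θ εs ^ 2) :=
    NN_le_of fun f 𝒮 => K0_lip2 hN hB hB' (by linarith [h.Γ3]) h.εs0 hS h.sm hsame hs ht hη hη0 f 𝒮
  set s := SS B.R Γ c θ εs with hs'
  have e1 : (nI r' : ℝ≥0∞) = ENNReal.ofReal (nI r') := (ENNReal.ofReal_natCast _).symm
  have h2 : NN fd r' (ENNReal.ofReal Γ)
      (fun U => nm U ((B.K0 fr U - K01 fr B U) - (B'.K0 fr U - K01 fr B' U))) ≤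
      ENNReal.ofReal (nI r' * (12 * η * m0 B.R * s ^ 2)) := by
    rw [ENNReal.ofReal_mul (by positivity), ← e1]
    exact (NN_scale (le_trans (by norm_num) (three_le_ofReal h.Γ3)) (Nat.zero_le _)
      (cov_card r') _).trans (mul_le_mul_right hd _)
  have h3 : NN fd r' (ENNReal.ofReal Γ)
      (fun U => nm U ((K1 (fun a b => fd a b ≤ R') (B.K0 fr) U - K01 fr B U) -
        (K1 (fun a b => fd a b ≤ R') (B'.K0 fr) U - K01 fr B' U))) ≤
      NN fd r' (ENNReal.ofReal Γ)
        (fun U => nm U ((K1 (fun a b => fd a b ≤ R') (B.K0 fr) U - B.K0 fr U) -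
          (K1 (fun a b => fd a b ≤ R') (B'.K0 fr) U - B'.K0 fr U)) +
          nm U ((B.K0 fr U - K01 fr B U) - (B'.K0 fr U - K01 fr B' U))) :=
    NN_mono fun U => by
      refine le_trans (le_of_eq ?_) (hF.add U _ _)
      congr 1
      ring
  refine h3.trans ((NN_add_le _ _).trans ((add_le_add h1 h2).trans ?_))
  rw [← ENNReal.ofReal_add (by positivity) (by positivity)]
  refine ENNReal.ofReal_le_ofReal (le_of_eq ?_)
  ring

end main

end Crest.Agent.R165.InitNx682
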