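import Crest.Agent.R165.Out_683
import Crest.Agent.R165.J4K0B_126

/-!
# Row 165 (S0250): the hypotheses of the initial bounds for all backgrounds (helper950)

* `W1 w`     : the weights are at most one; `W1_pl`, `W1_br`, `W1_dom`, `W1_tor`
* `sc_sub`   : `|B.sc P f - 1| ≤ |z|`
* `CT J R V` : constant of `tpot`; `tpot_le`
* `bhyp`     : 126's `BHyp` for every background of 683
* `shyp_no`, `shyp_real`, `shyp_bond` : 126's `SHyp` for the sources of 683
-/

set_option autoImplicit false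
set_option linter.unusedSectionVars false

noncomputable section

open Finset
open scoped ENNReal
open Crest.ProbabilityR.IsingModel
open Crest.Agent.R165.Gr0x606 Crest.Agent.R165.Gr1x606 Crest.Agent.R165.GeOpsx337
open Crest.Agent.R165.GDefx387 Crest.Agent.R165.GSysx387 Crest.Agent.R165.KFlowx337
open Crest.Agent.R165.SrcDefx991 Crest.Agent.R165.TorChartx723
open Crest.Agent.R165.J4K0x126 Crest.Agent.R165.J4Geox126 Crest.Agent.R165.J4K0Bx126
open Crest.Agent.R165.J4Datx126
open Crest.Agent.R165.J4Defx653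
open Crest.Agent.R165.J4RRx653
open Crest.Agent.R165.J1ax606 (pe qe)
open Crest.Agent.R165.Latx683 (xc wPl wDom wX BW HE Fld ray)
open Crest.Agent.R165.Bkgx683 Crest.Agent.R165.PEndx683 Crest.Agent.R165.Outx683

namespace Crest.Agent.R165.C0ax950

/-! ### weights -/

/-- the weights are at most one -/
def W1 {G : Type} (w : BW G) : Prop := ∀ z j, |w z j| ≤ 1

theorem xc_abs : |xc| ≤ 1 := by
  have h1 : 1 ≤ Real.sqrt 2 := Real.one_le_sqrt.2 (by norm_num)
  have h2 : Real.sqrt 2 ≤ 2 := by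
    rw [Real.sqrt_le_left (by norm_num)]; norm_num
  unfold xc
  rw [abs_of_nonneg (by linarith)]
  linarith

theorem W1_wPl (G : Type) : W1 (wPl G) := fun _ _ => xc_abs

theorem W1_wDom (T : Set (ℤ × ℤ)) (free : Bool) : W1 (wDom T free) := by
  intro z j
  unfold wDom
  split_ifs
  · exact xc_abs
  · simp
  · exact xc_abs
  · simp

theorem abs_ray {n : ℕ} (X : Fin n → ℤ × ℤ) (z : ℤ × ℤ) (j : Fin 2) : |ray X z j| = 1 := by
  unfold ray
  rw [Finset.abs_prod]
  refine Finset.prod_eq_one fun i _ => ?_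
  split_ifs <;> simp

theorem W1_wX {n : ℕ} {w : BW ℤ} (h : W1 w) (X : Fin n → ℤ × ℤ) : W1 (wX w X) := by
  intro z j
  unfold wX
  rw [abs_mul, abs_ray, one_mul]
  exact h z j

theorem W1_wTor (M : ℕ) {ε₁ ε₂ : ℝ} (h1 : |ε₁| ≤ 1) (h2 : |ε₂| ≤ 1) : W1 (wTor M ε₁ ε₂) := by
  intro z j
  unfold wTor
  rw [abs_mul]
  have h : |(if j = 1 then (if z.1 = 0 then ε₁ else 1) else (if z.2 = 0 then ε₂ else 1))| ≤ 1 := by
    split_ifs
    · exact h1
    · simp
    · exact h2
    · simp
  calc _ ≤ 1 * 1 := mul_le_mul h xc_abs (abs_nonneg _) (by norm_num)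
    _ = 1 := one_mul 1

theorem W1_pl : W1 Bg.pl.w := W1_wPl ℤ

theorem W1_br (x : ℤ × ℤ) : W1 (Bg.br x).w := W1_wX (W1_wPl ℤ) _

theorem W1_dom (T : Finset (ℤ × ℤ)) (b : BoundaryCondition) {n : ℕ} (X : Fin n → ℤ × ℤ) :
    W1 (Bg.dom T b X).w := W1_wX (W1_wDom _ _) X

theorem W1_tor (M : ℕ) {ε₁ ε₂ : ℝ} (h1 : |ε₁| ≤ 1) (h2 : |ε₂| ≤ 1) : W1 (Bg.tor M ε₁ ε₂).w :=
  W1_wTor M h1 h2

/-! ### rescaling -/

theorem abs_sqrt_sub_one (z : ℝ) (hz : -1 ≤ z) : |Real.sqrt (1 + z) - 1| ≤ |z| := by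
  have h0 : 0 ≤ Real.sqrt (1 + z) := Real.sqrt_nonneg _
  have h1 : Real.sqrt (1 + z) * Real.sqrt (1 + z) = 1 + z := Real.mul_self_sqrt (by linarith)
  have h2 : (Real.sqrt (1 + z) - 1) * (Real.sqrt (1 + z) + 1) = z := by
    calc _ = Real.sqrt (1 + z) * Real.sqrt (1 + z) - 1 := by ring
      _ = z := by rw [h1]; ring
  have h3 : |Real.sqrt (1 + z) - 1| * |Real.sqrt (1 + z) + 1| = |z| := by rw [← abs_mul, h2]
  rw [← h3]
  refine le_mul_of_one_le_right (abs_nonneg _) ?_
  rw [abs_of_nonneg (by linarith)]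
  linarith

theorem sc_sub {G : Type} [CommRing G] [DecidableEq G] (B : Bg G) {P : MPar} (hz : -1 ≤ P.z)
    (f : G × G) : |B.sc P f - 1| ≤ |P.z| := by
  unfold Bg.sc
  split_ifs
  · exact abs_sqrt_sub_one _ hz
  · simp

/-! ### the potential -/

/-- bound of the potential on the canonical shapes -/
def VM (R : ℕ) (V : Finset (ℤ × ℤ) → ℝ) : ℝ := ∑ S ∈ Can R, |V S|

theorem VM_nonneg (R : ℕ) (V : Finset (ℤ × ℤ) → ℝ) : 0 ≤ VM R V :=
  Finset.sum_nonneg fun _ _ => abs_nonneg _

/-- the constant of `tpot_le` -/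
def CT (J : ℝ) (R : ℕ) (V : Finset (ℤ × ℤ) → ℝ) : ℝ :=
  (|criticalBeta J| + 1) * VM (max R 1) V + |J| + 1

theorem one_le_CT (J : ℝ) (R : ℕ) (V : Finset (ℤ × ℤ) → ℝ) : 1 ≤ CT J R V := by
  unfold CT
  have := VM_nonneg (max R 1) V
  have : 0 ≤ (|criticalBeta J| + 1) * VM (max R 1) V := by positivity
  linarith [abs_nonneg J]

theorem tpot_le {J lam β : ℝ} {R : ℕ} {V : Finset (ℤ × ℤ) → ℝ} (hβ : |β - criticalBeta J| ≤ 1)
    {S : Finset (ℤ × ℤ)} (hS : S ∈ Can (max R 1)) :
    |tpot J lam β V S| ≤ CT J R V * (|lam| + |β - criticalBeta J|) := by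
  classical
  have hV : |V S| ≤ VM (max R 1) V :=
    Finset.single_le_sum (f := fun S => |V S|) (fun _ _ => abs_nonneg _) hS
  have hb : |β| ≤ |criticalBeta J| + 1 := by
    have : β = criticalBeta J + (β - criticalBeta J) := by ring
    calc |β| = |criticalBeta J + (β - criticalBeta J)| := by rw [← this]
      _ ≤ |criticalBeta J| + |β - criticalBeta J| := abs_add_le _ _
      _ ≤ _ := by linarith
  have h1 : |β * lam * V S| ≤ (|criticalBeta J| + 1) * VM (max R 1) V * |lam| := by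
    rw [abs_mul, abs_mul]
    calc |β| * |lam| * |V S| ≤ (|criticalBeta J| + 1) * |lam| * VM (max R 1) V := by gcongr
      _ = _ := by ring
  have h2 : |(β - criticalBeta J) * J * (if J4Defx653.IsNN S then 1 else 0)| ≤
      |J| * |β - criticalBeta J| := by
    rw [abs_mul, abs_mul]
    have h3 : |(if J4Defx653.IsNN S then (1 : ℝ) else 0)| ≤ 1 := by split_ifs <;> simp
    calc |β - criticalBeta J| * |J| * |(if J4Defx653.IsNN S then (1 : ℝ) else 0)|
        ≤ |β - criticalBeta J| * |J| * 1 := by gcongr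
      _ = _ := by ring
  have h4 := VM_nonneg (max R 1) V
  have h5 : 0 ≤ (|criticalBeta J| + 1) * VM (max R 1) V := by positivity
  unfold tpot
  refine (abs_add_le _ _).trans ((add_le_add h1 h2).trans ?_)
  unfold CT
  have h6 := abs_nonneg lam
  have h7 := abs_nonneg (β - criticalBeta J)
  have h8 := abs_nonneg J
  nlinarith [mul_nonneg h5 h7, mul_nonneg h8 h6]

/-- the small parameter -/
def tht (J lam β z : ℝ) : ℝ := |lam| + |β - criticalBeta J| + |z|

theorem tht_nonneg (J lam β z : ℝ) : 0 ≤ tht J lam β z := by unfold tht; positivity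

section bhyp

variable {G : Type} [CommRing G] [DecidableEq G] {κ : Type} {A : Type*} [CommRing A] [Algebra ℝ A]

/-- **126's hypothesis for every background** -/
theorem bhyp {J lam β z : ℝ} {R : ℕ} {V : Finset (ℤ × ℤ) → ℝ} {B : Bg G} (hw : W1 B.w)
    (h : CT J R V * tht J lam β z ≤ 1) (src : Srcs κ G A) :
    BHyp (B.bk (mpar J lam R V β z) src) (CT J R V * tht J lam β z) := by
  have hC := one_le_CT J R V
  have h0 := tht_nonneg J lam β z
  have h1 : tht J lam β z ≤ 1 := by nlinarith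
  have h2 : tht J lam β z ≤ CT J R V * tht J lam β z := by nlinarith
  have hl := abs_nonneg lam
  have hb := abs_nonneg (β - criticalBeta J)
  have hz := abs_nonneg z
  have hz1 : |z| ≤ tht J lam β z := by unfold tht; linarith
  have hb1 : |β - criticalBeta J| ≤ tht J lam β z := by unfold tht; linarith
  refine ⟨by positivity, h, fun e => hw _ _, fun f => ?_, fun S hS _ => ?_⟩
  · have hz2 : -1 ≤ z := by linarith [(abs_le.1 (hz1.trans h1)).1]
    exact (sc_sub B (P := mpar J lam R V β z) hz2 f).trans (hz1.trans h2)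
  · refine (tpot_le (hb1.trans h1) hS).trans ?_
    exact mul_le_mul_of_nonneg_left (by unfold tht; linarith) (by linarith)

end bhyp

end Crest.Agent.R165.C0ax950

end
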