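import Crest.Agent.R165.Cl9_722

/-!
# Row 165, block R-f: estimates for holomorphic functions in the unit disc, (BD) with constants
-/

open MeasureTheory Set Filter Topology Complex Metric
open scoped ENNReal NNReal ContDiff Convolution ComplexConjugate

namespace Crest.Agent.R165.Cl10x722

open Cl1x722 Cl2x722 Cl3x722 Cl4x722 Cl5x722 Cl6x722 Cl7x722 Cl8x722 Cl9x722

/-- Interior bounds in terms of the `L¹` norm. -/
theorem hol_bounds : ∃ C : ℝ, 0 < C ∧ ∀ V : ℂ → ℂ, DifferentiableOn ℂ V (ball 0 1) →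
    IntegrableOn V (ball 0 1) → ∀ z ∈ ball (0 : ℂ) (1 / 4),
      ‖V z‖ ≤ C * ∫ w in ball 0 1, ‖V w‖ ∧ ‖V z - V 0‖ ≤ C * ‖z‖ * ∫ w in ball 0 1, ‖V w‖ := by
  obtain ⟨ψ, h1, h2, h3, h4, h5, -⟩ := exists_cutoff (0 : ℂ) (r := 1 / 2) (R := 3 / 4)
    (by norm_num) (by norm_num)
  have h1' : ContDiff ℝ 1 ψ := h1.of_le (by exact_mod_cast le_top)
  obtain ⟨M, hM⟩ := (hasCompactSupport_dbar h2).exists_bound_of_continuous (continuous_dbar h1')
  have hM0 : 0 ≤ M := (norm_nonneg _).trans (hM 0)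
  have hsub : closedBall (0 : ℂ) (3 / 4) ⊆ ball 0 1 := closedBall_subset_ball (by norm_num)
  set C1 : ℝ := (Real.pi * (1 / 4))⁻¹ * M with hC1
  set C2 : ℝ := (Real.pi * (1 / 4) ^ 2)⁻¹ * M with hC2
  have hC10 : 0 ≤ C1 := by positivity
  have hC20 : 0 ≤ C2 := by positivity
  refine ⟨C1 + C2 + 1, by positivity, ?_⟩
  intro V hV hVi z hz
  have hw : WDbar (ball 0 1) V 0 := wdbar_of_hol isOpen_ball hV (Eventually.of_forall fun _ _ => rfl)
  have hg : LocallyIntegrableOn (0 : ℂ → ℂ) (ball 0 1) := (locallyIntegrable_zero).locallyIntegrableOn _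
  have hrep := rep hVi.locallyIntegrableOn hg hw h1 h2 (h3.trans hsub)
  set k : ℂ → ℂ := fun w => V w * dbar ψ w + (0 : ℂ → ℂ) w * ψ w with hk
  have hkeq : k = fun w => V w * dbar ψ w := by funext w; simp [hk]
  have hki : Integrable k := by
    rw [hkeq]
    exact integrable_mul_test hVi.locallyIntegrableOn (continuous_dbar h1')
      (hasCompactSupport_dbar h2) ((tsupport_dbar_subset ψ).trans (h3.trans hsub))
  have hk0 : ∀ w ∈ ball (0 : ℂ) (1 / 2), k w = 0 := by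
    intro w hw; rw [hkeq]; simp [h5 w hw]
  have hVk : ∀ w ∈ ball (0 : ℂ) (1 / 2), V w = cau k w := by
    have hae : V =ᵐ[volume.restrict (ball (0 : ℂ) (1 / 2))] cau k := by
      rw [Filter.EventuallyEq, ae_restrict_iff' measurableSet_ball]
      filter_upwards [hrep] with w hw hw2
      rw [← hw, h4 w (ball_subset_closedBall hw2), one_mul]
    exact fun w hw => Measure.eqOn_open_of_ae_eq hae isOpen_ball
      (hV.continuousOn.mono (ball_subset_ball (by norm_num))) (differentiableOn_cau hki hk0).continuousOn hw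
  have hkn : ∫ w, ‖k w‖ ≤ M * ∫ w in ball 0 1, ‖V w‖ := by
    have h6 : ∫ w, ‖k w‖ = ∫ w in ball (0 : ℂ) 1, ‖k w‖ := by
      rw [setIntegral_eq_integral_of_forall_compl_eq_zero]
      intro w hw
      have : dbar ψ w = 0 := dbar_zero_of_notMem fun h => hw (hsub (h3 h))
      rw [hkeq]; simp [this]
    rw [h6, ← integral_const_mul]
    refine setIntegral_mono_on hki.norm.integrableOn (hVi.norm.const_mul M) measurableSet_ball
      (fun w _ => ?_)
    rw [hkeq]
    simp only [norm_mul]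
    rw [mul_comm]
    exact mul_le_mul_of_nonneg_right (hM w) (norm_nonneg _)
  have hfar : ∀ y ∈ ball (0 : ℂ) (1 / 4), ∀ w, k w ≠ 0 → 1 / 4 ≤ ‖y - w‖ := by
    intro y hy w hw
    have h7 : 1 / 2 ≤ ‖w‖ := by
      by_contra hlt
      push Not at hlt
      exact hw (hk0 w (mem_ball_zero_iff.mpr hlt))
    rw [mem_ball_zero_iff] at hy
    have h8 : ‖w‖ - ‖y‖ ≤ ‖y - w‖ := by
      rw [norm_sub_rev]; exact norm_sub_norm_le _ _
    linarith
  have hI0 : 0 ≤ ∫ w in ball (0 : ℂ) 1, ‖V w‖ := integral_nonneg fun _ => norm_nonneg _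
  have hz2 : z ∈ ball (0 : ℂ) (1 / 2) := ball_subset_ball (by norm_num) hz
  have h02 : (0 : ℂ) ∈ ball (0 : ℂ) (1 / 2) := mem_ball_self (by norm_num)
  constructor
  · rw [hVk z hz2]
    calc ‖cau k z‖ ≤ (Real.pi * (1 / 4))⁻¹ * ∫ w, ‖k w‖ :=
          norm_cau_le hki (by norm_num) (hfar z hz)
      _ ≤ (Real.pi * (1 / 4))⁻¹ * (M * ∫ w in ball 0 1, ‖V w‖) := by
          gcongr
      _ = C1 * ∫ w in ball 0 1, ‖V w‖ := by rw [hC1]; ring
      _ ≤ _ := by
          refine mul_le_mul_of_nonneg_right ?_ hI0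
          linarith
  · rw [hVk z hz2, hVk 0 h02]
    calc ‖cau k z - cau k 0‖ ≤ (Real.pi * (1 / 4) ^ 2)⁻¹ * ‖z - 0‖ * ∫ w, ‖k w‖ :=
          norm_cau_sub_le hki (by norm_num) (hfar z hz) (hfar 0 (mem_ball_self (by norm_num)))
      _ ≤ (Real.pi * (1 / 4) ^ 2)⁻¹ * ‖z - 0‖ * (M * ∫ w in ball 0 1, ‖V w‖) := by
          gcongr
      _ = C2 * ‖z‖ * ∫ w in ball 0 1, ‖V w‖ := by rw [hC2, sub_zero]; ring
      _ ≤ _ := by
          refine mul_le_mul_of_nonneg_right ?_ hI0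
          refine mul_le_mul_of_nonneg_right ?_ (norm_nonneg _)
          linarith

/-- Cauchy-Schwarz on a set of finite measure, real form. -/
lemma integral_norm_sq_le {S : Set ℂ} (hSf : volume S ≠ ⊤) {F : ℂ → ℂ}
    (hF : MemLp F 2 (volume.restrict S)) :
    (∫ z in S, ‖F z‖) ^ 2 ≤ (volume S).toReal * ∫ z in S, ‖F z‖ ^ 2 := by
  have : IsFiniteMeasure (volume.restrict S) := ⟨by
    rw [Measure.restrict_apply_univ]; exact lt_top_iff_ne_top.mpr hSf⟩
  have hn : MemLp (fun z => ‖F z‖) (ENNReal.ofReal 2) (volume.restrict S) := by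
    have := hF.norm
    simpa using this
  have h1 : MemLp (fun _ : ℂ => (1 : ℝ)) (ENNReal.ofReal 2) (volume.restrict S) := memLp_const 1
  have h := integral_mul_le_Lp_mul_Lq_of_nonneg Real.HolderConjugate.two_two
    (μ := volume.restrict S) (f := fun _ => (1 : ℝ)) (g := fun z => ‖F z‖)
    (Eventually.of_forall fun _ => zero_le_one) (Eventually.of_forall fun _ => norm_nonneg _) h1 hn
  simp only [one_mul, Real.one_rpow, integral_const, smul_eq_mul, mul_one] at h
  have h0 : 0 ≤ ∫ z in S, ‖F z‖ := integral_nonneg fun _ => norm_nonneg _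
  have h3 : (volume.restrict S).real univ = (volume S).toReal := by
    simp [Measure.real]
  rw [h3] at h
  have h4 : ∀ z, ‖F z‖ ^ (2 : ℝ) = ‖F z‖ ^ 2 := fun z => by norm_cast
  simp_rw [h4] at h
  have hA : 0 ≤ (volume S).toReal := ENNReal.toReal_nonneg
  have hB : 0 ≤ ∫ z in S, ‖F z‖ ^ 2 := integral_nonneg fun _ => by positivity
  calc (∫ z in S, ‖F z‖) ^ 2 ≤ ((volume S).toReal ^ (1 / (2 : ℝ)) *
        (∫ z in S, ‖F z‖ ^ 2) ^ (1 / (2 : ℝ))) ^ 2 := by gcongr
    _ = _ := by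
        rw [mul_pow, ← Real.rpow_natCast, ← Real.rpow_natCast, ← Real.rpow_mul hA,
          ← Real.rpow_mul hB]
        norm_num

lemma volume_ball_toReal {t : ℝ} (ht : 0 ≤ t) : (volume (ball (0 : ℂ) t)).toReal = Real.pi * t ^ 2 := by
  rw [Complex.volume_ball]
  simp [ENNReal.toReal_mul, ENNReal.toReal_pow, ENNReal.toReal_ofReal ht, mul_comm]

end Crest.Agent.R165.Cl10x722
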