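import Crest.Agent.R165.Cl10_722

/-!
# Row 165, block R-f: (BD), the half disc theorem with constants, canonical and rotated form
-/

open MeasureTheory Set Filter Topology Complex Metric
open scoped ENNReal NNReal ContDiff Convolution ComplexConjugate

namespace Crest.Agent.R165.Cl11x722

open Cl1x722 Cl2x722 Cl3x722 Cl4x722 Cl5x722 Cl6x722 Cl7x722 Cl8x722 Cl9x722 Cl10x722

lemma conj_mem_ball (z : ℂ) : conj z ∈ ball (0 : ℂ) 1 ↔ z ∈ ball (0 : ℂ) 1 := by simp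

lemma ball_ae_split : (ball (0 : ℂ) 1) =ᵐ[volume]
    ((ball 0 1 ∩ HP) ∪ (ball 0 1 ∩ HM) : Set ℂ) := by
  have h0 : ∀ᵐ z : ℂ, ¬ z.im = 0 := by
    rw [ae_iff]; simpa using volume_im_eq_zero
  filter_upwards [h0] with z hz
  refine propext ⟨fun h => ?_, fun h => ?_⟩
  · rcases lt_or_gt_of_ne hz with h1 | h1
    · right; exact ⟨h, h1⟩
    · left; exact ⟨h, h1⟩
  · rcases h with h | h
    · exact h.1
    · exact h.1

/-- **(BD)** the half disc theorem, canonical form, with an absolute constant. -/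
theorem half_disc : ∃ C : ℝ, 0 < C ∧ ∀ F : ℂ → ℂ,
    MemLp F 2 (volume.restrict (ball 0 1 ∩ HP)) →
    WDbar (ball 0 1 ∩ HP) F 0 →
    (∀ χ : ℂ → ℝ, RTest (ball 0 1) χ →
      (∫ z in ball 0 1 ∩ HP, F z ^ 2 * dbar (cx χ) z).re = 0) →
    (∀ χ : ℂ → ℝ, RTest (ball 0 1) χ → (∀ z, 0 ≤ χ z) →
      0 ≤ (2 * I * ∫ z in ball 0 1 ∩ HP, F z ^ 2 * dbar (cx χ) z).re) →
    ∃ κ : ℝ, κ ^ 2 ≤ C * ∫ z in ball 0 1 ∩ HP, ‖F z‖ ^ 2 ∧
      ∀ t : ℝ, 0 < t → t ≤ 1 →
        ∫ z in ball 0 t ∩ HP, ‖F z‖ ^ 2 ≤ C * t ^ 2 * ∫ z in ball 0 1 ∩ HP, ‖F z‖ ^ 2 ∧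
        ∫ z in ball 0 t ∩ HP, ‖F z - κ‖ ^ 2 ≤ C * t ^ 4 * ∫ z in ball 0 1 ∩ HP, ‖F z‖ ^ 2 := by
  obtain ⟨C1, hC1, hb⟩ := hol_bounds
  set A : ℝ := 4 * Real.pi * C1 ^ 2 with hA
  have hpi := Real.pi_pos
  have hA0 : 0 < A := by positivity
  refine ⟨Real.pi * A + 16 + 256 * (2 + 2 * Real.pi * A) + A, by positivity, ?_⟩
  intro F hF hw hre hpos
  obtain ⟨G, hG, hFG, hsym⟩ := half_disc_ext hF hw hre hpos
  set N2 : ℝ := ∫ z in ball 0 1 ∩ HP, ‖F z‖ ^ 2 with hN2
  have hN20 : 0 ≤ N2 := integral_nonneg fun _ => by positivity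
  have hmU : MeasurableSet (ball (0 : ℂ) 1 ∩ HP) := measurableSet_ball.inter measurableSet_HP
  have hfinU : volume (ball (0 : ℂ) 1 ∩ HP) ≠ ⊤ :=
    ((measure_mono inter_subset_left).trans_lt measure_ball_lt_top).ne
  have : IsFiniteMeasure (volume.restrict (ball (0 : ℂ) 1 ∩ HP)) := ⟨by
    rw [Measure.restrict_apply_univ]; exact lt_top_iff_ne_top.mpr hfinU⟩
  have hFi : IntegrableOn F (ball 0 1 ∩ HP) := hF.integrable (by norm_num)
  have haeU : F =ᵐ[volume.restrict (ball 0 1 ∩ HP)] G := by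
    rw [Filter.EventuallyEq, ae_restrict_iff' hmU]; exact hFG
  have hGU : IntegrableOn G (ball 0 1 ∩ HP) := hFi.congr haeU
  have hGM : IntegrableOn G (ball 0 1 ∩ HM) := by
    refine integrableOn_conj_HM conj_mem_ball ?_
    have h1 : IntegrableOn (fun z => conj (G z)) (ball 0 1 ∩ HP) := by
      have := (conjCLE : ℂ ≃L[ℝ] ℂ).toContinuousLinearMap.integrable_comp hGU
      exact this
    refine h1.congr_fun (fun z hz => ?_) hmU
    exact (hsym z hz.1).symm
  have hGB : IntegrableOn G (ball 0 1) := by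
    rw [integrableOn_congr_set_ae ball_ae_split]
    exact hGU.union hGM
  have hdisj : Disjoint (ball (0 : ℂ) 1 ∩ HP) (ball 0 1 ∩ HM) := by
    rw [Set.disjoint_left]
    rintro z ⟨_, h1⟩ ⟨_, h2⟩
    exact lt_asymm (show 0 < z.im from h1) h2
  have hL1 : ∫ w in ball 0 1, ‖G w‖ = 2 * ∫ w in ball 0 1 ∩ HP, ‖F w‖ := by
    rw [setIntegral_congr_set ball_ae_split,
      setIntegral_union hdisj (measurableSet_ball.inter measurableSet_HM) hGU.norm hGM.norm]
    have e1 : ∫ w in ball 0 1 ∩ HP, ‖G w‖ = ∫ w in ball 0 1 ∩ HP, ‖F w‖ :=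
      integral_congr_ae (haeU.mono fun z hz => by simp only [hz])
    have e2 : ∫ w in ball 0 1 ∩ HM, ‖G w‖ = ∫ w in ball 0 1 ∩ HP, ‖G w‖ := by
      have hemb : MeasurableEmbedding (fun z : ℂ => conj z) :=
        (conjLIE : ℂ ≃ₗᵢ[ℝ] ℂ).toHomeomorph.measurableEmbedding
      rw [← mp_conj.setIntegral_preimage_emb hemb (fun z => ‖G z‖) (ball 0 1 ∩ HM)]
      have hs : (fun z : ℂ => conj z) ⁻¹' (ball 0 1 ∩ HM) = ball 0 1 ∩ HP := by
        ext z
        simp [HM, HP]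
      rw [hs]
      refine setIntegral_congr_fun hmU fun z hz => ?_
      rw [hsym z hz.1, Complex.norm_conj]
    rw [e2, e1]; ring
  have hvolU : (volume (ball (0 : ℂ) 1 ∩ HP)).toReal ≤ Real.pi := by
    have h1 := volume_ball_toReal (t := 1) zero_le_one
    calc (volume (ball (0 : ℂ) 1 ∩ HP)).toReal ≤ (volume (ball (0 : ℂ) 1)).toReal :=
          ENNReal.toReal_mono measure_ball_lt_top.ne (measure_mono inter_subset_left)
      _ = Real.pi := by rw [h1]; ring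
  have hL1' : (∫ w in ball 0 1, ‖G w‖) ^ 2 ≤ 4 * Real.pi * N2 := by
    rw [hL1, mul_pow]
    have := integral_norm_sq_le hfinU hF
    calc (2 : ℝ) ^ 2 * (∫ w in ball 0 1 ∩ HP, ‖F w‖) ^ 2
        ≤ 2 ^ 2 * ((volume (ball (0 : ℂ) 1 ∩ HP)).toReal * N2) := by gcongr
      _ ≤ 2 ^ 2 * (Real.pi * N2) := by gcongr
      _ = _ := by ring
  have hsup : ∀ z ∈ ball (0 : ℂ) (1 / 4), ‖G z‖ ^ 2 ≤ A * N2 := by
    intro z hz
    calc ‖G z‖ ^ 2 ≤ (C1 * ∫ w in ball 0 1, ‖G w‖) ^ 2 := by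
          gcongr; exact (hb G hG hGB z hz).1
      _ = C1 ^ 2 * (∫ w in ball 0 1, ‖G w‖) ^ 2 := by ring
      _ ≤ C1 ^ 2 * (4 * Real.pi * N2) := by gcongr
      _ = _ := by rw [hA]; ring
  have hlip : ∀ z ∈ ball (0 : ℂ) (1 / 4), ‖G z - G 0‖ ^ 2 ≤ A * ‖z‖ ^ 2 * N2 := by
    intro z hz
    calc ‖G z - G 0‖ ^ 2 ≤ (C1 * ‖z‖ * ∫ w in ball 0 1, ‖G w‖) ^ 2 := by
          gcongr; exact (hb G hG hGB z hz).2
      _ = C1 ^ 2 * ‖z‖ ^ 2 * (∫ w in ball 0 1, ‖G w‖) ^ 2 := by ring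
      _ ≤ C1 ^ 2 * ‖z‖ ^ 2 * (4 * Real.pi * N2) := by gcongr
      _ = _ := by rw [hA]; ring
  have h0im : (G 0).im = 0 := by
    have := hsym 0 (mem_ball_self one_pos)
    rw [map_zero] at this
    exact conj_eq_iff_im.mp this.symm
  have hκ : ((G 0).re : ℂ) = G 0 := Complex.ext (by simp) (by simp [h0im])
  have hκ2 : (G 0).re ^ 2 ≤ A * N2 := by
    have := hsup 0 (mem_ball_self (by norm_num))
    rw [← hκ, norm_real, Real.norm_eq_abs, sq_abs] at this
    exact this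
  have hvolt : ∀ t : ℝ, 0 < t → (volume (ball (0 : ℂ) t ∩ HP)).toReal ≤ Real.pi * t ^ 2 := by
    intro t ht
    rw [← volume_ball_toReal ht.le]
    exact ENNReal.toReal_mono measure_ball_lt_top.ne (measure_mono inter_subset_left)
  have hsqi : IntegrableOn (fun z => ‖F z‖ ^ 2) (ball 0 1 ∩ HP) := by
    show Integrable (fun z => ‖F z‖ ^ 2) (volume.restrict (ball 0 1 ∩ HP))
    simpa using hF.integrable_norm_pow (p := 2) (by norm_num)
  refine ⟨(G 0).re, ?_, ?_⟩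
  · refine hκ2.trans (mul_le_mul_of_nonneg_right ?_ hN20)
    nlinarith [mul_pos hpi hA0]
  intro t ht ht1
  have hsubt : ball (0 : ℂ) t ∩ HP ⊆ ball 0 1 ∩ HP := inter_subset_inter_left _ (ball_subset_ball ht1)
  have hmt : MeasurableSet (ball (0 : ℂ) t ∩ HP) := measurableSet_ball.inter measurableSet_HP
  have haet : F =ᵐ[volume.restrict (ball 0 t ∩ HP)] G :=
    haeU.filter_mono (ae_mono (Measure.restrict_mono hsubt le_rfl))
  have hfint : volume (ball (0 : ℂ) t ∩ HP) ≠ ⊤ :=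
    ((measure_mono inter_subset_left).trans_lt measure_ball_lt_top).ne
  -- bound of a set integral by a sup
  have hbd : ∀ (g : ℂ → ℝ) (K : ℝ), (∀ z ∈ ball (0 : ℂ) t ∩ HP, ‖g z‖ ≤ K) →
      ∫ z in ball 0 t ∩ HP, g z ≤ K * (Real.pi * t ^ 2) := by
    intro g K hg
    have hK : 0 ≤ K := by
      have hp : ((t / 2 : ℝ) : ℂ) * I ∈ ball (0 : ℂ) t ∩ HP := by
        refine ⟨?_, ?_⟩
        · rw [mem_ball_zero_iff, norm_mul, norm_I, mul_one, norm_real, Real.norm_eq_abs,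
            abs_of_pos (by positivity)]
          linarith
        · show 0 < (((t / 2 : ℝ) : ℂ) * I).im
          rw [mul_I_im, ofReal_re]; positivity
      exact (norm_nonneg _).trans (hg _ hp)
    have h1 := norm_setIntegral_le_of_norm_le_const (μ := (volume : Measure ℂ)) (f := g) (C := K)
      (s := ball (0 : ℂ) t ∩ HP) (lt_top_iff_ne_top.mpr hfint) (fun z hz => hg z hz)
    calc ∫ z in ball 0 t ∩ HP, g z ≤ ‖∫ z in ball 0 t ∩ HP, g z‖ := Real.le_norm_self _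
      _ ≤ K * (volume (ball (0 : ℂ) t ∩ HP)).toReal := h1
      _ ≤ K * (Real.pi * t ^ 2) := by
          gcongr; exact hvolt t ht
  constructor
  · by_cases h4 : t ≤ 1 / 4
    · have h5 : ∫ z in ball 0 t ∩ HP, ‖F z‖ ^ 2 = ∫ z in ball 0 t ∩ HP, ‖G z‖ ^ 2 :=
        integral_congr_ae (haet.mono fun z hz => by simp only [hz])
      rw [h5]
      have h6 := hbd (fun z => ‖G z‖ ^ 2) (A * N2) (fun z hz => by
        rw [Real.norm_of_nonneg (by positivity)]
        exact hsup z (ball_subset_ball h4 hz.1))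
      refine h6.trans ?_
      have h7 : A * N2 * (Real.pi * t ^ 2) = (Real.pi * A) * (t ^ 2 * N2) := by ring
      have h8 : (Real.pi * A + 16 + 256 * (2 + 2 * Real.pi * A) + A) * t ^ 2 * N2 =
        (Real.pi * A + 16 + 256 * (2 + 2 * Real.pi * A) + A) * (t ^ 2 * N2) := by ring
      rw [h7, h8]
      refine mul_le_mul_of_nonneg_right ?_ (by positivity)
      nlinarith [mul_pos hpi hA0]
    · push Not at h4
      have h5 : ∫ z in ball 0 t ∩ HP, ‖F z‖ ^ 2 ≤ N2 :=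
        setIntegral_mono_set hsqi (Eventually.of_forall fun _ => by positivity) hsubt.eventuallyLE
      refine h5.trans ?_
      have h6 : (1 : ℝ) ≤ 16 * t ^ 2 := by nlinarith
      calc N2 = 1 * N2 := (one_mul _).symm
        _ ≤ (16 * t ^ 2) * N2 := by gcongr
        _ ≤ (Real.pi * A + 16 + 256 * (2 + 2 * Real.pi * A) + A) * t ^ 2 * N2 := by
            gcongr
            nlinarith [mul_pos hpi hA0]
  · by_cases h4 : t ≤ 1 / 4
    · have h5 : ∫ z in ball 0 t ∩ HP, ‖F z - (G 0).re‖ ^ 2 =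
          ∫ z in ball 0 t ∩ HP, ‖G z - G 0‖ ^ 2 :=
        integral_congr_ae (haet.mono fun z hz => by simp only [hz, hκ])
      rw [h5]
      have h6 := hbd (fun z => ‖G z - G 0‖ ^ 2) (A * t ^ 2 * N2) (fun z hz => by
        rw [Real.norm_of_nonneg (by positivity)]
        refine (hlip z (ball_subset_ball h4 hz.1)).trans ?_
        have : ‖z‖ ≤ t := (mem_ball_zero_iff.mp hz.1).le
        gcongr)
      refine h6.trans ?_
      have h7 : A * t ^ 2 * N2 * (Real.pi * t ^ 2) = (Real.pi * A) * (t ^ 4 * N2) := by ring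
      have h8 : (Real.pi * A + 16 + 256 * (2 + 2 * Real.pi * A) + A) * t ^ 4 * N2 =
        (Real.pi * A + 16 + 256 * (2 + 2 * Real.pi * A) + A) * (t ^ 4 * N2) := by ring
      rw [h7, h8]
      refine mul_le_mul_of_nonneg_right ?_ (by positivity)
      nlinarith [mul_pos hpi hA0]
    · push Not at h4
      set κ : ℝ := (G 0).re with hκdef
      have hsqt : IntegrableOn (fun z => ‖F z‖ ^ 2) (ball 0 t ∩ HP) := hsqi.mono_set hsubt
      have h5 : ∫ z in ball 0 t ∩ HP, ‖F z - κ‖ ^ 2 ≤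
          ∫ z in ball 0 t ∩ HP, (2 * ‖F z‖ ^ 2 + 2 * κ ^ 2) := by
        refine integral_mono_of_nonneg (Eventually.of_forall fun _ => by positivity) ?_
          (Eventually.of_forall fun z => ?_)
        · exact (hsqt.const_mul 2).add (integrableOn_const (hs := hfint))
        · have h6 : ‖F z - κ‖ ≤ ‖F z‖ + |κ| := by
            refine (norm_sub_le _ _).trans ?_
            rw [norm_real, Real.norm_eq_abs]
          calc ‖F z - κ‖ ^ 2 ≤ (‖F z‖ + |κ|) ^ 2 := by gcongr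
            _ ≤ 2 * ‖F z‖ ^ 2 + 2 * κ ^ 2 := by
                nlinarith [sq_nonneg (‖F z‖ - |κ|), sq_abs κ]
      have h6 : ∫ z in ball 0 t ∩ HP, (2 * ‖F z‖ ^ 2 + 2 * κ ^ 2) ≤ 2 * N2 + 2 * (A * N2) * Real.pi := by
        rw [integral_add (hsqt.const_mul 2) (integrableOn_const (hs := hfint)), integral_const_mul,
          setIntegral_const, smul_eq_mul]
        have h7 : ∫ z in ball 0 t ∩ HP, ‖F z‖ ^ 2 ≤ N2 :=
          setIntegral_mono_set hsqi (Eventually.of_forall fun _ => by positivity) hsubt.eventuallyLE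
        have h8 : (volume : Measure ℂ).real (ball 0 t ∩ HP) ≤ Real.pi := by
          refine (hvolt t ht).trans ?_
          have h20 : t ^ 2 ≤ 1 := pow_le_one₀ ht.le ht1
          calc Real.pi * t ^ 2 ≤ Real.pi * 1 := by gcongr
            _ = Real.pi := mul_one _
        have h9 : 0 ≤ (volume : Measure ℂ).real (ball 0 t ∩ HP) := ENNReal.toReal_nonneg
        have h10 : (volume : Measure ℂ).real (ball 0 t ∩ HP) * (2 * κ ^ 2) ≤
            Real.pi * (2 * (A * N2)) := by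
          gcongr
        linarith
      have h11 : (1 : ℝ) ≤ 256 * t ^ 4 := by
        have h12 : (1 : ℝ) / 16 ≤ t ^ 2 := by nlinarith
        nlinarith
      calc ∫ z in ball 0 t ∩ HP, ‖F z - κ‖ ^ 2 ≤ 2 * N2 + 2 * (A * N2) * Real.pi := h5.trans h6
        _ = 1 * ((2 + 2 * Real.pi * A) * N2) := by ring
        _ ≤ (256 * t ^ 4) * ((2 + 2 * Real.pi * A) * N2) := by gcongr
        _ = (256 * (2 + 2 * Real.pi * A)) * (t ^ 4 * N2) := by ring
        _ ≤ (Real.pi * A + 16 + 256 * (2 + 2 * Real.pi * A) + A) * (t ^ 4 * N2) := by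
            gcongr
            nlinarith [mul_pos hpi hA0]
        _ = _ := by ring

end Crest.Agent.R165.Cl11x722
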