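import Crest.Agent.R165.Cl11_722

/-!
# Row 165, block R-f: (BD), rotated form
-/

open MeasureTheory Set Filter Topology Complex Metric
open scoped ENNReal NNReal ContDiff Convolution ComplexConjugate

namespace Crest.Agent.R165.Cl12x722

open Cl1x722 Cl2x722 Cl3x722 Cl4x722 Cl5x722 Cl6x722 Cl7x722 Cl8x722 Cl9x722 Cl10x722 Cl11x722

/-- the half plane `{Im (z conj τ) > 0}` -/
def HPr (τ : ℂ) : Set ℂ := {z | 0 < (z * conj τ).im}

lemma isOpen_HPr (τ : ℂ) : IsOpen (HPr τ) :=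
  isOpen_lt continuous_const (by fun_prop)

lemma measurableSet_HPr (τ : ℂ) : MeasurableSet (HPr τ) := (isOpen_HPr τ).measurableSet

/-- multiplication by a unit complex number as a linear isometry equivalence -/
noncomputable def rotL (τ : ℂ) (hτ : ‖τ‖ = 1) : ℂ ≃ₗᵢ[ℝ] ℂ :=
  rotation ⟨τ, mem_sphere_zero_iff_norm.mpr hτ⟩

lemma rotL_apply (τ : ℂ) (hτ : ‖τ‖ = 1) (z : ℂ) : rotL τ hτ z = τ * z :=
  rotation_apply _ _

lemma mul_conj_one {τ : ℂ} (hτ : ‖τ‖ = 1) : τ * conj τ = 1 := by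
  rw [mul_conj, normSq_eq_norm_sq, hτ]; simp

lemma mp_rot {τ : ℂ} (hτ : ‖τ‖ = 1) : MeasurePreserving (fun z : ℂ => τ * z) volume volume := by
  have h := (rotL τ hτ).measurePreserving
  have h2 : (fun z : ℂ => τ * z) = rotL τ hτ := by funext z; rw [rotL_apply]
  rw [h2]; exact h

lemma emb_rot {τ : ℂ} (hτ : ‖τ‖ = 1) : MeasurableEmbedding (fun z : ℂ => τ * z) := by
  have h := (rotL τ hτ).toHomeomorph.measurableEmbedding
  have h2 : (fun z : ℂ => τ * z) = rotL τ hτ := by funext z; rw [rotL_apply]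
  rw [h2]; exact h

lemma preimage_rot {τ : ℂ} (hτ : ‖τ‖ = 1) (t : ℝ) :
    (fun z : ℂ => τ * z) ⁻¹' (ball 0 t ∩ HPr τ) = ball 0 t ∩ HP := by
  ext z
  have h1 : τ * z * conj τ = z := by
    calc τ * z * conj τ = (τ * conj τ) * z := by ring
      _ = z := by rw [mul_conj_one hτ, one_mul]
  simp only [mem_preimage, mem_inter_iff, mem_ball_zero_iff, norm_mul, hτ, one_mul, HPr, HP,
    mem_ofPred_eq, h1]

lemma setIntegral_rot {E : Type*} [NormedAddCommGroup E] [NormedSpace ℝ E] {τ : ℂ} (hτ : ‖τ‖ = 1)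
    (t : ℝ) (f : ℂ → E) :
    ∫ z in ball 0 t ∩ HPr τ, f z = ∫ z in ball 0 t ∩ HP, f (τ * z) := by
  rw [← (mp_rot hτ).setIntegral_preimage_emb (emb_rot hτ) f, preimage_rot hτ]

/-- `∂̄` and multiplication by a constant inside -/
lemma dbar_comp_mul {χ : ℂ → ℂ} (m : ℂ) {z : ℂ} (h : DifferentiableAt ℝ χ (m * z)) :
    dbar (fun w => χ (m * w)) z = conj m * dbar χ (m * z) := by
  have h1 : HasFDerivAt (fun w : ℂ => m * w) (m • (ContinuousLinearMap.id ℝ ℂ)) z :=
    (hasFDerivAt_id z).const_mul m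
  have h2 := h.hasFDerivAt.comp z h1
  have h3 : fderiv ℝ (fun w => χ (m * w)) z =
      (fderiv ℝ χ (m * z)).comp (m • (ContinuousLinearMap.id ℝ ℂ)) := h2.fderiv
  have e1 : ∀ e : ℂ, fderiv ℝ (fun w => χ (m * w)) z e = fderiv ℝ χ (m * z) (m * e) := by
    intro e; rw [h3]; simp
  set L := fderiv ℝ χ (m * z) with hL
  have hm : ∀ e : ℂ, L e = e.re * L 1 + e.im * L I := by
    intro e
    have : e = e.re • (1 : ℂ) + e.im • I := by
      simp
    conv_lhs => rw [this]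
    rw [map_add, map_smul, map_smul, real_smul, real_smul]
  rw [dbar, dbar, e1, e1, hm (m * 1), hm (m * I)]
  have hc : conj m = m.re - m.im * I := by
    apply Complex.ext <;> simp
  rw [hc]
  simp only [mul_one, mul_I_re, mul_I_im]
  push_cast
  linear_combination ((m.im : ℂ) * L I / 2) * I_mul_I

/-- **(BD)**, rotated form: half plane `{Im (z conj τ) > 0}`, sign `s`; the mode is `κ b` with
`b ^ 2 = s i conj τ`, `κ` real. -/
theorem half_disc_rot : ∃ C : ℝ, 0 < C ∧ ∀ (τ : ℂ) (s : ℝ) (b : ℂ) (F : ℂ → ℂ),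
    ‖τ‖ = 1 → s ^ 2 = 1 → b ^ 2 = s * I * conj τ →
    MemLp F 2 (volume.restrict (ball 0 1 ∩ HPr τ)) →
    WDbar (ball 0 1 ∩ HPr τ) F 0 →
    (∀ χ : ℂ → ℝ, RTest (ball 0 1) χ →
      (∫ z in ball 0 1 ∩ HPr τ, F z ^ 2 * dbar (cx χ) z).im = 0) →
    (∀ χ : ℂ → ℝ, RTest (ball 0 1) χ → (∀ z, 0 ≤ χ z) →
      0 ≤ s * (∫ z in ball 0 1 ∩ HPr τ, F z ^ 2 * dbar (cx χ) z).re) →
    ∃ κ : ℝ, κ ^ 2 ≤ C * ∫ z in ball 0 1 ∩ HPr τ, ‖F z‖ ^ 2 ∧
      ∀ t : ℝ, 0 < t → t ≤ 1 →
        ∫ z in ball 0 t ∩ HPr τ, ‖F z‖ ^ 2 ≤ C * t ^ 2 * ∫ z in ball 0 1 ∩ HPr τ, ‖F z‖ ^ 2 ∧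
        ∫ z in ball 0 t ∩ HPr τ, ‖F z - κ * b‖ ^ 2 ≤
          C * t ^ 4 * ∫ z in ball 0 1 ∩ HPr τ, ‖F z‖ ^ 2 := by
  obtain ⟨C, hC, hmain⟩ := half_disc
  refine ⟨C, hC, ?_⟩
  intro τ s b F hτ hs hb hF hw him hpos
  have hττ := mul_conj_one hτ
  have hs0 : s ≠ 0 := by rintro rfl; norm_num at hs
  have hbn : ‖b‖ = 1 := by
    have h1 : ‖b‖ ^ 2 = 1 := by
      rw [← norm_pow, hb, norm_mul, norm_mul, norm_I, Complex.norm_conj, hτ, norm_real,
        Real.norm_eq_abs, mul_one, mul_one]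
      have h5 : |s| ^ 2 = 1 := by rw [sq_abs]; exact hs
      exact (pow_eq_one_iff_of_nonneg (abs_nonneg s) two_ne_zero).mp h5
    nlinarith [norm_nonneg b]
  have hb0 : b ≠ 0 := by intro h; rw [h, norm_zero] at hbn; norm_num at hbn
  set a : ℂ := b⁻¹ with ha
  have ha2 : a ^ 2 * conj τ = -(s * I) := by
    rw [ha, inv_pow, hb]
    have h1 : (s : ℂ) ^ 2 = 1 := by exact_mod_cast hs
    have h2 : (s : ℂ) ≠ 0 := by exact_mod_cast hs0
    have h3 : conj τ ≠ 0 := by
      intro h; rw [h, mul_zero] at hττ; exact zero_ne_one hττ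
    field_simp
    rw [h1, I_sq]; ring
  set Fh : ℂ → ℂ := fun z => a * F (τ * z) with hFh
  have hFh' : MemLp Fh 2 (volume.restrict (ball 0 1 ∩ HP)) := by
    have h1 : MeasurePreserving (fun z : ℂ => τ * z) (volume.restrict (ball 0 1 ∩ HP))
        (volume.restrict (ball 0 1 ∩ HPr τ)) := by
      have := (mp_rot hτ).restrict_preimage_emb (emb_rot hτ) (ball 0 1 ∩ HPr τ)
      rwa [preimage_rot hτ] at this
    exact (hF.comp_measurePreserving h1).const_mul a
  -- transfer of test functions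
  have htest : ∀ χ : ℂ → ℂ, DifferentiableOn ℝ χ univ → ∀ z,
      dbar χ z = conj τ * dbar (fun w => χ (conj τ * w)) (τ * z) := by
    intro χ hχ z
    have h1 : conj τ * (τ * z) = z := by
      calc conj τ * (τ * z) = (τ * conj τ) * z := by ring
        _ = z := by rw [hττ, one_mul]
    have hd : DifferentiableAt ℝ χ (conj τ * (τ * z)) := (hχ _ trivial).differentiableAt univ_mem
    rw [dbar_comp_mul (conj τ) hd, h1, conj_conj, ← mul_assoc, mul_comm (conj τ), hττ, one_mul]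
  have hcpt : ∀ {E : Type} [NormedAddCommGroup E] {χ : ℂ → E}, HasCompactSupport χ →
      HasCompactSupport (fun w => χ (conj τ * w)) := by
    intro E _ χ h
    have h1 : ‖conj τ‖ = 1 := by rw [Complex.norm_conj, hτ]
    have := h.comp_homeomorph (rotL (conj τ) h1).toHomeomorph
    have h2 : (fun w => χ (conj τ * w)) = χ ∘ (rotL (conj τ) h1).toHomeomorph := by
      funext w
      show χ _ = χ (rotL (conj τ) h1 w)
      rw [rotL_apply]
    rw [h2]; exact this
  have hsupp : ∀ {E : Type} [NormedAddCommGroup E] {χ : ℂ → E},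
      tsupport (fun w => χ (conj τ * w)) = (fun w => conj τ * w) ⁻¹' tsupport χ := by
    intro E _ χ
    have h1 : ‖conj τ‖ = 1 := by rw [Complex.norm_conj, hτ]
    have := tsupport_comp_eq_preimage χ (rotL (conj τ) h1).toHomeomorph
    have h2 : (fun w => χ (conj τ * w)) = χ ∘ (rotL (conj τ) h1).toHomeomorph := by
      funext w
      show χ _ = χ (rotL (conj τ) h1 w)
      rw [rotL_apply]
    have h3 : (fun w : ℂ => conj τ * w) = (rotL (conj τ) h1).toHomeomorph := by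
      funext w
      show _ = rotL (conj τ) h1 w
      rw [rotL_apply]
    rw [h2, this, h3]
  have hwh : WDbar (ball 0 1 ∩ HP) Fh 0 := by
    intro χ h1 h2 h3
    set χt : ℂ → ℂ := fun w => χ (conj τ * w) with hχt
    have t1 : ContDiff ℝ ∞ χt := h1.comp (contDiff_const.mul contDiff_id)
    have t2 : HasCompactSupport χt := hcpt h2
    have t3 : tsupport χt ⊆ ball 0 1 ∩ HPr τ := by
      rw [hχt, hsupp]
      intro w hw
      have := h3 hw
      refine ⟨?_, ?_⟩
      · have h4 := this.1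
        rw [mem_ball_zero_iff, norm_mul, Complex.norm_conj, hτ, one_mul] at h4
        exact mem_ball_zero_iff.mpr h4
      · have h4 : 0 < (conj τ * w).im := this.2
        show 0 < (w * conj τ).im
        rwa [mul_comm]
    have h5 := hw χt t1 t2 t3
    have h6 : ∫ z, (Fh z * dbar χ z + (0 : ℂ → ℂ) z * χ z) =
        ∫ z, (a * conj τ) * (F (τ * z) * dbar χt (τ * z)) := by
      refine integral_congr_ae (Eventually.of_forall fun z => ?_)
      simp only [hFh, Pi.zero_apply, zero_mul, add_zero]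
      rw [htest χ (h1.differentiable (by simp)).differentiableOn z]
      ring
    rw [h6, integral_const_mul]
    have h7 := (mp_rot hτ).integral_comp (emb_rot hτ) (fun w => F w * dbar χt w)
    rw [h7]
    simp only [Pi.zero_apply, zero_mul, add_zero] at h5
    rw [h5, mul_zero]
  have hquad : ∀ χ : ℂ → ℝ, RTest (ball 0 1) χ → ∃ χt : ℂ → ℝ, RTest (ball 0 1) χt ∧
      ((∀ z, 0 ≤ χ z) → ∀ z, 0 ≤ χt z) ∧
      ∫ z in ball 0 1 ∩ HP, Fh z ^ 2 * dbar (cx χ) z =
        -(s * I) * ∫ z in ball 0 1 ∩ HPr τ, F z ^ 2 * dbar (cx χt) z := by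
    intro χ hχ
    refine ⟨fun w => χ (conj τ * w), ⟨hχ.smooth.comp (contDiff_const.mul contDiff_id),
      hcpt hχ.cpt, ?_⟩, fun h z => h _, ?_⟩
    · rw [hsupp]
      intro w hw
      have h4 := hχ.supp hw
      rw [mem_ball_zero_iff, norm_mul, Complex.norm_conj, hτ, one_mul] at h4
      exact mem_ball_zero_iff.mpr h4
    · rw [setIntegral_rot hτ, ← integral_const_mul, ← ha2]
      refine integral_congr_ae (Eventually.of_forall fun z => ?_)
      simp only [hFh]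
      rw [htest (cx χ) (hχ.cx_smooth.differentiable (by simp)).differentiableOn z]
      have : (fun w => cx χ (conj τ * w)) = cx (fun w => χ (conj τ * w)) := rfl
      rw [this]
      ring
  obtain ⟨κ, hκ, hest⟩ := hmain Fh hFh' hwh
    (by
      intro χ hχ
      obtain ⟨χt, ht, -, he⟩ := hquad χ hχ
      rw [he]
      have := him χt ht
      simp [this])
    (by
      intro χ hχ h0
      obtain ⟨χt, ht, ht0, he⟩ := hquad χ hχ
      rw [he]
      have h1 := hpos χt ht (ht0 h0)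
      have h2 : 2 * I * (-(s * I) * ∫ z in ball 0 1 ∩ HPr τ, F z ^ 2 * dbar (cx χt) z) =
          2 * (s * ∫ z in ball 0 1 ∩ HPr τ, F z ^ 2 * dbar (cx χt) z) := by
        linear_combination (-2 * s * ∫ z in ball 0 1 ∩ HPr τ, F z ^ 2 * dbar (cx χt) z) * I_mul_I
      rw [h2]
      have h3 : (2 * (s * ∫ z in ball 0 1 ∩ HPr τ, F z ^ 2 * dbar (cx χt) z) : ℂ).re =
          2 * (s * (∫ z in ball 0 1 ∩ HPr τ, F z ^ 2 * dbar (cx χt) z).re) := by
        simp
      rw [h3]; positivity)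
  have han : ‖a‖ = 1 := by rw [ha, norm_inv, hbn, inv_one]
  have hN : ∀ t, ∫ z in ball 0 t ∩ HP, ‖Fh z‖ ^ 2 = ∫ z in ball 0 t ∩ HPr τ, ‖F z‖ ^ 2 := by
    intro t
    rw [setIntegral_rot hτ]
    refine integral_congr_ae (Eventually.of_forall fun z => ?_)
    simp only [hFh, norm_mul, han, one_mul]
  have hN2 : ∀ t, ∫ z in ball 0 t ∩ HP, ‖Fh z - κ‖ ^ 2 =
      ∫ z in ball 0 t ∩ HPr τ, ‖F z - κ * b‖ ^ 2 := by
    intro t
    rw [setIntegral_rot hτ]
    refine integral_congr_ae (Eventually.of_forall fun z => ?_)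
    simp only [hFh]
    have h4 : a * F (τ * z) - κ = a * (F (τ * z) - κ * b) := by
      rw [ha]; field_simp
    rw [h4, norm_mul, han, one_mul]
  refine ⟨κ, by rw [← hN 1]; exact hκ, fun t ht ht1 => ?_⟩
  have := hest t ht ht1
  rw [hN, hN, hN2] at this
  exact this

end Crest.Agent.R165.Cl12x722
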