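import Crest.Agent.R165.Cl12_722

/-!
# Row 165, block R-f: (BR), the branch point theorem

`s` is any measurable square root of `z` (any cut); `F` is the honest (cut) function, `s F` is single
valued.
-/

open MeasureTheory Set Filter Topology Complex Metric
open scoped ENNReal NNReal ContDiff Convolution ComplexConjugate

namespace Crest.Agent.R165.Cl13x722

open Cl1x722 Cl2x722 Cl3x722 Cl4x722 Cl5x722 Cl6x722 Cl7x722 Cl8x722 Cl9x722 Cl10x722 Cl11x722
  Cl12x722

/-- Removable point: an `L¹` function, weakly holomorphic off `0`, with `∫_{B_ε} ‖P‖ = o(ε)`. -/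
theorem wdbar_remove_point {P : ℂ → ℂ} (hP : IntegrableOn P (ball 0 1))
    (hw : WDbar (ball 0 1 \ {0}) P 0)
    (hsmall : Tendsto (fun ε : ℝ => ε⁻¹ * ∫ z in ball 0 (2 * ε), ‖P z‖) (𝓝[>] 0) (𝓝 0)) :
    WDbar (ball 0 1) P 0 := by
  intro χ h1 h2 h3
  have h1' : ContDiff ℝ 1 χ := h1.of_le (by exact_mod_cast le_top)
  obtain ⟨ψ, g1, g2, g3, g4, g5, g6⟩ := exists_cutoff (0 : ℂ) (r := 1) (R := 3 / 2)
    (by norm_num) (by norm_num)
  have g1' : ContDiff ℝ 1 ψ := g1.of_le (by exact_mod_cast le_top)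
  obtain ⟨M, hM⟩ := (hasCompactSupport_dbar g2).exists_bound_of_continuous (continuous_dbar g1')
  obtain ⟨M1, hM1⟩ := (hasCompactSupport_dbar h2).exists_bound_of_continuous (continuous_dbar h1')
  obtain ⟨M0, hM0⟩ := h2.exists_bound_of_continuous h1'.continuous
  have hM00 : 0 ≤ M0 := (norm_nonneg _).trans (hM0 0)
  have hMn : 0 ≤ M := (norm_nonneg _).trans (hM 0)
  have hM1n : 0 ≤ M1 := (norm_nonneg _).trans (hM1 0)
  have hlin : Integrable (fun z => P z * dbar χ z) :=
    integrable_mul_test hP.locallyIntegrableOn (continuous_dbar h1') (hasCompactSupport_dbar h2)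
      ((tsupport_dbar_subset χ).trans h3)
  have hgoal : ∫ z, (P z * dbar χ z + (0 : ℂ → ℂ) z * χ z) = ∫ z, P z * dbar χ z := by
    refine integral_congr_ae (Eventually.of_forall fun z => ?_); simp
  rw [hgoal]
  -- for every small `ε`, the integral is bounded
  have key : ∀ ε : ℝ, 0 < ε → ε < 1 / 2 →
      ‖∫ z, P z * dbar χ z‖ ≤ M1 * (∫ z in ball 0 (2 * ε), ‖P z‖) +
        M0 * M * (ε⁻¹ * ∫ z in ball 0 (2 * ε), ‖P z‖) := by
    intro ε hε hε2
    set ψε : ℂ → ℂ := fun z => ψ (((ε⁻¹ : ℝ) : ℂ) * z) with hψε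
    have k1 : ContDiff ℝ ∞ ψε := g1.comp (contDiff_const.mul contDiff_id)
    have k1' : ContDiff ℝ 1 ψε := k1.of_le (by exact_mod_cast le_top)
    have hnorm : ∀ z : ℂ, ‖((ε⁻¹ : ℝ) : ℂ) * z‖ = ε⁻¹ * ‖z‖ := by
      intro z
      rw [norm_mul, norm_real, Real.norm_of_nonneg (by positivity)]
    have hone : ∀ z : ℂ, ‖z‖ ≤ ε → ψε z = 1 := by
      intro z hz
      refine g4 _ ?_
      rw [mem_closedBall_zero_iff, hnorm]
      rw [inv_mul_le_iff₀ hε]; linarith
    have hzero : ∀ z : ℂ, z ∉ ball (0 : ℂ) (2 * ε) → ψε z = 0 := by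
      intro z hz
      rw [mem_ball_zero_iff, not_lt] at hz
      by_contra hne
      have h5 := g3 (subset_tsupport ψ hne)
      rw [mem_closedBall_zero_iff, hnorm, inv_mul_le_iff₀ hε] at h5
      linarith
    have hdψ : ∀ z, dbar ψε z = ((ε⁻¹ : ℝ) : ℂ) * dbar ψ (((ε⁻¹ : ℝ) : ℂ) * z) := by
      intro z
      rw [hψε, dbar_comp_mul _ (g1'.differentiable one_ne_zero _), conj_ofReal]
    have hdψ0 : ∀ z : ℂ, z ∉ ball (0 : ℂ) (2 * ε) → dbar ψε z = 0 := by
      intro z hz
      rw [hdψ]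
      have : ((ε⁻¹ : ℝ) : ℂ) * z ∉ tsupport ψ := by
        intro h
        have h5 := g3 h
        rw [mem_closedBall_zero_iff, hnorm, inv_mul_le_iff₀ hε] at h5
        rw [mem_ball_zero_iff, not_lt] at hz
        linarith
      rw [dbar_zero_of_notMem this, mul_zero]
    -- the test function `χ (1 - ψε)`
    have t1 : ContDiff ℝ ∞ (fun z => χ z * (1 - ψε z)) := h1.mul (contDiff_const.sub k1)
    have t2 : HasCompactSupport (fun z => χ z * (1 - ψε z)) := h2.mul_right
    have t3 : tsupport (fun z => χ z * (1 - ψε z)) ⊆ ball 0 1 \ {0} := by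
      have h6 : tsupport (fun z => χ z * (1 - ψε z)) ⊆ tsupport χ ∩ {z | ε ≤ ‖z‖} := by
        refine closure_minimal ?_ ((isClosed_tsupport χ).inter
          (isClosed_le continuous_const continuous_norm))
        intro z hz
        have hz' : χ z * (1 - ψε z) ≠ 0 := hz
        refine ⟨subset_tsupport _ (left_ne_zero_of_mul hz'), ?_⟩
        by_contra hlt
        simp only [mem_ofPred_eq, not_le] at hlt
        exact (right_ne_zero_of_mul hz') (by rw [hone z hlt.le, sub_self])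
      intro z hz
      refine ⟨h3 (h6 hz).1, ?_⟩
      intro h0
      have h7 : ε ≤ ‖z‖ := (h6 hz).2
      rw [mem_singleton_iff.mp h0, norm_zero] at h7
      linarith
    have h8 := hw _ t1 t2 t3
    have hdb : ∀ z, dbar (fun z => χ z * (1 - ψε z)) z =
        dbar χ z * (1 - ψε z) - χ z * dbar ψε z := by
      intro z
      have hdif : DifferentiableAt ℝ (fun z => 1 - ψε z) z :=
        (differentiableAt_const _).sub (k1'.differentiable one_ne_zero z)
      rw [dbar_mul (h1'.differentiable one_ne_zero z) hdif]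
      have : dbar (fun z => 1 - ψε z) z = -dbar ψε z := by
        have h9 : fderiv ℝ (fun z => 1 - ψε z) z = -fderiv ℝ ψε z := by
          rw [fderiv_const_sub]
        simp only [dbar, h9, _root_.neg_apply]; ring
      rw [this]; ring
    have h10 : ∫ z, P z * dbar χ z = ∫ z in ball 0 (2 * ε),
        P z * (dbar χ z * ψε z + χ z * dbar ψε z) := by
      have e1 : ∫ z, P z * (dbar χ z * (1 - ψε z) - χ z * dbar ψε z) = 0 := by
        rw [← h8]
        refine integral_congr_ae (Eventually.of_forall fun z => ?_)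
        simp only [hdb, Pi.zero_apply, zero_mul, add_zero]
      have e2 : Integrable (fun z => P z * (dbar χ z * (1 - ψε z) - χ z * dbar ψε z)) := by
        have hc : Continuous (fun z => dbar (fun z => χ z * (1 - ψε z)) z) :=
          continuous_dbar (t1.of_le (by exact_mod_cast le_top))
        have := integrable_mul_test (hP.locallyIntegrableOn) hc (hasCompactSupport_dbar t2)
          ((tsupport_dbar_subset _).trans (t3.trans sdiff_subset))
        refine this.congr (Eventually.of_forall fun z => ?_)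
        simp only [hdb]
      have e3 : ∫ z, P z * dbar χ z = (∫ z, P z * dbar χ z) -
          ∫ z, P z * (dbar χ z * (1 - ψε z) - χ z * dbar ψε z) := by rw [e1, sub_zero]
      rw [e3, ← integral_sub hlin e2, ← integral_indicator measurableSet_ball]
      refine integral_congr_ae (Eventually.of_forall fun z => ?_)
      by_cases hz : z ∈ ball (0 : ℂ) (2 * ε)
      · simp only [indicator_of_mem hz]; ring
      · simp only [indicator_of_notMem hz, hzero z hz, hdψ0 z hz]; ring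
    have hsub2 : ball (0 : ℂ) (2 * ε) ⊆ ball 0 1 := ball_subset_ball (by linarith)
    rw [h10]
    calc ‖∫ z in ball 0 (2 * ε), P z * (dbar χ z * ψε z + χ z * dbar ψε z)‖
        ≤ ∫ z in ball 0 (2 * ε), (M1 + M0 * (ε⁻¹ * M)) * ‖P z‖ := by
          refine norm_integral_le_of_norm_le ((hP.mono_set hsub2).norm.const_mul _)
            (Eventually.of_forall fun z => ?_)
          rw [norm_mul, mul_comm]
          refine mul_le_mul_of_nonneg_right ?_ (norm_nonneg _)
          refine (norm_add_le _ _).trans (add_le_add ?_ ?_)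
          · rw [norm_mul]
            have h11 : ‖ψε z‖ ≤ 1 := by
              obtain ⟨u, hu, hu0, hu1⟩ := g6 (((ε⁻¹ : ℝ) : ℂ) * z)
              have : ψε z = u := hu
              rw [this, norm_real, Real.norm_of_nonneg hu0]; exact hu1
            calc ‖dbar χ z‖ * ‖ψε z‖ ≤ M1 * 1 := by
                  gcongr
                  exact hM1 z
              _ = M1 := mul_one _
          · rw [norm_mul, hdψ, norm_mul, norm_real, Real.norm_of_nonneg (by positivity)]
            gcongr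
            · exact hM0 z
            · exact hM _
      _ = _ := by rw [integral_const_mul]; ring
  -- pass to the limit
  have hlim : Tendsto (fun ε : ℝ => M1 * (∫ z in ball 0 (2 * ε), ‖P z‖) +
        M0 * M * (ε⁻¹ * ∫ z in ball 0 (2 * ε), ‖P z‖)) (𝓝[>] 0) (𝓝 0) := by
    have h12 : Tendsto (fun ε : ℝ => ∫ z in ball 0 (2 * ε), ‖P z‖) (𝓝[>] 0) (𝓝 0) := by
      have h13 : Tendsto (fun ε : ℝ => ε * (ε⁻¹ * ∫ z in ball 0 (2 * ε), ‖P z‖)) (𝓝[>] 0)
          (𝓝 (0 * 0)) := (tendsto_nhdsWithin_of_tendsto_nhds tendsto_id).mul hsmall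
      rw [mul_zero] at h13
      refine h13.congr' ?_
      filter_upwards [self_mem_nhdsWithin] with ε hε
      have : (ε : ℝ) ≠ 0 := ne_of_gt hε
      field_simp
    have := (h12.const_mul M1).add (hsmall.const_mul (M0 * M))
    simpa using this
  have hle : ‖∫ z, P z * dbar χ z‖ ≤ 0 := by
    refine ge_of_tendsto hlim ?_
    have : Ioo (0 : ℝ) (1 / 2) ∈ 𝓝[>] (0 : ℝ) := Ioo_mem_nhdsGT (by norm_num)
    filter_upwards [this] with ε hε
    exact key ε hε.1 hε.2
  exact norm_le_zero_iff.mp hle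

lemma integral_inv_norm_ball {t : ℝ} (ht : 0 ≤ t) :
    IntegrableOn (fun z : ℂ => ‖z‖⁻¹) (ball 0 t) ∧
      ∫ z in ball (0 : ℂ) t, ‖z‖⁻¹ = 2 * Real.pi * t := by
  have h := lintegral_kernel_ball (a := 1) (by norm_num) ht
  have h1 : ∀ z : ℂ, ‖z‖ ^ (-(1 : ℝ)) = ‖z‖⁻¹ := fun z => Real.rpow_neg_one _
  simp_rw [h1] at h
  have hm : AEStronglyMeasurable (fun z : ℂ => ‖z‖⁻¹) (volume.restrict (ball 0 t)) :=
    (by fun_prop : Measurable (fun z : ℂ => ‖z‖⁻¹)).aestronglyMeasurable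
  have h2 : (2 * Real.pi * (t ^ ((2 : ℝ) - 1) / (2 - 1)) : ℝ) = 2 * Real.pi * t := by norm_num
  rw [h2] at h
  constructor
  · refine ⟨hm, ?_⟩
    rw [hasFiniteIntegral_iff_ofReal (Eventually.of_forall fun z => by positivity), h]
    exact ENNReal.ofReal_lt_top
  · rw [integral_eq_lintegral_of_nonneg_ae (Eventually.of_forall fun z => by positivity) hm, h,
      ENNReal.toReal_ofReal (by have := Real.pi_pos; positivity)]

set_option maxHeartbeats 1000000 in
/-- **(BR)** the branch point theorem. `s z ^ 2 = z` (any measurable branch), `σ = ±1`. -/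
theorem branch_disc : ∃ C : ℝ, 0 < C ∧ ∀ (s : ℂ → ℂ) (σ : ℝ) (a : ℂ) (F : ℂ → ℂ),
    Measurable s → (∀ z, s z ^ 2 = z) → σ ^ 2 = 1 → a ^ 2 = σ →
    MemLp F 2 (volume.restrict (ball 0 1)) →
    WDbar (ball 0 1 \ {0}) (fun z => s z * F z) 0 →
    (∀ χ : ℂ → ℝ, RTest (ball 0 1) χ →
      (∫ z in ball 0 1, F z ^ 2 * dbar (cx χ) z).im = 0) →
    (∀ χ : ℂ → ℝ, RTest (ball 0 1) χ → (∀ z, 0 ≤ χ z) →
      0 ≤ -(σ * (∫ z in ball 0 1, F z ^ 2 * dbar (cx χ) z).re)) →
    ∃ κ : ℝ, κ ^ 2 ≤ C * ∫ z in ball 0 1, ‖F z‖ ^ 2 ∧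
      ∀ t : ℝ, 0 < t → t ≤ 1 →
        ∫ z in ball 0 t, ‖F z‖ ^ 2 ≤ C * t * ∫ z in ball 0 1, ‖F z‖ ^ 2 ∧
        ∫ z in ball 0 t, ‖F z - κ * a / s z‖ ^ 2 ≤
          C * t ^ 3 * ∫ z in ball 0 1, ‖F z‖ ^ 2 := by
  obtain ⟨C1, hC1, hb⟩ := hol_bounds
  have hpi := Real.pi_pos
  set A : ℝ := Real.pi * C1 ^ 2 with hA
  have hA0 : 0 < A := by positivity
  refine ⟨2 * Real.pi * A + 4 + 64 * (2 + 4 * Real.pi * A) + A, by positivity, ?_⟩
  intro s σ a F hs hs2 hσ ha hF hw him hpos
  have hsn : ∀ z, ‖s z‖ ^ 2 = ‖z‖ := by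
    intro z; rw [← norm_pow, hs2]
  set N2 : ℝ := ∫ z in ball (0 : ℂ) 1, ‖F z‖ ^ 2 with hN2
  have hN20 : 0 ≤ N2 := integral_nonneg fun _ => by positivity
  have hfin1 : volume (ball (0 : ℂ) 1) ≠ ⊤ := measure_ball_lt_top.ne
  have : IsFiniteMeasure (volume.restrict (ball (0 : ℂ) 1)) := ⟨by
    rw [Measure.restrict_apply_univ]; exact measure_ball_lt_top⟩
  have hFi : IntegrableOn F (ball 0 1) := hF.integrable (by norm_num)
  have hsqi : IntegrableOn (fun z => ‖F z‖ ^ 2) (ball 0 1) := by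
    show Integrable (fun z => ‖F z‖ ^ 2) (volume.restrict (ball 0 1))
    simpa using hF.integrable_norm_pow (p := 2) (by norm_num)
  set P : ℂ → ℂ := fun z => s z * F z with hPdef
  have hsle : ∀ t : ℝ, 0 ≤ t → ∀ z ∈ ball (0 : ℂ) t, ‖s z‖ ≤ Real.sqrt t := by
    intro t ht z hz
    refine Real.le_sqrt_of_sq_le ?_
    rw [hsn]; exact (mem_ball_zero_iff.mp hz).le
  have hPi : IntegrableOn P (ball 0 1) := by
    refine (hFi.norm).mono' ((hs.aestronglyMeasurable).mul hFi.aestronglyMeasurable) ?_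
    refine (ae_restrict_iff' measurableSet_ball).mpr (Eventually.of_forall fun z hz => ?_)
    simp only [hPdef, norm_mul]
    have h1 := hsle 1 zero_le_one z hz
    rw [Real.sqrt_one] at h1
    calc ‖s z‖ * ‖F z‖ ≤ 1 * ‖F z‖ := by gcongr
      _ = ‖F z‖ := one_mul _
  -- smallness at the point
  have hPt : ∀ t : ℝ, 0 < t → t ≤ 1 → ∫ z in ball 0 t, ‖P z‖ ≤
      Real.sqrt t * Real.sqrt (Real.pi * t ^ 2 * N2) := by
    intro t ht ht1
    have hsub : ball (0 : ℂ) t ⊆ ball 0 1 := ball_subset_ball ht1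
    have hFt : MemLp F 2 (volume.restrict (ball 0 t)) :=
      hF.mono_measure (Measure.restrict_mono hsub le_rfl)
    have h2 := integral_norm_sq_le (S := ball (0 : ℂ) t) measure_ball_lt_top.ne hFt
    rw [volume_ball_toReal ht.le] at h2
    have h3 : ∫ z in ball 0 t, ‖F z‖ ^ 2 ≤ N2 :=
      setIntegral_mono_set hsqi (Eventually.of_forall fun _ => by positivity) hsub.eventuallyLE
    have h4 : ∫ z in ball 0 t, ‖F z‖ ≤ Real.sqrt (Real.pi * t ^ 2 * N2) := by
      refine Real.le_sqrt_of_sq_le (h2.trans ?_)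
      gcongr
    calc ∫ z in ball 0 t, ‖P z‖ ≤ ∫ z in ball 0 t, Real.sqrt t * ‖F z‖ := by
          refine setIntegral_mono_on (hPi.mono_set hsub).norm
            ((hFi.mono_set hsub).norm.const_mul _) measurableSet_ball (fun z hz => ?_)
          simp only [hPdef, norm_mul]
          exact mul_le_mul_of_nonneg_right (hsle t ht.le z hz) (norm_nonneg _)
      _ = Real.sqrt t * ∫ z in ball 0 t, ‖F z‖ := integral_const_mul _ _
      _ ≤ _ := by gcongr
  have hsmall : Tendsto (fun ε : ℝ => ε⁻¹ * ∫ z in ball 0 (2 * ε), ‖P z‖) (𝓝[>] 0) (𝓝 0) := by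
    have hup : Tendsto (fun ε : ℝ => Real.sqrt (2 * ε) * (2 * Real.sqrt (Real.pi * N2)))
        (𝓝[>] 0) (𝓝 0) := by
      have h1 : Continuous (fun ε : ℝ => Real.sqrt (2 * ε) * (2 * Real.sqrt (Real.pi * N2))) := by
        fun_prop
      have h2 := h1.tendsto 0
      simp only [mul_zero, Real.sqrt_zero, zero_mul] at h2
      exact h2.mono_left nhdsWithin_le_nhds
    refine squeeze_zero' ?_ ?_ hup
    · filter_upwards [self_mem_nhdsWithin] with ε hε
      have : (0 : ℝ) < ε := hε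
      exact mul_nonneg (by positivity) (integral_nonneg fun _ => norm_nonneg _)
    · filter_upwards [Ioo_mem_nhdsGT (show (0 : ℝ) < 1 / 2 by norm_num)] with ε hε
      have hε0 : 0 < ε := hε.1
      have h3 := hPt (2 * ε) (by linarith) (by linarith [hε.2])
      have h4 : Real.sqrt (Real.pi * (2 * ε) ^ 2 * N2) = (2 * ε) * Real.sqrt (Real.pi * N2) := by
        have : Real.pi * (2 * ε) ^ 2 * N2 = (2 * ε) ^ 2 * (Real.pi * N2) := by ring
        rw [this, Real.sqrt_mul (by positivity), Real.sqrt_sq (by positivity)]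
      rw [h4] at h3
      calc ε⁻¹ * ∫ z in ball 0 (2 * ε), ‖P z‖
          ≤ ε⁻¹ * (Real.sqrt (2 * ε) * ((2 * ε) * Real.sqrt (Real.pi * N2))) := by gcongr
        _ = _ := by field_simp
  have hwP := wdbar_remove_point hPi hw hsmall
  obtain ⟨p, hp, hPp⟩ := weyl isOpen_ball hPi.locallyIntegrableOn hwP
  have haeB : P =ᵐ[volume.restrict (ball 0 1)] p := by
    rw [Filter.EventuallyEq, ae_restrict_iff' measurableSet_ball]; exact hPp
  have hpi1 : IntegrableOn p (ball 0 1) := hPi.congr haeB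
  have hL1 : (∫ w in ball 0 1, ‖p w‖) ^ 2 ≤ Real.pi * N2 := by
    have h1 : ∫ w in ball 0 1, ‖p w‖ = ∫ w in ball 0 1, ‖P w‖ :=
      integral_congr_ae (haeB.mono fun z hz => by simp only [hz])
    have h2 := hPt 1 one_pos le_rfl
    rw [← h1, Real.sqrt_one, one_mul, one_pow, mul_one] at h2
    have h3 : 0 ≤ ∫ w in ball 0 1, ‖p w‖ := integral_nonneg fun _ => norm_nonneg _
    calc (∫ w in ball 0 1, ‖p w‖) ^ 2 ≤ (Real.sqrt (Real.pi * N2)) ^ 2 := by gcongr
      _ = _ := Real.sq_sqrt (by positivity)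
  have hsup : ∀ z ∈ ball (0 : ℂ) (1 / 4), ‖p z‖ ^ 2 ≤ A * N2 := by
    intro z hz
    calc ‖p z‖ ^ 2 ≤ (C1 * ∫ w in ball 0 1, ‖p w‖) ^ 2 := by
          gcongr; exact (hb p hp hpi1 z hz).1
      _ = C1 ^ 2 * (∫ w in ball 0 1, ‖p w‖) ^ 2 := by ring
      _ ≤ C1 ^ 2 * (Real.pi * N2) := by gcongr
      _ = _ := by rw [hA]; ring
  have hlip : ∀ z ∈ ball (0 : ℂ) (1 / 4), ‖p z - p 0‖ ^ 2 ≤ A * ‖z‖ ^ 2 * N2 := by
    intro z hz
    calc ‖p z - p 0‖ ^ 2 ≤ (C1 * ‖z‖ * ∫ w in ball 0 1, ‖p w‖) ^ 2 := by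
          gcongr; exact (hb p hp hpi1 z hz).2
      _ = C1 ^ 2 * ‖z‖ ^ 2 * (∫ w in ball 0 1, ‖p w‖) ^ 2 := by ring
      _ ≤ C1 ^ 2 * ‖z‖ ^ 2 * (Real.pi * N2) := by gcongr
      _ = _ := by rw [hA]; ring
  -- the residue
  have h0ne : ∀ᵐ z : ℂ, z ≠ 0 := by
    rw [ae_iff]; simp
  have hquad : ∀ χ : ℂ → ℝ, RTest (ball 0 1) χ →
      ∫ z in ball 0 1, F z ^ 2 * dbar (cx χ) z = -(Real.pi : ℂ) * (p 0 ^ 2 * χ 0) := by
    intro χ hχ
    have hc1 : ContDiff ℝ 1 (cx χ) := hχ.cx_smooth.of_le (by exact_mod_cast le_top)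
    -- `h = dslope (p^2) 0`
    set q : ℂ → ℂ := fun z => p z ^ 2 with hq
    have hqd : DifferentiableOn ℂ q (ball 0 1) := hp.pow 2
    set h : ℂ → ℂ := dslope q 0 with hh
    have hhd : DifferentiableOn ℂ h (ball 0 1) :=
      (Complex.differentiableOn_dslope (ball_mem_nhds _ one_pos)).mpr hqd
    have hi1 : Integrable (fun z => h z * dbar (cx χ) z) :=
      integrable_mul_test (locallyIntegrableOn_of_differentiableOn isOpen_ball hhd)
        (continuous_dbar hc1) (hasCompactSupport_dbar hχ.cx_cpt)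
        ((tsupport_dbar_subset _).trans hχ.cx_supp)
    have hi2 : Integrable (fun z : ℂ => z⁻¹ * dbar (cx χ) z) :=
      integrable_mul_test (locallyIntegrable_inv.locallyIntegrableOn (ball 0 1))
        (continuous_dbar hc1) (hasCompactSupport_dbar hχ.cx_cpt)
        ((tsupport_dbar_subset _).trans hχ.cx_supp)
    have e1 : ∫ z in ball 0 1, F z ^ 2 * dbar (cx χ) z =
        ∫ z, (q 0 * (z⁻¹ * dbar (cx χ) z) + h z * dbar (cx χ) z) := by
      rw [← integral_indicator measurableSet_ball]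
      refine integral_congr_ae ?_
      filter_upwards [hPp, h0ne] with z hz hz0
      by_cases hzB : z ∈ ball (0 : ℂ) 1
      · rw [indicator_of_mem hzB]
        have e2 : F z ^ 2 = q 0 * z⁻¹ + h z := by
          have e3 : z * F z ^ 2 = q z := by
            have := hz hzB
            simp only [hPdef] at this
            calc z * F z ^ 2 = (s z * F z) ^ 2 := by rw [mul_pow, hs2]
              _ = q z := by rw [this]
          have e4 : h z = (z - 0)⁻¹ * (q z - q 0) := by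
            rw [hh, dslope_of_ne _ hz0, slope_def_module, smul_eq_mul]
          rw [e4, ← e3, sub_zero]
          field_simp
          ring
        rw [e2]; ring
      · rw [indicator_of_notMem hzB]
        have : dbar (cx χ) z = 0 := dbar_zero_of_notMem fun h => hzB (hχ.cx_supp h)
        simp [this]
    rw [e1, integral_add (hi2.const_mul _) hi1, integral_const_mul,
      integral_hol_dbar isOpen_ball hhd hc1 hχ.cx_cpt hχ.cx_supp,
      cauchy_pompeiu_zero hc1 hχ.cx_cpt]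
    simp only [hq, cx]; ring
  -- a test function equal to one at the origin
  obtain ⟨χ0, hχ0, hχ0n, hχ01⟩ : ∃ χ : ℂ → ℝ, RTest (ball 0 1) χ ∧ (∀ z, 0 ≤ χ z) ∧ χ 0 = 1 := by
    let f : ContDiffBump (0 : ℂ) := ⟨1 / 4, 1 / 2, by norm_num, by norm_num⟩
    refine ⟨f, ⟨f.contDiff, f.hasCompactSupport, ?_⟩, fun z => f.nonneg, ?_⟩
    · rw [f.tsupport_eq]
      exact closedBall_subset_ball (by norm_num)
    · exact f.one_of_mem_closedBall (mem_closedBall_self (by norm_num))
  have hq1 := hquad χ0 hχ0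
  rw [hχ01, ofReal_one, mul_one] at hq1
  have him0 := him χ0 hχ0
  have hre0 := hpos χ0 hχ0 hχ0n
  rw [hq1] at him0 hre0
  have him1 : (p 0 ^ 2).im = 0 := by
    have : (-(Real.pi : ℂ) * p 0 ^ 2).im = -Real.pi * (p 0 ^ 2).im := by simp
    rw [this] at him0
    rcases mul_eq_zero.mp him0 with h | h
    · linarith
    · exact h
  have hre1 : 0 ≤ σ * (p 0 ^ 2).re := by
    have : (-(Real.pi : ℂ) * p 0 ^ 2).re = -Real.pi * (p 0 ^ 2).re := by simp
    rw [this] at hre0
    have h5 : 0 ≤ Real.pi * (σ * (p 0 ^ 2).re) := by linarith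
    exact nonneg_of_mul_nonneg_right (by linarith) hpi
  have hσ0 : σ ≠ 0 := by rintro rfl; norm_num at hσ
  have ha0 : a ≠ 0 := by
    intro h; rw [h] at ha
    have : (σ : ℂ) = 0 := by rw [← ha]; ring
    exact hσ0 (by exact_mod_cast this)
  -- the real amplitude
  obtain ⟨κ, hκ⟩ : ∃ κ : ℝ, p 0 = κ * a := by
    set w : ℂ := p 0 / a with hwd
    have hw2 : w ^ 2 = ((σ * (p 0 ^ 2).re : ℝ) : ℂ) := by
      rw [hwd, div_pow, ha]
      have h6 : p 0 ^ 2 = ((p 0 ^ 2).re : ℂ) := Complex.ext (by simp) (by simpa using him1)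
      have h7 : (σ : ℂ) ^ 2 = 1 := by exact_mod_cast hσ
      have h8 : (σ : ℂ) ≠ 0 := by exact_mod_cast hσ0
      rw [div_eq_iff h8]
      conv_lhs => rw [h6]
      push_cast
      linear_combination (-((p 0 ^ 2).re : ℂ)) * h7
    have h9 : w = (Real.sqrt (σ * (p 0 ^ 2).re) : ℂ) ∨ w = -(Real.sqrt (σ * (p 0 ^ 2).re) : ℂ) := by
      rw [← sq_eq_sq_iff_eq_or_eq_neg, hw2]
      rw [← ofReal_pow, Real.sq_sqrt hre1]
    rcases h9 with h | h
    · refine ⟨Real.sqrt (σ * (p 0 ^ 2).re), ?_⟩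
      rw [← h, hwd]; field_simp
    · refine ⟨-Real.sqrt (σ * (p 0 ^ 2).re), ?_⟩
      rw [ofReal_neg, ← h, hwd]; field_simp
  have han : ‖a‖ = 1 := by
    have h1 : ‖a‖ ^ 2 = 1 := by
      rw [← norm_pow, ha, norm_real, Real.norm_eq_abs]
      have h5 : |σ| ^ 2 = 1 := by rw [sq_abs]; exact hσ
      exact (pow_eq_one_iff_of_nonneg (abs_nonneg σ) two_ne_zero).mp h5
    exact (pow_eq_one_iff_of_nonneg (norm_nonneg a) two_ne_zero).mp h1
  have hκ2 : κ ^ 2 ≤ A * N2 := by
    have h1 := hsup 0 (mem_ball_self (by norm_num))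
    rw [hκ, norm_mul, han, mul_one, norm_real, Real.norm_eq_abs, sq_abs] at h1
    exact h1
  have hkey : (0 : ℝ) < 2 * Real.pi * A + 4 + 64 * (2 + 4 * Real.pi * A) + A := by positivity
  refine ⟨κ, ?_, ?_⟩
  · refine hκ2.trans (mul_le_mul_of_nonneg_right ?_ hN20)
    nlinarith [mul_pos hpi hA0]
  intro t ht ht1
  have hsubt : ball (0 : ℂ) t ⊆ ball 0 1 := ball_subset_ball ht1
  obtain ⟨hinv, hinv2⟩ := integral_inv_norm_ball ht.le
  have hsqt : IntegrableOn (fun z => ‖F z‖ ^ 2) (ball 0 t) := hsqi.mono_set hsubt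
  have hsqle : ∫ z in ball 0 t, ‖F z‖ ^ 2 ≤ N2 :=
    setIntegral_mono_set hsqi (Eventually.of_forall fun _ => by positivity) hsubt.eventuallyLE
  have hF1 : ∀ᵐ z, z ∈ ball (0 : ℂ) 1 → ‖F z‖ ^ 2 = ‖p z‖ ^ 2 * ‖z‖⁻¹ := by
    filter_upwards [hPp, h0ne] with z hz hz0 hzB
    rw [← hz hzB]
    simp only [hPdef, norm_mul, mul_pow, hsn]
    have : ‖z‖ ≠ 0 := norm_ne_zero_iff.mpr hz0
    field_simp
  have hF2 : ∀ᵐ z, z ∈ ball (0 : ℂ) 1 → ‖F z - κ * a / s z‖ ^ 2 = ‖p z - p 0‖ ^ 2 * ‖z‖⁻¹ := by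
    filter_upwards [hPp, h0ne] with z hz hz0 hzB
    have hsz : s z ≠ 0 := by
      intro h
      have := hs2 z
      rw [h] at this
      exact hz0 (by rw [← this]; ring)
    have h1 : F z - κ * a / s z = (p z - p 0) / s z := by
      rw [← hz hzB, hκ]
      simp only [hPdef]
      field_simp
    rw [h1, norm_div, div_pow, hsn, div_eq_mul_inv]
  constructor
  · by_cases h4 : t ≤ 1 / 4
    · have h5 : ∫ z in ball 0 t, ‖F z‖ ^ 2 ≤ ∫ z in ball (0 : ℂ) t, (A * N2) * ‖z‖⁻¹ := by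
        refine integral_mono_ae hsqt (hinv.const_mul _) ?_
        refine (ae_restrict_iff' measurableSet_ball).mpr ?_
        filter_upwards [hF1] with z hz hzt
        rw [hz (hsubt hzt)]
        exact mul_le_mul_of_nonneg_right (hsup z (ball_subset_ball h4 hzt)) (by positivity)
      rw [integral_const_mul, hinv2] at h5
      refine h5.trans ?_
      have h7 : A * N2 * (2 * Real.pi * t) = (2 * Real.pi * A) * (t * N2) := by ring
      have h8 : (2 * Real.pi * A + 4 + 64 * (2 + 4 * Real.pi * A) + A) * t * N2 =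
        (2 * Real.pi * A + 4 + 64 * (2 + 4 * Real.pi * A) + A) * (t * N2) := by ring
      rw [h7, h8]
      refine mul_le_mul_of_nonneg_right ?_ (by positivity)
      nlinarith [mul_pos hpi hA0]
    · push Not at h4
      refine hsqle.trans ?_
      have h6 : (1 : ℝ) ≤ 4 * t := by linarith
      calc N2 = 1 * N2 := (one_mul _).symm
        _ ≤ (4 * t) * N2 := by gcongr
        _ ≤ (2 * Real.pi * A + 4 + 64 * (2 + 4 * Real.pi * A) + A) * t * N2 := by
            gcongr
            nlinarith [mul_pos hpi hA0]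
  · by_cases h4 : t ≤ 1 / 4
    · have h5 : ∫ z in ball 0 t, ‖F z - κ * a / s z‖ ^ 2 ≤ ∫ z in ball (0 : ℂ) t, (A * N2 * t) * 1 := by
        refine integral_mono_of_nonneg (Eventually.of_forall fun _ => by positivity)
          (integrableOn_const (hs := measure_ball_lt_top.ne)) ?_
        refine (ae_restrict_iff' measurableSet_ball).mpr ?_
        filter_upwards [hF2, h0ne] with z hz hz0 hzt
        rw [hz (hsubt hzt)]
        have hzn : 0 < ‖z‖ := norm_pos_iff.mpr hz0
        calc ‖p z - p 0‖ ^ 2 * ‖z‖⁻¹ ≤ (A * ‖z‖ ^ 2 * N2) * ‖z‖⁻¹ := by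
              gcongr; exact hlip z (ball_subset_ball h4 hzt)
          _ = A * N2 * ‖z‖ := by field_simp
          _ ≤ A * N2 * t := by
              gcongr; exact (mem_ball_zero_iff.mp hzt).le
          _ = A * N2 * t * 1 := (mul_one _).symm
      rw [setIntegral_const, smul_eq_mul, Measure.real, volume_ball_toReal ht.le] at h5
      refine h5.trans ?_
      have h7 : Real.pi * t ^ 2 * (A * N2 * t * 1) = (Real.pi * A) * (t ^ 3 * N2) := by ring
      have h8 : (2 * Real.pi * A + 4 + 64 * (2 + 4 * Real.pi * A) + A) * t ^ 3 * N2 =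
        (2 * Real.pi * A + 4 + 64 * (2 + 4 * Real.pi * A) + A) * (t ^ 3 * N2) := by ring
      rw [h7, h8]
      refine mul_le_mul_of_nonneg_right ?_ (by positivity)
      nlinarith [mul_pos hpi hA0]
    · push Not at h4
      have h5 : ∫ z in ball 0 t, ‖F z - κ * a / s z‖ ^ 2 ≤
          ∫ z in ball 0 t, (2 * ‖F z‖ ^ 2 + 2 * κ ^ 2 * ‖z‖⁻¹) := by
        refine integral_mono_of_nonneg (Eventually.of_forall fun _ => by positivity) ?_
          (Eventually.of_forall fun z => ?_)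
        · exact (hsqt.const_mul 2).add (hinv.const_mul _)
        · have h6 : ‖F z - κ * a / s z‖ ≤ ‖F z‖ + |κ| / ‖s z‖ := by
            refine (norm_sub_le _ _).trans ?_
            rw [norm_div, norm_mul, han, mul_one, norm_real, Real.norm_eq_abs]
          have h7 : (|κ| / ‖s z‖) ^ 2 = κ ^ 2 * ‖z‖⁻¹ := by
            rw [div_pow, sq_abs, hsn, div_eq_mul_inv]
          calc ‖F z - κ * a / s z‖ ^ 2 ≤ (‖F z‖ + |κ| / ‖s z‖) ^ 2 := by gcongr
            _ ≤ 2 * ‖F z‖ ^ 2 + 2 * (|κ| / ‖s z‖) ^ 2 := by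
                nlinarith [sq_nonneg (‖F z‖ - |κ| / ‖s z‖)]
            _ = _ := by rw [h7]; ring
      rw [integral_add (hsqt.const_mul 2) (hinv.const_mul _), integral_const_mul,
        integral_const_mul, hinv2] at h5
      have h6 : 2 * κ ^ 2 * (2 * Real.pi * t) ≤ 2 * (A * N2) * (2 * Real.pi * 1) := by
        gcongr
      have h11 : (1 : ℝ) ≤ 64 * t ^ 3 := by
        have h12 := pow_le_pow_left₀ (by norm_num : (0 : ℝ) ≤ 1 / 4) h4.le 3
        norm_num at h12
        linarith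
      calc ∫ z in ball 0 t, ‖F z - κ * a / s z‖ ^ 2
          ≤ 2 * N2 + 2 * (A * N2) * (2 * Real.pi * 1) := by linarith
        _ = 1 * ((2 + 4 * Real.pi * A) * N2) := by ring
        _ ≤ (64 * t ^ 3) * ((2 + 4 * Real.pi * A) * N2) := by gcongr
        _ = (64 * (2 + 4 * Real.pi * A)) * (t ^ 3 * N2) := by ring
        _ ≤ (2 * Real.pi * A + 4 + 64 * (2 + 4 * Real.pi * A) + A) * (t ^ 3 * N2) := by
            gcongr
            nlinarith [mul_pos hpi hA0]
        _ = _ := by ring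

end Crest.Agent.R165.Cl13x722
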