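import Crest.Agent.R165.Cl7_722
import Crest.Agent.R158.Rf1_266

/-!
# Row 165, block R-f: the square on the real line; the half disc theorem
-/

open MeasureTheory Set Filter Topology Complex Metric
open scoped ENNReal NNReal ContDiff Convolution ComplexConjugate

namespace Crest.Agent.R165.Cl8x722

open Cl1x722 Cl2x722 Cl3x722 Cl4x722 Cl5x722 Cl6x722 Cl7x722

lemma dbar_of_hol {V : ℂ → ℂ} {z : ℂ} (h : DifferentiableAt ℂ V z) : dbar V z = 0 := by
  have : HasFDerivAt V ((fderiv ℂ V z).restrictScalars ℝ) z := h.hasFDerivAt.restrictScalars ℝ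
  rw [dbar, this.fderiv]
  have h2 : (fderiv ℂ V z) I = I * (fderiv ℂ V z) 1 := by
    have := (fderiv ℂ V z).map_smul I 1
    rw [smul_eq_mul, mul_one, smul_eq_mul] at this
    exact this
  simp only [ContinuousLinearMap.coe_restrictScalars', h2]
  linear_combination (1 / 2 * (fderiv ℂ V z) 1) * I_mul_I

/-- holomorphic times test function is `C^1` -/
lemma contDiff_hol_mul {B : Set ℂ} (hB : IsOpen B) {V χ : ℂ → ℂ} (hV : DifferentiableOn ℂ V B)
    (h1 : ContDiff ℝ 1 χ) (h3 : tsupport χ ⊆ B) : ContDiff ℝ 1 (fun z => V z * χ z) := by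
  rw [contDiff_iff_contDiffAt]
  intro z
  by_cases hz : z ∈ B
  · have h4 : ContDiffAt ℂ 1 V z := (hV.contDiffOn hB).contDiffAt (hB.mem_nhds hz)
    exact (h4.restrict_scalars ℝ).mul h1.contDiffAt
  · have hz' : z ∉ tsupport χ := fun h => hz (h3 h)
    have h5 : (fun z => V z * χ z) =ᶠ[𝓝 z] fun _ => 0 := by
      filter_upwards [(isClosed_tsupport χ).isOpen_compl.mem_nhds hz'] with w hw
      have : χ w = 0 := by
        by_contra h; exact hw (subset_tsupport _ h)
      simp [this]
    exact contDiffAt_const.congr_of_eventuallyEq h5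

/-- Green's formula for a holomorphic function against a test function. -/
theorem green_hol {B : Set ℂ} (hB : IsOpen B) {V χ : ℂ → ℂ} (hV : DifferentiableOn ℂ V B)
    (h1 : ContDiff ℝ 1 χ) (h2 : HasCompactSupport χ) (h3 : tsupport χ ⊆ B) :
    ∫ z in B ∩ HP, V z * dbar χ z = -(I / 2) * ∫ x : ℝ, V x * χ x := by
  rw [← green_half (contDiff_hol_mul hB hV h1 h3) h2.mul_left]
  have hd : ∀ z, dbar (fun z => V z * χ z) z = B.indicator (fun z => V z * dbar χ z) z := by
    intro z
    by_cases hz : z ∈ B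
    · have h4 := hV.differentiableAt (hB.mem_nhds hz)
      rw [indicator_of_mem hz, dbar_mul (h4.restrictScalars ℝ) (h1.differentiable one_ne_zero z),
        dbar_of_hol h4, zero_mul, zero_add]
    · rw [indicator_of_notMem hz]
      refine dbar_zero_of_notMem fun h => hz ?_
      exact h3 ((closure_mono fun w hw => right_ne_zero_of_mul hw) h)
  simp_rw [hd]
  rw [setIntegral_indicator hB.measurableSet, inter_comm]

/-- sign of a continuous function tested against bumps -/
lemma nonneg_of_test {g : ℝ → ℝ} (hg : ContinuousOn g (Ioo (-1) 1))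
    (h : ∀ χ : ℂ → ℝ, RTest (ball 0 1) χ → (∀ z, 0 ≤ χ z) → 0 ≤ ∫ x : ℝ, g x * χ x) :
    ∀ x ∈ Ioo (-1 : ℝ) 1, 0 ≤ g x := by
  intro x0 hx0
  by_contra hneg
  push Not at hneg
  have hcont : ContinuousAt g x0 := hg.continuousAt (Ioo_mem_nhds hx0.1 hx0.2)
  have hev : ∀ᶠ x in 𝓝 x0, g x < 0 := hcont.eventually (gt_mem_nhds hneg)
  obtain ⟨δ, hδ, hball⟩ := Metric.eventually_nhds_iff_ball.mp
    (hev.and (Ioo_mem_nhds hx0.1 hx0.2))
  have hsub : closedBall (x0 : ℂ) (δ / 2) ⊆ ball (0 : ℂ) 1 := by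
    intro z hz
    rw [mem_closedBall, dist_eq_norm] at hz
    rw [mem_ball_zero_iff]
    have h1 : |x0| + δ / 2 < 1 := by
      have ha := (hball (x0 + δ / 2) (by rw [mem_ball, Real.dist_eq]; simp; rw [abs_of_pos (by positivity)]; linarith)).2
      have hb := (hball (x0 - δ / 2) (by rw [mem_ball, Real.dist_eq]; simp; rw [abs_of_pos (by positivity)]; linarith)).2
      rcases abs_cases x0 with ⟨h, _⟩ | ⟨h, _⟩
      · rw [h]; exact ha.2
      · rw [h]; linarith [hb.1]
    calc ‖z‖ = ‖(x0 : ℂ) + (z - x0)‖ := by congr 1; ring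
      _ ≤ ‖(x0 : ℂ)‖ + ‖z - x0‖ := norm_add_le _ _
      _ ≤ |x0| + δ / 2 := by rw [norm_real, Real.norm_eq_abs]; linarith
      _ < 1 := h1
  let f : ContDiffBump (x0 : ℂ) := ⟨δ / 4, δ / 2, by positivity, by linarith⟩
  have hf : RTest (ball 0 1) f := ⟨f.contDiff, f.hasCompactSupport, by rw [f.tsupport_eq]; exact hsub⟩
  have hint := h f hf (fun z => f.nonneg)
  have hcs : HasCompactSupport (fun x : ℝ => f (x : ℂ)) := by
    refine f.hasCompactSupport.comp_isClosedEmbedding ?_
    refine Isometry.isClosedEmbedding (Isometry.of_dist_eq fun a b => ?_)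
    simp [dist_eq_norm, ← Complex.ofReal_sub]
  have hts : tsupport (fun x : ℝ => g x * f (x : ℂ)) ⊆ Ioo (-1) 1 := by
    have h2 : tsupport (fun x : ℝ => g x * f (x : ℂ)) ⊆ {x : ℝ | (x : ℂ) ∈ closedBall (x0 : ℂ) (δ / 2)} := by
      refine closure_minimal ?_ (isClosed_closedBall.preimage continuous_ofReal)
      intro x hx
      have : f (x : ℂ) ≠ 0 := right_ne_zero_of_mul hx
      have h3 : (x : ℂ) ∈ Function.support f := this
      rw [f.support_eq] at h3
      exact ball_subset_closedBall h3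
    intro x hx
    have h3 := hsub (h2 hx)
    rw [mem_ball_zero_iff, norm_real, Real.norm_eq_abs, abs_lt] at h3
    exact h3
  have hc : Continuous (fun x : ℝ => g x * f (x : ℂ)) := by
    refine ContinuousOn.continuous_of_tsupport_subset ?_ isOpen_Ioo hts
    exact hg.mul (f.continuous.comp continuous_ofReal).continuousOn
  have hpos : 0 < ∫ x : ℝ, -(g x * f (x : ℂ)) := by
    refine (hc.neg).integral_pos_of_hasCompactSupport_nonneg_nonzero ?_ ?_ (x := x0) ?_
    · exact hcs.mul_left.neg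
    · intro x
      simp only [Pi.zero_apply, Left.nonneg_neg_iff]
      by_cases hx : x ∈ ball x0 δ
      · exact mul_nonpos_of_nonpos_of_nonneg (hball x hx).1.le f.nonneg
      · have : f (x : ℂ) = 0 := by
          refine f.zero_of_le_dist ?_
          rw [mem_ball, Real.dist_eq, not_lt] at hx
          have h5 : dist (x : ℂ) (x0 : ℂ) = |x - x0| := by
            rw [dist_eq_norm, ← Complex.ofReal_sub, norm_real, Real.norm_eq_abs]
          show δ / 2 ≤ _
          rw [h5]; linarith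
        simp [this]
    · have : f (x0 : ℂ) = 1 := f.one_of_mem_closedBall (mem_closedBall_self (by positivity))
      simp only [this, mul_one]
      linarith
  rw [integral_neg] at hpos
  linarith

/-- The square: under the quadratic boundary relations the reflected square is holomorphic and
nonnegative on the real line. -/
theorem square_hol {q : ℂ → ℂ}
    (hq : IntegrableOn q (ball 0 1 ∩ HP)) (hw : WDbar (ball 0 1 ∩ HP) q 0)
    (hre : ∀ χ : ℂ → ℝ, RTest (ball 0 1) χ → (∫ z in ball 0 1 ∩ HP, q z * dbar (cx χ) z).re = 0)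
    (hpos : ∀ χ : ℂ → ℝ, RTest (ball 0 1) χ → (∀ z, 0 ≤ χ z) →
      0 ≤ (2 * I * ∫ z in ball 0 1 ∩ HP, q z * dbar (cx χ) z).re) :
    ∃ V : ℂ → ℂ, DifferentiableOn ℂ V (ball 0 1) ∧ (∀ᵐ z, z ∈ ball (0 : ℂ) 1 → refl q z = V z) ∧
      ∀ x : ℝ, x ∈ Ioo (-1 : ℝ) 1 → (V x).im = 0 ∧ 0 ≤ (V x).re := by
  have hconj : ∀ z : ℂ, conj z ∈ ball (0 : ℂ) 1 ↔ z ∈ ball (0 : ℂ) 1 := by
    intro z; simp
  obtain ⟨hi, hwr⟩ := wdbar_refl isOpen_ball hconj hq hw hre
  obtain ⟨V, hV, hae⟩ := weyl isOpen_ball hi.locallyIntegrableOn hwr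
  have hgreen : ∀ χ : ℂ → ℝ, RTest (ball 0 1) χ →
      ∫ z in ball 0 1 ∩ HP, q z * dbar (cx χ) z = -(I / 2) * ∫ x : ℝ, V x * cx χ x := by
    intro χ hχ
    have hc1 : ContDiff ℝ 1 (cx χ) := hχ.cx_smooth.of_le (by exact_mod_cast le_top)
    rw [← green_hol isOpen_ball hV hc1 hχ.cx_cpt hχ.cx_supp]
    refine integral_congr_ae ?_
    rw [Filter.EventuallyEq, ae_restrict_iff' (measurableSet_ball.inter measurableSet_HP)]
    filter_upwards [hae] with z hz hz2
    rw [← hz hz2.1, refl_up hz2.2]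
  have hVc : ContinuousOn (fun x : ℝ => V x) (Ioo (-1) 1) := by
    refine hV.continuousOn.comp continuous_ofReal.continuousOn ?_
    intro x hx
    rw [mem_ball_zero_iff, norm_real, Real.norm_eq_abs, abs_lt]; exact hx
  have hVi : ∀ χ : ℂ → ℝ, RTest (ball 0 1) χ → Integrable (fun x : ℝ => V x * cx χ x) := by
    intro χ hχ
    have hts : tsupport (fun x : ℝ => V x * cx χ x) ⊆ Ioo (-1) 1 := by
      have h2 : tsupport (fun x : ℝ => V x * cx χ x) ⊆ {x : ℝ | (x : ℂ) ∈ tsupport (cx χ)} := by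
        refine closure_minimal ?_ ((isClosed_tsupport _).preimage continuous_ofReal)
        intro x hx
        exact subset_tsupport _ (right_ne_zero_of_mul hx)
      intro x hx
      have h3 := hχ.cx_supp (h2 hx)
      rw [mem_ball_zero_iff, norm_real, Real.norm_eq_abs, abs_lt] at h3
      exact h3
    have hc : Continuous (fun x : ℝ => V x * cx χ x) := by
      refine ContinuousOn.continuous_of_tsupport_subset ?_ isOpen_Ioo hts
      exact hVc.mul (hχ.cx_smooth.continuous.comp continuous_ofReal).continuousOn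
    have hcs : HasCompactSupport (fun x : ℝ => V x * cx χ x) := by
      have : HasCompactSupport (fun x : ℝ => cx χ x) := by
        refine hχ.cx_cpt.comp_isClosedEmbedding ?_
        refine Isometry.isClosedEmbedding (Isometry.of_dist_eq fun a b => ?_)
        simp [dist_eq_norm, ← Complex.ofReal_sub]
      exact this.mul_left
    exact hc.integrable_of_hasCompactSupport hcs
  have hreI : ∀ χ : ℂ → ℝ, RTest (ball 0 1) χ →
      (∫ x : ℝ, V x * cx χ x).re = ∫ x : ℝ, (V x).re * χ x := by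
    intro χ hχ
    have := reCLM.integral_comp_comm (hVi χ hχ)
    rw [← reCLM_apply, ← this]
    refine integral_congr_ae (Eventually.of_forall fun x => ?_)
    simp [cx]
  have himI : ∀ χ : ℂ → ℝ, RTest (ball 0 1) χ →
      (∫ x : ℝ, V x * cx χ x).im = ∫ x : ℝ, (V x).im * χ x := by
    intro χ hχ
    have := imCLM.integral_comp_comm (hVi χ hχ)
    rw [← imCLM_apply, ← this]
    refine integral_congr_ae (Eventually.of_forall fun x => ?_)
    simp [cx]
  refine ⟨V, hV, hae, ?_⟩
  have hi0 : ∀ χ : ℂ → ℝ, RTest (ball 0 1) χ → ∫ x : ℝ, (V x).im * χ x = 0 := by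
    intro χ hχ
    have h1 := hre χ hχ
    rw [hgreen χ hχ] at h1
    rw [← himI χ hχ]
    simp at h1
    linarith
  have hr0 : ∀ χ : ℂ → ℝ, RTest (ball 0 1) χ → (∀ z, 0 ≤ χ z) →
      0 ≤ ∫ x : ℝ, (V x).re * χ x := by
    intro χ hχ hχ0
    have h1 := hpos χ hχ hχ0
    rw [hgreen χ hχ] at h1
    rw [← hreI χ hχ]
    have h2 : 2 * I * (-(I / 2) * ∫ x : ℝ, V x * cx χ x) = ∫ x : ℝ, V x * cx χ x := by
      linear_combination (-(∫ x : ℝ, V x * cx χ x)) * I_mul_I
    rw [h2] at h1; exact h1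
  have hA := nonneg_of_test (g := fun x : ℝ => (V x).re) (continuous_re.comp_continuousOn hVc)
    (fun χ hχ h0 => hr0 χ hχ h0)
  have hB := nonneg_of_test (g := fun x : ℝ => (V x).im) (continuous_im.comp_continuousOn hVc)
    (fun χ hχ _ => (hi0 χ hχ).ge)
  have hC := nonneg_of_test (g := fun x : ℝ => -(V x).im)
    (continuous_im.comp_continuousOn hVc).neg
    (fun χ hχ _ => by
      have : ∫ x : ℝ, -(V x).im * χ x = 0 := by
        simp_rw [neg_mul]; rw [integral_neg, hi0 χ hχ, neg_zero]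
      exact this.ge)
  intro x hx
  exact ⟨le_antisymm (by linarith [hC x hx]) (hB x hx), hA x hx⟩

end Crest.Agent.R165.Cl8x722
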