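import Crest.Agent.R165.Cl8_722

/-!
# Row 165, block R-f: the half disc theorem (BD): reflection of the field itself and the estimates
-/

open MeasureTheory Set Filter Topology Complex Metric
open scoped ENNReal NNReal ContDiff Convolution ComplexConjugate

namespace Crest.Agent.R165.Cl9x722

open Cl1x722 Cl2x722 Cl3x722 Cl4x722 Cl5x722 Cl6x722 Cl7x722 Cl8x722

/-- Continuous reflection up to and including the centre. -/
theorem rx_diff_full {g : ℂ → ℂ} (hg : ContinuousOn g {z : ℂ | 0 ≤ z.im ∧ ‖z‖ < 1})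
    (hd : DifferentiableOn ℂ g {z | 0 < z.im ∧ ‖z‖ < 1})
    (hr : ∀ x : ℝ, x ∈ Ioo (-1 : ℝ) 1 → (g x).im = 0) :
    DifferentiableOn ℂ (R158.Rf266.rx g) (ball 0 1) := by
  have hreal : ∀ z : ℂ, z.im = 0 → ‖z‖ < 1 → (g z).im = 0 := by
    intro z hz hz1
    have h1 : ((z.re : ℝ) : ℂ) = z := by apply Complex.ext <;> simp [hz]
    rw [← h1]
    refine hr _ ?_
    rw [← h1, norm_real, Real.norm_eq_abs, abs_lt] at hz1
    exact hz1
  have h1 : DifferentiableOn ℂ (R158.Rf266.rx g) (ball 0 1 \ {0}) := by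
    refine R158.Rf266.rx_diff (hg.mono fun z hz => ⟨hz.1, hz.2.2⟩) hd ?_
    intro z hz hz0
    exact hreal z hz0 hz.2.2
  have hcont : ContinuousAt (R158.Rf266.rx g) 0 := by
    have hopen : ball (0 : ℂ) 1 ∈ 𝓝 (0 : ℂ) := ball_mem_nhds _ one_pos
    have hg0 : ContinuousWithinAt g {z : ℂ | 0 ≤ z.im ∧ ‖z‖ < 1} 0 := hg 0 (by simp)
    have hup : ContinuousWithinAt (R158.Rf266.rx g) {z : ℂ | 0 ≤ z.im ∧ ‖z‖ < 1} 0 := by
      refine hg0.congr (fun z hz => R158.Rf266.rx_up hz.1) (R158.Rf266.rx_up (by simp))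
    have hdn : ContinuousWithinAt (R158.Rf266.rx g) {z : ℂ | z.im ≤ 0 ∧ ‖z‖ < 1} 0 := by
      have h2 : ContinuousWithinAt (fun z => conj (g (conj z))) {z : ℂ | z.im ≤ 0 ∧ ‖z‖ < 1} 0 := by
        have h3 : ContinuousWithinAt g {z : ℂ | 0 ≤ z.im ∧ ‖z‖ < 1} (conj (0 : ℂ)) := by
          rw [map_zero]; exact hg0
        have h4 : ContinuousWithinAt (fun z : ℂ => conj z) {z : ℂ | z.im ≤ 0 ∧ ‖z‖ < 1} 0 :=
          continuous_conj.continuousWithinAt
        have h5 := h3.comp h4 (fun z hz => ⟨by simpa using hz.1, by simpa using hz.2⟩)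
        exact continuous_conj.continuousAt.comp_continuousWithinAt h5
      have hval : ∀ z : ℂ, z.im ≤ 0 → ‖z‖ < 1 → R158.Rf266.rx g z = conj (g (conj z)) := by
        intro z hz hz1
        rcases hz.lt_or_eq with h | h
        · exact if_neg (not_le.2 h)
        · have hc : conj z = z := conj_eq_iff_im.2 h
          rw [R158.Rf266.rx_up h.ge, hc]
          exact (conj_eq_iff_im.2 (hreal z h hz1)).symm
      exact h2.congr (fun z hz => hval z hz.1 hz.2) (hval 0 (by simp) (by simp))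
    have hU : ContinuousWithinAt (R158.Rf266.rx g)
        ({z : ℂ | 0 ≤ z.im ∧ ‖z‖ < 1} ∪ {z : ℂ | z.im ≤ 0 ∧ ‖z‖ < 1}) 0 := hup.union hdn
    refine hU.continuousAt ?_
    filter_upwards [hopen] with z hz
    rw [mem_ball_zero_iff] at hz
    rcases le_total 0 z.im with h | h
    · left; exact ⟨h, hz⟩
    · right; exact ⟨h, hz⟩
  exact (differentiableOn_compl_singleton_and_continuousAt_iff (ball_mem_nhds _ one_pos)).mp
    ⟨h1, hcont⟩

lemma mem_closure_half {x : ℝ} (hx : x ∈ Ioo (-1 : ℝ) 1) : (x : ℂ) ∈ closure (ball (0 : ℂ) 1 ∩ HP) := by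
  have hx1 : (x : ℂ) ∈ ball (0 : ℂ) 1 := by
    rw [mem_ball_zero_iff, norm_real, Real.norm_eq_abs, abs_lt]; exact hx
  have ht : Tendsto (fun t : ℝ => (x : ℂ) + t * I) (𝓝[>] 0) (𝓝 (x : ℂ)) := by
    have : Continuous (fun t : ℝ => (x : ℂ) + t * I) := by fun_prop
    have h2 := this.tendsto 0
    simp only [ofReal_zero, zero_mul, add_zero] at h2
    exact h2.mono_left nhdsWithin_le_nhds
  refine mem_closure_of_tendsto ht ?_
  have h3 : ∀ᶠ t : ℝ in 𝓝[>] 0, (x : ℂ) + t * I ∈ ball (0 : ℂ) 1 :=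
    ht.eventually (isOpen_ball.mem_nhds hx1)
  filter_upwards [h3, self_mem_nhdsWithin] with t ht1 ht2
  refine ⟨ht1, ?_⟩
  show 0 < ((x : ℂ) + t * I).im
  simpa using ht2

/-- A holomorphic function on the half disc whose square extends holomorphically across the real
line, with nonnegative real values there, extends continuously with real values. -/
theorem limit_real {f V : ℂ → ℂ} (hf : DifferentiableOn ℂ f (ball 0 1 ∩ HP))
    (hV : DifferentiableOn ℂ V (ball 0 1)) (hsq : ∀ z ∈ ball 0 1 ∩ HP, f z ^ 2 = V z)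
    (hpos : ∀ x : ℝ, x ∈ Ioo (-1 : ℝ) 1 → (V x).im = 0 ∧ 0 ≤ (V x).re)
    {x : ℝ} (hx : x ∈ Ioo (-1 : ℝ) 1) :
    ∃ y : ℂ, y.im = 0 ∧ Tendsto f (𝓝[ball 0 1 ∩ HP] (x : ℂ)) (𝓝 y) := by
  have hx1 : (x : ℂ) ∈ ball (0 : ℂ) 1 := by
    rw [mem_ball_zero_iff, norm_real, Real.norm_eq_abs, abs_lt]; exact hx
  have hVc : ContinuousAt V x := (hV.differentiableAt (isOpen_ball.mem_nhds hx1)).continuousAt
  obtain ⟨him, hre⟩ := hpos x hx
  rcases hre.eq_or_lt with h0 | hp
  · -- zero of the square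
    refine ⟨0, by simp, ?_⟩
    have hV0 : V x = 0 := Complex.ext (by simpa using h0.symm) (by simpa using him)
    rw [tendsto_zero_iff_norm_tendsto_zero]
    have h1 : Tendsto (fun z => ‖V z‖) (𝓝[ball 0 1 ∩ HP] (x : ℂ)) (𝓝 0) := by
      have := (hVc.tendsto.norm).mono_left (nhdsWithin_le_nhds (s := ball 0 1 ∩ HP))
      rwa [hV0, norm_zero] at this
    have h2 : Tendsto (fun z => Real.sqrt ‖V z‖) (𝓝[ball 0 1 ∩ HP] (x : ℂ)) (𝓝 0) := by
      have := (Real.continuous_sqrt.tendsto 0).comp h1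
      rwa [Real.sqrt_zero] at this
    refine h2.congr' ?_
    filter_upwards [self_mem_nhdsWithin] with z hz
    rw [← hsq z hz, norm_pow, Real.sqrt_sq (norm_nonneg _)]
  · -- positive value
    have hev : ∀ᶠ z in 𝓝 (x : ℂ), 0 < (V z).re ∧ z ∈ ball (0 : ℂ) 1 :=
      ((continuous_re.continuousAt.comp hVc).eventually (lt_mem_nhds hp)).and
        (isOpen_ball.mem_nhds hx1)
    obtain ⟨δ, hδ, hball⟩ := Metric.eventually_nhds_iff_ball.mp hev
    set g : ℂ → ℂ := fun z => exp (log (V z) / 2) with hg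
    have hslit : ∀ z ∈ ball (x : ℂ) δ, V z ∈ slitPlane := fun z hz => Or.inl (hball z hz).1
    have hgsq : ∀ z ∈ ball (x : ℂ) δ, g z ^ 2 = V z := by
      intro z hz
      have hne : V z ≠ 0 := slitPlane_ne_zero (hslit z hz)
      simp only [hg]
      rw [← exp_nat_mul]
      have : ((2 : ℕ) : ℂ) * (log (V z) / 2) = log (V z) := by push_cast; ring
      rw [this, exp_log hne]
    have hgc : ContinuousOn g (ball (x : ℂ) δ) := by
      have h1 : ContinuousOn V (ball (x : ℂ) δ) := hV.continuousOn.mono fun z hz => (hball z hz).2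
      exact continuous_exp.comp_continuousOn ((h1.clog hslit).div_const 2)
    have hW : IsPreconnected (ball (x : ℂ) δ ∩ HP) := by
      refine ((convex_ball _ _).inter ?_).isPreconnected
      exact convex_halfSpace_im_gt 0
    have hsub : ball (x : ℂ) δ ∩ HP ⊆ ball 0 1 ∩ HP := fun z hz => ⟨(hball z hz.1).2, hz.2⟩
    have hor := hW.eq_or_eq_neg_of_sq_eq (f := f) (g := g)
      (hf.continuousOn.mono hsub) (hgc.mono inter_subset_left)
      (fun z hz => by
        simp only [Pi.pow_apply]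
        rw [hsq z (hsub hz), hgsq z hz.1])
      (fun {z} _ => exp_ne_zero _)
    have hxb : (x : ℂ) ∈ ball (x : ℂ) δ := mem_ball_self hδ
    have hgx : Tendsto g (𝓝[ball 0 1 ∩ HP] (x : ℂ)) (𝓝 (g x)) :=
      ((hgc.continuousAt (isOpen_ball.mem_nhds hxb)).tendsto).mono_left nhdsWithin_le_nhds
    have hgim : (g x).im = 0 := by
      simp only [hg]
      have h5 : V x = ((V x).re : ℂ) := Complex.ext (by simp) (by simpa using him)
      rw [h5, ← ofReal_log hre]
      have : ((Real.log (V x).re : ℝ) : ℂ) / 2 = ((Real.log (V x).re / 2 : ℝ) : ℂ) := by push_cast; ring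
      rw [this, ← ofReal_exp]; exact ofReal_im _
    have hmem : ball (x : ℂ) δ ∩ HP ∈ 𝓝[ball 0 1 ∩ HP] (x : ℂ) := by
      refine inter_mem (mem_nhdsWithin_of_mem_nhds (isOpen_ball.mem_nhds hxb)) ?_
      filter_upwards [self_mem_nhdsWithin] with z hz using hz.2
    rcases hor with h | h
    · refine ⟨g x, hgim, hgx.congr' ?_⟩
      filter_upwards [hmem] with z hz
      exact (h hz).symm
    · refine ⟨-g x, by simp [hgim], hgx.neg.congr' ?_⟩
      filter_upwards [hmem] with z hz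
      simpa using (h hz).symm

/-- **(BD), qualitative part.** -/
theorem half_disc_ext {F : ℂ → ℂ}
    (hF : MemLp F 2 (volume.restrict (ball 0 1 ∩ HP)))
    (hw : WDbar (ball 0 1 ∩ HP) F 0)
    (hre : ∀ χ : ℂ → ℝ, RTest (ball 0 1) χ →
      (∫ z in ball 0 1 ∩ HP, F z ^ 2 * dbar (cx χ) z).re = 0)
    (hpos : ∀ χ : ℂ → ℝ, RTest (ball 0 1) χ → (∀ z, 0 ≤ χ z) →
      0 ≤ (2 * I * ∫ z in ball 0 1 ∩ HP, F z ^ 2 * dbar (cx χ) z).re) :
    ∃ G : ℂ → ℂ, DifferentiableOn ℂ G (ball 0 1) ∧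
      (∀ᵐ z, z ∈ ball (0 : ℂ) 1 ∩ HP → F z = G z) ∧
      ∀ z ∈ ball (0 : ℂ) 1, G (conj z) = conj (G z) := by
  have hUo : IsOpen (ball (0 : ℂ) 1 ∩ HP) := isOpen_ball.inter isOpen_HP
  have hfin : IsFiniteMeasure (volume.restrict (ball (0 : ℂ) 1 ∩ HP)) := by
    refine ⟨?_⟩
    rw [Measure.restrict_apply_univ]
    exact (measure_mono inter_subset_left).trans_lt measure_ball_lt_top
  have hFi : IntegrableOn F (ball 0 1 ∩ HP) := hF.integrable (by norm_num)
  obtain ⟨f, hf, hFf⟩ := weyl hUo hFi.locallyIntegrableOn hw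
  have hq : IntegrableOn (fun z => F z ^ 2) (ball 0 1 ∩ HP) := by
    have := hF.integrable_norm_pow (p := 2) (by norm_num)
    have h2 : AEStronglyMeasurable (fun z => F z ^ 2) (volume.restrict (ball 0 1 ∩ HP)) :=
      hF.aestronglyMeasurable.pow 2
    refine (integrable_norm_iff h2).mp ?_
    simpa [norm_pow] using this
  have hqw : WDbar (ball 0 1 ∩ HP) (fun z => F z ^ 2) 0 := by
    refine wdbar_of_hol hUo (v := fun z => f z ^ 2) (hf.pow 2) ?_
    filter_upwards [hFf] with z hz hz2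
    rw [hz hz2]
  obtain ⟨V, hV, hVae, hVpos⟩ := square_hol hq hqw hre hpos
  have hsq : ∀ z ∈ ball (0 : ℂ) 1 ∩ HP, f z ^ 2 = V z := by
    have hae : (fun z => f z ^ 2) =ᵐ[volume.restrict (ball 0 1 ∩ HP)] V := by
      rw [Filter.EventuallyEq, ae_restrict_iff' hUo.measurableSet]
      filter_upwards [hFf, hVae] with z hz1 hz2 hz
      have h3 := hz2 hz.1
      rw [refl_up hz.2] at h3
      rw [← h3, hz1 hz]
    exact fun z hz => Measure.eqOn_open_of_ae_eq hae hUo (hf.continuousOn.pow 2)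
      (hV.continuousOn.mono inter_subset_left) hz
  have hlim := fun {x : ℝ} (hx : x ∈ Ioo (-1 : ℝ) 1) => limit_real hf hV hsq hVpos hx
  set g : ℂ → ℂ := extendFrom (ball 0 1 ∩ HP) f with hg
  have hcl : ∀ z : ℂ, 0 ≤ z.im → ‖z‖ < 1 → z ∈ closure (ball (0 : ℂ) 1 ∩ HP) := by
    intro z hz hz1
    rcases hz.eq_or_lt with h | h
    · have h1 : ((z.re : ℝ) : ℂ) = z := by apply Complex.ext <;> simp [← h]
      rw [← h1]
      refine mem_closure_half ?_
      rw [← h1, norm_real, Real.norm_eq_abs, abs_lt] at hz1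
      exact hz1
    · exact subset_closure ⟨mem_ball_zero_iff.mpr hz1, h⟩
  have hlimz : ∀ z : ℂ, 0 ≤ z.im → ‖z‖ < 1 →
      ∃ y, Tendsto f (𝓝[ball 0 1 ∩ HP] z) (𝓝 y) := by
    intro z hz hz1
    rcases hz.eq_or_lt with h | h
    · have h1 : ((z.re : ℝ) : ℂ) = z := by apply Complex.ext <;> simp [← h]
      rw [← h1, norm_real, Real.norm_eq_abs, abs_lt] at hz1
      obtain ⟨y, -, hy⟩ := hlim hz1
      rw [← h1]; exact ⟨y, hy⟩
    · exact ⟨f z, (hf.continuousOn z ⟨mem_ball_zero_iff.mpr hz1, h⟩)⟩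
  have hgc : ContinuousOn g {z : ℂ | 0 ≤ z.im ∧ ‖z‖ < 1} :=
    continuousOn_extendFrom (fun z hz => hcl z hz.1 hz.2) (fun z hz => hlimz z hz.1 hz.2)
  have hgf : ∀ z ∈ ball (0 : ℂ) 1 ∩ HP, g z = f z := by
    intro z hz
    exact extendFrom_eq (subset_closure hz) (hf.continuousOn z hz)
  have hgd : DifferentiableOn ℂ g {z | 0 < z.im ∧ ‖z‖ < 1} := by
    have hset : {z : ℂ | 0 < z.im ∧ ‖z‖ < 1} = ball (0 : ℂ) 1 ∩ HP := by
      ext z; simp only [HP, mem_inter_iff, mem_ball_zero_iff]; exact And.comm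
    rw [hset]
    exact hf.congr hgf
  have hgr : ∀ x : ℝ, x ∈ Ioo (-1 : ℝ) 1 → (g x).im = 0 := by
    intro x hx
    obtain ⟨y, hy0, hy⟩ := hlim hx
    rw [hg, extendFrom_eq (mem_closure_half hx) hy]
    exact hy0
  have hG := rx_diff_full hgc hgd hgr
  refine ⟨R158.Rf266.rx g, hG, ?_, ?_⟩
  · filter_upwards [hFf] with z hz hz2
    rw [hz hz2, R158.Rf266.rx_up (le_of_lt hz2.2), hgf z hz2]
  · intro z hz
    rw [mem_ball_zero_iff] at hz
    rcases lt_trichotomy z.im 0 with h | h | h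
    · have h2 : 0 ≤ (conj z).im := by simp [h.le]
      rw [R158.Rf266.rx_up h2]
      have : R158.Rf266.rx g z = conj (g (conj z)) := if_neg (not_le.2 h)
      rw [this, conj_conj]
    · have hc : conj z = z := conj_eq_iff_im.2 h
      rw [hc, R158.Rf266.rx_up h.ge]
      have h1 : ((z.re : ℝ) : ℂ) = z := by apply Complex.ext <;> simp [h]
      have h3 : (g z).im = 0 := by
        rw [← h1]
        refine hgr _ ?_
        rw [← h1, norm_real, Real.norm_eq_abs, abs_lt] at hz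
        exact hz
      exact (conj_eq_iff_im.2 h3).symm
    · have h2 : ¬ 0 ≤ (conj z).im := by simp [h]
      rw [R158.Rf266.rx_up h.le]
      have : R158.Rf266.rx g (conj z) = conj (g (conj (conj z))) := if_neg h2
      rw [this, conj_conj]

end Crest.Agent.R165.Cl9x722
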