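import Mathlib
import Crest.Agent.R165.EXb4_811
import Crest.Agent.R165.LimR_610
import Crest.Agent.R165.Cl12_722

/-!
# EX at a plus boundary, part 5: the limit laws and the half disc lemma (row 165, helper811)
-/

set_option autoImplicit false

noncomputable section

namespace Crest.Agent.R165.EXb5x811

open Crest.Agent.R165.Tr1x40 hiding sq2 Ph

open Finset Filter Topology MeasureTheory Crest.Agent.R165.Tr2x40
  Crest.Agent.R165.Intx811 Crest.Agent.R165.NcCutx811 Crest.Agent.R165.RIfx891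
  Crest.Agent.R165.EXb1x811 Crest.Agent.R165.EXb2x811 Crest.Agent.R165.EXb3x811
  Crest.Agent.R165.EXb4x811

open Crest.Agent.R165.PotAx894 (Q mem_Q)
open Crest.Agent.R165.Lim1x943 (pt flr LocBd LocUnif)
open Crest.Agent.R165.Lim2x943 (sq2)
open Crest.Agent.R165.LimRx610 (LD Test dχ A0c)
open Crest.Agent.R165.LimQx610 (E src dir)
open Crest.Agent.R165.Cl1x722 (dbar)
open Crest.Agent.R165.Cl7x722 (cx RTest)
open Crest.Agent.R165.Cl12x722 (HPr)
open Crest.ProbabilityR.IsingModel (meshIndex meshPoint)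

variable {U : Ultrafilter ℕ} {n : ℂ} (S : Sq U n)

/-- scale, always at least one -/
def R (k : ℕ) : ℝ := max 1 (S.r k)

/-- mesh -/
def aa (k : ℕ) : ℝ := 1 / R S k

/-- weights, cut to the box -/
def ww (k : ℕ) : Fld := if 0 ≤ S.r k then wcut 0 ⌊S.r k⌋₊ (S.w k) else 0

/-- rescaled field -/
def ff (k : ℕ) : Fld := fun f h => S.r k * S.φ k f h

theorem R_pos (k : ℕ) : 0 < R S k := lt_of_lt_of_le one_pos (le_max_left _ _)

theorem R_ev : ∀ᶠ k in (U : Filter ℕ), R S k = S.r k := by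
  filter_upwards [S.hr.eventually_ge_atTop 1] with k hk
  exact max_eq_right hk

theorem mesh_eq (k : ℕ) (z : ℂ) : meshIndex (aa S k) z = flr (R S k) z := by
  have h := (R_pos S k).ne'
  unfold meshIndex aa
  simp only [flr, Prod.mk.injEq]
  constructor <;> · congr 1; field_simp

theorem sym_ww (k : ℕ) : Sym (ww S k) := by
  unfold ww
  split_ifs
  · exact sym_wcut _ _ (S.sym k)
  · intro f h; rfl

theorem plus_ww (k : ℕ) : IsPlus (ww S k) := by
  unfold ww
  split_ifs with h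
  · exact isPlus_wcut _ _ fun f hf h' => S.plus k f (Q_sub_bx (Nat.floor_le h) hf) h'
  · intro f h'; right; rfl

theorem ww_eq {k : ℕ} (hk : 0 ≤ S.r k) {f : Face} (hf : f ∈ bx (0 : Face) (S.r k)) {h : Fin 4}
    (hn : nb f h ∈ bx (0 : Face) (S.r k)) : ww S k f h = S.w k f h := by
  unfold ww wcut
  rw [if_pos hk]
  rw [if_pos ⟨bx_sub_Q hk hf, bx_sub_Q hk hn⟩]

theorem A_eq_of {w w' φ : Fld} {f : Face} {h : Fin 4} (e : w f h = w' f h) :
    A w φ f h = A w' φ f h := by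
  simp only [A, Y, e]

theorem A_mul (w φ : Fld) (r : ℝ) (f : Face) (h : Fin 4) :
    A w (fun g b => r * φ g b) f h = r * A w φ f h := by
  have : (fun g b => r * φ g b) = r • φ := by funext g b; rfl
  rw [this]
  exact congrFun (congrFun ((AL w).map_smul r φ) f) h

theorem tendsto_aa : Tendsto (aa S) U (𝓝 0) := by
  have h1 : Tendsto (R S) U atTop := by
    refine tendsto_atTop_mono (fun k => le_max_right _ _) S.hr
  exact tendsto_const_nhds.div_atTop h1

theorem crit_ww (K : Set ℂ) (hK : IsCompact K) (hKΩ : K ⊆ Om n) :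
    ∀ᶠ k in (U : Filter ℕ), ∀ z ∈ K, ∀ h, ww S k (meshIndex (aa S k) z) h ^ 2 = xc ^ 2 := by
  obtain ⟨δ, hδ, K', hK', hK'Ω, -, hnb⟩ := Lim1x943.exists_nbhd (isOpen_Om n) hK hKΩ
  obtain ⟨δ', hδ', hev⟩ := geo S hK' hK'Ω
  filter_upwards [hev, R_ev S, Lim1x943.eventually_two_div_le S.hr hδ,
    S.hr.eventually_ge_atTop (1 / δ')] with k hk hR hrd hr2 z hz h
  obtain ⟨hr1, hg⟩ := hk
  rw [mesh_eq, hR]
  set f := flr (S.r k) z with hf
  have hpt : pt (S.r k) f ∈ K' := hnb z hz _ ((Lim1x943.d1_pt_flr _ hrd.1 z).trans hrd.2)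
  have hρ : (1 : ℕ) ≤ δ' * S.r k := by
    rw [div_le_iff₀ hδ'] at hr2
    push_cast; linarith
  have h1 := hg f hpt 1 hρ
  have hf1 : f ∈ Q f 1 := PotAx894.self_mem_Q f 1
  have hf2 : nb f h ∈ Q f 1 := by
    rw [mem_Q]
    fin_cases h <;> simp [nb]
  rw [ww_eq S (by linarith) (h1 f hf1).1 (h1 _ hf2).1, (h1 f hf1).2 h]

theorem src_zero {s : ℝ} (hs : s < 1) : ∀ᶠ k in (U : Filter ℕ), ∀ z ∈ bC s, ∀ h,
    E (aa S k) (src (aa S k) (ww S k) (ff S k)) h z = 0 := by
  have h1s : 0 < 1 - s := by linarith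
  filter_upwards [R_ev S, S.hr.eventually_ge_atTop (2 / (1 - s)),
    S.hr.eventually_gt_atTop 0] with k hR hk hr0 z hz h
  have hr : 2 ≤ (1 - s) * S.r k := by rw [div_le_iff₀ h1s] at hk; linarith
  unfold E src
  rw [mesh_eq, hR]
  set f := flr (S.r k) z with hf
  have hf1 : f ∈ bx (0 : Face) (S.r k - 1) := by
    rw [mem_bx_real]
    simp only [Prod.fst_zero, Prod.snd_zero, Int.cast_zero, sub_zero]
    have key : ∀ x : ℝ, |x| ≤ s → |(⌊S.r k * x⌋ : ℝ)| ≤ S.r k - 1 := by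
      intro x hx
      rw [abs_le] at hx
      have h1 := Int.floor_le (S.r k * x)
      have h2 := Int.lt_floor_add_one (S.r k * x)
      rw [abs_le]
      constructor
      · nlinarith
      · nlinarith
    exact ⟨key _ hz.1, key _ hz.2⟩
  have hf2 : nb f h ∈ bx (0 : Face) (S.r k) := by
    have := nb_mem_bx hf1 h
    rwa [sub_add_cancel] at this
  have hf3 : f ∈ bx (0 : Face) (S.r k) := bx_mono 0 (by linarith) hf1
  rw [A_eq_of (ww_eq S hr0.le hf3 hf2)]
  have h3 : A (S.w k) (ff S k) f h = S.r k * A (S.w k) (S.φ k) f h := A_mul _ _ _ _ _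
  rw [h3, congrFun (S.exact k f hf3) h]
  simp

theorem memLp_Ph {F : ℂ → ℂ} (hF : DifferentiableOn ℂ F (Om n))
    (hlim : ∀ a, LocUnif U S.r (Om n) (v S a) (fun z => lv (F z) a)) {s : ℝ}
    (hs0 : 0 < s) (hs : s < 1) (a : Fin 4) : MemLp (Ph n F a) 2 (volume.restrict (bC s)) := by
  refine ⟨(meas_Ph hF a).aestronglyMeasurable, ?_⟩
  rw [← Lim2x943.nrm_eq_eLpNorm]
  unfold Lim2x943.nrm
  refine ENNReal.rpow_lt_top_of_nonneg (by norm_num) ?_
  have h1 := mass_P S hF hlim hs0 hs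
  have h2 : ∫⁻ z in bC s, sq2 (Ph n F a z) ≤ 1 :=
    (single_le_sum (f := fun a => ∫⁻ z in bC s, sq2 (Ph n F a z)) (fun _ _ => zero_le)
      (mem_univ a)).trans h1
  exact (h2.trans_lt ENNReal.one_lt_top).ne

theorem ld {F : ℂ → ℂ} (hF : DifferentiableOn ℂ F (Om n))
    (hlim : ∀ a, LocUnif U S.r (Om n) (v S a) (fun z => lv (F z) a)) {s : ℝ}
    (hs0 : 0 < s) (hs : s < 1) :
    LD (U : Filter ℕ) (Om n) (bC s) (aa S) (ww S) (ff S) (Ph n F) (fun _ _ => 0) where
  pos k := by unfold aa; have := R_pos S k; positivity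
  lim := tendsto_aa S
  sym := sym_ww S
  plus := plus_ww S
  opn := isOpen_Om n
  meas := (isClosed_bC s).measurableSet
  memΦ h := memLp_Ph S hF hlim hs0 hs h
  memG h := MemLp.zero
  zero h := Eventually.of_forall fun z hz => Set.indicator_of_notMem hz _
  crit := crit_ww S
  convΦ h := by
    have h1 := Lim2x943.nrm_tendsto_zero (strongP S hF hlim h hs0 hs)
    refine h1.congr' ?_
    filter_upwards [R_ev S] with k hR
    rw [Lim2x943.nrm_eq_eLpNorm]
    congr 1
    funext z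
    unfold E ff v
    rw [mesh_eq, hR]
  convG h := by
    refine tendsto_const_nhds.congr' ?_
    filter_upwards [src_zero S hs] with k hk
    symm
    rw [eLpNorm_congr_ae (g := fun _ => 0)]
    · simp
    · rw [Filter.EventuallyEq, ae_restrict_iff' (isClosed_bC s).measurableSet]
      exact Eventually.of_forall fun z hz => by rw [hk z hz h, sub_zero]

/-! ### the algebra of the light fields -/

theorem sum_dir (L : ℂ →L[ℝ] ℝ) (c : ℂ) :
    ∑ h, L (dir h) * (lv c h * lv c h) = 2 * (c ^ 2 * ((L 1 + Complex.I * L Complex.I) / 2)).re := by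
  have h2 : Real.sqrt 2 * Real.sqrt 2 = 2 := Real.mul_self_sqrt (by norm_num)
  have h3 : (0:ℝ) < Real.sqrt 2 := by positivity
  rw [Fin.sum_univ_four, LimQx610.dir_zero, LimQx610.dir_one, LimQx610.dir_two,
    LimQx610.dir_three, map_neg, map_neg]
  simp only [lv]
  have e : (c ^ 2 * (((L 1 : ℂ) + Complex.I * (L Complex.I : ℂ)) / 2)).re
      = ((c.re ^ 2 - c.im ^ 2) * L 1 - 2 * c.re * c.im * L Complex.I) / 2 := by
    have e1 : (c ^ 2).re = c.re ^ 2 - c.im ^ 2 := by rw [pow_two, Complex.mul_re]; ring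
    have e2 : (c ^ 2).im = 2 * c.re * c.im := by rw [pow_two, Complex.mul_im]; ring
    have e3 : (((L 1 : ℂ) + Complex.I * (L Complex.I : ℂ)) / 2).re = L 1 / 2 := by simp
    have e4 : (((L 1 : ℂ) + Complex.I * (L Complex.I : ℂ)) / 2).im = L Complex.I / 2 := by simp
    rw [Complex.mul_re, e1, e2, e3, e4]
    ring
  rw [e]
  field_simp
  ring_nf
  rw [show Real.sqrt 2 ^ 2 = 2 from by rw [pow_two, h2]]
  ring

theorem A0_lv (c : ℂ) (h : Fin 4) : A0 (lv c) h = -(xc * sg h * lv c (op h)) := by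
  have h2 : Real.sqrt 2 * Real.sqrt 2 = 2 := Real.mul_self_sqrt (by norm_num)
  have h3 : (0:ℝ) < Real.sqrt 2 := by positivity
  fin_cases h <;> simp [A0, lv, op, sg, xc] <;> field_simp <;> ring_nf <;>
    rw [show Real.sqrt 2 ^ 2 = 2 from by rw [pow_two, h2]] <;> ring

theorem sum_dir2 (L : ℂ →L[ℝ] ℝ) (c : ℂ) :
    ∑ h, L (dir h) * (lv c h * A0 (lv c) h)
      = 2 * xc * (c ^ 2 * ((L 1 + Complex.I * L Complex.I) / 2)).im := by
  have h2 : Real.sqrt 2 * Real.sqrt 2 = 2 := Real.mul_self_sqrt (by norm_num)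
  have h3 : (0:ℝ) < Real.sqrt 2 := by positivity
  simp only [A0_lv]
  rw [Fin.sum_univ_four, LimQx610.dir_zero, LimQx610.dir_one, LimQx610.dir_two,
    LimQx610.dir_three, map_neg, map_neg]
  have e : (c ^ 2 * (((L 1 : ℂ) + Complex.I * (L Complex.I : ℂ)) / 2)).im
      = ((c.re ^ 2 - c.im ^ 2) * L Complex.I + 2 * c.re * c.im * L 1) / 2 := by
    have e1 : (c ^ 2).re = c.re ^ 2 - c.im ^ 2 := by rw [pow_two, Complex.mul_re]; ring
    have e2 : (c ^ 2).im = 2 * c.re * c.im := by rw [pow_two, Complex.mul_im]; ring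
    have e3 : (((L 1 : ℂ) + Complex.I * (L Complex.I : ℂ)) / 2).re = L 1 / 2 := by simp
    have e4 : (((L 1 : ℂ) + Complex.I * (L Complex.I : ℂ)) / 2).im = L Complex.I / 2 := by simp
    rw [Complex.mul_im, e1, e2, e3, e4]
    ring
  rw [e]
  simp [lv, op, sg]
  field_simp
  linear_combination (-(xc * (L Complex.I * (c.re ^ 2 - c.im ^ 2)))) * h2

end Crest.Agent.R165.EXb5x811
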