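import Mathlib
import Crest.Agent.R165.EXb5_811

/-!
# EX at a plus boundary, part 6: the half disc lemma for the limit (row 165, helper811)
-/

set_option autoImplicit false

noncomputable section

namespace Crest.Agent.R165.EXb6x811

open Crest.Agent.R165.Tr1x40 hiding sq2 Ph

open Finset Filter Topology MeasureTheory Crest.Agent.R165.Tr2x40
  Crest.Agent.R165.Intx811 Crest.Agent.R165.NcCutx811 Crest.Agent.R165.RIfx891
  Crest.Agent.R165.EXb1x811 Crest.Agent.R165.EXb2x811 Crest.Agent.R165.EXb3x811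
  Crest.Agent.R165.EXb4x811 Crest.Agent.R165.EXb5x811 ComplexConjugate

open Crest.Agent.R165.PotAx894 (Q mem_Q)
open Crest.Agent.R165.Lim1x943 (pt flr LocBd LocUnif)
open Crest.Agent.R165.Lim2x943 (sq2)
open Crest.Agent.R165.LimRx610 (LD Test dχ A0c)
open Crest.Agent.R165.LimQx610 (E src dir)
open Crest.Agent.R165.Cl1x722 (dbar)
open Crest.Agent.R165.Cl7x722 (cx RTest)
open Crest.Agent.R165.Cl12x722 (HPr)
open Crest.ProbabilityR.IsingModel (meshIndex meshPoint)

variable {U : Ultrafilter ℕ} {n : ℂ} (S : Sq U n)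

/-- rotation -/
def τ (n : ℂ) : ℂ := Complex.I * n

theorem mem_HPr (n z : ℂ) : z ∈ HPr (τ n) ↔ lin n z < 0 := by
  have e : (z * conj (τ n)).im = -lin n z := by
    unfold τ lin
    simp
    ring
  show 0 < (z * conj (τ n)).im ↔ _
  rw [e, neg_pos]

/-- the half disc -/
def Hd (n : ℂ) : Set ℂ := Metric.ball 0 1 ∩ HPr (τ n)

theorem meas_Hd (n : ℂ) : MeasurableSet (Hd n) :=
  Metric.isOpen_ball.measurableSet.inter (Cl12x722.measurableSet_HPr _)

theorem isOpen_Hd (n : ℂ) : IsOpen (Hd n) := Metric.isOpen_ball.inter (Cl12x722.isOpen_HPr _)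

theorem Hd_sub (n : ℂ) : Hd n ⊆ Om n := by
  intro z hz
  have h1 : ‖z‖ < 1 := mem_ball_zero_iff.1 hz.1
  exact ⟨(Complex.abs_re_le_norm z).trans_lt h1, (Complex.abs_im_le_norm z).trans_lt h1,
    (mem_HPr n z).1 hz.2⟩

theorem memLp_F {F : ℂ → ℂ} (hF : DifferentiableOn ℂ F (Om n))
    (hm : ∫⁻ z in Om n, ENNReal.ofReal (2 * ‖F z‖ ^ 2) ≤ 1) :
    MemLp F 2 (volume.restrict (Hd n)) := by
  refine ⟨(hF.continuousOn.mono (Hd_sub n)).aestronglyMeasurable (meas_Hd n), ?_⟩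
  rw [eLpNorm_lt_top_iff_lintegral_rpow_enorm_lt_top (by norm_num) (by norm_num)]
  refine lt_of_le_of_lt ?_ ENNReal.one_lt_top
  refine le_trans ?_ hm
  refine (lintegral_mono_set (Hd_sub n)).trans ?_
  refine lintegral_mono fun z => ?_
  rw [ENNReal.toReal_ofNat, show (2 : ℝ) = ((2 : ℕ) : ℝ) by norm_num, ENNReal.rpow_natCast,
    ← ofReal_norm, ← ENNReal.ofReal_pow (norm_nonneg _)]
  apply ENNReal.ofReal_le_ofReal
  have := sq_nonneg ‖F z‖
  push_cast
  linarith

/-- mass as a real integral -/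
theorem int_F_le {F : ℂ → ℂ} (hm : ∫⁻ z in Om n, ENNReal.ofReal (2 * ‖F z‖ ^ 2) ≤ 1) :
    ∫ z in Hd n, ‖F z‖ ^ 2 ≤ 1 := by
  by_cases hi : Integrable (fun z => ‖F z‖ ^ 2) (volume.restrict (Hd n))
  · have h1 := ofReal_integral_eq_lintegral_ofReal hi (Eventually.of_forall fun z => sq_nonneg _)
    have h2 : ENNReal.ofReal (∫ z in Hd n, ‖F z‖ ^ 2) ≤ ENNReal.ofReal 1 := by
      rw [h1, ENNReal.ofReal_one]
      refine le_trans ?_ hm
      refine (lintegral_mono_set (Hd_sub n)).trans ?_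
      refine lintegral_mono fun z => ?_
      apply ENNReal.ofReal_le_ofReal
      have := sq_nonneg ‖F z‖
      linarith
    rwa [ENNReal.ofReal_le_ofReal_iff (by norm_num)] at h2
  · rw [integral_undef hi]; norm_num

theorem integrable_F2 {F : ℂ → ℂ} (hF : MemLp F 2 (volume.restrict (Hd n))) {χ : ℂ → ℝ}
    (hχ : RTest (Metric.ball 0 1) χ) :
    Integrable (fun z => F z ^ 2 * dbar (cx χ) z) (volume.restrict (Hd n)) := by
  have h1 : Integrable (fun z => F z * F z) (volume.restrict (Hd n)) := hF.integrable_mul hF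
  have hc : Continuous (dbar (cx χ)) :=
    Cl3x722.continuous_dbar (hχ.cx_smooth.of_le (by exact_mod_cast le_top))
  have hs : HasCompactSupport (dbar (cx χ)) := Cl4x722.hasCompactSupport_dbar hχ.cx_cpt
  obtain ⟨M, hM⟩ := hs.exists_bound_of_continuous hc
  have h2 := h1.mul_bdd (c := M) hc.aestronglyMeasurable (Eventually.of_forall hM)
  refine h2.congr (Eventually.of_forall fun z => ?_)
  simp only [pow_two]

theorem dbar_cx {χ : ℂ → ℝ} {z : ℂ} (hχ : DifferentiableAt ℝ χ z) :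
    dbar (cx χ) z = ((fderiv ℝ χ z 1 : ℝ) + Complex.I * (fderiv ℝ χ z Complex.I : ℝ)) / 2 := by
  have h1 : HasFDerivAt (cx χ) (Complex.ofRealCLM.comp (fderiv ℝ χ z)) z :=
    Complex.ofRealCLM.hasFDerivAt.comp z hχ.hasFDerivAt
  unfold dbar
  rw [h1.fderiv]
  simp

theorem set_eq {g : ℂ → ℝ} {T : Set ℂ} {s : ℝ} (hT : T ⊆ Metric.ball 0 1) (hTs : T ⊆ bC s)
    (hg : ∀ z, z ∉ T → g z = 0) :
    ∫ z in bC s, (Om n).indicator g z = ∫ z in Hd n, g z := by
  rw [← integral_indicator (isClosed_bC s).measurableSet, ← integral_indicator (meas_Hd n)]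
  congr 1
  funext z
  by_cases hz : z ∈ T
  · rw [Set.indicator_of_mem (hTs hz)]
    by_cases hO : z ∈ Om n
    · rw [Set.indicator_of_mem hO, Set.indicator_of_mem]
      exact ⟨hT hz, (mem_HPr n z).2 hO.2.2⟩
    · rw [Set.indicator_of_notMem hO, Set.indicator_of_notMem fun h => hO (Hd_sub n h)]
  · have h0 := hg z hz
    have e1 : (Hd n).indicator g z = 0 := by
      by_cases h : z ∈ Hd n
      · rw [Set.indicator_of_mem h, h0]
      · rw [Set.indicator_of_notMem h]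
    have e2 : (Om n).indicator g z = 0 := by
      by_cases h : z ∈ Om n
      · rw [Set.indicator_of_mem h, h0]
      · rw [Set.indicator_of_notMem h]
    rw [e1]
    by_cases h : z ∈ bC s
    · rw [Set.indicator_of_mem h, e2]
    · rw [Set.indicator_of_notMem h]

/-- test functions of the half disc lemma are test functions of the limit laws -/
theorem exists_test {χ : ℂ → ℝ} (hχ : RTest (Metric.ball 0 1) χ) :
    ∃ s : ℝ, 0 < s ∧ s < 1 ∧ tsupport χ ⊆ bC s ∧ ∃ C : NNReal, Test (Om n) (bC s) χ C := by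
  obtain ⟨δ, hδ, hsub⟩ := hχ.cpt.isCompact.exists_cthickening_subset_open Metric.isOpen_ball hχ.supp
  obtain ⟨s, hs, hsub'⟩ := exists_pos_lt_subset_ball (one_pos : (0:ℝ) < 1)
    Metric.isClosed_cthickening hsub
  have hb : Metric.ball (0 : ℂ) s ⊆ bC s := by
    intro z hz
    have h1 : ‖z‖ < s := mem_ball_zero_iff.1 hz
    exact ⟨(Complex.abs_re_le_norm z).trans h1.le, (Complex.abs_im_le_norm z).trans h1.le⟩
  have h1 : ContDiff ℝ 1 χ := hχ.smooth.of_le (by exact_mod_cast le_top)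
  obtain ⟨C, hC⟩ := h1.lipschitzWith_of_hasCompactSupport hχ.cpt one_ne_zero
  refine ⟨s, hs.1, hs.2, (Metric.self_subset_cthickening _).trans (hsub'.trans hb), C, ?_⟩
  refine Test.of_contDiffOn (isOpen_Om n) hC hχ.cpt ⟨δ, hδ, ?_⟩ h1.contDiffOn
  exact (Metric.thickening_subset_cthickening _ _).trans (hsub'.trans hb)

section laws

variable {F : ℂ → ℂ} (hF : DifferentiableOn ℂ F (Om n))
    (hlim : ∀ a, LocUnif U S.r (Om n) (v S a) (fun z => lv (F z) a))

include hF hlim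

theorem law_re {χ : ℂ → ℝ} (hχ : RTest (Metric.ball 0 1) χ) (h0 : ∀ z, 0 ≤ χ z) :
    0 ≤ (∫ z in Hd n, F z ^ 2 * dbar (cx χ) z).re := by
  obtain ⟨s, hs0, hs1, hsupp, C, T⟩ := exists_test (n := n) hχ
  have hm := mass_Om S hF hlim
  have hint := integrable_F2 (memLp_F hF hm) hχ
  have h1 := (ld S hF hlim hs0 hs1).law1 T h0
  simp only [mul_zero, Finset.sum_const_zero, integral_zero, zero_add] at h1
  have hd : ∀ z, DifferentiableAt ℝ χ z := fun z => hχ.smooth.differentiable (by simp) z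
  have e1 : ∀ z, ∑ h, (dχ χ h z * xc ^ 2) * (Ph n F h z * Ph n F h z)
      = (Om n).indicator (fun z => (2 * xc ^ 2) * (F z ^ 2 * dbar (cx χ) z).re) z := by
    intro z
    by_cases hz : z ∈ Om n
    · rw [Set.indicator_of_mem hz, dbar_cx (hd z)]
      have h2 := sum_dir (fderiv ℝ χ z) (F z)
      simp only [Ph, Set.indicator_of_mem hz, dχ]
      rw [mul_comm (2 : ℝ), mul_assoc, ← h2, mul_sum]
      exact sum_congr rfl fun h _ => by ring
    · simp [Ph, Set.indicator_of_notMem hz]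
  simp only [e1] at h1
  rw [set_eq (T := tsupport χ) hχ.supp hsupp, integral_const_mul] at h1
  · have h3 : ∫ z in Hd n, (F z ^ 2 * dbar (cx χ) z).re
        = (∫ z in Hd n, F z ^ 2 * dbar (cx χ) z).re := integral_re hint
    rw [h3] at h1
    have hx : 0 < 2 * xc ^ 2 := by have := xc_pos; positivity
    exact nonneg_of_mul_nonneg_right h1 hx
  · intro z hz
    have : fderiv ℝ χ z = 0 := by
      by_contra hne
      exact hz (support_fderiv_subset ℝ hne)
    rw [dbar_cx (hd z), this]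
    simp

theorem law_im {χ : ℂ → ℝ} (hχ : RTest (Metric.ball 0 1) χ) :
    (∫ z in Hd n, F z ^ 2 * dbar (cx χ) z).im = 0 := by
  obtain ⟨s, hs0, hs1, hsupp, C, T⟩ := exists_test (n := n) hχ
  have hm := mass_Om S hF hlim
  have hint := integrable_F2 (memLp_F hF hm) hχ
  have h1 := (ld S hF hlim hs0 hs1).law2 T
  simp only [mul_zero, Finset.sum_const_zero, integral_zero, zero_add] at h1
  have hd : ∀ z, DifferentiableAt ℝ χ z := fun z => hχ.smooth.differentiable (by simp) z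
  have e1 : ∀ z, ∑ h, dχ χ h z * (Ph n F h z * A0c (Ph n F) h z)
      = (Om n).indicator (fun z => (2 * xc) * (F z ^ 2 * dbar (cx χ) z).im) z := by
    intro z
    by_cases hz : z ∈ Om n
    · rw [Set.indicator_of_mem hz, dbar_cx (hd z)]
      have h2 := sum_dir2 (fderiv ℝ χ z) (F z)
      simp only [Ph, A0c, Set.indicator_of_mem hz, dχ]
      rw [← h2]
    · simp [Ph, Set.indicator_of_notMem hz]
  simp only [e1] at h1
  rw [set_eq (T := tsupport χ) hχ.supp hsupp, integral_const_mul] at h1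
  · have h3 : ∫ z in Hd n, (F z ^ 2 * dbar (cx χ) z).im
        = (∫ z in Hd n, F z ^ 2 * dbar (cx χ) z).im := integral_im hint
    rw [h3] at h1
    have hx : 0 < 2 * xc := by have := xc_pos; positivity
    rcases mul_eq_zero.1 h1 with h | h
    · exact absurd h hx.ne'
    · exact h
  · intro z hz
    have : fderiv ℝ χ z = 0 := by
      by_contra hne
      exact hz (support_fderiv_subset ℝ hne)
    rw [dbar_cx (hd z), this]
    simp

end laws

/-- **the half disc lemma for the limit** -/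
theorem half : ∃ C : ℝ, 0 < C ∧ ∀ (U : Ultrafilter ℕ) (n c : ℂ) (S : Sq U n) (F : ℂ → ℂ),
    c ^ 2 = conj n → DifferentiableOn ℂ F (Om n) →
    (∀ a, LocUnif U S.r (Om n) (v S a) (fun z => lv (F z) a)) →
    ∃ κ : ℝ, ∀ t : ℝ, 0 < t → t ≤ 1 →
      ∫ z in Metric.ball 0 t ∩ HPr (τ n), ‖F z‖ ^ 2 ≤ C * t ^ 2 ∧
      ∫ z in Metric.ball 0 t ∩ HPr (τ n), ‖F z - κ * c‖ ^ 2 ≤ C * t ^ 4 := by
  obtain ⟨C, hC, H⟩ := Cl12x722.half_disc_rot
  refine ⟨C, hC, ?_⟩
  intro U n c S F hc hF hlim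
  have hm := mass_Om S hF hlim
  have hτ : ‖τ n‖ = 1 := by
    unfold τ; rw [norm_mul, Complex.norm_I, one_mul, S.n1]
  have hb : c ^ 2 = ((1 : ℝ) : ℂ) * Complex.I * conj (τ n) := by
    rw [hc]; unfold τ
    rw [map_mul, Complex.conj_I]
    push_cast
    linear_combination (conj n) * Complex.I_mul_I
  obtain ⟨κ, -, h⟩ := H (τ n) 1 c F hτ (by norm_num) hb (memLp_F hF hm)
    (Cl5x722.wdbar_of_hol (isOpen_Hd n) (hF.mono (Hd_sub n)) (Eventually.of_forall fun _ _ => rfl))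
    (fun χ hχ => law_im S hF hlim hχ)
    (fun χ hχ h0 => by rw [one_mul]; exact law_re S hF hlim hχ h0)
  have h1 := int_F_le hm
  refine ⟨κ, fun t ht ht1 => ?_⟩
  obtain ⟨a1, a2⟩ := h t ht ht1
  have b1 : C * t ^ 2 * ∫ z in Hd n, ‖F z‖ ^ 2 ≤ C * t ^ 2 * 1 :=
    mul_le_mul_of_nonneg_left h1 (by positivity)
  have b2 : C * t ^ 4 * ∫ z in Hd n, ‖F z‖ ^ 2 ≤ C * t ^ 4 * 1 :=
    mul_le_mul_of_nonneg_left h1 (by positivity)
  rw [mul_one] at b1 b2
  exact ⟨a1.trans b1, a2.trans b2⟩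

end Crest.Agent.R165.EXb6x811
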