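import Mathlib
import Crest.Agent.R165.EXb6_811
import Crest.Agent.R165.EXb0_682
import Crest.Agent.R165.NBlim_54
import Crest.Agent.R165.ModeT_841

/-!
# EX at a plus boundary, part 7: the leaf `EXb` (row 165, helper811)
-/

set_option autoImplicit false

noncomputable section

namespace Crest.Agent.R165.EXb7x811

open Crest.Agent.R165.Tr1x40 hiding sq2 Ph

open Finset Filter Topology MeasureTheory Crest.Agent.R165.Tr2x40
  Crest.Agent.R165.RIfx891 Crest.Agent.R165.EXb1x811 Crest.Agent.R165.EXb2x811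
  Crest.Agent.R165.EXb3x811 Crest.Agent.R165.EXb4x811 Crest.Agent.R165.EXb5x811
  Crest.Agent.R165.EXb6x811 ComplexConjugate

open Crest.Agent.R165.Lim1x943 (pt flr LocBd LocUnif)
open Crest.Agent.R165.Lim2x943 (sq2)
open Crest.Agent.R165.Cl12x722 (HPr)

variable {U : Ultrafilter ℕ} {n : ℂ}

/-- half discs -/
def Ht (n : ℂ) (t : ℝ) : Set ℂ := Metric.ball 0 t ∩ HPr (τ n)

theorem meas_Ht (n : ℂ) (t : ℝ) : MeasurableSet (Ht n t) :=
  Metric.isOpen_ball.measurableSet.inter (Cl12x722.measurableSet_HPr _)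

theorem Ht_sub (n : ℂ) {t : ℝ} (ht : t ≤ 1) : Ht n t ⊆ Hd n :=
  Set.inter_subset_inter_left _ (Metric.ball_subset_ball ht)

theorem bC_Om_sub {s t : ℝ} (hs : 0 < s) (hst : 2 * s ^ 2 < t ^ 2) (ht : 0 < t) :
    bC s ∩ Om n ⊆ Ht n t := by
  rintro z ⟨h1, h2⟩
  refine ⟨?_, (mem_HPr n z).2 h2.2.2⟩
  rw [mem_ball_zero_iff]
  have e1 : ‖z‖ ^ 2 = z.re ^ 2 + z.im ^ 2 := by
    rw [Complex.sq_norm, Complex.normSq_apply]; ring
  have e2 : z.re ^ 2 ≤ s ^ 2 := sq_le_sq' (abs_le.1 h1.1).1 (abs_le.1 h1.1).2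
  have e3 : z.im ^ 2 ≤ s ^ 2 := sq_le_sq' (abs_le.1 h1.2).1 (abs_le.1 h1.2).2
  exact lt_of_pow_lt_pow_left₀ 2 ht.le (by linarith)

theorem lv_sub (a b : ℂ) (κ : ℝ) (h : Fin 4) : lv (a - κ * b) h = lv a h - κ * lv b h := by
  fin_cases h <;> simp [lv] <;> ring

/-- mass of the limit minus a mode -/
theorem mass_mode {F : ℂ → ℂ} (hF : DifferentiableOn ℂ F (Om n))
    (hm : ∫⁻ z in Om n, ENNReal.ofReal (2 * ‖F z‖ ^ 2) ≤ 1) (c : ℂ) (κ : ℝ) {s t B : ℝ}
    (hs : 0 < s) (hs1 : s < 1) (hst : 2 * s ^ 2 < t ^ 2) (ht : 0 < t) (ht1 : t ≤ 1)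
    (hB : ∫ z in Ht n t, ‖F z - κ * c‖ ^ 2 ≤ B) :
    ∑ a, ∫⁻ z in bC s, sq2 (Ph n F a z
      - {z | lin n z < 0}.indicator (fun _ => κ * lv c a) z) ≤ ENNReal.ofReal (2 * B) := by
  have hH : MeasurableSet {z : ℂ | lin n z < 0} := (isOpen_lt (continuous_lin n) continuous_const).measurableSet
  rw [← lintegral_finsetSum]
  · have e1 : ∀ z ∈ bC s, ∑ a, sq2 (Ph n F a z
        - {z | lin n z < 0}.indicator (fun _ => κ * lv c a) z)
        = (Om n).indicator (fun z => ENNReal.ofReal (2 * ‖F z - κ * c‖ ^ 2)) z := by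
      intro z hz
      by_cases hO : z ∈ Om n
      · have h2 : z ∈ {z : ℂ | lin n z < 0} := hO.2.2
        rw [Set.indicator_of_mem hO]
        simp only [Ph, Set.indicator_of_mem hO, Set.indicator_of_mem h2, sq2, ← lv_sub]
        rw [← ENNReal.ofReal_sum_of_nonneg fun a _ => sq_nonneg _]
        congr 1
        have := nsq_lv (F z - κ * c)
        rw [nsq, Complex.normSq_eq_norm_sq] at this
        exact this
      · have h2 : z ∉ {z : ℂ | lin n z < 0} := fun h =>
          hO ⟨hz.1.trans_lt hs1, hz.2.trans_lt hs1, h⟩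
        rw [Set.indicator_of_notMem hO]
        simp [Ph, Set.indicator_of_notMem hO, Set.indicator_of_notMem h2, sq2]
    rw [setLIntegral_congr_fun (isClosed_bC s).measurableSet e1]
    have hint : Integrable (fun z => ‖F z - κ * c‖ ^ 2) (volume.restrict (Ht n t)) := by
      have h1 : MemLp F 2 (volume.restrict (Ht n t)) :=
        (memLp_F hF hm).mono_measure (Measure.restrict_mono (Ht_sub n ht1) le_rfl)
      have : IsFiniteMeasure (volume.restrict (Ht n t)) := ⟨by
        rw [Measure.restrict_apply_univ]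
        exact (measure_mono Set.inter_subset_left).trans_lt measure_ball_lt_top⟩
      have h2 : MemLp (fun z => F z - κ * c) 2 (volume.restrict (Ht n t)) :=
        h1.sub (memLp_const _)
      exact h2.norm.integrable_sq
    calc ∫⁻ z in bC s, (Om n).indicator (fun z => ENNReal.ofReal (2 * ‖F z - κ * c‖ ^ 2)) z
        = ∫⁻ z in bC s ∩ Om n, ENNReal.ofReal (2 * ‖F z - κ * c‖ ^ 2) := by
          rw [lintegral_indicator (isOpen_Om n).measurableSet,
            Measure.restrict_restrict (isOpen_Om n).measurableSet, Set.inter_comm]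
      _ ≤ ∫⁻ z in Ht n t, ENNReal.ofReal (2 * ‖F z - κ * c‖ ^ 2) :=
          lintegral_mono_set (bC_Om_sub hs hst ht)
      _ = ENNReal.ofReal (∫ z in Ht n t, 2 * ‖F z - κ * c‖ ^ 2) :=
          (ofReal_integral_eq_lintegral_ofReal (hint.const_mul 2)
            (Eventually.of_forall fun z => by positivity)).symm
      _ ≤ ENNReal.ofReal (2 * B) := by
          apply ENNReal.ofReal_le_ofReal
          rw [integral_const_mul]
          linarith
  · intro a _
    exact Lim2x943.measurable_sq2.comp ((meas_Ph hF a).sub (measurable_const.indicator hH))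

/-- strong convergence of the field minus a mode -/
theorem strong_mode (S : Sq U n) {cc : ℕ → ℂ} {c : ℂ} (hcc : Tendsto cc U (𝓝 c)) {F : ℂ → ℂ}
    (hF : DifferentiableOn ℂ F (Om n))
    (hlim : ∀ a, LocUnif U S.r (Om n) (v S a) (fun z => lv (F z) a)) (κ : ℝ) {s : ℝ}
    (hs0 : 0 < s) (hs : s < 1) (a : Fin 4) :
    Tendsto (fun k => ∫⁻ z in bC s,
      sq2 (S.r k * (S.φ k - (κ / S.r k) • modeB (fun _ => 1) 0 (S.nn k) (cc k))
        (flr (S.r k) z) a
        - (Ph n F a z - {z | lin n z < 0}.indicator (fun _ => κ * lv c a) z))) U (𝓝 0) := by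
  have h1 := strongP S hF hlim a hs0 hs
  have h2 := ModeTx841.modeB_lim S.hr S.hn hcc S.n1 s a
  have h3 : Tendsto (fun k => 2 * (∫⁻ z in bC s, sq2 (v S a k (flr (S.r k) z) - Ph n F a z))
      + 2 * (ENNReal.ofReal (κ ^ 2) * ∫⁻ z in bC s,
        sq2 (modeB (fun _ => 1) 0 (S.nn k) (cc k) (flr (S.r k) z) a
          - {z | lin n z < 0}.indicator (fun _ => lv c a) z))) U (𝓝 0) := by
    have a1 := ENNReal.Tendsto.const_mul (a := 2) h1 (Or.inr (by norm_num))
    have a2 := ENNReal.Tendsto.const_mul (a := ENNReal.ofReal (κ ^ 2)) h2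
      (Or.inr ENNReal.ofReal_ne_top)
    have a3 := ENNReal.Tendsto.const_mul (a := 2) a2 (Or.inr (by norm_num))
    simpa using a1.add a3
  refine tendsto_of_tendsto_of_tendsto_of_le_of_le' tendsto_const_nhds h3
    (Eventually.of_forall fun _ => zero_le) ?_
  filter_upwards [S.hr.eventually_gt_atTop 0] with k hr
  have hH : MeasurableSet {z : ℂ | lin n z < 0} := (isOpen_lt (continuous_lin n) continuous_const).measurableSet
  have m1 : Measurable fun z => sq2 (v S a k (flr (S.r k) z) - Ph n F a z) :=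
    Lim2x943.measurable_sq2.comp ((Lim2x943.measurable_comp_flr _ (v S a k)).sub (meas_Ph hF a))
  have m2 : Measurable fun z => sq2 (modeB (fun _ => 1) 0 (S.nn k) (cc k) (flr (S.r k) z) a
          - {z | lin n z < 0}.indicator (fun _ => lv c a) z) :=
    Lim2x943.measurable_sq2.comp ((Lim2x943.measurable_comp_flr _
      (fun f => modeB (fun _ => 1) 0 (S.nn k) (cc k) f a)).sub (measurable_const.indicator hH))
  rw [← lintegral_const_mul _ m2, ← lintegral_const_mul _ m1,
    ← lintegral_const_mul _ (m2.const_mul _), ← lintegral_add_left (m1.const_mul _)]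
  refine lintegral_mono fun z => ?_
  have e1 : S.r k * (S.φ k - (κ / S.r k) • modeB (fun _ => 1) 0 (S.nn k) (cc k))
        (flr (S.r k) z) a
        - (Ph n F a z - {z | lin n z < 0}.indicator (fun _ => κ * lv c a) z)
      = (v S a k (flr (S.r k) z) - Ph n F a z)
        - κ * (modeB (fun _ => 1) 0 (S.nn k) (cc k) (flr (S.r k) z) a
          - {z | lin n z < 0}.indicator (fun _ => lv c a) z) := by
    have e2 : {z | lin n z < 0}.indicator (fun _ => κ * lv c a) z
        = κ * {z | lin n z < 0}.indicator (fun _ => lv c a) z := by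
      by_cases h : z ∈ {z : ℂ | lin n z < 0}
      · rw [Set.indicator_of_mem h, Set.indicator_of_mem h]
      · rw [Set.indicator_of_notMem h, Set.indicator_of_notMem h, mul_zero]
    rw [e2]
    simp only [v, Pi.sub_apply, Pi.smul_apply, smul_eq_mul]
    field_simp
    ring
  rw [e1]
  refine (Lim2x943.sq2_sub_le _ _).trans (le_of_eq ?_)
  congr 1
  rw [sq2, mul_pow, ENNReal.ofReal_mul (sq_nonneg _)]
  rfl

theorem exSq : ∃ C : ℝ, 0 ≤ C ∧ EXb0x682.ExSq C := by
  obtain ⟨C0, hC0, hhalf⟩ := half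
  refine ⟨1 + Real.sqrt (32 * C0), by positivity, ?_⟩
  intro U n c S cc hU hc hcc hnn hcc2 hk hε hN m η hη
  have hq := Campx891.q_pos
  rcases Nat.eq_zero_or_pos m with rfl | hm
  · constructor
    · refine Eventually.of_forall fun k => ?_
      simp only [mul_zero, pow_zero, mul_one, hN k]
      have := Real.sqrt_nonneg (32 * C0)
      linarith
    · refine Eventually.of_forall fun k => ⟨0, ?_⟩
      simp only [mul_zero, pow_zero, mul_one, zero_smul, sub_zero, hN k]
      have := Real.sqrt_nonneg (32 * C0)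
      linarith
  set T : ℝ := Campx891.q ^ (2 * m) with hT
  have hT0 : 0 < T := by positivity
  have hT1 : T ≤ 1 / 2 := by
    have e1 : Campx891.q ^ 2 = 1 / 2 := Campx891.q_sq
    rw [hT, pow_mul, e1]
    calc ((1 : ℝ) / 2) ^ m ≤ (1 / 2) ^ 1 :=
          pow_le_pow_of_le_one (by norm_num) (by norm_num) hm
      _ = 1 / 2 := pow_one _
  have hT4 : Campx891.q ^ (4 * m) = T ^ 2 := by rw [hT, ← pow_mul]; congr 1; omega
  obtain ⟨F, hF, hlim⟩ := exists_F S
  have hmass := mass_Om S hF hlim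
  obtain ⟨κ, hκ⟩ := hhalf U n c S F hc hF hlim
  obtain ⟨h1, h2⟩ := hκ (2 * T) (by positivity) (by linarith)
  have hs0 : 0 < 5 / 4 * T := by positivity
  have hs1 : 5 / 4 * T < 1 := by linarith
  have hts : T < 5 / 4 * T := by linarith
  have hst : 2 * (5 / 4 * T) ^ 2 < (2 * T) ^ 2 := by nlinarith [mul_pos hT0 hT0]
  have hH : MeasurableSet {z : ℂ | lin n z < 0} :=
    (isOpen_lt (continuous_lin n) continuous_const).measurableSet
  have hsq : Real.sqrt (32 * C0) ^ 2 = 32 * C0 := Real.sq_sqrt (by positivity)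
  have hG : ∀ κ' : ℝ, ∀ a, Measurable fun z =>
      Ph n F a z - {z | lin n z < 0}.indicator (fun _ => κ' * lv c a) z :=
    fun κ' a => (meas_Ph hF a).sub (measurable_const.indicator hH)
  have key : ∀ κ' M : ℝ, 0 ≤ M → ∫ z in Ht n (2 * T), ‖F z - κ' * c‖ ^ 2 ≤ M ^ 2 / 2 →
      ∀ᶠ k in (U : Filter ℕ), NB 0 (T * S.r k)
        (S.φ k - (κ' / S.r k) • modeB (fun _ => 1) 0 (S.nn k) (cc k)) ≤ M + η := by
    intro κ' M hM hB
    refine NBlimx54.NB_ev S.hr (hG κ') hT0 hts
      (fun a => strong_mode S hcc hF hlim κ' hs0 hs1 a) hM ?_ hη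
    refine (mass_mode hF hmass c κ' hs0 hs1 hst (by positivity) (by linarith) hB).trans ?_
    apply ENNReal.ofReal_le_ofReal
    linarith
  constructor
  · have h3 := key 0 (Real.sqrt (32 * C0) * T) (by positivity) (by
      have e : ∀ z, F z - ((0 : ℝ) : ℂ) * c = F z := fun z => by simp
      simp only [e]
      refine h1.trans ?_
      rw [mul_pow (Real.sqrt _), hsq]
      nlinarith [mul_pos hC0 (mul_pos hT0 hT0)])
    filter_upwards [h3] with k hk3
    simp only [zero_div, zero_smul, sub_zero] at hk3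
    rw [mul_comm (S.r k)]
    refine hk3.trans ?_
    nlinarith
  · have h3 := key κ (Real.sqrt (32 * C0) * T ^ 2) (by positivity) (by
      refine h2.trans (le_of_eq ?_)
      rw [mul_pow (Real.sqrt _), hsq]
      ring)
    filter_upwards [h3] with k hk3
    refine ⟨κ / S.r k, ?_⟩
    rw [mul_comm (S.r k), hT4]
    refine hk3.trans ?_
    have : 0 < T ^ 2 := by positivity
    nlinarith

/-- **the leaf `EXb`** -/
theorem exb : ∃ C : ℝ, 0 ≤ C ∧ EXb C := by
  obtain ⟨C, hC, H⟩ := exSq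
  exact ⟨C, hC, EXb0x682.EXb_of_sq hC H⟩

end Crest.Agent.R165.EXb7x811
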