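import Crest.Agent.R165.GeoCo_838
import Crest.Agent.R165.WPack_893
import Crest.Agent.R165.XBd_915
import Crest.Agent.R165.HNear_485
import Crest.Agent.R165.Const_891
import Crest.Agent.R165.BxG_797
import Crest.Agent.R165.EXb7_811
import Crest.Agent.R165.BkFin_806
import Crest.Agent.R165.GSysOK_439
import Crest.Agent.R165.Out_683

/-!
# Row 165 (S0250): `StepOK` of `Comp2_889` for all backgrounds (helper838)

* `KA`, `geo_abs` : the absolute constant, the structures `Geo` without hypotheses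
* `CstOK` : the conditions on the constants, `ev_cstOK`
* `stepOK_gen` : `StepOK` for `sys`, any coordinate ring, from `Geo`
* `Good c CF C1` : `StepOK` for plane, branch vertices, domains (fine discs), clusters (coarse discs)
* `stepOK_ev` : `EvC fun c => ∃ CF ≠ ∞, ∃ C1, Good c CF C1`
-/

set_option autoImplicit false
set_option linter.unusedSectionVars false

noncomputable section

open scoped ENNReal
open Filter Topology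
open Crest.ProbabilityR.IsingModel
open Crest.Agent.R165.Geo (LatReg bdS)
open Crest.Agent.R165.Gr0x606 Crest.Agent.R165.Gr1x606 Crest.Agent.R165.GeOpsx337
open Crest.Agent.R165.Latx683 (BW wDom wX wPl Fld)
open Crest.Agent.R165.GDefx387 Crest.Agent.R165.GSysx387 Crest.Agent.R165.FRDPolyx439
open Crest.Agent.R165.Packx915 (Conn)
open Crest.Agent.R165.NSumx915 (DCount)
open Crest.Agent.R165.DefRecx915 Crest.Agent.R165.Compx889 Crest.Agent.R165.WPackx893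
open Crest.Agent.R165.RegIx893 (Geo BigL EE exists_D ev_bigL bd_count)
open Crest.Agent.R165.KFlowx337 Crest.Agent.R165.BgIsox432 Crest.Agent.R165.Bridgex915
open Crest.Agent.R165.PEndx683 Crest.Agent.R165.Constx891 Crest.Agent.R165.Outx683
open Crest.Agent.R165.GeoIx838 (Sep SepP wX_zero)
open Crest.Agent.R165.GeoCox838

namespace Crest.Agent.R165.StepOKx838

/-! ### the absolute constant -/

/-- **the absolute constant** of all regularity classes -/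
def KA : ℝ :=
  KC (Classical.choose EXb7x811.exb) (Classical.choose Bxx797.exbr) 110000000000

theorem one_le_KA : 1 ≤ KA := one_le_KC _ _ _

/-- **`Geo` of all backgrounds, no hypotheses** -/
theorem geo_abs (Λ : ℕ) :
    ∃ r0 C0 : ℕ, 2 ≤ r0 ∧ 1 ≤ C0 ∧
      (∀ (T : Set (ℤ × ℤ)) (ρ κ : ℝ), LatReg T ρ κ → κ * ρ ≤ 1 →
      ∀ (m : ℕ) (X : Fin m → ℤ × ℤ) (Z : Set (ℤ × ℤ)) (b : Bool) (R0 : ℕ), (C0 : ℝ) * R0 ≤ ρ →
      Sep T X Z R0 → Geo (wX (wDom T b) X) KA Λ r0 R0 X (bdS T) Z Set.univ) ∧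
      (∀ (m : ℕ) (X : Fin m → ℤ × ℤ) (Z : Set (ℤ × ℤ)) (R0 : ℕ), SepP X Z R0 →
      Geo (wX (wPl ℤ) X) KA Λ r0 R0 X ∅ Z Set.univ) ∧
      (∀ (T : Set (ℤ × ℤ)) (ρ κ : ℝ), LatReg T ρ κ → κ * ρ ≤ 1 →
      ∀ (m : ℕ) (X : Fin m → ℤ × ℤ) (z0 : ℤ × ℤ) (Z : Set (ℤ × ℤ)) (b : Bool) (R1 R0 : ℕ),
      (C0 : ℝ) * R0 ≤ ρ → Clu T X z0 Z R1 R0 → ∀ loc : Fin 0 → ℤ × ℤ,
      Geo (wX (wDom T b) X) KA Λ (max r0 (4 * R1 + 8)) R0 loc (bdS T) Z Set.univ) :=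
  geo_all (Classical.choose_spec EXb7x811.exb).1 (Classical.choose_spec Bxx797.exbr).1
    (by norm_num) Sqx54.gapU (Classical.choose_spec EXb7x811.exb).2
    (Classical.choose_spec Bxx797.exbr).2 Λ

/-- thresholds of the structures `Geo`, ratio `L = 2 ^ p` -/
def r0v (p : ℕ) : ℕ := Classical.choose (geo_abs (2 ^ p))

/-- flatness of the structures `Geo`, ratio `L = 2 ^ p` -/
def C0v (p : ℕ) : ℕ := Classical.choose (Classical.choose_spec (geo_abs (2 ^ p)))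

theorem geo_v (p : ℕ) :
    2 ≤ r0v p ∧ 1 ≤ C0v p ∧
      (∀ (T : Set (ℤ × ℤ)) (ρ κ : ℝ), LatReg T ρ κ → κ * ρ ≤ 1 →
      ∀ (m : ℕ) (X : Fin m → ℤ × ℤ) (Z : Set (ℤ × ℤ)) (b : Bool) (R0 : ℕ),
      (C0v p : ℝ) * R0 ≤ ρ →
      Sep T X Z R0 → Geo (wX (wDom T b) X) KA (2 ^ p) (r0v p) R0 X (bdS T) Z Set.univ) ∧
      (∀ (m : ℕ) (X : Fin m → ℤ × ℤ) (Z : Set (ℤ × ℤ)) (R0 : ℕ), SepP X Z R0 →
      Geo (wX (wPl ℤ) X) KA (2 ^ p) (r0v p) R0 X ∅ Z Set.univ) ∧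
      (∀ (T : Set (ℤ × ℤ)) (ρ κ : ℝ), LatReg T ρ κ → κ * ρ ≤ 1 →
      ∀ (m : ℕ) (X : Fin m → ℤ × ℤ) (z0 : ℤ × ℤ) (Z : Set (ℤ × ℤ)) (b : Bool) (R1 R0 : ℕ),
      (C0v p : ℝ) * R0 ≤ ρ → Clu T X z0 Z R1 R0 → ∀ loc : Fin 0 → ℤ × ℤ,
      Geo (wX (wDom T b) X) KA (2 ^ p) (max (r0v p) (4 * R1 + 8)) R0 loc (bdS T) Z Set.univ) :=
  Classical.choose_spec (Classical.choose_spec (geo_abs (2 ^ p)))

/-! ### the constants -/

/-- the constant of the extraction maps -/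
def CX0 (Cb : ℝ) : ℝ≥0∞ := 12 * ENNReal.ofReal (320000 * Cb) ^ 2

theorem CX0_ne_top (Cb : ℝ) : CX0 Cb ≠ ∞ :=
  ENNReal.mul_ne_top (by norm_num) (ENNReal.pow_ne_top ENNReal.ofReal_ne_top)

/-- bound of the extraction maps, `a' ≤ 2 a` -/
theorem cX_le {Cb a a' : ℝ} (hC : 0 ≤ Cb) (ha : 0 < a) (h2 : a' ≤ 2 * a) {r r' : ℕ}
    (hr : 0 < r) (hrr : r ≤ r') : XBdx915.cX Cb a a' r r' ≤ CX0 Cb := by
  unfold XBdx915.cX CX0
  refine mul_le_mul' le_rfl (pow_le_pow_left' ?_ 2)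
  unfold XBdx915.pX
  refine ENNReal.ofReal_le_ofReal ?_
  have h1 : (0 : ℝ) < r := by exact_mod_cast hr
  have h3 : (r : ℝ) ≤ r' := by exact_mod_cast hrr
  have h4 : (0 : ℝ) < r' := lt_of_lt_of_le h1 h3
  have h5 : a' * √r' / (a * √r) ≤ 2 * (√r' / √r) := by
    rw [mul_div_mul_comm]
    refine mul_le_mul_of_nonneg_right ?_ (by positivity)
    rw [div_le_iff₀ ha]
    exact h2
  have h6 : √(r' : ℝ) / √r * ((r : ℝ) / r') ≤ 1 := by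
    have e1 : √(r' : ℝ) / √r * ((r : ℝ) / r') = √r / √r' := by
      have hs : (0 : ℝ) < √r := Real.sqrt_pos.2 h1
      have hs' : (0 : ℝ) < √r' := Real.sqrt_pos.2 h4
      have q1 : (r : ℝ) = √r * √r := (Real.mul_self_sqrt h1.le).symm
      have q2 : (r' : ℝ) = √r' * √r' := (Real.mul_self_sqrt h4.le).symm
      rw [div_mul_div_comm, div_eq_div_iff (by positivity) (by positivity)]
      calc √(r' : ℝ) * r * √r' = (√r' * √r') * r := by ring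
        _ = r' * (√r * √r) := by rw [← q2, ← q1]
        _ = √r * (√r * r') := by ring
    rw [e1]
    exact div_le_one_of_le₀ (Real.sqrt_le_sqrt h3) (Real.sqrt_nonneg _)
  calc a' * √r' / (a * √r) * (160000 * Cb * ((r : ℝ) / r'))
      ≤ 2 * (√r' / √r) * (160000 * Cb * ((r : ℝ) / r')) :=
        mul_le_mul_of_nonneg_right h5 (by positivity)
    _ = 320000 * Cb * (√r' / √r * ((r : ℝ) / r')) := by ring
    _ ≤ 320000 * Cb * 1 := mul_le_mul_of_nonneg_left h6 (by positivity)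
    _ = 320000 * Cb := by ring

/-- **the conditions on the constants** -/
structure CstOK (Dn : ℕ) (c : Cst) : Prop where
  hD : s2 + 3 ≤ Dn
  big : BigL KA Dn 1 (1 / 8) (2 ^ c.p)
  gam : GamOK KA Dn (2 ^ c.p) (ENNReal.ofReal c.Γ)
  r0 : ∀ n, r0v c.p ≤ rr c.p c.k0 n
  six : ∀ n, 6 ≤ rr c.p c.k0 n
  A0 : 0 < c.A0
  cw : ∀ n, W0Sx897.cW0 DD c.p c.k0 n ≤ c.A0
  cold : GSysOKx439.c0 DD.C c.p c.k0 ≤ 1 / 2 * c.A0

/-- the constant of the first order quantities -/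
def CFv (Dn : ℕ) (Cb : ℝ) (p : ℕ) : ℝ≥0∞ := CFc KA Dn (2 ^ p) (CX0 Cb)

theorem CFv_ne_top (Dn : ℕ) (Cb : ℝ) (p : ℕ) : CFv Dn Cb p ≠ ∞ := CFc_ne_top (CX0_ne_top Cb)

/-! ### `StepOK` from `Geo` -/

section gen

variable {G : Type} [CommRing G] [CN G] [CNZ G] [DecidableEq G] [GoodG G] {ι : Type*} [Fintype ι]

/-- the extraction maps are bounded with an absolute constant -/
theorem xbd_v {Dn : ℕ} {c : Cst} (hc : CstOK Dn c) {Cb : ℝ} (hb : W2x812.BkReg Cb) (hb0 : 0 < Cb)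
    {w : BW G} (hw : ∀ z j, |w z j| ≤ 1) {mk : Finset (G × G)}
    {K0 : Finset (G × G) → Ge (Fld G)} (hOK : (sys DD w mk c.p c.k0 K0).OK ⊥) {n : ℕ} {a a' : ℝ}
    (ha : c.A0 ≤ a) (ha' : c.A0 ≤ a') (h2 : a' ≤ 2 * a) (ac : Finset (G × G) → Prop) :
    XBd w a a' (rr c.p c.k0 n) (rr c.p c.k0 (n + 1)) ac (sys DD w mk c.p c.k0 K0) n (CX0 Cb) := by
  have h0 : 0 < a := lt_of_lt_of_le hc.A0 ha
  have h0' : 0 < a' := lt_of_lt_of_le hc.A0 ha'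
  have h1 := XBdx915.xbd_sys DD hb hb0 h0 h0' (n := n) hOK (W0Sx897.gramS DD w hw c.p c.k0 n)
    (ac := ac) (fun U _ _ => by
      intro x _ m _
      refine (GSysOKx439.gw_step_le_old DD (by decide) w hw c.p c.k0 n h0 x m).trans ?_
      refine mul_le_mul' ?_ le_rfl
      rw [show (1 / 2 : ℝ≥0∞) = ENNReal.ofReal (1 / 2) by
        rw [ENNReal.ofReal_div_of_pos (by norm_num)]; norm_num]
      refine ENNReal.ofReal_le_ofReal ?_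
      rw [div_le_iff₀ h0]
      have := hc.cold
      linarith)
  intro U hU
  refine (h1 U hU).trans (mul_le_mul' ?_ le_rfl)
  exact cX_le hb0.le h0 h2 (rr_pos _ _ _) (rr_mono _ _ (Nat.le_succ n))

/-- **`StepOK` from `Geo`** -/
theorem stepOK_gen {Dn : ℕ} {c : Cst} (hc : CstOK Dn c) {Cb : ℝ} (hb : W2x812.BkReg Cb)
    (hb0 : 0 < Cb) {w : BW G} (hw : ∀ z j, |w z j| ≤ 1) {mk : Finset (G × G)}
    {K0 : Finset (G × G) → Ge (Fld G)} (hOK : (sys DD w mk c.p c.k0 K0).OK ⊥) {n : ℕ}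
    {r0' R0 : ℕ} {loc : ι → G × G} {B Z Ac : Set (G × G)}
    (H : Geo w KA (2 ^ c.p) r0' R0 loc B Z Ac) (hr0 : r0' ≤ rr c.p c.k0 n)
    (hR : 32 * rr c.p c.k0 (n + 1) ≤ R0) {a a' : ℝ}
    (ha : c.A0 ≤ a) (ha' : c.A0 ≤ a') (h2 : a' ≤ 2 * a) {ac : Finset (G × G) → Prop}
    (hcon : ∀ U, ac U → Conn fd (nearR c.p c.k0 n) U) (hact : ∀ U, ac U → ∀ x ∈ U, x ∈ Ac)
    {em : Finset (G × G) → Prop}
    (hsep : ∀ i j, i ≠ j → 10 * rr c.p c.k0 (n + 1) < fd (loc i) (loc j))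
    (hnear : ∀ U, ac U → size (rr c.p c.k0 n) U ≤ 1 → ¬ em U → ∃ x ∈ U,
      (∃ y ∈ B, fd y x + rr c.p c.k0 n ≤ Dn * rr c.p c.k0 n) ∨
      (∃ z ∈ Z, fd z x + rr c.p c.k0 n ≤ Dn * rr c.p c.k0 n) ∨
      ∃ i, fd (loc i) x + rr c.p c.k0 n ≤ Dn * rr c.p c.k0 n)
    (hNb : DCount fd B (rr c.p c.k0 (n + 1) + Dn * rr c.p c.k0 n) (rr c.p c.k0 n)
      (8 * (2 ^ c.p + Dn) + 1))
    (hNm : DCount fd Z (rr c.p c.k0 (n + 1) + Dn * rr c.p c.k0 n) (rr c.p c.k0 n) 1) :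
    StepOK (sys DD w mk c.p c.k0 K0) w (ENNReal.ofReal c.Γ) n a a' (rr c.p c.k0 n)
      (rr c.p c.k0 (n + 1)) ac em (1 / 4) (CFv Dn Cb c.p) := by
  have h0 : 0 < a := lt_of_lt_of_le hc.A0 ha
  have hDL : Dn * rr c.p c.k0 n ≤ 4 * rr c.p c.k0 (n + 1) := by
    rw [rr_succ, ← mul_assoc]
    refine Nat.mul_le_mul_right _ ?_
    have := hc.big.hD
    omega
  refine stepOK_of_geo hc.big H DD (by decide) hw rfl hc.gam le_rfl hr0 hR h0 h2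
    ((hc.cw n).trans ha') hact hcon ?_ (fun i j hij => ?_) hnear hNb hNm
    (xbd_v hc hb hb0 hw hOK ha ha' h2 ac)
  · have h1 : 10 * rr c.p c.k0 n ≤ rr c.p c.k0 (n + 1) := by
      rw [rr_succ]
      exact Nat.mul_le_mul_right _ hc.big.ten
    have h3 := rr_pos c.p c.k0 n
    unfold nearR
    omega
  · refine lt_of_le_of_lt ?_ (hsep i j hij)
    omega

end gen

/-! ### weights -/

theorem abs_xc_le : |Latx683.xc| ≤ 1 := by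
  have h0 : (0 : ℝ) ≤ √2 := Real.sqrt_nonneg _
  have h2 : √2 ^ 2 = (2 : ℝ) := Real.sq_sqrt (by norm_num)
  have e : Latx683.xc = √2 - 1 := rfl
  rw [e, abs_le]
  constructor <;> nlinarith

theorem abs_ray {n : ℕ} (X : Fin n → ℤ × ℤ) (z : ℤ × ℤ) (j : Fin 2) : |Latx683.ray X z j| = 1 := by
  unfold Latx683.ray
  rw [Finset.abs_prod]
  refine Finset.prod_eq_one fun i _ => ?_
  split_ifs <;> simp

theorem abs_wDom_le (T : Set (ℤ × ℤ)) (b : Bool) (z : ℤ × ℤ) (j : Fin 2) :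
    |wDom T b z j| ≤ 1 := by
  have h := abs_xc_le
  unfold wDom
  split_ifs
  · exact h
  · simp
  · exact h
  · simp

theorem abs_wX_dom (T : Set (ℤ × ℤ)) (b : Bool) {n : ℕ} (X : Fin n → ℤ × ℤ) (z : ℤ × ℤ)
    (j : Fin 2) : |wX (wDom T b) X z j| ≤ 1 := by
  unfold wX
  rw [abs_mul, abs_ray, one_mul]
  exact abs_wDom_le T b z j

theorem abs_wX_pl {n : ℕ} (X : Fin n → ℤ × ℤ) (z : ℤ × ℤ) (j : Fin 2) :
    |wX (wPl ℤ) X z j| ≤ 1 := by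
  unfold wX
  rw [abs_mul, abs_ray, one_mul]
  exact abs_xc_le

/-! ### marks -/

/-- marks: pairwise at distance `≤ r` or `> R` -/
def MkOK (Z : Set (ℤ × ℤ)) (r R : ℕ) : Prop := ∀ u ∈ Z, ∀ v ∈ Z, fd u v ≤ r ∨ R < fd u v

theorem MkOK.empty (r R : ℕ) : MkOK ∅ r R := fun u hu => absurd hu (Set.notMem_empty u)

theorem MkOK.single (f : ℤ × ℤ) (r R : ℕ) : MkOK {f} r R := by
  intro u hu v hv
  rw [Set.mem_singleton_iff.1 hu, Set.mem_singleton_iff.1 hv, fd_self]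
  exact Or.inl (Nat.zero_le _)

theorem MkOK.of_le {Z : Set (ℤ × ℤ)} {r R : ℕ} (h : ∀ u ∈ Z, ∀ v ∈ Z, fd u v ≤ r) : MkOK Z r R :=
  fun u hu v hv => Or.inl (h u hu v hv)

theorem MkOK.mono {Z : Set (ℤ × ℤ)} {r r' R R' : ℕ} (h : MkOK Z r R) (hr : r ≤ r') (hR : R' ≤ R) :
    MkOK Z r' R' := fun u hu v hv => (h u hu v hv).imp (fun h => h.trans hr)
      (fun h => lt_of_le_of_lt hR h)

theorem MkOK.dcount {Z : Set (ℤ × ℤ)} {r R R' : ℕ} (h : MkOK Z r R) (hR : 2 * R' ≤ R) :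
    DCount fd Z R' r 1 := by
  intro f S hS hs
  refine Finset.card_le_one.2 fun x hx y hy => ?_
  by_contra hne
  have h1 : r < fd x y := hs x hx y hy hne
  rcases h x (hS x hx).1 y (hS y hy).1 with h2 | h2
  · omega
  · have h3 := (hS x hx).2
    have h4 := (hS y hy).2
    have h5 := fd_triangle x f y
    rw [fd_comm x f] at h5
    omega

/-! ### the instances -/

section inst

variable {Dn : ℕ} {c : Cst} {Cb : ℝ}

theorem sum_le_ten (hc : CstOK Dn c) (n : ℕ) :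
    2 * (rr c.p c.k0 (n + 1) + Dn * rr c.p c.k0 n) ≤ 10 * rr c.p c.k0 (n + 1) := by
  have hDL : Dn * rr c.p c.k0 n ≤ 4 * rr c.p c.k0 (n + 1) := by
    rw [rr_succ, ← mul_assoc]
    refine Nat.mul_le_mul_right _ ?_
    have := hc.big.hD
    omega
  omega

/-- counting of the boundary sites -/
theorem dcount_bd_v (hc : CstOK Dn c) {T : Set (ℤ × ℤ)} {ρ κ : ℝ} (h : LatReg T ρ κ) {n : ℕ}
    (hρ : (6 : ℝ) * rr c.p c.k0 (n + 1) ≤ ρ) :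
    DCount fd (bdS T) (rr c.p c.k0 (n + 1) + Dn * rr c.p c.k0 n) (rr c.p c.k0 n)
      (8 * (2 ^ c.p + Dn) + 1) := by
  have h1 := sum_le_ten hc n
  have h2 := rr_pos c.p c.k0 (n + 1)
  have h3 : rr c.p c.k0 (n + 1) + Dn * rr c.p c.k0 n + 1 ≤ 6 * rr c.p c.k0 (n + 1) := by omega
  refine (DBdx915.dcount_bd h (R := rr c.p c.k0 (n + 1) + Dn * rr c.p c.k0 n)
    (r := rr c.p c.k0 n) ?_ (hc.six n)).mono (Set.Subset.refl _) le_rfl le_rfl ?_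
  · refine le_trans ?_ hρ
    exact_mod_cast h3
  · rw [rr_succ]
    exact bd_count (hc.six n)

/-- **`StepOK`, domains** (and discs, fine phase) -/
theorem stepOK_dom (hc : CstOK Dn c) (hb : W2x812.BkReg Cb) (hb0 : 0 < Cb) {T : Set (ℤ × ℤ)}
    {ρ κ : ℝ} (hT : LatReg T ρ κ) (hκ : κ * ρ ≤ 1) {m : ℕ} {X : Fin m → ℤ × ℤ}
    {mk : Finset (ℤ × ℤ)} {b : Bool} {K0 : Finset (ℤ × ℤ) → Ge (Fld ℤ)}
    (hOK : (sys DD (wX (wDom T b) X) mk c.p c.k0 K0).OK ⊥) {n q : ℕ} {a a' : ℝ}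
    {ac : Finset (ℤ × ℤ) → Prop} (hρ : ((32 * C0v c.p : ℕ) : ℝ) * rr c.p c.k0 (n + 1) ≤ ρ)
    (hS : Sep T X mk (32 * rr c.p c.k0 (n + 1)))
    (hmk : MkOK mk (rr c.p c.k0 n) (10 * rr c.p c.k0 (n + 1))) (hq : q ≤ s2 * rr c.p c.k0 n)
    (hcon : ∀ U, ac U → Conn fd (nearR c.p c.k0 n) U)
    (hact : ∀ U, ac U → ∃ u ∈ U, ∃ z ∈ T, fd u z ≤ q)
    (ha : c.A0 ≤ a) (ha' : c.A0 ≤ a') (h2 : a' ≤ 2 * a) :
    StepOK (sys DD (wX (wDom T b) X) mk c.p c.k0 K0) (wX (wDom T b) X) (ENNReal.ofReal c.Γ) n a a'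
      (rr c.p c.k0 n) (rr c.p c.k0 (n + 1)) ac
      (emM (wX (wDom T b) X) (mk : Set (ℤ × ℤ)) (rr c.p c.k0 n)) (1 / 4) (CFv Dn Cb c.p) := by
  obtain ⟨-, hC1, H, -, -⟩ := geo_v c.p
  have hG := H T ρ κ hT hκ m X mk b (32 * rr c.p c.k0 (n + 1)) (by
    refine le_trans (le_of_eq ?_) hρ
    push_cast; ring) hS
  have h6 : (6 : ℝ) * rr c.p c.k0 (n + 1) ≤ ρ := by
    refine le_trans (mul_le_mul_of_nonneg_right ?_ (Nat.cast_nonneg _)) hρ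
    have : 6 ≤ 32 * C0v c.p := by omega
    exact_mod_cast this
  refine stepOK_gen hc hb hb0 (abs_wX_dom T b X) hOK hG (hc.r0 n) le_rfl ha ha' h2 hcon
    (fun U _ x _ => Set.mem_univ x) (fun i j hij => ?_) (fun U hU hs hne => ?_)
    (dcount_bd_v hc hT h6) (hmk.dcount (sum_le_ten hc n))
  · have h1 := hS.sep i j hij
    omega
  · obtain ⟨x, hx, h | h | h⟩ := HNearx485.hnear_bdS (rr_pos c.p c.k0 n) hc.hD hs (hact U hU) hq hne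
    · exact ⟨x, hx, Or.inl h⟩
    · exact ⟨x, hx, Or.inr (Or.inr h)⟩
    · exact ⟨x, hx, Or.inr (Or.inl h)⟩

/-- **`StepOK`, the plane with insertions** -/
theorem stepOK_pl (hc : CstOK Dn c) (hb : W2x812.BkReg Cb) (hb0 : 0 < Cb) {m : ℕ}
    {X : Fin m → ℤ × ℤ} {mk : Finset (ℤ × ℤ)} {K0 : Finset (ℤ × ℤ) → Ge (Fld ℤ)}
    (hOK : (sys DD (wX (wPl ℤ) X) mk c.p c.k0 K0).OK ⊥) {n : ℕ} {a a' : ℝ}
    {ac : Finset (ℤ × ℤ) → Prop}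
    (hS : SepP X mk (32 * rr c.p c.k0 (n + 1)))
    (hmk : MkOK mk (rr c.p c.k0 n) (10 * rr c.p c.k0 (n + 1)))
    (hcon : ∀ U, ac U → Conn fd (nearR c.p c.k0 n) U) (hne : ∀ U, ac U → U.Nonempty)
    (ha : c.A0 ≤ a) (ha' : c.A0 ≤ a') (h2 : a' ≤ 2 * a) :
    StepOK (sys DD (wX (wPl ℤ) X) mk c.p c.k0 K0) (wX (wPl ℤ) X) (ENNReal.ofReal c.Γ) n a a'
      (rr c.p c.k0 n) (rr c.p c.k0 (n + 1)) ac
      (emM (wX (wPl ℤ) X) (mk : Set (ℤ × ℤ)) (rr c.p c.k0 n)) (1 / 4) (CFv Dn Cb c.p) := by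
  obtain ⟨-, -, -, H, -⟩ := geo_v c.p
  have hG := H m X mk (32 * rr c.p c.k0 (n + 1)) hS
  refine stepOK_gen hc hb hb0 (abs_wX_pl X) hOK hG (hc.r0 n) le_rfl ha ha' h2 hcon
    (fun U _ x _ => Set.mem_univ x) (fun i j hij => ?_) (fun U hU hs hnem => ?_)
    ?_ (hmk.dcount (sum_le_ten hc n))
  · have h1 := hS.sep i j hij
    omega
  · rw [← GeoIx838.wDom_univ false] at hnem
    obtain ⟨u, hu⟩ := hne U hU
    obtain ⟨x, hx, h | h | h⟩ := HNearx485.hnear_bdS (T := Set.univ) (q := 0)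
      (rr_pos c.p c.k0 n) hc.hD hs ⟨u, hu, u, Set.mem_univ u, by rw [fd_self]⟩ (Nat.zero_le _) hnem
    · obtain ⟨y, hy, -⟩ := h
      rw [GeoIx838.bdS_univ] at hy
      exact absurd hy (Set.notMem_empty y)
    · exact ⟨x, hx, Or.inr (Or.inr h)⟩
    · exact ⟨x, hx, Or.inr (Or.inl h)⟩
  · intro f S hS _
    have : S = ∅ := Finset.eq_empty_of_forall_notMem fun x hx =>
      absurd (hS x hx).1 (Set.notMem_empty x)
    rw [this]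
    simp

/-- **`StepOK`, cluster** (discs, coarse phase) -/
theorem stepOK_clu (hc : CstOK Dn c) (hb : W2x812.BkReg Cb) (hb0 : 0 < Cb) {T : Set (ℤ × ℤ)}
    {ρ κ : ℝ} (hT : LatReg T ρ κ) (hκ : κ * ρ ≤ 1) {m : ℕ} {X : Fin m → ℤ × ℤ}
    {mk : Finset (ℤ × ℤ)} {b : Bool} {z0 : ℤ × ℤ} {R1 : ℕ}
    {K0 : Finset (ℤ × ℤ) → Ge (Fld ℤ)}
    (hOK : (sys DD (wX (wDom T b) X) mk c.p c.k0 K0).OK ⊥) {n q : ℕ} {a a' : ℝ}
    {ac : Finset (ℤ × ℤ) → Prop} (hρ : ((32 * C0v c.p : ℕ) : ℝ) * rr c.p c.k0 (n + 1) ≤ ρ)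
    (hS : Clu T X z0 ((mk : Set (ℤ × ℤ)) ∪ Set.range X) R1 (32 * rr c.p c.k0 (n + 1)))
    (hR1 : 4 * R1 + 8 ≤ rr c.p c.k0 n) (hq : q ≤ s2 * rr c.p c.k0 n)
    (hcon : ∀ U, ac U → Conn fd (nearR c.p c.k0 n) U)
    (hact : ∀ U, ac U → ∃ u ∈ U, ∃ z ∈ T, fd u z ≤ q)
    (ha : c.A0 ≤ a) (ha' : c.A0 ≤ a') (h2 : a' ≤ 2 * a) :
    StepOK (sys DD (wX (wDom T b) X) mk c.p c.k0 K0) (wX (wDom T b) X) (ENNReal.ofReal c.Γ) n a a'
      (rr c.p c.k0 n) (rr c.p c.k0 (n + 1)) ac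
      (emM (wX (wDom T b) X) (mk : Set (ℤ × ℤ)) (rr c.p c.k0 n)) (1 / 4) (CFv Dn Cb c.p) := by
  obtain ⟨-, hC1, -, -, H⟩ := geo_v c.p
  have hG := H T ρ κ hT hκ m X z0 _ b R1 (32 * rr c.p c.k0 (n + 1)) (by
    refine le_trans (le_of_eq ?_) hρ
    push_cast; ring) hS Fin.elim0
  have h6 : (6 : ℝ) * rr c.p c.k0 (n + 1) ≤ ρ := by
    refine le_trans (mul_le_mul_of_nonneg_right ?_ (Nat.cast_nonneg _)) hρ
    have : 6 ≤ 32 * C0v c.p := by omega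
    exact_mod_cast this
  have hZ : MkOK ((mk : Set (ℤ × ℤ)) ∪ Set.range X) (rr c.p c.k0 n)
      (10 * rr c.p c.k0 (n + 1)) := MkOK.of_le fun u hu v hv => by
    have h1 := hS.box u hu
    have h3 := hS.box v hv
    have h4 := fd_triangle u z0 v
    rw [fd_comm u z0] at h4
    omega
  refine stepOK_gen hc hb hb0 (abs_wX_dom T b X) hOK hG (max_le (hc.r0 n) hR1) le_rfl ha ha' h2 hcon
    (fun U _ x _ => Set.mem_univ x) (fun i => Fin.elim0 i) (fun U hU hs hne => ?_)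
    (dcount_bd_v hc hT h6) (hZ.dcount (sum_le_ten hc n))
  obtain ⟨x, hx, h | h | h⟩ := HNearx485.hnear_bdS (rr_pos c.p c.k0 n) hc.hD hs (hact U hU) hq hne
  · exact ⟨x, hx, Or.inl h⟩
  · obtain ⟨i, hi⟩ := h
    exact ⟨x, hx, Or.inr (Or.inl ⟨X i, Or.inr ⟨i, rfl⟩, hi⟩)⟩
  · obtain ⟨z, hz, h⟩ := h
    exact ⟨x, hx, Or.inr (Or.inl ⟨z, Or.inl hz, h⟩)⟩

end inst

/-! ### the choice of the constants -/

theorem ev_cstOK : ∃ Dn : ℕ, EvC (CstOK Dn) := by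
  obtain ⟨Dn, hD, hD2⟩ := exists_D KA (s2 + 3)
  refine ⟨Dn, ?_⟩
  have h1 : ∀ᶠ p : ℕ in atTop, BigL KA Dn 1 (1 / 8) (2 ^ p) :=
    (tendsto_pow_atTop_atTop_of_one_lt (by norm_num : 1 < 2)).eventually
      (ev_bigL hD2 1 (by norm_num))
  unfold EvC
  filter_upwards [h1, eventually_ge_atTop 1] with p hp hp1
  obtain ⟨Γ0, hΓ0, hΓ⟩ := exists_gam KA Dn (2 ^ p)
  filter_upwards [eventually_ge_atTop Γ0.toReal] with Γ hΓ1
  have hrr : ∀ k0 n : ℕ, k0 ≤ rr p k0 n := fun k0 n => by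
    unfold rr
    refine Nat.lt_two_pow_self.le.trans (Nat.pow_le_pow_right (by norm_num) ?_)
    calc k0 ≤ 1 * (k0 + n) := by omega
      _ ≤ p * (k0 + n) := Nat.mul_le_mul_right _ hp1
  filter_upwards [eventually_ge_atTop (r0v p), eventually_ge_atTop 6] with k0 hk hk6
  filter_upwards [eventually_gt_atTop (0 : ℝ), eventually_ge_atTop (W0Sx897.cW0 DD p k0 0),
    eventually_ge_atTop (2 * GSysOKx439.c0 DD.C p k0)] with A0 hA hA1 hA2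
  filter_upwards with δ
  exact
    { hD := hD
      big := hp
      gam := hΓ _ (by
        rw [← ENNReal.ofReal_toReal hΓ0]
        exact ENNReal.ofReal_le_ofReal hΓ1) ENNReal.ofReal_ne_top
      r0 := fun n => hk.trans (hrr k0 n)
      six := fun n => hk6.trans (hrr k0 n)
      A0 := hA
      cw := fun n => (W0Sx897.cW0_le_zero DD p k0 n).trans hA1
      cold := by simp only; linarith }

/-- **`StepOK` of all backgrounds on `ℤ`** with the constants `c` -/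
structure Good (c : Cst) (CF : ℝ≥0∞) (C1 : ℕ) : Prop where
  one_le : 32 ≤ C1
  rr6 : ∀ n, 6 ≤ rr c.p c.k0 n
  A0 : 0 < c.A0
  dom : ∀ (T : Set (ℤ × ℤ)) (ρ κ : ℝ), LatReg T ρ κ → κ * ρ ≤ 1 →
    ∀ (m : ℕ) (X : Fin m → ℤ × ℤ) (mk : Finset (ℤ × ℤ)) (b : Bool)
      (K0 : Finset (ℤ × ℤ) → Ge (Fld ℤ)),
    (sys DD (wX (wDom T b) X) mk c.p c.k0 K0).OK ⊥ →
    ∀ (n q : ℕ) (a a' : ℝ) (ac : Finset (ℤ × ℤ) → Prop),
    (C1 : ℝ) * rr c.p c.k0 (n + 1) ≤ ρ → Sep T X mk (32 * rr c.p c.k0 (n + 1)) →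
    MkOK mk (rr c.p c.k0 n) (10 * rr c.p c.k0 (n + 1)) → q ≤ s2 * rr c.p c.k0 n →
    (∀ U, ac U → Conn fd (nearR c.p c.k0 n) U) →
    (∀ U, ac U → ∃ u ∈ U, ∃ z ∈ T, fd u z ≤ q) →
    c.A0 ≤ a → c.A0 ≤ a' → a' ≤ 2 * a →
    StepOK (sys DD (wX (wDom T b) X) mk c.p c.k0 K0) (wX (wDom T b) X) (ENNReal.ofReal c.Γ) n a a'
      (rr c.p c.k0 n) (rr c.p c.k0 (n + 1)) ac
      (emM (wX (wDom T b) X) (mk : Set (ℤ × ℤ)) (rr c.p c.k0 n)) (1 / 4) CF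
  pl : ∀ (m : ℕ) (X : Fin m → ℤ × ℤ) (mk : Finset (ℤ × ℤ))
      (K0 : Finset (ℤ × ℤ) → Ge (Fld ℤ)),
    (sys DD (wX (wPl ℤ) X) mk c.p c.k0 K0).OK ⊥ →
    ∀ (n : ℕ) (a a' : ℝ) (ac : Finset (ℤ × ℤ) → Prop),
    SepP X mk (32 * rr c.p c.k0 (n + 1)) →
    MkOK mk (rr c.p c.k0 n) (10 * rr c.p c.k0 (n + 1)) →
    (∀ U, ac U → Conn fd (nearR c.p c.k0 n) U) → (∀ U, ac U → U.Nonempty) →
    c.A0 ≤ a → c.A0 ≤ a' → a' ≤ 2 * a →
    StepOK (sys DD (wX (wPl ℤ) X) mk c.p c.k0 K0) (wX (wPl ℤ) X) (ENNReal.ofReal c.Γ) n a a'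
      (rr c.p c.k0 n) (rr c.p c.k0 (n + 1)) ac
      (emM (wX (wPl ℤ) X) (mk : Set (ℤ × ℤ)) (rr c.p c.k0 n)) (1 / 4) CF
  clu : ∀ (T : Set (ℤ × ℤ)) (ρ κ : ℝ), LatReg T ρ κ → κ * ρ ≤ 1 →
    ∀ (m : ℕ) (X : Fin m → ℤ × ℤ) (mk : Finset (ℤ × ℤ)) (b : Bool) (z0 : ℤ × ℤ) (R1 : ℕ)
      (K0 : Finset (ℤ × ℤ) → Ge (Fld ℤ)),
    (sys DD (wX (wDom T b) X) mk c.p c.k0 K0).OK ⊥ →
    ∀ (n q : ℕ) (a a' : ℝ) (ac : Finset (ℤ × ℤ) → Prop),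
    (C1 : ℝ) * rr c.p c.k0 (n + 1) ≤ ρ →
    Clu T X z0 ((mk : Set (ℤ × ℤ)) ∪ Set.range X) R1 (32 * rr c.p c.k0 (n + 1)) →
    4 * R1 + 8 ≤ rr c.p c.k0 n → q ≤ s2 * rr c.p c.k0 n →
    (∀ U, ac U → Conn fd (nearR c.p c.k0 n) U) →
    (∀ U, ac U → ∃ u ∈ U, ∃ z ∈ T, fd u z ≤ q) →
    c.A0 ≤ a → c.A0 ≤ a' → a' ≤ 2 * a →
    StepOK (sys DD (wX (wDom T b) X) mk c.p c.k0 K0) (wX (wDom T b) X) (ENNReal.ofReal c.Γ) n a a'
      (rr c.p c.k0 n) (rr c.p c.k0 (n + 1)) ac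
      (emM (wX (wDom T b) X) (mk : Set (ℤ × ℤ)) (rr c.p c.k0 n)) (1 / 4) CF

/-- the plane itself, with marks -/
theorem Good.plane {c : Cst} {CF : ℝ≥0∞} {C1 : ℕ} (H : Good c CF C1) (mk : Finset (ℤ × ℤ))
    (K0 : Finset (ℤ × ℤ) → Ge (Fld ℤ)) (hOK : (sys DD (wPl ℤ) mk c.p c.k0 K0).OK ⊥)
    (n : ℕ) (a a' : ℝ) (ac : Finset (ℤ × ℤ) → Prop)
    (hmk : MkOK mk (rr c.p c.k0 n) (10 * rr c.p c.k0 (n + 1)))
    (hcon : ∀ U, ac U → Conn fd (nearR c.p c.k0 n) U) (hne : ∀ U, ac U → U.Nonempty)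
    (ha : c.A0 ≤ a) (ha' : c.A0 ≤ a') (h2 : a' ≤ 2 * a) :
    StepOK (sys DD (wPl ℤ) mk c.p c.k0 K0) (wPl ℤ) (ENNReal.ofReal c.Γ) n a a'
      (rr c.p c.k0 n) (rr c.p c.k0 (n + 1)) ac
      (emM (wPl ℤ) (mk : Set (ℤ × ℤ)) (rr c.p c.k0 n)) (1 / 4) CF := by
  have h := H.pl 0 Fin.elim0 mk K0
  rw [wX_zero] at h
  exact h hOK n a a' ac ⟨fun i => Fin.elim0 i, fun _ _ i => Fin.elim0 i⟩ hmk hcon hne ha ha' h2

/-- **THE THEOREM**: `StepOK` for all backgrounds on `ℤ`, no hypotheses -/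
theorem stepOK_ev : EvC fun c => ∃ CF : ℝ≥0∞, CF ≠ ∞ ∧ ∃ C1 : ℕ, Good c CF C1 := by
  obtain ⟨Dn, h⟩ := ev_cstOK
  obtain ⟨Cb, hb0, hb⟩ : ∃ Cb : ℝ, 0 < Cb ∧ W2x812.BkReg Cb :=
    ⟨50000000 * (16 * 10 ^ 9), by norm_num, BkFinx806.bkReg⟩
  refine h.mono fun c hc => ⟨CFv Dn Cb c.p, CFv_ne_top _ _ _, 32 * C0v c.p, ?_⟩
  refine ⟨?_, hc.six, hc.A0, ?_, ?_, ?_⟩
  · have := (geo_v c.p).2.1
    omega
  · intro T ρ κ hT hκ m X mk b K0 hOK n q a a' ac hρ hS hmk hq hcon hact ha ha' h2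
    exact stepOK_dom hc hb hb0 hT hκ hOK hρ hS hmk hq hcon hact ha ha' h2
  · intro m X mk K0 hOK n a a' ac hS hmk hcon hne ha ha' h2
    exact stepOK_pl hc hb hb0 hOK hS hmk hcon hne ha ha' h2
  · intro T ρ κ hT hκ m X mk b z0 R1 K0 hOK n q a a' ac hρ hS hR1 hq hcon hact ha ha' h2
    exact stepOK_clu hc hb hb0 hT hκ hOK hρ hS hR1 hq hcon hact ha ha' h2

end Crest.Agent.R165.StepOKx838
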