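import Crest.Agent.R165.Comp2_889
import Crest.Agent.R165.StepGlue_897
import Crest.Agent.R165.Bkg_683
import Crest.Agent.R165.J4K0L_126

/-!
# Row 165, block G/P: the structural hypotheses of the flow (helper897)

* `conn_K`, `sub_K`, `ne_K` : supports of the activities of any `Sys` whose touching relations are
  balls of a pseudo-distance (sources allowed)
* `str_sys` : `Compx889.Str` for `GSysx387.sys`, every background
* `str_flow` : the same for `Bkgx683.Bg.flow` (683), every background and parameter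
* `nn3_sys` : the covering numbers
* `stepOK_crude` : `Compx889.StepOK` for a crude step (386: drop of the amplitude)
-/

set_option autoImplicit false
set_option linter.unusedSectionVars false
set_option linter.unusedVariables false

noncomputable section

open scoped ENNReal
open Crest.Agent.R165.Gr0x606 Crest.Agent.R165.Gr1x606 Crest.Agent.R165.GeOpsx337
  Crest.Agent.R165.ExpGx337 Crest.Agent.R165.KFlowx337
open Crest.Agent.R165.Latx683 Crest.Agent.R165.PNormx417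
open Crest.Agent.R165.GDefx387 Crest.Agent.R165.Packx915 Crest.Agent.R165.NSumx915
open Crest.Agent.R165.Bridgex915 Crest.Agent.R165.NKDefx915 Crest.Agent.R165.DefRecx915
open Crest.Agent.R165.FRDPolyx439 Crest.Agent.R165.FRDLatx439 Crest.Agent.R165.GSysx387
open Crest.Agent.R165.W0Sx897 Crest.Agent.R165.StepGluex897 Crest.Agent.R165.BgIsox432
open Crest.Agent.R165.KStepx892 Crest.Agent.R165.Compx889

namespace Crest.Agent.R165.StrSx897

/-! ### supports of the activities -/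

section gen

variable {F : Type*} [DecidableEq F] {V : Type*} [AddCommGroup V] [Module ℝ V] (D : Sys F V)

theorem H_ne {D : Sys F V} {k : ℕ} {U : Finset F} (h : D.H k U ≠ 0) : D.K k U ≠ 0 := by
  intro h0
  exact h (by rw [Sys.H, h0, map_zero])

/-- the exponent of `U` only sees the activity of `U` and of the sets which are extracted to `U` -/
theorem A_ne {D : Sys F V} {k : ℕ} {U : Finset F} (h : D.A k U ≠ 0) :
    D.K k U ≠ 0 ∨ ∃ U', U ∈ (D.e k).out U' ∧ D.K k U' ≠ 0 := by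
  by_contra hcon
  push Not at hcon
  obtain ⟨h1, h2⟩ := hcon
  apply h
  have hH : D.H k U = 0 := by rw [Sys.H, h1, map_zero]
  have hg : (D.e k).gain (D.H k) U = 0 := by
    rw [Extr.gain]
    refine Finset.sum_eq_zero fun U' hU' => ?_
    have h3 := h2 U' (((D.e k).mem_iff U' U).2 hU')
    rw [Sys.H, h3, map_zero, map_zero]
  have hl : (D.e k).lost (D.H k) U = 0 := by
    rw [Extr.lost]
    exact Finset.sum_eq_zero fun T _ => by rw [hH, map_zero]
  rw [Sys.A, AA, hg, hl, hH, map_zero]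
  simp

theorem B_ne {D : Sys F V} {k : ℕ} {U : Finset F} (h : D.B k U ≠ 0) : D.A k U ≠ 0 := by
  intro h0
  apply h
  rw [Sys.B_eq, h0, gexp_zero, sub_self]

/-- **connectedness along the flow** -/
theorem conn_K {d : F → F → ℕ} (hd : PD d) {R : ℕ → ℕ} (hR : ∀ k, R k ≤ R (k + 1))
    (hnear : ∀ k, D.near (k + 1) = fun x y => d x y ≤ R (k + 1))
    (h0 : ∀ U, D.K0 U ≠ 0 → Packx915.Conn d (R 0) U)
    (hT : ∀ k U, ∀ T ∈ (D.e k).out U, Packx915.Conn d (R k) T) :
    ∀ k U, D.K k U ≠ 0 → Packx915.Conn d (R k) U := by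
  intro k
  induction k with
  | zero => exact h0
  | succ k ih =>
    intro W hW
    rw [D.K_succ, hnear k] at hW
    refine Quad2x897.KK_conn hd (hR k) (fun U hU => ih U (H_ne hU)) (fun U hU => ?_) (D.near k) hW
    rcases A_ne (B_ne hU) with h1 | ⟨U', h1, -⟩
    · exact ih U h1
    · exact hT k U' U h1

/-- supports of the reclustered activity -/
theorem KK_sub {R : Type*} [CommRing R] {near near' : F → F → Prop} {K B : Finset F → R}
    {Ac : Set F} (hK : ∀ U, K U ≠ 0 → ∀ x ∈ U, x ∈ Ac) (hB : ∀ U, B U ≠ 0 → ∀ x ∈ U, x ∈ Ac)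
    {W : Finset F} (hW : KK near near' K B W ≠ 0) : ∀ x ∈ W, x ∈ Ac := by
  classical
  unfold KK at hW
  obtain ⟨T, hT, hne⟩ := Finset.exists_ne_zero_of_sum_ne_zero hW
  rw [Finset.mem_filter] at hT
  intro x hx
  rw [← hT.2.2] at hx
  obtain ⟨t, ht, hxt⟩ := mem_spp.1 hx
  unfold KStepx892.wt at hne
  split_ifs at hne with hg
  · have h0 := fun h => hne (Finset.prod_eq_zero ht h)
    rcases t with U | U
    · exact hK U h0 x hxt
    · exact hB U h0 x hxt
  · exact absurd rfl hne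

/-- **support along the flow** -/
theorem sub_K {Ac : Set F} (h0 : ∀ U, D.K0 U ≠ 0 → ∀ x ∈ U, x ∈ Ac) :
    ∀ k U, D.K k U ≠ 0 → ∀ x ∈ U, x ∈ Ac := by
  intro k
  induction k with
  | zero => exact h0
  | succ k ih =>
    intro W hW
    rw [D.K_succ] at hW
    refine KK_sub (fun U hU => ih U (H_ne hU)) (fun U hU => ?_) hW
    rcases A_ne (B_ne hU) with h1 | ⟨U', h1, h2⟩
    · exact ih U h1
    · exact fun x hx => ih U' h2 x ((D.e k).sub U' U h1 hx)

/-- **nonempty supports** -/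
theorem ne_K (h0 : D.K0 ∅ = 0) (k : ℕ) {U : Finset F} (h : D.K k U ≠ 0) : U.Nonempty := by
  by_contra hcon
  rw [Finset.not_nonempty_iff_eq_empty] at hcon
  subst hcon
  rcases k with _ | k
  · exact h h0
  · exact h (D.K_empty k)

end gen

/-! ### the concrete system -/

section sysm

variable {G : Type} [CommRing G] [CN G] [DecidableEq G] [CNZ G] {M K : ℕ} (F : FRD 16 M K)
  (w : BW G) (mk : Finset (G × G)) (l k0 : ℕ) (K0 : Finset (G × G) → Ge (Fld G))

/-- the active polymers of the concrete flow -/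
theorem hac_sys {Ac : Set (G × G)} (h0 : K0 ∅ = 0)
    (hc : ∀ U, K0 U ≠ 0 → Packx915.Conn fd (nearR l k0 0) U)
    (hs : ∀ U, K0 U ≠ 0 → ∀ x ∈ U, x ∈ Ac) (n : ℕ) (U : Finset (G × G))
    (h : (sys F w mk l k0 K0).K n U ≠ 0) : acS l k0 n Ac U := by
  classical
  refine ⟨ne_K _ h0 n h, ?_, sub_K _ hs n U h⟩
  refine conn_K (sys F w mk l k0 K0) pd_fd (R := nearR l k0) (fun k => nearR_mono l k0 (Nat.le_succ k))
    (fun k => rfl) hc ?_ n U h
  intro k U' T hT
  obtain ⟨-, f, -, -, hTf⟩ := (PStepx417.mem_exOut (deep w mk l k0 k) (rr l k0 k)).1 hT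
  rw [hTf]
  exact conn_singleton f

/-- **`Str` for the concrete flow**, every background -/
theorem str_sys [GoodG G] {Ac : Set (G × G)} {Γ : ℝ≥0∞} (hl : 1 ≤ l) (hΓ : 1 ≤ Γ) (h0 : K0 ∅ = 0)
    (hc : ∀ U, K0 U ≠ 0 → Packx915.Conn fd (nearR l k0 0) U)
    (hs : ∀ U, K0 U ≠ 0 → ∀ x ∈ U, x ∈ Ac) (N : ℕ) :
    Str (sys F w mk l k0 K0) (rr l k0) (nearR l k0) Γ (fun n => acS l k0 n Ac)
      (fun n => emM w (mk : Set (G × G)) (rr l k0 n)) N where
  r_pos := rr_pos l k0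
  r_mono k := rr_mono l k0 (Nat.le_succ k)
  Γ1 := hΓ
  vac := vacCt_sys F w mk l k0 K0
  near k _ := rfl
  hac k _ U h := hac_sys F w mk l k0 K0 h0 hc hs k U h
  ne k _ U hU := hU.1
  deep k _ := deep_emM w mk (by
    have h1 : 2 ≤ 2 ^ l := by
      calc 2 = 2 ^ 1 := rfl
        _ ≤ 2 ^ l := Nat.pow_le_pow_right (by norm_num) hl
    have h2 : 2 * rr l k0 k ≤ rr l k0 (k + 1) := by
      rw [rr_succ]; exact Nat.mul_le_mul_right _ h1
    unfold s2
    omega)
  ext k _ := embExtr_sys F w mk l k0 K0 k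

/-- the covering numbers of the concrete flow -/
theorem nn3_sys (n : ℕ) : (nn3 (rr l k0 (n + 1)) (nearR l k0 (n + 1)) : ℝ≥0∞) ≤ N3 l := by
  exact_mod_cast nn3_le l k0 n

variable {F w mk l k0 K0} {a a' : ℝ} {Γ CX : ℝ≥0∞} {n : ℕ} {Ac : Set (G × G)}

/-- the constant of a crude step in the form of `StepOK` -/
def CS (l : ℕ) (CX : ℝ≥0∞) : ℝ≥0∞ :=
  3 * N2 l + (((2 * (2 ^ l * 2) + 3) ^ 2 * 25 : ℕ) : ℝ≥0∞) + CFc l CX

theorem CS_ne_top (l : ℕ) {CX : ℝ≥0∞} (h : CX ≠ ∞) : CS l CX ≠ ∞ :=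
  ENNReal.add_ne_top.2 ⟨ENNReal.add_ne_top.2 ⟨ENNReal.mul_ne_top (by norm_num)
    (ENNReal.natCast_ne_top _), ENNReal.natCast_ne_top _⟩, CFc_ne_top l h⟩

/-- **`StepOK` for a crude step** -/
theorem stepOK_crude [GoodG G] (hM : MM + 1 ≤ M) (hw : ∀ z j, |w z j| ≤ 1) (h10 : 10 ≤ 2 ^ l)
    (hn : 2 ≤ rr l k0 n) (ha : 0 < a) (ha' : 0 ≤ a')
    (hdrop : 2 * (a' * Real.sqrt (rr l k0 (n + 1))) ≤ a * Real.sqrt (rr l k0 n))
    (hA : cW0 F l k0 n ≤ a') (hΓ : 3 ≤ Γ)
    (hX : XBd w a a' (rr l k0 n) (rr l k0 (n + 1)) (acS l k0 n Ac) (sys F w mk l k0 K0) n CX)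
    (em : Finset (G × G) → Prop) :
    StepOK (sys F w mk l k0 K0) w Γ n a a' (rr l k0 n) (rr l k0 (n + 1)) (acS l k0 n Ac) em
      (CS l CX) (CS l CX) := by
  have hrr : 4 * nearR l k0 n + 3 * rr l k0 n + 2 ≤ rr l k0 (n + 1) := by
    rw [rr_succ]; exact range_le h10
  refine ⟨Unit, inferInstance, _, _, _, _, 3, 1, CX,
    Crudex386.crude_dstep (em := em)
    (gramS F w hw l k0 n) ha hn ha' hdrop (ε := 1) (fun U => w0S F hM w hw l k0 n hA U)
    one_ne_zero le_rfl hΓ hrr (ac := acS l k0 n Ac) (fun U hU => hU.2.1), hX, ?_, ?_⟩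
  · unfold kapD
    rw [nn2_le, Finset.univ_unique, Finset.sum_singleton, one_mul]
    have h1 : rr l k0 (n + 1) / (rr l k0 n / 2) = 2 ^ l * 2 := by
      have h2 : 2 * (rr l k0 n / 2) = rr l k0 n := by
        have : 2 ∣ rr l k0 n := by
          unfold rr at hn ⊢
          refine dvd_pow_self 2 ?_
          intro h0
          rw [h0] at hn
          norm_num at hn
        omega
      have h3 : rr l k0 (n + 1) = 2 ^ l * 2 * (rr l k0 n / 2) := by
        rw [rr_succ, mul_assoc, h2]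
      rw [h3, Nat.mul_div_cancel _ (by omega)]
    have h4 : (0 + rr l k0 n) / rr l k0 n = 1 := by
      rw [Nat.zero_add]; exact Nat.div_self (rr_pos l k0 n)
    rw [h1, h4]
    exact le_self_add
  · have hcF : cF (rr l k0 n) (rr l k0 (n + 1)) 3 1 CX = CFc l CX := by
      unfold cF CFc
      rw [nn2_le]
    rw [hcF]
    exact le_add_self

end sysm

/-! ### the flows of `Bkg_683` -/

section bkg

open Crest.Agent.R165.Bkgx683 Crest.Agent.R165.KInitx892

variable {G : Type} [CommRing G] [CN G] [DecidableEq G] [CNZ G]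

theorem one_le_nearR {l k0 : ℕ} (h : 3 ≤ l * (k0 + 1)) (n : ℕ) : 1 ≤ nearR l k0 n := by
  refine le_trans ?_ (nearR_mono l k0 (Nat.zero_le n))
  unfold nearR rr
  rw [Nat.le_div_iff_mul_le (by norm_num)]
  calc 1 * 8 = 2 ^ 3 := by norm_num
    _ ≤ 2 ^ (l * (k0 + (0 + 1))) := Nat.pow_le_pow_right (by norm_num) (by simpa using h)

/-- the initial activities of `Bkg_683` are connected at the range of touching of step `0` -/
theorem K0_conn_flow (B : Bg G) (P : MPar) {κ : Type} [DecidableEq κ] [Fintype κ]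
    {V : Type*} [AddCommGroup V] [Module ℝ V] (ι : Fld G →ₗ[ℝ] V) (src : Srcs κ G (Ge V))
    (hk : ∀ k, Packx915.Conn fd 1 (src.Ys k)) {l k0 : ℕ} (h3 : 3 ≤ l * (k0 + 1))
    {U : Finset (G × G)} (h : B.K0 P ι src l k0 U ≠ 0) :
    Packx915.Conn fd (nearR l k0 0) U :=
  K1_conn pd_fd (one_le_nearR h3 0) (fun U hU => J4K0Lx126.K0_conn1 hk hU) h

/-- the faces of the initial activities -/
theorem K0_sub_flow (B : Bg G) (P : MPar) {κ : Type} [DecidableEq κ] [Fintype κ]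
    {V : Type*} [AddCommGroup V] [Module ℝ V] (ι : Fld G →ₗ[ℝ] V) (src : Srcs κ G (Ge V))
    {l k0 : ℕ} {Ac : Set (G × G)} (hs : ∀ U, B.K00 P ι src U ≠ 0 → ∀ x ∈ U, x ∈ Ac)
    {U : Finset (G × G)} (h : B.K0 P ι src l k0 U ≠ 0) : ∀ x ∈ U, x ∈ Ac :=
  KK_sub hs (fun _ h => absurd rfl h) h

/-- **`Str` for the flows of `Bkg_683`** -/
theorem str_flow [GoodG G] (B : Bg G) (P : MPar) {κ : Type} [DecidableEq κ] [Fintype κ]
    {M K : ℕ} (F : FRD 16 M K) (mk : Finset (G × G)) (src : Srcs κ G (Ge (Fld G)))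
    (hk : ∀ k, Packx915.Conn fd 1 (src.Ys k)) {l k0 : ℕ} (h3 : 3 ≤ l * (k0 + 1))
    {Ac : Set (G × G)} (hs : ∀ U, B.K00 P LinearMap.id src U ≠ 0 → ∀ x ∈ U, x ∈ Ac)
    {Γ : ℝ≥0∞} (hΓ : 1 ≤ Γ) (N : ℕ) :
    Str (B.flow P F mk src l k0) (rr l k0) (nearR l k0) Γ (fun n => acS l k0 n Ac)
      (fun n => emM B.w (mk : Set (G × G)) (rr l k0 n)) N :=
  str_sys F B.w mk l k0 _ (by
      rcases Nat.eq_zero_or_pos l with h | h
      · subst h; omega
      · exact h) hΓ (K1_empty _ _)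
    (fun U hU => K0_conn_flow B P LinearMap.id src hk h3 hU)
    (fun U hU => K0_sub_flow B P LinearMap.id src hs hU) N

/-- without sources and with all faces active -/
theorem str_flow_univ [GoodG G] (B : Bg G) (P : MPar) {M K : ℕ} (F : FRD 16 M K)
    (mk : Finset (G × G)) {l k0 : ℕ} (h3 : 3 ≤ l * (k0 + 1)) {Γ : ℝ≥0∞} (hΓ : 1 ≤ Γ) (N : ℕ) :
    Str (B.flow P F mk (noSrc G _) l k0) (rr l k0) (nearR l k0) Γ
      (fun n => acS l k0 n Set.univ) (fun n => emM B.w (mk : Set (G × G)) (rr l k0 n)) N :=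
  str_flow B P F mk _ (fun k => k.elim0) h3 (fun _ _ _ _ => Set.mem_univ _) hΓ N

end bkg

end Crest.Agent.R165.StrSx897
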