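import Crest.Agent.R165.Comp4_889
import Crest.Agent.R165.ConstA_729
import Crest.Agent.R165.GSysPl_387
import Crest.Agent.R165.BkEx_812
import Crest.Agent.R165.StrS_897
import Crest.Agent.R165.FarB_900
import Crest.Agent.R165.StepOK_838

/-!
# Row 165, block F, leaf P8: the plane flow with growing amplitudes, final form (helper889)

* `plD_sys`   : the plane system has the structure `PlD`
* `plFlow_of` : the structure `PlFlow` of `Comp3_889` from `StepNum` (729), `Str`, `StepOK`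
* `plane_P8`  : `PF` (constant amplitude, rate `1/4`) ⟹ growing amplitudes, rate `1/2`
-/

set_option autoImplicit false
set_option linter.unusedSectionVars false

noncomputable section

open scoped ENNReal

namespace Crest.Agent.R165.Compx889

open Crest.Agent.R165.Gr0x606 Crest.Agent.R165.Gr1x606 Crest.Agent.R165.GeOpsx337
  Crest.Agent.R165.ExpGx337 Crest.Agent.R165.KFlowx337
open Crest.Agent.R165.Latx683 Crest.Agent.R165.PNormx417
open Crest.Agent.R165.GDefx387 Crest.Agent.R165.Packx915 Crest.Agent.R165.NSumx915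
open Crest.Agent.R165.Bridgex915 Crest.Agent.R165.NKDefx915 Crest.Agent.R165.DefRecx915
open Crest.Agent.R165.GSysx387 Crest.Agent.R165.PEndx683 Crest.Agent.R165.Telx337
open Crest.Agent.R165.FRDPolyx439 Crest.Agent.R165.FRDLatx439 Crest.Agent.R165.GSysOKx439
open Crest.Agent.R165.Locx901 Crest.Agent.R165.PlaneModesx901 Crest.Agent.R165.PlaneLocx901
  Crest.Agent.R165.PlaneCovx901 Crest.Agent.R165.PlaneSumx901
  Crest.Agent.R165.PStepx417 Crest.Agent.R165.GBulkx417 Crest.Agent.R165.W2x812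
open Crest.Agent.R165.ConstAx729 Crest.Agent.R165.Bkgx683 Crest.Agent.R165.Outx683

section sys

variable {M N : ℕ} (F : FRD 16 M N) (l k0 : ℕ) (K0 : Finset Fc → Ge (Fld ℤ))

/-- the plane system has the structure `PlD` -/
theorem plD_sys : PlD (sys F (wPl ℤ) ∅ l k0 K0) (rr l k0) where
  e k := ⟨fun f => PStepIdx901.LocG f, fun _ _ => rfl, bulk_eP l k0 k⟩
  vac := rfl
  S k := symS_slC F l k0 k

end sys

/-- **the structure `PlFlow`** of the plane system -/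
theorem plFlow_of {M N : ℕ} {F : FRD 16 M N} {c : Cst} {K0 : Finset Fc → Ge (Fld ℤ)} {a : ℕ → ℝ}
    {C : ℝ} {ac em : ℕ → Finset Fc → Prop} {K : ℕ} {CF : ℝ≥0∞}
    (hM : MM + 1 ≤ M) (hC : BkReg C)
    (hstr : Str (sys F (wPl ℤ) ∅ c.p c.k0 K0) (rr c.p c.k0) (nearR c.p c.k0)
      (ENNReal.ofReal c.Γ) ac em K)
    (hstep : ∀ k, k < K → ∃ κ₁, StepOK (sys F (wPl ℤ) ∅ c.p c.k0 K0) (wPl ℤ)
      (ENNReal.ofReal c.Γ) k (a k) (a (k + 1)) (rr c.p c.k0 k) (rr c.p c.k0 (k + 1)) (ac k) (em k)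
      κ₁ CF)
    (hsym : PlSym fun U => (K0 U : Gr (Fld ℤ))) (hempty : K0 ∅ = 0)
    (hconn : ∀ k, k < K → ∀ U, (sys F (wPl ℤ) ∅ c.p c.k0 K0).K k U ≠ 0 →
      Packx915.Conn fd (nearR c.p c.k0 k) U)
    (ha : ∀ k, 0 ≤ a k) (hA : 0 < c.A0)
    (hnum : ∀ k, k < K → StepNum F.C C (1 / 4) c.Γ c.p c.k0 k (a k) (a (k + 1)))
    (hnum0 : ∀ k, k < K → StepNum F.C C (1 / 4) c.Γ c.p c.k0 k c.A0 c.A0) :
    PlFlow (sys F (wPl ℤ) ∅ c.p c.k0 K0) a c.A0 (rr c.p c.k0) (nearR c.p c.k0)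
      (ENNReal.ofReal c.Γ) ac em K (1 / 4) CF (StepGluex897.N3 c.p : ℝ≥0∞) where
  pl := plD_sys F c.p c.k0 K0
  str := hstr
  sym := plane_plSym F c.p c.k0 K0 hsym
  empty := hempty
  conn := hconn
  range k hk := by
    have h1 := (hnum k hk).hR
    omega
  amp_nonneg := ha
  A_pos := hA
  Γt := ENNReal.ofReal_ne_top
  gram k hk := by
    have h := hnum0 k hk
    have hb := bulkHyp_rr F (C := C) (p := c.p) (k0 := c.k0) (n := k) hC hM hA hA h.hr16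
    refine ⟨gw F (wPl ℤ) (lo c.p c.k0 k) (hi c.p c.k0 k), v3 F.C c.A0 c.p c.k0,
      slC_gram F _ wPl_le c.p c.k0 k, h.num.q0_le, fun U x => ?_⟩
    exact le_mul_wU h.num.q0_ne fun y _ hy => hb.W0 y x hy
  lin k hk := by
    have h := hnum k hk
    refine ⟨gw F (wPl ℤ) (lo c.p c.k0 k) (hi c.p c.k0 k), _, _, _, _, _,
      bulkHyp_rr F (C := C) (p := c.p) (k0 := c.k0) (n := k) hC hM h.a_pos h.a_pos' h.hr16, h.num,
      slC_gram F _ wPl_le c.p c.k0 k, ?_⟩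
    refine h.ke_le.trans (le_of_eq ?_)
    rw [ENNReal.ofReal_div_of_pos (by norm_num)]
    simp
  step := hstep
  n3 k _ := nn3_rr c k

/-- **`StepOK` for all steps of the plane** -/
theorem stepOK_plane {c : Cst} {CF : ℝ≥0∞} {C1 : ℕ} (H : StepOKx838.Good c CF C1)
    (h5 : 5 ≤ c.p * (c.k0 + 1)) (P : MPar) (n : ℕ) {a a' : ℝ} (ha : c.A0 ≤ a) (ha' : c.A0 ≤ a')
    (ha2 : a' ≤ 2 * a) :
    StepOK (plF c P) (wPl ℤ) (ENNReal.ofReal c.Γ) n a a' (rr c.p c.k0 n) (rr c.p c.k0 (n + 1))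
      (StepGluex897.acS c.p c.k0 n Set.univ)
      (emM (wPl ℤ) ((∅ : Finset Fc) : Set Fc) (rr c.p c.k0 n)) (1 / 4) CF :=
  H.plane ∅ _ (FarBx900.fl_OK h5 P Bg.pl) n a a' _
    (by rw [Finset.coe_empty]; exact StepOKx838.MkOK.empty _ _) (fun U hU => hU.2.1)
    (fun U hU => hU.1) ha ha' ha2

/-- **(P8), the plane**: constant amplitude and rate `1/4` (`PF`, output of P7) ⟹ growing
amplitudes, rate `1/2` -/
theorem plane_P8 (J : ℝ) (R : ℕ) (V : Finset (ℤ × ℤ) → ℝ)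
    (hsym : ∀ (lam β z : ℝ) (l k0 : ℕ), PlSym fun U =>
      ((Bg.pl.K0 (mpar J lam R V β z) LinearMap.id (noSrc ℤ (Ge (Fld ℤ))) l k0 U : Ge (Fld ℤ)) :
        Gr (Fld ℤ))) :
    EvC fun c => ∀ C : ℝ, ∃ ε > 0, ∃ C' ≥ 0, ∀ lam β z : ℝ, |lam| < ε → NearP J C lam β z →
      PF J R V C c lam β z → ∀ n, NK (wPl ℤ) (Outx683.amp c n) (rr c.p c.k0 n)
        (ENNReal.ofReal c.Γ) (fun _ => True)
        (fun U => (((plF c (mpar J lam R V β z)).K n U : Ge (Fld ℤ)) : Gr (Fld ℤ))) ≤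
          ENNReal.ofReal (C' * |lam| * (1 / 2) ^ n) := by
  obtain ⟨Cb, hCb, hBk⟩ := BkExx812.exists_bkReg
  have hS := StepOKx838.stepOK_ev
  have hN := stepNum_ev (Dc := DD.C) (C := Cb) (η := 1 / 4) DD.C_pos hBk.nonneg (by norm_num)
  have hδ := Constx891.ev_δ_le (fun _ _ _ _ => 1 / 4) fun _ _ _ _ => by norm_num
  have hk := Constx891.ev_std
  refine (((hS.and hN).and hδ).and hk).mono fun c hc C => ?_
  obtain ⟨⟨⟨⟨CF, hCF, C1, hs⟩, hp4, hΓ3, hA1, hδ0, hδ1, hnum⟩, hδ4⟩, hstd⟩ := hc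
  obtain ⟨M, ε, hM, hε, h0⟩ := plane_amp CF
    (StepGluex897.N3 c.p : ℝ≥0∞) hCF (ENNReal.natCast_ne_top _)
    (ENNReal.ofReal c.Γ) ENNReal.ofReal_ne_top (2 ^ c.p) Cb hBk C
  refine ⟨ε, hε, M, hM.le, fun lam β z hl _ hPF n => ?_⟩
  have hA0 : 0 < c.A0 := one_pos.trans_le hA1
  have h5 : 5 ≤ c.p * (c.k0 + 1) := by
    have h1 := hstd.k0_pos
    nlinarith
  have h3 : 3 ≤ c.p * (c.k0 + 1) := by omega
  have hamp : ∀ k, c.A0 ≤ Outx683.amp c k := fun k => amp_ge hA0.le hδ0.le k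
  have hamp2 : ∀ k, Outx683.amp c (k + 1) ≤ 2 * Outx683.amp c k := fun k => by
    have h1 : Outx683.amp c (k + 1) ≤ (1 + c.δ) * Outx683.amp c k := amp_succ_le hA0.le hδ0.le k
    have h2 := hamp k
    nlinarith
  have hmono : ∀ k, Outx683.amp c k ≤ Outx683.amp c (k + 1) := fun k =>
    amp_mono hA0.le hδ0.le k
  set P := mpar J lam R V β z with hP
  have hstr := StrSx897.str_flow_univ (G := ℤ) Bg.pl P DD ∅ (l := c.p) (k0 := c.k0) h3
    (Γ := ENNReal.ofReal c.Γ) (by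
      rw [← ENNReal.ofReal_one]
      exact ENNReal.ofReal_le_ofReal (by linarith)) n
  have hfl : PlFlow (plF c P) (Outx683.amp c) c.A0 (rr c.p c.k0) (nearR c.p c.k0)
      (ENNReal.ofReal c.Γ) (fun n => StepGluex897.acS c.p c.k0 n Set.univ)
      (fun n => emM (wPl ℤ) ((∅ : Finset Fc) : Set Fc) (rr c.p c.k0 n)) n (1 / 4)
      CF (StepGluex897.N3 c.p : ℝ≥0∞) :=
    plFlow_of (F := DD) (C := Cb) (by decide) hBk hstr
      (fun k _ => ⟨1 / 4, stepOK_plane hs h5 P k (hamp k) (hamp (k + 1)) (hamp2 k)⟩)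
      (hsym lam β z c.p c.k0) (FarBx900.fl_emp c P Bg.pl)
      (fun k hk U hU => (hstr.hac k hk U hU).2.1) (fun k => hA0.le.trans (hamp k)) hA0
      (fun k _ => hnum k _ _ (hamp k) (by linarith [hmono k, hA0.le.trans (hamp k)]) (hamp2 k))
      (fun k _ => hnum k _ _ le_rfl (by linarith) (by linarith))
  exact h0 (plF c P) (Outx683.amp c) c.A0 c.δ (rr c.p c.k0) (nearR c.p c.k0) _ _ n |lam| hfl
    (fun k => rr_succ c.p c.k0 k) hδ0.le (by nlinarith) (fun k => le_rfl) (abs_nonneg _) hl.le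
    (fun k _ => hPF k) n le_rfl

end Crest.Agent.R165.Compx889
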