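import Crest.Agent.R165.JVol_950
import Crest.Agent.R165.J4K0L_126
import Crest.Agent.R165.XBd_915
import Crest.Agent.R165.TorTan_723

/-!
# Row 165 (S0250), blocks G/P: the active polymers of the domain flows (helper117)

* `nbF T q`, `nbT T q` : the faces at distance at most `q` from a site of `T`
* `live_near` : the supports of the live labels are in `nbF T q` (`2 R + 1 ≤ q`, `2 ≤ q`)
* `K00_near`, `K0_near` : supports of the initial activities of `Bg.dom T b X`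
* `K0_acS`, `flow_acS` : the polymers of the flow at all scales are connected at the range of the
  scale and within distance `q` of `T`
* `acS.hit` : an active polymer has a face at distance at most `q` from `T`
-/

set_option autoImplicit false
set_option linter.unusedSectionVars false

noncomputable section

open Crest.ProbabilityR.IsingModel
open Crest.Agent.R165.Gr0x606 Crest.Agent.R165.Gr1x606 Crest.Agent.R165.GeOpsx337
open Crest.Agent.R165.GDefx387 Crest.Agent.R165.GSysx387 Crest.Agent.R165.KFlowx337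
open Crest.Agent.R165.KInitx892 Crest.Agent.R165.Bkgx683 Crest.Agent.R165.JVolx950
open Crest.Agent.R165.J4K0x126 Crest.Agent.R165.J4Geox126
open Crest.Agent.R165.J4Defx653 (BB tr bx mem_bx mem_tr)
open Crest.Agent.R165.J1ax606 (pe qe)
open Crest.Agent.R165.J2ax606 (bar bar_pe bar_qe)
open Crest.Agent.R165.Latx683 (wPl wDom wX BW HE Fld)
open Crest.Agent.R165.MetGx723 (boxG)
open Crest.Agent.R165.BgIsox432
open Crest.Agent.R165.XBdx915 (acS)
open Crest.Agent.R165.K0Locx950 (dead)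

namespace Crest.Agent.R165.DomAcx117

/-- the faces at distance at most `q` from a site of `T` -/
def nbF (T : Finset (ℤ × ℤ)) (q : ℕ) : Finset (ℤ × ℤ) := T.biUnion fun t => boxG t q

/-- the faces at distance at most `q` from a site of `T` -/
def nbT (T : Set (ℤ × ℤ)) (q : ℕ) : Set (ℤ × ℤ) := {f | ∃ t ∈ T, fd f t ≤ q}

theorem mem_nbF {T : Finset (ℤ × ℤ)} {q : ℕ} {f : ℤ × ℤ} :
    f ∈ nbF T q ↔ ∃ t ∈ T, fd f t ≤ q := by
  unfold nbF
  simp only [Finset.mem_biUnion, TorTanx723.mem_box_iff]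
  refine exists_congr fun t => and_congr_right fun _ => ?_
  rw [fd_comm]

theorem coe_nbF (T : Finset (ℤ × ℤ)) (q : ℕ) : (nbF T q : Set (ℤ × ℤ)) = nbT T q := by
  ext f
  exact mem_nbF

theorem nbT_mono {T : Set (ℤ × ℤ)} {q q' : ℕ} (h : q ≤ q') : nbT T q ⊆ nbT T q' :=
  fun _ ⟨t, ht, hf⟩ => ⟨t, ht, hf.trans h⟩

/-- a site of `T` near an active polymer -/
theorem acS_hit {R q : ℕ} {T : Set (ℤ × ℤ)} {U : Finset (ℤ × ℤ)} (h : acS fd R (nbT T q) U) :
    ∃ u ∈ U, ∃ t ∈ T, fd u t ≤ q := by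
  obtain ⟨u, hu⟩ := h.1
  exact ⟨u, hu, h.2.2 hu⟩

theorem acS_mono {R R' : ℕ} {Λ Λ' : Set (ℤ × ℤ)} (hR : R ≤ R') (hΛ : Λ ⊆ Λ')
    {U : Finset (ℤ × ℤ)} (h : acS fd R Λ U) : acS fd R' Λ' U :=
  ⟨h.1, h.2.1.mono hR, h.2.2.trans hΛ⟩

theorem fd_of_cor {T : Finset (ℤ × ℤ)} {f : ℤ × ℤ} (h : cor T f) : ∃ t ∈ T, fd f t ≤ 1 := by
  have key : ∀ a b : ℤ, (a = 0 ∨ a = 1) → (b = 0 ∨ b = 1) → fd f (f.1 + a, f.2 + b) ≤ 1 := by
    intro a b ha hb
    show max (f.1 - (f.1 + a)).natAbs (f.2 - (f.2 + b)).natAbs ≤ 1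
    refine max_le ?_ ?_ <;> omega
  rcases h with h | h | h | h
  · exact ⟨_, h, by rw [fd_self]; exact Nat.zero_le _⟩
  · exact ⟨_, h, by simpa using key 1 0 (Or.inr rfl) (Or.inl rfl)⟩
  · exact ⟨_, h, by simpa using key 0 1 (Or.inl rfl) (Or.inr rfl)⟩
  · exact ⟨_, h, by simpa using key 1 1 (Or.inr rfl) (Or.inr rfl)⟩

section dom

variable {T : Finset (ℤ × ℤ)} {b : BoundaryCondition} {n : ℕ} {X : Fin n → ℤ × ℤ} {P : MPar}
variable {κ : Type} [DecidableEq κ] [Fintype κ]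
variable {V : Type*} [AddCommGroup V] [Module ℝ V]

/-- the supports of the live labels are near `T` -/
theorem live_near {src : Srcs κ ℤ (Ge V)} {q : ℕ} (hq : 2 * P.R + 1 ≤ q) (hq2 : 2 ≤ q)
    (hs : ∀ k, src.Ys k ⊆ nbF T q) (ι : Fld ℤ →ₗ[ℝ] V) (i : Ix ℤ κ)
    (hi : ((Bg.dom T b X).bk P src).okI i) (hd : ¬ dead (frG ι) ((Bg.dom T b X).bk P src) i) :
    ((Bg.dom T b X).bk P src).YI i ⊆ nbF T q := by
  rcases i with p | f | e | k
  · have h1 : tr p.2 p.1 ∈ J4Defx653.BB T b P.R := hi.2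
    unfold J4Defx653.BB at h1
    rw [Finset.mem_filter] at h1
    obtain ⟨t, ht⟩ := h1.2.2
    rw [Finset.mem_inter, mem_tr] at ht
    have hS : p.2 ⊆ bx P.R := (J4Defx653.mem_Can.1 hi.1.1).1
    intro f hf
    change f ∈ (Yf p.2).image (fz p.1) at hf
    rw [mem_nbF]
    refine ⟨t, ht.2, ?_⟩
    have ht' : t ∈ (Yf p.2).image (fz p.1) := by
      refine Finset.mem_image.2 ⟨t - p.1, subset_Yf _ ht.1, ?_⟩
      unfold fz cz
      ext <;> simp
    exact (shape_diam p.1 hS f hf t ht').trans hq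
  · change ({f} : Finset (ℤ × ℤ)) ⊆ nbF T q
    rw [Finset.singleton_subset_iff]
    by_contra hf
    apply hd
    left
    have hs : ((Bg.dom T b X).bk P src).s f = 1 := bk_s_off src fun h => hf (by
      obtain ⟨t, ht, h1⟩ := fd_of_cor (mem_Wf.1 h)
      exact mem_nbF.2 ⟨t, ht, by omega⟩)
    have hc : ((Bg.dom T b X).bk P src).cI f = 0 := by
      unfold Bk.cI; rw [hs]; ring
    change ((Bg.dom T b X).bk P src).cI f • _ + _ = _
    rw [hc]
    simp
  · change faE e ⊆ nbF T q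
    by_cases hw : (pe e).1 ∈ Wf T ∨ (qe e).1 ∈ Wf T
    · obtain ⟨g, hg, hgW⟩ : ∃ g ∈ faE e, g ∈ Wf T := by
        rcases hw with h | h
        · exact ⟨_, by unfold faE; exact Finset.mem_insert_self _ _, h⟩
        · exact ⟨_, by unfold faE; exact Finset.mem_insert_of_mem (Finset.mem_singleton_self _), h⟩
      obtain ⟨t, ht, h1⟩ := fd_of_cor (mem_Wf.1 hgW)
      intro f hf
      refine mem_nbF.2 ⟨t, ht, ?_⟩
      have h2 := faE_diam e f hf g hg
      have h3 := fd_triangle f g t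
      omega
    · exfalso
      rw [not_or] at hw
      apply hd
      left
      change (_ * (((Bg.dom T b X).bk P src).s (pe e).1 *
        ((Bg.dom T b X).bk P src).s (qe e).1 - 1)) • _ = _
      rw [bk_s_off src hw.1, bk_s_off src hw.2]
      simp
  · exact hs k

/-- supports of the activities of 126 -/
theorem K00_near {src : Srcs κ ℤ (Ge V)} {q : ℕ} (hq : 2 * P.R + 1 ≤ q) (hq2 : 2 ≤ q)
    (hs : ∀ k, src.Ys k ⊆ nbF T q) (ι : Fld ℤ →ₗ[ℝ] V) (U : Finset (ℤ × ℤ))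
    (hU : ¬ U ⊆ nbF T q) : (Bg.dom T b X).K00 P ι src U = 0 :=
  K0Locx950.K0_supp (frG ι) _ (live_near hq hq2 hs ι) hU

/-- supports of the reclustered activities -/
theorem K0_near {src : Srcs κ ℤ (Ge V)} {q : ℕ} (hq : 2 * P.R + 1 ≤ q) (hq2 : 2 ≤ q)
    (hs : ∀ k, src.Ys k ⊆ nbF T q) (ι : Fld ℤ →ₗ[ℝ] V) (l k0 : ℕ) (U : Finset (ℤ × ℤ))
    (hU : ¬ U ⊆ nbF T q) : (Bg.dom T b X).K0 P ι src l k0 U = 0 :=
  K1_supp (fun W hW => K00_near hq hq2 hs ι W hW) hU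

end dom

/-! ### connectedness, any background -/

section conn

variable {G : Type} [CommRing G] [CN G] [DecidableEq G] (B : Bg G) (P : MPar)
variable {κ : Type} [DecidableEq κ] [Fintype κ] {V : Type*} [AddCommGroup V] [Module ℝ V]

/-- the initial activities are connected at range `1` before the reclustering -/
theorem K0_conn (ι : Fld G →ₗ[ℝ] V) (src : Srcs κ G (Ge V)) {l k0 : ℕ}
    (hR : 1 ≤ nearR l k0 0) (hs : ∀ k, Packx915.Conn fd 1 (src.Ys k)) {U : Finset (G × G)}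
    (hU : B.K0 P ι src l k0 U ≠ 0) : Packx915.Conn fd (nearR l k0 0) U :=
  K1_conn Bridgex915.pd_fd hR (fun _ h => J4K0Lx126.K0_conn1 (B := B.bk P src) hs h) hU

theorem K0_nonempty (ι : Fld G →ₗ[ℝ] V) (src : Srcs κ G (Ge V)) {l k0 : ℕ} {U : Finset (G × G)}
    (hU : B.K0 P ι src l k0 U ≠ 0) : U.Nonempty := by
  rw [Finset.nonempty_iff_ne_empty]
  rintro rfl
  exact hU (K0_empty B P ι src l k0)

/-- the initial activities, any background -/
theorem K0_acS_univ (ι : Fld G →ₗ[ℝ] V) (src : Srcs κ G (Ge V)) {l k0 : ℕ}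
    (hR : 1 ≤ nearR l k0 0) (hs : ∀ k, Packx915.Conn fd 1 (src.Ys k)) (U : Finset (G × G))
    (hU : B.K0 P ι src l k0 U ≠ 0) : acS fd (nearR l k0 0) Set.univ U :=
  ⟨K0_nonempty B P ι src hU, K0_conn B P ι src hR hs hU, Set.subset_univ _⟩

/-- **the polymers of the flow**, any background -/
theorem flow_acS_univ [CNZ G] {M K : ℕ} (D : FRDPolyx439.FRD 16 M K) (mk : Finset (G × G))
    (src : Srcs κ G (Ge (Fld G))) {l k0 : ℕ} (hR : 1 ≤ nearR l k0 0)
    (hs : ∀ k, Packx915.Conn fd 1 (src.Ys k)) (n : ℕ) (U : Finset (G × G))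
    (hU : (B.flow P D mk src l k0).K n U ≠ 0) : acS fd (nearR l k0 n) Set.univ U :=
  XBdx915.ac_sys D (K0_acS_univ B P LinearMap.id src hR hs) n U hU

end conn

section domflow

variable {T : Finset (ℤ × ℤ)} {b : BoundaryCondition} {m : ℕ} {X : Fin m → ℤ × ℤ} {P : MPar}
variable {κ : Type} [DecidableEq κ] [Fintype κ]

/-- the initial activities of a domain -/
theorem K0_acS {V : Type*} [AddCommGroup V] [Module ℝ V] (ι : Fld ℤ →ₗ[ℝ] V)
    {src : Srcs κ ℤ (Ge V)} {q l k0 : ℕ} (hq : 2 * P.R + 1 ≤ q) (hq2 : 2 ≤ q)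
    (hsT : ∀ k, src.Ys k ⊆ nbF T q) (hR : 1 ≤ nearR l k0 0)
    (hs : ∀ k, Packx915.Conn fd 1 (src.Ys k)) (U : Finset (ℤ × ℤ))
    (hU : (Bg.dom T b X).K0 P ι src l k0 U ≠ 0) : acS fd (nearR l k0 0) (nbT T q) U := by
  refine ⟨K0_nonempty _ P ι src hU, K0_conn _ P ι src hR hs hU, ?_⟩
  rw [← coe_nbF]
  by_contra h
  exact hU (K0_near hq hq2 hsT ι l k0 U h)

/-- **the polymers of the domain flow**: connected at the range of the scale, near `T` -/
theorem flow_acS {M K : ℕ} (D : FRDPolyx439.FRD 16 M K) (mk : Finset (ℤ × ℤ))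
    {src : Srcs κ ℤ (Ge (Fld ℤ))} {q l k0 : ℕ} (hq : 2 * P.R + 1 ≤ q) (hq2 : 2 ≤ q)
    (hsT : ∀ k, src.Ys k ⊆ nbF T q) (hR : 1 ≤ nearR l k0 0)
    (hs : ∀ k, Packx915.Conn fd 1 (src.Ys k)) (n : ℕ) (U : Finset (ℤ × ℤ))
    (hU : ((Bg.dom T b X).flow P D mk src l k0).K n U ≠ 0) :
    acS fd (nearR l k0 n) (nbT T q) U :=
  XBdx915.ac_sys D (K0_acS LinearMap.id hq hq2 hsT hR hs) n U hU

/-- no source -/
theorem flow_acS_noSrc {M K : ℕ} (D : FRDPolyx439.FRD 16 M K) (mk : Finset (ℤ × ℤ))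
    {q l k0 : ℕ} (hq : 2 * P.R + 1 ≤ q) (hq2 : 2 ≤ q) (hR : 1 ≤ nearR l k0 0) (n : ℕ)
    (U : Finset (ℤ × ℤ))
    (hU : ((Bg.dom T b X).flow P D mk (noSrc ℤ (Ge (Fld ℤ))) l k0).K n U ≠ 0) :
    acS fd (nearR l k0 n) (nbT T q) U :=
  flow_acS D mk hq hq2 (fun k => k.elim0) hR (fun k => k.elim0) n U hU

end domflow

end Crest.Agent.R165.DomAcx117
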