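import Crest.Agent.R165.Comp5_889
import Crest.Agent.R165.DeepBg_898
import Crest.Agent.R165.DomAc_117
import Crest.Agent.R165.C0_950

/-!
# Row 165, block F, leaf P8: the norm bounds of the domain flows (helper889)

* `DomCfg c C1 T X mk K` : regular configuration of size `C1 rr K`
* `ctl_dom`  : the domain flow is controlled (structure `Ctl`) up to step `K`
* `DomB`     : the bounds;  `dom_P8` : **(P8) for all domains / fine discs**, with and without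
  insertions, every amplitude between `A₀` and `A₀ (1 + δ k)`
-/

set_option autoImplicit false
set_option linter.unusedSectionVars false

noncomputable section

open scoped ENNReal
open Crest.ProbabilityR.IsingModel

namespace Crest.Agent.R165.Compx889

open Crest.Agent.R165.Gr0x606 Crest.Agent.R165.Gr1x606 Crest.Agent.R165.GeOpsx337
  Crest.Agent.R165.ExpGx337 Crest.Agent.R165.KFlowx337
open Crest.Agent.R165.Latx683 Crest.Agent.R165.PNormx417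
open Crest.Agent.R165.GDefx387 Crest.Agent.R165.Packx915 Crest.Agent.R165.NSumx915
open Crest.Agent.R165.Bridgex915 Crest.Agent.R165.NKDefx915 Crest.Agent.R165.DefRecx915
open Crest.Agent.R165.GSysx387 Crest.Agent.R165.PEndx683 Crest.Agent.R165.Telx337
open Crest.Agent.R165.FRDPolyx439 Crest.Agent.R165.FRDLatx439
open Crest.Agent.R165.PlaneSumx901
open Crest.Agent.R165.Bkgx683 Crest.Agent.R165.Outx683 Crest.Agent.R165.SpinSysx892
open Crest.Agent.R165.Geo (LatReg bdS)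
open Crest.Agent.R165.GeoIx838 (Sep)
open Crest.Agent.R165.StepOKx838 (MkOK Good)

/-! ### configurations -/

/-- regular configuration of size `C1 rr K` -/
structure DomCfg (c : Cst) (C1 : ℕ) (T : Finset (ℤ × ℤ)) {m : ℕ} (X : Fin m → ℤ × ℤ)
    (mk : Finset (ℤ × ℤ)) (K : ℕ) : Prop where
  reg : ∃ ρ κ : ℝ, LatReg (T : Set (ℤ × ℤ)) ρ κ ∧ κ * ρ ≤ 1 ∧ (C1 : ℝ) * rr c.p c.k0 K ≤ ρ
  sep : Sep (T : Set (ℤ × ℤ)) X mk (32 * rr c.p c.k0 K)
  mks : MkOK mk (rr c.p c.k0 0) (10 * rr c.p c.k0 K)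

/-- the weights of a domain -/
abbrev wT (T : Finset (ℤ × ℤ)) (b : BoundaryCondition) {m : ℕ} (X : Fin m → ℤ × ℤ) : BW ℤ :=
  wX (wDom (T : Set (ℤ × ℤ)) (isF b)) X

/-- the active polymers of a domain -/
abbrev acT (c : Cst) (T : Finset (ℤ × ℤ)) (q : ℕ) (k : ℕ) : Finset (ℤ × ℤ) → Prop :=
  StepGluex897.acS c.p c.k0 k (DomAcx117.nbT (T : Set (ℤ × ℤ)) q)

/-- **the domain flow is controlled**, without sources -/
theorem ctl_dom {c : Cst} {CF : ℝ≥0∞} {C1 : ℕ} (H : Good c CF C1) (hst : Constx891.Std c)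
    {T : Finset (ℤ × ℤ)} {b : BoundaryCondition} {m : ℕ} {X : Fin m → ℤ × ℤ} {K : ℕ}
    (hT : DomCfg c C1 T X ∅ K) (P : MPar) (hR : 1 ≤ P.R) (hq : 2 * P.R + 1 ≤ rr c.p c.k0 0)
    {a : ℕ → ℝ} (ha : ∀ k, c.A0 ≤ a k) (ha2 : ∀ k, a (k + 1) ≤ 2 * a k) :
    Ctl c CF a (domF c P T b X) (wT T b X) (acT c T (2 * P.R + 1))
      (fun k => emM (wT T b X) ((∅ : Finset (ℤ × ℤ)) : Set (ℤ × ℤ)) (rr c.p c.k0 k)) K := by
  have h5 : 5 ≤ c.p * (c.k0 + 1) := by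
    have h1 := hst.p_pos
    have h2 := hst.k0_pos
    nlinarith
  refine ⟨?_, fun k hk => ?_⟩
  · refine StrSx897.str_flow (Bg.dom T b X) P DD ∅ (noSrc ℤ (Ge (Fld ℤ))) (fun k => k.elim0)
      (by omega) (fun U hU x hx => ?_) ?_ K
    · by_contra hcon
      refine hU (DomAcx117.K00_near (T := T) (b := b) (X := X) (P := P)
        (src := noSrc ℤ (Ge (Fld ℤ))) (q := 2 * P.R + 1) le_rfl (by omega) (fun k => k.elim0)
        LinearMap.id U fun hsub => hcon ?_)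
      rw [← DomAcx117.coe_nbF]
      exact hsub hx
    · rw [← ENNReal.ofReal_one]
      exact ENNReal.ofReal_le_ofReal (by linarith [hst.Γ_ge])
  · obtain ⟨ρ, κ, hreg, hκ, hρ⟩ := hT.reg
    have hle : rr c.p c.k0 (k + 1) ≤ rr c.p c.k0 K := rr_mono c.p c.k0 hk
    have hle' : (rr c.p c.k0 (k + 1) : ℝ) ≤ rr c.p c.k0 K := by exact_mod_cast hle
    refine H.dom (T : Set (ℤ × ℤ)) ρ κ hreg hκ m X ∅ (isF b) _
      (FarBx900.fl_OK h5 P (Bg.dom T b X)) k (2 * P.R + 1) (a k) (a (k + 1)) _ ?_ ?_ ?_ ?_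
      (fun U hU => hU.2.1) (fun U hU => ?_) (ha k) (ha (k + 1)) (ha2 k)
    · exact (mul_le_mul_of_nonneg_left hle' (Nat.cast_nonneg _)).trans hρ
    · exact hT.sep.mono (Nat.mul_le_mul_left _ hle)
    · rw [Finset.coe_empty]
      exact MkOK.empty _ _
    · have h1 : rr c.p c.k0 0 ≤ rr c.p c.k0 k := rr_mono c.p c.k0 (Nat.zero_le k)
      have h2 : s2 = 128 := rfl
      rw [h2]
      omega
    · obtain ⟨u, hu⟩ := hU.1
      exact ⟨u, hu, hU.2.2 u hu⟩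

/-- the bounds of a domain flow, amplitudes `a` -/
structure DomB (c : Cst) (P : MPar) (T : Finset (ℤ × ℤ)) (b : BoundaryCondition) {m : ℕ}
    (X : Fin m → ℤ × ℤ) (a : ℕ → ℝ) (M t : ℝ) (K : ℕ) : Prop where
  nk : ∀ k, k ≤ K → NPc c (domF c P T b X) (wT T b X) a allP k ≤
    ENNReal.ofReal (M * t * (1 / 2) ^ k)
  nc : ∀ k, k < K → NCc c (domF c P T b X) k ≤ ENNReal.ofReal (M * t * (1 / 2) ^ k)
  bd : Bd (domF c P T b X) fd (fun k => rr c.p c.k0 (k + 1)) (nearR c.p c.k0)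
    (ENNReal.ofReal c.Γ) (fun k => M * t * (1 / 2) ^ k) K

/-- **(P8) FOR DOMAINS**: one `C1` (geometry), and for every `C` one `ε`, one `M`, for all
configurations, all numbers of steps, all amplitudes between `A₀` and `A₀ (1 + δ k)` -/
theorem dom_P8 (J : ℝ) (R : ℕ) (V : Finset (ℤ × ℤ) → ℝ)
    (hsym : ∀ (lam β z : ℝ) (l k0 : ℕ), PlSym fun U =>
      ((Bg.pl.K0 (mpar J lam R V β z) LinearMap.id (noSrc ℤ (Ge (Fld ℤ))) l k0 U : Ge (Fld ℤ)) :
        Gr (Fld ℤ))) :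
    EvC fun c => ∃ C1 : ℕ, 32 ≤ C1 ∧ ∀ C : ℝ, ∃ ε > 0, ∃ M ≥ 0, ∀ lam β z : ℝ, |lam| < ε →
      NearP J C lam β z → PF J R V C c lam β z →
      ∀ (T : Finset (ℤ × ℤ)) (b : BoundaryCondition) (m : ℕ) (X : Fin m → ℤ × ℤ) (K : ℕ),
        DomCfg c C1 T X ∅ K → ∀ a : ℕ → ℝ, (∀ k, c.A0 ≤ a k) → (∀ k, a (k + 1) ≤ 2 * a k) →
        (∀ k, k ≤ K → a k ≤ Outx683.amp c k) →
        DomB c (mpar J lam R V β z) T b X a M |lam| K := by
  have hq := Constx891.ev_rr_ge fun _ _ => 2 * max R 1 + 1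
  refine (((((plane_P8 J R V hsym).and StepOKx838.stepOK_ev).and Constx891.ev_std).and hq).and
    (C0x950.c0_ev J R V)).mono fun c hc => ?_
  obtain ⟨⟨⟨⟨hpl, CF, hCF, C1, H⟩, hst⟩, hq⟩, hc0⟩ := hc
  refine ⟨C1, H.one_le, fun C => ?_⟩
  obtain ⟨ε₁, hε₁, M₁, hM₁, h1⟩ := hpl C
  obtain ⟨ε₂, hε₂, N, hN, h2⟩ := hc0 C
  obtain ⟨M, ε₃, hM, hε₃, h3⟩ := Ctl.bound c hCF (M₁ + N)
  refine ⟨min ε₁ (min ε₂ ε₃), lt_min hε₁ (lt_min hε₂ hε₃), M, hM.le, ?_⟩
  intro lam β z hl hn hPF T b m X K hT a ha ha2 hamp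
  have l1 : |lam| < ε₁ := hl.trans_le (min_le_left _ _)
  have l2 : |lam| < ε₂ := hl.trans_le ((min_le_right _ _).trans (min_le_left _ _))
  have l3 : |lam| < ε₃ := hl.trans_le ((min_le_right _ _).trans (min_le_right _ _))
  set P := mpar J lam R V β z with hP
  have hPR : P.R = max R 1 := rfl
  have h5 : 5 ≤ c.p * (c.k0 + 1) := by
    have h1 := hst.p_pos
    have h2 := hst.k0_pos
    nlinarith
  have hno : DeepBgx898.NoIso (T : Set (ℤ × ℤ)) := by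
    obtain ⟨ρ, κ, hreg, -, hρ⟩ := hT.reg
    refine DeepBgx898.noIso_latReg hreg (le_trans ?_ hρ)
    have e1 : (1 : ℝ) ≤ C1 := by exact_mod_cast (by have := H.one_le; omega : 1 ≤ C1)
    have e2 : (1 : ℝ) ≤ rr c.p c.k0 K := by exact_mod_cast rr_pos c.p c.k0 K
    nlinarith
  have hctl := ctl_dom (b := b) H hst hT P (by rw [hPR]; exact le_max_right _ _)
    (by rw [hPR]; exact hq 0) ha ha2
  have ha0 : a 0 = c.A0 := le_antisymm (by
    have := hamp 0 (Nat.zero_le _)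
    rwa [show Outx683.amp c 0 = c.A0 from amp_zero c.A0 c.δ] at this) (ha 0)
  have hdeep : ∀ k, k ≤ K → NPc c (domF c P T b X) (wT T b X) a
      (emM (wT T b X) ((∅ : Finset (ℤ × ℤ)) : Set (ℤ × ℤ)) (rr c.p c.k0 k)) k ≤
      ENNReal.ofReal ((M₁ + N) * |lam| * (1 / 2) ^ k) := by
    intro k hk
    have hX : DeepBgx898.PlBd c P (Outx683.amp c) (ENNReal.ofReal c.Γ) K
        fun n => ENNReal.ofReal (M₁ * |lam| * (1 / 2) ^ n) := fun k _ => h1 lam β z l1 hn hPF k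
    have h4 := DeepBgx898.NP_fl (c := c) (P := P) (a := a) (B := Bg.dom T b X)
      (DeepBgx898.plOK_dom hno b X) h5 hX hamp k hk
    rw [Finset.coe_empty]
    refine h4.trans (ENNReal.ofReal_le_ofReal ?_)
    gcongr
    linarith
  have hc0 : NPc c (domF c P T b X) (wT T b X) a
      (fun U => ¬ emM (wT T b X) ((∅ : Finset (ℤ × ℤ)) : Set (ℤ × ℤ)) (rr c.p c.k0 0) U) 0 ≤
      ENNReal.ofReal ((M₁ + N) * |lam|) := by
    have h4 := h2 lam β z l2 hn ℤ (Bg.dom T b X) (C0ax950.W1_dom T b X) (wT T b X)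
      (fun U => ¬ emM (wT T b X) ((∅ : Finset (ℤ × ℤ)) : Set (ℤ × ℤ)) (rr c.p c.k0 0) U)
    have e : NPc c (domF c P T b X) (wT T b X) a
      (fun U => ¬ emM (wT T b X) ((∅ : Finset (ℤ × ℤ)) : Set (ℤ × ℤ)) (rr c.p c.k0 0) U) 0 =
      NK (wT T b X) c.A0 (rr c.p c.k0 0) (ENNReal.ofReal c.Γ)
      (fun U => ¬ emM (wT T b X) ((∅ : Finset (ℤ × ℤ)) : Set (ℤ × ℤ)) (rr c.p c.k0 0) U)
      (fun U => (((fl c P (Bg.dom T b X)).K 0 U : Ge (Fld ℤ)) : Gr (Fld ℤ))) := by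
      unfold NPc NP
      rw [ha0]
    rw [e]
    refine h4.trans (ENNReal.ofReal_le_ofReal ?_)
    have := mul_nonneg hM₁ (abs_nonneg lam)
    linarith
  obtain ⟨k1, k2⟩ := h3 ℤ (domF c P T b X) (wT T b X) a _ _ K |lam| hctl (abs_nonneg _) l3.le
    hdeep hc0
  exact ⟨k1, k2, bd_of_ac k2 fun k hk U hU =>
    ⟨(hctl.str.hac k hk U hU).1, (hctl.str.hac k hk U hU).2.1⟩⟩

end Crest.Agent.R165.Compx889
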