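import Mathlib
import Crest.Agent.R165.GeoB_65
import Crest.Agent.R165.GeoDefs_416
import Crest.Agent.R158.Jt2_785

/-!
# Row 165, block GEO (helper65), file C: `C²` Jordan domains have uniform charts

`exists_CD : IsC2JordanDomain D → D.Nonempty → ∃ r M, CD D r M`.
-/

set_option autoImplicit false

open Set Topology Filter Metric

namespace Crest.Agent.R165.GeoCx65

open Crest.Agent.R165.GeoAx65 Crest.Agent.R165.GeoBx65 Crest.Agent.R165.Geo
open Crest.ProbabilityR.IsingModel Crest.ProbabilityR.Percolation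
open Crest.Agent.R158.Jt785

variable {γ : ℝ → ℂ}

theorem isJordanCurve (h : C2Curve γ) : IsJordanCurve γ := by
  refine ⟨h.cont.continuousOn, h.inj, ?_⟩
  have := h.per 0
  rw [zero_add] at this
  exact this.symm

theorem range_eq (h : C2Curve γ) : range γ = curveTrace γ := by
  refine subset_antisymm ?_ (image_subset_range _ _)
  rintro _ ⟨t, rfl⟩
  obtain ⟨y, hy, hyt⟩ := h.per.exists_mem_Ico₀ one_pos t
  exact ⟨y, ⟨hy.1, hy.2.le⟩, hyt.symm⟩

theorem domain_eq (h : C2Curve γ) :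
    {z : ℂ | z ∉ Set.range γ ∧ Bornology.IsBounded (connectedComponentIn (Set.range γ)ᶜ z)} =
      jordanInterior γ := by
  rw [range_eq h]; rfl

/-- the open region above a graph in a box is preconnected -/
theorem isPreconnected_above {f : ℝ → ℝ} (hf : Continuous f) {r : ℝ}
    (hfr : ∀ u, |u| < r → f u < 3 * r) (p ω : ℂ) :
    IsPreconnected ((fun q : ℝ × ℝ => p + ω * ⟨q.1, q.2⟩) ''
      {q : ℝ × ℝ | |q.1| < r ∧ f q.1 < q.2 ∧ q.2 < 3 * r}) := by
  have e : {q : ℝ × ℝ | |q.1| < r ∧ f q.1 < q.2 ∧ q.2 < 3 * r} =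
      (fun q : ℝ × ℝ => (q.1, f q.1 + q.2 * (3 * r - f q.1))) '' (Ioo (-r) r ×ˢ Ioo (0:ℝ) 1) := by
    ext ⟨u, v⟩
    simp only [mem_setOf_eq, mem_image, mem_prod, mem_Ioo, Prod.exists, Prod.mk.injEq]
    constructor
    · rintro ⟨h1, h2, h3⟩
      have h4 := hfr u h1
      refine ⟨u, (v - f u) / (3 * r - f u), ⟨abs_lt.1 h1, div_pos (by linarith) (by linarith), ?_⟩,
        rfl, ?_⟩
      · rw [div_lt_one (by linarith)]; linarith
      · rw [div_mul_cancel₀ _ (by linarith : (3 * r - f u) ≠ 0)] <;> ring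
    · rintro ⟨a, b, ⟨h1, h2, h3⟩, rfl, h5⟩
      have h4 := hfr a (abs_lt.2 h1)
      refine ⟨abs_lt.2 h1, ?_, ?_⟩
      · rw [← h5]
        have := mul_pos h2 (by linarith : 0 < 3 * r - f a)
        linarith
      · rw [← h5]
        have := mul_lt_mul_of_pos_right h3 (by linarith : 0 < 3 * r - f a)
        linarith
  rw [e]
  have h1 : IsPreconnected (Ioo (-r) r ×ˢ Ioo (0:ℝ) 1) := isPreconnected_Ioo.prod isPreconnected_Ioo
  have h2 := h1.image (fun q : ℝ × ℝ => (q.1, f q.1 + q.2 * (3 * r - f q.1)))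
    (by fun_prop)
  refine h2.image _ (Continuous.continuousOn ?_)
  have : Continuous (fun q : ℝ × ℝ => (⟨q.1, q.2⟩ : ℂ)) := Complex.equivRealProdCLM.symm.continuous
  fun_prop

/-- **sidedness**: in a graph box the two sides of the curve are on different sides -/
theorem two_sides (h : C2Curve γ) (hne : (jordanInterior γ).Nonempty) {r M : ℝ} (hr : 0 < r)
    {t₀ : ℝ} {ω : ℂ} (hω : IsRot ω) {f : ℝ → ℝ} (hf : GraphFn M f)
    (hgr : ∀ u v : ℝ, |u| ≤ r → |v| ≤ 3 * r → (γ t₀ + ω * ⟨u, v⟩ ∈ range γ ↔ v = f u)) :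
    (∀ u v : ℝ, |u| < r → |v| < 3 * r → (γ t₀ + ω * ⟨u, v⟩ ∈ jordanInterior γ ↔ f u < v)) ∨
    (∀ u v : ℝ, |u| < r → |v| < 3 * r → (γ t₀ + ω * ⟨u, v⟩ ∈ jordanInterior γ ↔ v < f u)) := by
  have hJ := isJordanCurve h
  set p := γ t₀ with hp
  have hfb : ∀ u, |u| < r → |f u| < 3 * r := fun u hu => by
    have := hf.abs_le u
    have := abs_nonneg u
    linarith
  -- the upper and lower sets
  set A : Set ℂ := (fun q : ℝ × ℝ => p + ω * ⟨q.1, q.2⟩) ''
      {q : ℝ × ℝ | |q.1| < r ∧ f q.1 < q.2 ∧ q.2 < 3 * r} with hA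
  set B : Set ℂ := (fun q : ℝ × ℝ => p + ω * ⟨q.1, q.2⟩) ''
      {q : ℝ × ℝ | |q.1| < r ∧ q.2 < f q.1 ∧ -(3 * r) < q.2} with hB
  have hAc : IsPreconnected A := isPreconnected_above hf.cont
    (fun u hu => (abs_lt.1 (hfb u hu)).2) p ω
  have hBc : IsPreconnected B := by
    have h1 := isPreconnected_above hf.flip.cont (r := r) (fun u hu => by
      have := (abs_lt.1 (hfb (-u) (by rwa [abs_neg]))).1
      linarith) p (-ω)
    have e : B = (fun q : ℝ × ℝ => p + (-ω) * ⟨q.1, q.2⟩) ''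
        {q : ℝ × ℝ | |q.1| < r ∧ -f (-q.1) < q.2 ∧ q.2 < 3 * r} := by
      ext z
      constructor
      · rintro ⟨q, ⟨h1, h2, h3⟩, rfl⟩
        refine ⟨(-q.1, -q.2), ⟨by rwa [abs_neg], ?_, ?_⟩, ?_⟩
        · simp only [neg_neg]; linarith
        · simp only; linarith
        · simp only
          have : (⟨-q.1, -q.2⟩ : ℂ) = -⟨q.1, q.2⟩ := rfl
          rw [this]; ring
      · rintro ⟨q, ⟨h1, h2, h3⟩, rfl⟩
        refine ⟨(-q.1, -q.2), ⟨by rwa [abs_neg], ?_, ?_⟩, ?_⟩
        · simp only; linarith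
        · simp only; linarith
        · simp only
          have : (⟨-q.1, -q.2⟩ : ℂ) = -⟨q.1, q.2⟩ := rfl
          rw [this]; ring
    rw [e]; exact h1
  have hAt : ∀ z ∈ A, z ∉ curveTrace γ := by
    rintro _ ⟨q, ⟨h1, h2, h3⟩, rfl⟩
    rw [← range_eq h]
    simp only
    rw [hgr q.1 q.2 h1.le (abs_le.2 ⟨by linarith [(abs_lt.1 (hfb _ h1)).1], h3.le⟩)]
    exact h2.ne'
  have hBt : ∀ z ∈ B, z ∉ curveTrace γ := by
    rintro _ ⟨q, ⟨h1, h2, h3⟩, rfl⟩
    rw [← range_eq h]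
    simp only
    rw [hgr q.1 q.2 h1.le (abs_le.2 ⟨h3.le, by linarith [(abs_lt.1 (hfb _ h1)).2]⟩)]
    exact h2.ne
  have hcov : ∀ z, z ∉ curveTrace γ → z ∈ jordanInterior γ ∪ ext γ := fun z hz => by
    rcases cover hJ z with h1 | h1 | h1
    · exact absurd h1 hz
    · exact Or.inl h1
    · exact Or.inr h1
  have hor : ∀ S : Set ℂ, IsPreconnected S → (∀ z ∈ S, z ∉ curveTrace γ) →
      S ⊆ jordanInterior γ ∨ S ⊆ ext γ := fun S hS hSt =>
    hS.subset_or_subset (isOpen_ji hJ) (isOpen_ext hJ) (disj_ji_ext hJ)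
      (fun z hz => hcov z (hSt z hz))
  -- the box is a neighbourhood of `p`
  set Q : Set ℂ := (fun q : ℝ × ℝ => p + ω * ⟨q.1, q.2⟩) '' {q : ℝ × ℝ | |q.1| < r ∧ |q.2| < 3 * r}
    with hQ
  have hpar : ∀ z : ℂ, ∃ u v : ℝ, z = p + ω * ⟨u, v⟩ ∧ |u| ≤ ‖z - p‖ ∧ |v| ≤ ‖z - p‖ := fun z => by
    refine ⟨((starRingEnd ℂ) ω * (z - p)).re, ((starRingEnd ℂ) ω * (z - p)).im, ?_, ?_, ?_⟩
    · rw [Complex.eta, ← mul_assoc, hω.mul_conj]; ring
    · refine (Complex.abs_re_le_norm _).trans (le_of_eq ?_)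
      rw [norm_mul, RCLike.norm_conj, hω.norm, one_mul]
    · refine (Complex.abs_im_le_norm _).trans (le_of_eq ?_)
      rw [norm_mul, RCLike.norm_conj, hω.norm, one_mul]
  have hQn : Q ∈ 𝓝 p := by
    refine mem_of_superset (ball_mem_nhds p hr) fun z hz => ?_
    rw [mem_ball, Complex.dist_eq] at hz
    obtain ⟨u, v, e, hu, hv⟩ := hpar z
    exact ⟨(u, v), ⟨hu.trans_lt hz, hv.trans_lt (by linarith)⟩, e.symm⟩
  have hQsub : ∀ z ∈ Q, z ∉ curveTrace γ → z ∈ A ∪ B := by
    rintro _ ⟨q, ⟨h1, h2⟩, rfl⟩ hz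
    rw [← range_eq h] at hz
    simp only at hz
    rw [hgr q.1 q.2 h1.le h2.le] at hz
    rcases lt_or_gt_of_ne hz with h3 | h3
    · exact Or.inr ⟨q, ⟨h1, h3, (abs_lt.1 h2).1⟩, rfl⟩
    · exact Or.inl ⟨q, ⟨h1, h3, (abs_lt.1 h2).2⟩, rfl⟩
  have hpt : p ∈ curveTrace γ := by rw [← range_eq h]; exact mem_range_self _
  have hin : (Q ∩ jordanInterior γ).Nonempty := by
    have h1 : p ∈ closure (jordanInterior γ) := tr_subset_closure_ji hJ hne hpt
    exact mem_closure_iff_nhds.1 h1 Q hQn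
  have hout : (Q ∩ ext γ).Nonempty := by
    have h1 : p ∈ closure (ext γ) := by
      have := frontier_ext hJ hne
      exact frontier_subset_closure (this.symm ▸ hpt)
    exact mem_closure_iff_nhds.1 h1 Q hQn
  have hdisj := disj_ji_ext hJ
  rcases hor A hAc hAt with hA1 | hA1 <;> rcases hor B hBc hBt with hB1 | hB1
  · exfalso
    obtain ⟨z, hz1, hz2⟩ := hout
    have := hQsub z hz1 hz2.1
    rcases this with h1 | h1
    · exact disjoint_left.1 hdisj (hA1 h1) hz2
    · exact disjoint_left.1 hdisj (hB1 h1) hz2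
  · left
    intro u v hu hv
    constructor
    · intro h1
      rcases lt_trichotomy v (f u) with h2 | h2 | h2
      · exfalso
        exact disjoint_left.1 hdisj h1 (hB1 ⟨(u, v), ⟨hu, h2, (abs_lt.1 hv).1⟩, rfl⟩)
      · exfalso
        have := (hgr u v hu.le hv.le).2 h2
        rw [range_eq h] at this
        exact h1.1 this
      · exact h2
    · intro h1
      exact hA1 ⟨(u, v), ⟨hu, h1, (abs_lt.1 hv).2⟩, rfl⟩
  · right
    intro u v hu hv
    constructor
    · intro h1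
      rcases lt_trichotomy v (f u) with h2 | h2 | h2
      · exact h2
      · exfalso
        have := (hgr u v hu.le hv.le).2 h2
        rw [range_eq h] at this
        exact h1.1 this
      · exfalso
        exact disjoint_left.1 hdisj h1 (hA1 ⟨(u, v), ⟨hu, h2, (abs_lt.1 hv).2⟩, rfl⟩)
    · intro h1
      exact hB1 ⟨(u, v), ⟨hu, h1, (abs_lt.1 hv).1⟩, rfl⟩
  · exfalso
    obtain ⟨z, hz1, hz2⟩ := hin
    have := hQsub z hz1 hz2.1
    rcases this with h1 | h1
    · exact disjoint_left.1 hdisj hz2 (hA1 h1)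
    · exact disjoint_left.1 hdisj hz2 (hB1 h1)

theorem IsRot.exists_pow {ω : ℂ} (h : IsRot ω) : ∃ k : ℕ, ω = Complex.I ^ k := by
  rcases h with rfl | rfl | rfl | rfl
  · exact ⟨0, by simp⟩
  · exact ⟨1, by simp⟩
  · exact ⟨2, by simp⟩
  · refine ⟨3, ?_⟩
    rw [pow_succ, Complex.I_sq]; ring

theorem GraphFn.hasDeriv {M : ℝ} {f : ℝ → ℝ} (hf : GraphFn M f) (s : ℝ) :
    HasDerivAt f (deriv f s) s := (hf.diff s).hasDerivAt

/-- **uniform charts with the domain above the graph** -/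
theorem exists_chart (h : C2Curve γ) (hne : (jordanInterior γ).Nonempty) :
    ∃ r M : ℝ, 0 < r ∧ 0 ≤ M ∧ ∀ p ∈ curveTrace γ, ∃ k g g', Chart (jordanInterior γ) p r M k g g' := by
  obtain ⟨r, M, hr, hM, hg⟩ := exists_graph h
  refine ⟨r / 2, M, by positivity, hM, fun p hp => ?_⟩
  rw [← range_eq h] at hp
  obtain ⟨t₀, rfl⟩ := hp
  obtain ⟨ω, hω, f, hf, hgr⟩ := hg t₀
  have hfr : frontier (jordanInterior γ) = range γ := by
    rw [frontier_ji (isJordanCurve h) hne, range_eq h]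
  have key : ∀ (ω : ℂ) (f : ℝ → ℝ), IsRot ω → GraphFn M f →
      (∀ u v : ℝ, |u| ≤ r → |v| ≤ 3 * r → (γ t₀ + ω * ⟨u, v⟩ ∈ range γ ↔ v = f u)) →
      (∀ u v : ℝ, |u| < r → |v| < 3 * r → (γ t₀ + ω * ⟨u, v⟩ ∈ jordanInterior γ ↔ f u < v)) →
      ∃ k g g', Chart (jordanInterior γ) (γ t₀) (r / 2) M k g g' := by
    intro ω f hω hf hgr hside
    obtain ⟨k, rfl⟩ := IsRot.exists_pow hω
    have hz : ∀ s t : ℝ, ((s:ℂ) + (t:ℂ) * Complex.I) = ⟨s, t⟩ := fun s t =>
      (Complex.mk_eq_add_mul_I s t).symm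
    refine ⟨k, f, deriv f, hf.zero, GraphFn.hasDeriv hf, hf.slope, hf.lip, fun s t hs ht => ?_,
      fun s t hs ht => ?_⟩
    · rw [hz]
      exact hside s t (by linarith) (by linarith)
    · rw [hz, hfr]
      exact hgr s t (by linarith) (by linarith)
  rcases two_sides h hne hr hω hf hgr with hs | hs
  · exact key ω f hω hf hgr hs
  · refine key (-ω) (fun u => -f (-u)) hω.neg hf.flip (fun u v hu hv => ?_) (fun u v hu hv => ?_)
    · have h1 := hgr (-u) (-v) (by rwa [abs_neg]) (by rwa [abs_neg])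
      have : (⟨-u, -v⟩ : ℂ) = -⟨u, v⟩ := rfl
      rw [this, mul_neg, ← neg_mul] at h1
      rw [h1]
      constructor
      · intro h2; linarith
      · intro h2; linarith
    · have h1 := hs (-u) (-v) (by rwa [abs_neg]) (by rwa [abs_neg])
      have : (⟨-u, -v⟩ : ℂ) = -⟨u, v⟩ := rfl
      rw [this, mul_neg, ← neg_mul] at h1
      rw [h1]
      constructor
      · intro h2; linarith
      · intro h2; linarith

/-- the interior is connected -/
theorem isConnected_ji (h : C2Curve γ) (hne : (jordanInterior γ).Nonempty) :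
    IsConnected (jordanInterior γ) := by
  have hJ := isJordanCurve h
  refine ⟨hne, ?_⟩
  obtain ⟨r, M, hr, hM, hch⟩ := exists_chart h hne
  obtain ⟨k, g, g', hc⟩ := hch (γ 0) (by rw [← range_eq h]; exact mem_range_self _)
  -- the chart region above the graph is preconnected and contains all points of `ji` near `γ 0`
  set A : Set ℂ := (fun q : ℝ × ℝ => γ 0 + Complex.I ^ k * ⟨q.1, q.2⟩) ''
      {q : ℝ × ℝ | |q.1| < r ∧ g q.1 < q.2 ∧ q.2 < 3 * r} with hA
  have hz : ∀ s t : ℝ, ((s:ℂ) + (t:ℂ) * Complex.I) = ⟨s, t⟩ := fun s t =>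
    (Complex.mk_eq_add_mul_I s t).symm
  have hgc : Continuous g := continuous_iff_continuousAt.2 fun s => (hc.hd s).continuousAt
  have hgb : ∀ u, |g u| ≤ 3 / 2 * |u| := fun u => by
    have := Convex.norm_image_sub_le_of_norm_hasDerivWithin_le (f := g) (f' := g') (s := univ)
      (x := 0) (y := u) (C := 3 / 2) (fun x _ => (hc.hd x).hasDerivWithinAt)
      (fun x _ => hc.slope x) convex_univ (mem_univ _) (mem_univ _)
    simpa [Real.norm_eq_abs, hc.zero] using this
  have hgb' : ∀ u, |u| < r → |g u| < 3 * r := fun u hu => by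
    have := hgb u
    have := abs_nonneg u
    linarith
  have hAc : IsPreconnected A := isPreconnected_above hgc
    (fun u hu => (abs_lt.1 (hgb' u hu)).2) _ _
  have hAsub : A ⊆ (curveTrace γ)ᶜ := by
    rintro _ ⟨q, ⟨h1, h2, h3⟩, rfl⟩
    have h4 := (hc.mem q.1 q.2 h1.le (abs_le.2 ⟨by linarith [(abs_lt.1 (hgb' _ h1)).1], h3.le⟩)).2 h2
    rw [hz] at h4
    exact h4.1
  have hIk : ‖Complex.I ^ k‖ = 1 := by rw [norm_pow, Complex.norm_I, one_pow]
  have hpar : ∀ z : ℂ, ∃ u v : ℝ, z = γ 0 + Complex.I ^ k * ⟨u, v⟩ ∧ |u| ≤ ‖z - γ 0‖ ∧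
      |v| ≤ ‖z - γ 0‖ := fun z => by
    have hne0 : Complex.I ^ k ≠ 0 := pow_ne_zero _ Complex.I_ne_zero
    have hn : ‖(Complex.I ^ k)⁻¹ * (z - γ 0)‖ = ‖z - γ 0‖ := by
      rw [norm_mul, norm_inv, hIk, inv_one, one_mul]
    refine ⟨((Complex.I ^ k)⁻¹ * (z - γ 0)).re, ((Complex.I ^ k)⁻¹ * (z - γ 0)).im, ?_, ?_, ?_⟩
    · rw [Complex.eta, ← mul_assoc, mul_inv_cancel₀ hne0]; ring
    · exact (Complex.abs_re_le_norm _).trans hn.le
    · exact (Complex.abs_im_le_norm _).trans hn.le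
  have hnear : ∀ z ∈ jordanInterior γ, ‖z - γ 0‖ < r → z ∈ A := fun z hz0 hzr => by
    obtain ⟨u, v, e, hu, hv⟩ := hpar z
    have hu' := hu.trans_lt hzr
    have hv' := hv.trans_lt hzr
    have h4 := (hc.mem u v hu'.le (by linarith)).1 (by rw [hz, ← e]; exact hz0)
    exact ⟨(u, v), ⟨hu', h4, by linarith [(abs_lt.1 hv').2]⟩, e.symm⟩
  -- any two points are in the same component
  rw [isPreconnected_iff_subset_of_disjoint]
  have hp0 : γ 0 ∈ curveTrace γ := by rw [← range_eq h]; exact mem_range_self _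
  have hmeet : ∀ z ∈ jordanInterior γ, A ⊆ connectedComponentIn (curveTrace γ)ᶜ z := fun z hz0 => by
    have h1 : γ 0 ∈ closure (connectedComponentIn (curveTrace γ)ᶜ z) := by
      have := frontier_comp_eq hJ hz0
      exact frontier_subset_closure (this.symm ▸ hp0)
    obtain ⟨w, hw1, hw2⟩ := mem_closure_iff_nhds.1 h1 _ (ball_mem_nhds (γ 0) hr)
    rw [mem_ball, Complex.dist_eq] at hw1
    have hwA : w ∈ A := hnear w (comp_subset_ji hz0 hw2) hw1
    rw [connectedComponentIn_eq hw2]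
    exact hAc.subset_connectedComponentIn hwA hAsub
  obtain ⟨z₀, hz₀⟩ := hne
  have hAne : A.Nonempty := by
    have h1 : γ 0 ∈ closure (jordanInterior γ) := tr_subset_closure_ji hJ ⟨z₀, hz₀⟩ hp0
    obtain ⟨w, hw1, hw2⟩ := mem_closure_iff_nhds.1 h1 _ (ball_mem_nhds (γ 0) hr)
    rw [mem_ball, Complex.dist_eq] at hw1
    exact ⟨w, hnear w hw2 hw1⟩
  obtain ⟨w, hw⟩ := hAne
  have heq : jordanInterior γ = connectedComponentIn (curveTrace γ)ᶜ w := by
    ext z
    constructor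
    · intro hz0
      have h1 := hmeet z hz0 hw
      rw [← connectedComponentIn_eq h1]
      exact mem_connectedComponentIn hz0.1
    · intro hz0
      have h1 := hmeet z₀ hz₀ hw
      have h2 : connectedComponentIn (curveTrace γ)ᶜ w ⊆ jordanInterior γ := by
        rw [← connectedComponentIn_eq h1]
        exact comp_subset_ji hz₀
      exact h2 hz0
  have hpc : IsPreconnected (jordanInterior γ) := by
    rw [heq]; exact isPreconnected_connectedComponentIn
  exact isPreconnected_iff_subset_of_disjoint.1 hpc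

/-- the complement of the interior is connected -/
theorem isConnected_compl_ji (h : C2Curve γ) (hne : (jordanInterior γ).Nonempty) :
    IsConnected (jordanInterior γ)ᶜ := by
  have hJ := isJordanCurve h
  have h1 : (jordanInterior γ)ᶜ = closure (ext γ) := by
    refine subset_antisymm (fun z hz => ?_) (fun z hz => ?_)
    · rcases cover hJ z with h2 | h2 | h2
      · have := frontier_ext hJ hne
        exact frontier_subset_closure (this.symm ▸ h2)
      · exact absurd h2 hz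
      · exact subset_closure h2
    · rcases closure_ext_subset hJ hz with h2 | h2
      · exact disjoint_right.1 (disj_ji_ext hJ) h2
      · exact disjoint_right.1 (disj_ji_tr γ) h2
  rw [h1]
  refine ⟨?_, (isPreconnected_ext hJ).closure⟩
  rw [← h1]
  exact ⟨γ 0, disjoint_right.1 (disj_ji_tr γ) (by
    show γ 0 ∈ curveTrace γ
    rw [← range_eq h]; exact mem_range_self _)⟩

/-- **uniform charts of a `C²` Jordan domain** -/
theorem exists_CD {D : Set ℂ} (hD : IsC2JordanDomain D) (hne : D.Nonempty) :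
    ∃ r M : ℝ, CD D r M := by
  obtain ⟨γ, h1, h2, h3, h4, h5⟩ := hD
  have h : C2Curve γ := ⟨h1, h2, h3, h4⟩
  rw [domain_eq h] at h5
  subst h5
  have hJ := isJordanCurve h
  obtain ⟨r, M, hr, hM, hch⟩ := exists_chart h hne
  refine ⟨r, M, hr, hM, isOpen_ji hJ, isBounded_ji hJ, isConnected_ji h hne,
    isConnected_compl_ji h hne, fun p hp => hch p ?_⟩
  rwa [frontier_ji hJ hne] at hp

end Crest.Agent.R165.GeoCx65
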