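import Mathlib
import Crest.Agent.R165.GeoC_65
import Crest.Agent.R165.GeoD_65
import Crest.Agent.R165.GeoCp_416

/-!
# Row 165, block GEO (helper65), file H: tangent discs and farthest points in the form wanted by block U5

* `tangent_discs` : one radius `ρ₀` for all frontier points and all smaller radii;
* `frontier_infinite`, `frontier_eq_range`;
* `exists_farthest` : a frontier point which is strictly farther from `c` than every point of `D`;
* `exists_inner_ball`, `exists_outer_ball`.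
-/

set_option autoImplicit false

open Set Topology Filter Metric

namespace Crest.Agent.R165.GeoHx65

open Crest.Agent.R165.Geo
open Crest.Agent.R165.GeoAx65 (C2Curve)
open Crest.Agent.R165.GeoCx65
open Crest.ProbabilityR.IsingModel Crest.ProbabilityR.Percolation

variable {D : Set ℂ}

theorem isOpen_C2 (h : IsC2JordanDomain D) : IsOpen D := by
  obtain ⟨γ, h1, h2, h3, h4, h5⟩ := h
  have hc : C2Curve γ := ⟨h1, h2, h3, h4⟩
  rw [domain_eq hc] at h5
  rw [h5]
  exact Crest.Agent.R158.Jt785.isOpen_ji (isJordanCurve hc)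

theorem isBounded_C2 (h : IsC2JordanDomain D) : Bornology.IsBounded D := by
  obtain ⟨γ, h1, h2, h3, h4, h5⟩ := h
  have hc : C2Curve γ := ⟨h1, h2, h3, h4⟩
  rw [domain_eq hc] at h5
  rw [h5]
  exact Crest.Agent.R158.Jt785.isBounded_ji (isJordanCurve hc)

/-- **uniform tangent discs** -/
theorem tangent_discs (h : IsC2JordanDomain D) (hne : D.Nonempty) :
    ∃ ρ₀ : ℝ, 0 < ρ₀ ∧ ∀ p ∈ frontier D, ∃ n : ℂ, ‖n‖ = 1 ∧ ∀ ρ : ℝ, 0 < ρ → ρ ≤ ρ₀ →
      ball (p + ρ * n) ρ ⊆ D ∧ Disjoint (ball (p - ρ * n) ρ) D ∧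
      Disjoint (ball (p - ρ * n) ρ) (closure D) := by
  obtain ⟨r, M, hCD⟩ := exists_CD h hne
  have hr := hCD.r_pos
  have hM := hCD.M_nonneg
  refine ⟨min (r / 2) (1 / (2 * (M + 1))), lt_min (by positivity) (by positivity),
    fun p hp => ?_⟩
  obtain ⟨n, hn, hb⟩ := Crest.Agent.R165.GeoDx65.CD.ball_open hCD hp
  refine ⟨n, hn, fun ρ h1 h2 => ?_⟩
  have h3 : ρ ≤ r / 2 := h2.trans (min_le_left _ _)
  have h4 : ρ ≤ 1 / (2 * (M + 1)) := h2.trans (min_le_right _ _)
  have h5 : 2 * M * ρ ≤ 1 := by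
    rw [le_div_iff₀ (by positivity)] at h4
    nlinarith
  obtain ⟨hb1, hb2⟩ := hb ρ h1 (by linarith) h5
  rw [← closure_eq_self_union_frontier] at hb2
  refine ⟨hb1, disjoint_left.2 fun z hz hzD => hb2 hz (subset_closure hzD),
    disjoint_left.2 fun z hz hzD => hb2 hz hzD⟩

theorem frontier_eq_range {γ : ℝ → ℂ} (h1 : ContDiff ℝ 2 γ) (h2 : Function.Periodic γ 1)
    (h3 : Set.InjOn γ (Set.Ico 0 1)) (h4 : ∀ t : ℝ, deriv γ t ≠ 0)
    (h5 : D = {z : ℂ | z ∉ Set.range γ ∧ Bornology.IsBounded (connectedComponentIn (Set.range γ)ᶜ z)})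
    (hne : D.Nonempty) : frontier D = range γ := by
  have hc : C2Curve γ := ⟨h1, h2, h3, h4⟩
  rw [domain_eq hc] at h5
  rw [h5] at hne ⊢
  rw [Crest.Agent.R158.Jt785.frontier_ji (isJordanCurve hc) hne, range_eq hc]

theorem frontier_infinite (h : IsC2JordanDomain D) (hne : D.Nonempty) : (frontier D).Infinite := by
  obtain ⟨γ, h1, h2, h3, h4, h5⟩ := h
  rw [frontier_eq_range h1 h2 h3 h4 h5 hne]
  have h6 : (γ '' Ico (0:ℝ) 1).Infinite := (Set.infinite_image_iff h3).2 (Ico_infinite one_pos)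
  exact h6.mono (image_subset_range _ _)

/-- **farthest point** of a bounded open set from a centre: it is on the frontier -/
theorem exists_farthest_of_open (hO : IsOpen D) (hb : Bornology.IsBounded D) (hne : D.Nonempty)
    (c : ℂ) : ∃ p ∈ frontier D, (∀ z ∈ closure D, ‖z - c‖ ≤ ‖p - c‖) ∧ ∀ z ∈ D, ‖z - c‖ < ‖p - c‖ := by
  have hK : IsCompact (closure D) := isCompact_of_isClosed_isBounded isClosed_closure hb.closure
  obtain ⟨p, hp, hmax⟩ := hK.exists_isMaxOn hne.closure
    (f := fun z => ‖z - c‖) (by fun_prop)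
  have hmax' : ∀ z ∈ closure D, ‖z - c‖ ≤ ‖p - c‖ := fun z hz => hmax hz
  -- points of the open set are never maximal
  have hstrict : ∀ z ∈ D, ‖z - c‖ < ‖p - c‖ := fun z hz => by
    obtain ⟨ε, hε, hball⟩ := Metric.isOpen_iff.1 hO z hz
    -- move away from `c`
    obtain ⟨u, hu, hu2⟩ : ∃ u : ℂ, ‖u‖ = 1 ∧ z - c = ‖z - c‖ * u := by
      by_cases h0 : z - c = 0
      · exact ⟨1, by simp, by simp [h0]⟩
      · have h1 : (‖z - c‖ : ℂ) ≠ 0 := by
          rw [Ne, Complex.ofReal_eq_zero, norm_eq_zero]; exact h0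
        refine ⟨(z - c) / ‖z - c‖, ?_, ?_⟩
        · rw [norm_div, Complex.norm_real, norm_norm, div_self (norm_ne_zero_iff.2 h0)]
        · rw [mul_div_cancel₀ _ h1]
    have hz' : z + (ε / 2 : ℝ) * u ∈ D := hball (by
      rw [mem_ball, Complex.dist_eq, add_sub_cancel_left, norm_mul, hu, mul_one, Complex.norm_real,
        Real.norm_of_nonneg (by positivity)]
      linarith)
    have h1 := hmax' _ (subset_closure hz')
    have h2 : ‖z + (ε / 2 : ℝ) * u - c‖ = ‖z - c‖ + ε / 2 := by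
      have e : z + (ε / 2 : ℝ) * u - c = ((‖z - c‖ + ε / 2 : ℝ) : ℂ) * u := by
        have : z + (ε / 2 : ℝ) * u - c = (z - c) + (ε / 2 : ℝ) * u := by ring
        rw [this]
        conv_lhs => rw [hu2]
        push_cast
        ring
      rw [e, norm_mul, hu, mul_one, Complex.norm_real, Real.norm_of_nonneg (by positivity)]
    linarith
  refine ⟨p, ?_, hmax', hstrict⟩
  rw [hO.frontier_eq]
  exact ⟨hp, fun h1 => lt_irrefl _ (hstrict p h1)⟩

theorem exists_farthest (h : IsC2JordanDomain D) (hne : D.Nonempty) (c : ℂ) :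
    ∃ p ∈ frontier D, (∀ z ∈ closure D, ‖z - c‖ ≤ ‖p - c‖) ∧ ∀ z ∈ D, ‖z - c‖ < ‖p - c‖ :=
  exists_farthest_of_open (isOpen_C2 h) (isBounded_C2 h) hne c

/-- the domain is inside a disc centred anywhere -/
theorem exists_outer_ball (h : IsC2JordanDomain D) (c : ℂ) : ∃ R : ℝ, 0 < R ∧ D ⊆ ball c R ∧
    closure D ⊆ ball c R := by
  obtain ⟨R, hR, hs⟩ := (isBounded_C2 h).closure.subset_ball_lt 0 c
  exact ⟨R, hR, subset_closure.trans hs, hs⟩

/-- a disc around every point of the domain -/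
theorem exists_inner_ball (h : IsC2JordanDomain D) {z : ℂ} (hz : z ∈ D) : ∃ r : ℝ, 0 < r ∧
    ball z r ⊆ D ∧ closedBall z r ⊆ D := by
  obtain ⟨ε, hε, hb⟩ := Metric.isOpen_iff.1 (isOpen_C2 h) z hz
  exact ⟨ε / 2, by positivity, (ball_subset_ball (by linarith)).trans hb,
    (closedBall_subset_ball (by linarith)).trans hb⟩

/-! ### cuts: straight lattice paths to the complement -/

/-- from a site of a finite set, going in the first negative direction, one leaves the set after at
most `N + 1` steps if the set is in the box of radius `N` around the starting point -/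
theorem exists_cut {T : Set (ℤ × ℤ)} {z : ℤ × ℤ} {N : ℕ} (hT : ∀ w ∈ T, -(N : ℤ) ≤ w.1 - z.1) :
    ∃ n : ℕ, n ≤ N + 1 ∧ (z.1 - n, z.2) ∉ T ∧ ∀ i : ℕ, i < n → (z.1 - i, z.2) ∈ T := by
  classical
  have hex : ∃ n : ℕ, (z.1 - n, z.2) ∉ T := ⟨N + 1, fun h => by
    have := hT _ h
    simp only at this
    push_cast at this
    omega⟩
  refine ⟨Nat.find hex, ?_, Nat.find_spec hex, fun i hi => not_not.1 (Nat.find_min hex hi)⟩
  refine Nat.find_min' hex fun h => ?_
  have := hT _ h
  simp only at this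
  push_cast at this
  omega

/-- deep connectivity: sites with mesh points in a compact connected subset of the open set `D` are
joined by a path staying in `D`, uniformly as the mesh tends to `0`: this is `chain_join` of `GeoCh_416`
for compact `K ⊆ D`; here only the existence of the compact connected set -/
theorem exists_compact_connected {U : Set ℂ} (hU : IsOpen U) (hc : IsConnected U) {K : Set ℂ}
    (hK : IsCompact K) (hKU : K ⊆ U) : ∃ K' : Set ℂ, IsCompact K' ∧ IsPreconnected K' ∧ K ⊆ K' ∧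
      K' ⊆ U := by
  classical
  rcases K.eq_empty_or_nonempty with he | hne
  · exact ⟨∅, isCompact_empty, isPreconnected_empty, by rw [he], empty_subset _⟩
  obtain ⟨x₀, hx₀⟩ := hne
  -- cover `K` by closed balls inside `U`
  have hball : ∀ x ∈ K, ∃ ε > 0, closedBall x ε ⊆ U := fun x hx => by
    obtain ⟨ε, hε, hb⟩ := Metric.isOpen_iff.1 hU x (hKU hx)
    exact ⟨ε / 2, by positivity, (closedBall_subset_ball (by linarith)).trans hb⟩
  choose! ε hε hεU using hball
  obtain ⟨t, htK, hcov⟩ := hK.elim_nhds_subcover (fun x => ball x (ε x))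
    (fun x hx => ball_mem_nhds x (hε x hx))
  have hpath : IsPathConnected U := hU.isConnected_iff_isPathConnected.1 hc
  have hp : ∀ x ∈ K, ∃ P : Set ℂ, IsCompact P ∧ IsPreconnected P ∧ P ⊆ U ∧ x₀ ∈ P ∧ x ∈ P :=
    fun x hx => by
    obtain ⟨p, hp⟩ := hpath.joinedIn x₀ (hKU hx₀) x (hKU hx)
    refine ⟨range p, isCompact_range p.continuous, isPreconnected_range p.continuous, ?_, ⟨0, p.source⟩,
      ⟨1, p.target⟩⟩
    rintro _ ⟨s, rfl⟩
    exact hp s
  choose! P hP1 hP2 hP3 hP4 hP5 using hp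
  refine ⟨⋃ x ∈ t, (P x ∪ closedBall x (ε x)), ?_, ?_, ?_, ?_⟩
  · exact t.isCompact_biUnion fun x hx => (hP1 x (htK x hx)).union (isCompact_closedBall _ _)
  · refine isPreconnected_of_forall x₀ fun y hy => ?_
    simp only [mem_iUnion] at hy
    obtain ⟨x, hx, hxy⟩ := hy
    refine ⟨P x ∪ closedBall x (ε x), fun z hz => ?_, Or.inl (hP4 x (htK x hx)), hxy, ?_⟩
    · exact mem_iUnion₂.2 ⟨x, hx, hz⟩
    · exact IsPreconnected.union x (hP5 x (htK x hx)) (mem_closedBall_self (hε x (htK x hx)).le)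
        (hP2 x (htK x hx)) (convex_closedBall x (ε x)).isPreconnected
  · intro x hx
    have := hcov hx
    simp only [mem_iUnion] at this ⊢
    obtain ⟨y, hy, hxy⟩ := this
    exact ⟨y, hy, Or.inr (ball_subset_closedBall hxy)⟩
  · intro x hx
    simp only [mem_iUnion] at hx
    obtain ⟨y, hy, hxy | hxy⟩ := hx
    · exact hP3 y (htK y hy) hxy
    · exact hεU y (htK y hy) hxy

end Crest.Agent.R165.GeoHx65
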