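import Crest.Agent.R165.BoxRay_432
import Crest.Agent.R165.DBd_915
import Crest.Agent.R165.DefRec_915
import Crest.Agent.R165.GSys_387
import Crest.Agent.R165.DomGeo_900
import Crest.Agent.R165.GeoRL_838
import Crest.Agent.R165.RegI_893

/-!
# Row 165 (S0250): the geometry of the composite flow (helper420)

* `Cfg T X Y ρ` : regular configuration of size `ρ`: a lattice-regular set of sites `T`, insertions
  `X`, marks `Y`, pairwise separated by `ρ` and further than `ρ` from the boundary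
* `cfg_dom` : `C²` domains, `ρ = ⌊c/a⌋`;  `cfg_univ` : the plane, every `ρ`
* `isoBox`, `isoBulk` : isomorphisms of backgrounds on balls;  `near_of_not_emb` : `hnear`
* `StepGeo` : all geometric inputs of `RegIx893.Geo.dstepL` at one scale `r`
* `stepGeo_of_cfg` : `StepGeo` for every configuration of size `≥ C0 (L r)`, all constants absolute
* `KK`, `KK_le`, `KK_tendsto` : number of steps, `rr (KK) ~ δ/a`
* `dom_steps` : `StepGeo` for all steps `k < KK` of a domain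
-/

set_option autoImplicit false
set_option linter.unusedSectionVars false

noncomputable section

open Filter Topology
open Crest.ProbabilityR.IsingModel
open Crest.Agent.R165.Gr0x606 Crest.Agent.R165.Latx683 Crest.Agent.R165.GDefx387
open Crest.Agent.R165.BgIsox432 Crest.Agent.R165.Geo Crest.Agent.R165.DBdx915
open Crest.Agent.R165.Packx915 Crest.Agent.R165.NSumx915 Crest.Agent.R165.DefRecx915
open Crest.Agent.R165.RegGx893 Crest.Agent.R165.RegIx893 Crest.Agent.R165.GSysx387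
open Crest.Agent.R165.RIfx891 (GapU EXb EXbr)

namespace Crest.Agent.R165.GeoScx420

/-! ### balls of faces -/

theorem fd_z (f g : ℤ × ℤ) : fd f g = max (f.1 - g.1).natAbs (f.2 - g.2).natAbs := rfl

theorem ball_eq_box (u : ℤ × ℤ) (R : ℕ) :
    ball u R = boxF (u.1 - R) (u.1 + R) (u.2 - R) (u.2 + R) := by
  ext f
  rw [mem_ball, fd_z]
  simp only [boxF, Set.mem_ofPred_eq]
  omega

/-- a vertex further than `R` from `u` is not an interior vertex of the ball of faces -/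
theorem away_of_lt {u x : ℤ × ℤ} {R : ℕ} (h : R < fd u x) :
    Away (u.1 - R) (u.1 + R) (u.2 - R) (u.2 + R) x := by
  rw [fd_z] at h
  unfold Away
  omega

theorem fd_corner {f z : ℤ × ℤ} (h1 : z.1 = f.1 ∨ z.1 = f.1 + 1) (h2 : z.2 = f.2 ∨ z.2 = f.2 + 1) :
    fd f z ≤ 1 := by
  rw [fd_z]
  omega

/-! ### no boundary site near a site -/

section bd

variable {T : Set (ℤ × ℤ)}

theorem mem_of_no_bd {t v : ℤ × ℤ} (ht : t ∈ T) (h : ∀ z ∈ bdS T, fd t v < fd t z) : v ∈ T := by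
  by_contra hv
  obtain ⟨z, hz, h1⟩ := bdS_hit ht hv
  exact absurd (h z hz) (not_lt.2 h1)

/-- all corners of the faces of a ball are in `T` -/
theorem corners_of_no_bd {u t : ℤ × ℤ} {R q : ℕ} (ht : t ∈ T) (hut : fd u t ≤ q)
    (h : ∀ z ∈ bdS T, R + 1 + 2 * q < fd u z) : ∀ f ∈ ball u R, cornersIn T f := by
  have key : ∀ v, fd u v ≤ R + 1 → v ∈ T := by
    intro v hv
    refine mem_of_no_bd ht fun z hz => ?_
    have h1 := h z hz
    have h2 := fd_triangle u t z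
    have h3 := fd_triangle t u v
    have h4 := fd_comm t u
    omega
  intro f hf
  rw [mem_ball] at hf
  have h1 : ∀ v : ℤ × ℤ, fd f v ≤ 1 → v ∈ T := fun v hv =>
    key v ((fd_triangle u f v).trans (by omega))
  exact ⟨h1 _ (fd_corner (Or.inl rfl) (Or.inl rfl)), h1 _ (fd_corner (Or.inr rfl) (Or.inl rfl)),
    h1 _ (fd_corner (Or.inl rfl) (Or.inr rfl)), h1 _ (fd_corner (Or.inr rfl) (Or.inr rfl))⟩

theorem bdS_univ : bdS (Set.univ : Set (ℤ × ℤ)) = ∅ := by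
  ext w
  simp [bdS]

end bd

/-! ### isomorphisms of backgrounds on balls -/

section iso

variable {T : Set (ℤ × ℤ)} {n : ℕ} {X : Fin n → ℤ × ℤ}

/-- no insertion in the ball: the insertions can be removed -/
def isoBox (w : BW ℤ) {u : ℤ × ℤ} {R : ℕ} (hX : ∀ i, R < fd u (X i)) :
    BgIso (wX w X) w (ball u R) :=
  (rayIso0 w X fun i => away_of_lt (hX i)).mono (ball_eq_box u R).le

/-- no insertion, no boundary site in the ball: plane -/
def isoBulk {u t : ℤ × ℤ} {R q : ℕ} (ht : t ∈ T) (hut : fd u t ≤ q)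
    (hb : ∀ z ∈ bdS T, R + 1 + 2 * q < fd u z) (hX : ∀ i, R < fd u (X i)) (fr : Bool) :
    BgIso (wX (wDom T fr) X) (wPl ℤ) (ball u R) :=
  (isoBox (wDom T fr) hX).trans (critIso (critOn_dom (corners_of_no_bd ht hut hb) fr)) fun _ h => h

/-- small sets with a face near `T`, far from the boundary, the insertions: plane-like -/
theorem emb_of_far {u t : ℤ × ℤ} {r q : ℕ} {U : Finset (ℤ × ℤ)} (hU : size r U ≤ 1) (hu : u ∈ U)
    (ht : t ∈ T) (hut : fd u t ≤ q) (hb : ∀ z ∈ bdS T, (s2 + 1) * r + 1 + 2 * q < fd u z)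
    (hX : ∀ i, (s2 + 1) * r < fd u (X i)) (fr : Bool) : Emb (wX (wDom T fr) X) r U := by
  rw [Bridgex915.size_eq_pack, pack_le_one_iff Bridgex915.pd_fd] at hU
  refine ⟨plMono (isoBulk ht hut hb hX fr).toPlane ?_⟩
  rintro f ⟨v, hv, hf⟩
  have h1 := hU u hu v hv
  have h2 := fd_triangle u v f
  rw [mem_ball, Nat.add_mul]
  omega

/-- **`hnear`**: the small active sets which are not plane-like are near a defect -/
theorem near_of_not_emb {r q D : ℕ} {U : Finset (ℤ × ℤ)} (hr : 0 < r) (hD : s2 + 2 * q + 3 ≤ D)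
    (hU : size r U ≤ 1) (hact : ∃ u ∈ U, ∃ t ∈ T, fd u t ≤ q) (fr : Bool) {mk : Set (ℤ × ℤ)}
    (hne : ¬ emM (wX (wDom T fr) X) mk r U) :
    ∃ x ∈ U, (∃ y ∈ bdS T, fd y x + r ≤ D * r) ∨ (∃ z ∈ mk, fd z x + r ≤ D * r) ∨
      ∃ i, fd (X i) x + r ≤ D * r := by
  by_contra hcon
  push Not at hcon
  obtain ⟨u, hu, t, ht, hut⟩ := hact
  have hDr : (s2 + 2 * q + 3) * r ≤ D * r := Nat.mul_le_mul_right _ hD
  have e : (s2 + 2 * q + 3) * r = (s2 + 1) * r + 2 * (q * r) + 2 * r := by ring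
  have hq : q ≤ q * r := Nat.le_mul_of_pos_right q hr
  apply hne
  refine ⟨emb_of_far hU hu ht hut (fun z hz => ?_) (fun i => ?_) fr, fun v hv z hz => ?_⟩
  · have h1 := (hcon u hu).1 z hz
    rw [fd_comm] at h1
    omega
  · have h1 := (hcon u hu).2.2 i
    rw [fd_comm] at h1
    omega
  · have h1 := (hcon v hv).2.1 z hz
    rw [fd_comm] at h1
    have e2 : (s2 + 1) * r = s2 * r + r := by ring
    omega

end iso

/-! ### configurations -/

/-- **regular configuration of size `ρ`** -/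
structure Cfg (T : Set (ℤ × ℤ)) {n m : ℕ} (X : Fin n → ℤ × ℤ) (Y : Fin m → ℤ × ℤ) (ρ : ℕ) :
    Prop where
  reg : ∃ κ : ℝ, LatReg T ρ κ ∧ κ * ρ ≤ 1
  XT : ∀ i, X i ∈ T
  YT : ∀ j, Y j ∈ T
  Xb : ∀ i, ∀ z ∈ bdS T, ρ < fd (X i) z
  Yb : ∀ j, ∀ z ∈ bdS T, ρ < fd (Y j) z
  XX : ∀ i j, i ≠ j → ρ < fd (X i) (X j)
  YY : ∀ i j, i ≠ j → ρ < fd (Y i) (Y j)
  XY : ∀ i j, ρ < fd (X i) (Y j)

theorem latReg_mono {T : Set (ℤ × ℤ)} {ρ ρ' κ : ℝ} (h : LatReg T ρ κ) (hρ : ρ' ≤ ρ) :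
    LatReg T ρ' κ := fun z => by
  obtain ⟨k, G, G', hE⟩ := h z
  exact ⟨k, G, G', hE.hd, hE.slope, hE.lip, fun w h1 h2 => hE.mem w (h1.trans hρ) (h2.trans hρ)⟩

theorem latReg_univ {ρ : ℝ} : LatReg (Set.univ : Set (ℤ × ℤ)) ρ 0 := fun z =>
  ⟨0, fun _ => -(|ρ| + 1), fun _ => 0, fun s => hasDerivAt_const _ _, fun s => by norm_num,
    fun s t => by simp, fun w _ h2 => by
      simp only [Set.mem_univ, true_iff]
      have := (abs_le.1 (h2.trans (le_abs_self ρ))).1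
      linarith⟩

section cfg

variable {T : Set (ℤ × ℤ)} {n m : ℕ} {X : Fin n → ℤ × ℤ} {Y : Fin m → ℤ × ℤ} {ρ : ℕ}

theorem Cfg.mono (h : Cfg T X Y ρ) {ρ' : ℕ} (hρ : ρ' ≤ ρ) : Cfg T X Y ρ' where
  reg := by
    obtain ⟨κ, h1, h2⟩ := h.reg
    have h3 : (ρ' : ℝ) ≤ ρ := by exact_mod_cast hρ
    refine ⟨κ, latReg_mono h1 h3, ?_⟩
    have hκ : 0 ≤ κ := by
      obtain ⟨k, G, G', hG⟩ := h1 0
      exact hG.kappa_nonneg
    exact (mul_le_mul_of_nonneg_left h3 hκ).trans h2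
  XT := h.XT
  YT := h.YT
  Xb i z hz := hρ.trans_lt (h.Xb i z hz)
  Yb i z hz := hρ.trans_lt (h.Yb i z hz)
  XX i j hij := hρ.trans_lt (h.XX i j hij)
  YY i j hij := hρ.trans_lt (h.YY i j hij)
  XY i j := hρ.trans_lt (h.XY i j)

/-- without marks -/
theorem Cfg.noMarks (h : Cfg T X Y ρ) : Cfg T X (Fin.elim0 : Fin 0 → ℤ × ℤ) ρ where
  reg := h.reg
  XT := h.XT
  YT j := j.elim0
  Xb := h.Xb
  Yb j := j.elim0
  XX := h.XX
  YY i := i.elim0
  XY _ j := j.elim0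

/-- without insertions -/
theorem Cfg.noIns (h : Cfg T X Y ρ) : Cfg T (Fin.elim0 : Fin 0 → ℤ × ℤ) Y ρ where
  reg := h.reg
  XT j := j.elim0
  YT := h.YT
  Xb j := j.elim0
  Yb := h.Yb
  XX i := i.elim0
  YY := h.YY
  XY i := i.elim0

/-- the plane -/
theorem cfg_univ (hX : ∀ i j, i ≠ j → ρ < fd (X i) (X j)) (hY : ∀ i j, i ≠ j → ρ < fd (Y i) (Y j))
    (hXY : ∀ i j, ρ < fd (X i) (Y j)) : Cfg Set.univ X Y ρ where
  reg := ⟨0, latReg_univ, by simp⟩
  XT _ := Set.mem_univ _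
  YT _ := Set.mem_univ _
  Xb i z hz := by rw [bdS_univ] at hz; exact absurd hz (Set.notMem_empty _)
  Yb i z hz := by rw [bdS_univ] at hz; exact absurd hz (Set.notMem_empty _)
  XX := hX
  YY := hY
  XY := hXY

/-- **the composite background of 893** on a configuration; absolute constants -/
theorem geo_of_cfg {C C' Cs : ℝ} (hC : 0 ≤ C) (hC' : 0 ≤ C') (hCs : 0 ≤ Cs) (hG : GapU Cs)
    (hE : EXb C) (hE' : EXbr C') (Λ : ℕ) :
    ∃ r0 C0 : ℕ, 2 ≤ r0 ∧ 1 ≤ C0 ∧ ∀ (T : Set (ℤ × ℤ)) (n m : ℕ) (X : Fin n → ℤ × ℤ)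
      (Y : Fin m → ℤ × ℤ) (ρ : ℕ), Cfg T X Y ρ → ∀ (b : Bool) (R0 : ℕ), C0 * R0 ≤ ρ → R0 + 1 ≤ ρ →
      Geo (wX (wDom T b) X) (GeoRDx838.KG C C' Cs) Λ r0 R0 X (bdS T) (Set.range Y) Set.univ := by
  obtain ⟨r0, C0, hr0, hC0, H⟩ := GeoRLx838.geo_lat hC hC' hCs hG hE hE' Λ 0
  refine ⟨r0, C0, hr0, hC0, fun T n m X Y ρ hc b R0 hR hR1 => ?_⟩
  obtain ⟨κ, hκ, hκρ⟩ := hc.reg
  obtain ⟨h1, h2, h3⟩ := H T ρ κ hκ hκρ n X b R0 (by exact_mod_cast hR)
  refine ⟨?_, fun y hy => ?_, ?_, fun i => ?_, fun x _ => ?_⟩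
  · exact GeoRDx838.one_le_KG C C' Cs
  · exact h1 y y hy (by rw [fd_self]) fun i => by
      have := hc.Xb i y hy
      rw [fd_comm] at this
      omega
  · rintro z ⟨j, rfl⟩
    rcases h3 (Y j) with h4 | ⟨y, hy, h5, -⟩
    · exact h4
    · exfalso
      rcases hy with hy | ⟨i, rfl⟩
      · have := hc.Yb j y hy
        rw [fd_comm] at this
        omega
      · have := hc.XY i j
        omega
  · exact h2 i (hc.XT i) (fun z hz => by have := hc.Xb i z hz; omega)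
      (fun j hj => by have := hc.XX i j hj.symm; omega)
  · rcases h3 x with h4 | ⟨y, hy, -, h5⟩
    · exact Or.inl h4
    · rcases hy with hy | ⟨i, rfl⟩
      · exact Or.inr (Or.inl ⟨y, Or.inl hy, h5⟩)
      · exact Or.inr (Or.inr ⟨i, h5⟩)

end cfg

/-! ### the geometric inputs of one step -/

/-- **all geometric inputs of `RegIx893.Geo.dstepL`** at the scale `r`, `r' = L r` -/
structure StepGeo {G : Type} [CommRing G] [CN G] {ι : Type*} (w : BW G) (C : ℝ)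
    (Λ r0 D L r : ℕ) (loc : ι → G × G) (B Z : Set (G × G)) (ac em : Finset (G × G) → Prop) :
    Prop where
  geo : Geo w C Λ r0 (32 * (L * r)) loc B Z Set.univ
  sep : ∀ i j, i ≠ j → 2 * (L * r + D * r) < fd (loc i) (loc j)
  near : ∀ U, ac U → size r U ≤ 1 → ¬ em U → ∃ x ∈ U,
    (∃ y ∈ B, fd y x + r ≤ D * r) ∨ (∃ z ∈ Z, fd z x + r ≤ D * r) ∨
    ∃ i, fd (loc i) x + r ≤ D * r
  nb : DCount fd B (L * r + D * r) r (8 * (L + D) + 1)
  nm : DCount fd Z (L * r + D * r) r 1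

theorem StepGeo.mono_ac {G : Type} [CommRing G] [CN G] {ι : Type*} {w : BW G} {C : ℝ}
    {Λ r0 D L r : ℕ} {loc : ι → G × G} {B Z : Set (G × G)} {ac ac' em em' : Finset (G × G) → Prop}
    (h : StepGeo w C Λ r0 D L r loc B Z ac em) (hac : ∀ U, ac' U → ac U)
    (hem : ∀ U, em U → em' U) : StepGeo w C Λ r0 D L r loc B Z ac' em' :=
  ⟨h.geo, h.sep, fun U h1 h2 h3 => h.near U (hac U h1) h2 fun h4 => h3 (hem U h4), h.nb, h.nm⟩

/-- separated points are alone in small balls -/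
theorem dcount_range {m : ℕ} {Y : Fin m → ℤ × ℤ} {R r : ℕ} (h : ∀ i j, i ≠ j → 2 * R < fd (Y i) (Y j)) :
    DCount fd (Set.range Y) R r 1 := by
  intro f S hS _
  refine Finset.card_le_one.2 fun x hx y hy => ?_
  obtain ⟨⟨i, rfl⟩, h1⟩ := hS x hx
  obtain ⟨⟨j, rfl⟩, h2⟩ := hS y hy
  by_contra hne
  have h3 := h i j fun hij => hne (by rw [hij])
  have h4 := fd_triangle (Y i) f (Y j)
  rw [fd_comm (Y i) f] at h4
  omega

/-- **one step on a configuration**: all constants absolute; `r0`, `C1` depend on `Λ` only -/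
theorem stepGeo_of_cfg {C C' Cs : ℝ} (hC : 0 ≤ C) (hC' : 0 ≤ C') (hCs : 0 ≤ Cs) (hG : GapU Cs)
    (hE : EXb C) (hE' : EXbr C') (Λ : ℕ) :
    ∃ r0 C1 : ℕ, 2 ≤ r0 ∧ 1 ≤ C1 ∧ ∀ (T : Set (ℤ × ℤ)) (n m : ℕ) (X : Fin n → ℤ × ℤ)
      (Y : Fin m → ℤ × ℤ) (ρ : ℕ), Cfg T X Y ρ → ∀ (b : Bool) (D L r q : ℕ),
      s2 + 2 * q + 3 ≤ D → D ≤ 4 * L → 6 ≤ r → C1 * (L * r) ≤ ρ →
      ∀ ac : Finset (ℤ × ℤ) → Prop, (∀ U, ac U → ∃ u ∈ U, ∃ t ∈ T, fd u t ≤ q) →
      StepGeo (wX (wDom T b) X) (GeoRDx838.KG C C' Cs) Λ r0 D L r X (bdS T) (Set.range Y) ac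
        (emM (wX (wDom T b) X) (Set.range Y) r) := by
  obtain ⟨r0, C0, hr0, hC0, H⟩ := geo_of_cfg hC hC' hCs hG hE hE' Λ
  refine ⟨r0, 32 * (C0 + 1), hr0, by omega, ?_⟩
  intro T n m X Y ρ hc b D L r q hD hDL hr hρ ac hac
  have hL : 0 < L := by
    have : 0 < s2 := by unfold s2; norm_num
    omega
  have hLr : 0 < L * r := Nat.mul_pos hL (by omega)
  have e1 : 32 * (C0 + 1) * (L * r) = C0 * (32 * (L * r)) + 32 * (L * r) := by ring
  have h2 : 1 * (32 * (L * r)) ≤ C0 * (32 * (L * r)) := Nat.mul_le_mul_right _ hC0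
  have hDr : D * r ≤ 4 * (L * r) := by
    rw [← mul_assoc]; exact Nat.mul_le_mul_right _ hDL
  refine ⟨H T n m X Y ρ hc b _ (by omega) (by omega), fun i j hij => ?_, fun U h3 h4 h5 => ?_,
    ?_, ?_⟩
  · have := hc.XX i j hij
    omega
  · exact near_of_not_emb (by omega) hD h4 (hac U h3) b h5
  · obtain ⟨κ, hκ, -⟩ := hc.reg
    have h3 : ((L * r + D * r : ℕ) : ℝ) + 1 ≤ ρ := by
      have : L * r + D * r + 1 ≤ ρ := by omega
      exact_mod_cast this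
    exact (dcount_bd hκ h3 hr).mono le_rfl le_rfl le_rfl (bd_count hr)
  · refine dcount_range fun i j hij => ?_
    have := hc.YY i j hij
    omega

/-! ### domains -/

section dom

open Crest.Agent.R165.Scalex900 Crest.Agent.R165.DomGeox900

theorem no_bd_of_corners {T : Set (ℤ × ℤ)} {x : ℤ × ℤ} {R : ℕ}
    (h : ∀ f : ℤ × ℤ, fd x f ≤ R + 1 → cornersIn T f) : ∀ z ∈ bdS T, R < fd x z := by
  rintro z ⟨u, hzu, hu⟩
  by_contra hlt
  rw [not_lt] at hlt
  have h1 : z ∈ T := (h z (by omega)).1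
  have h2 : fd z u ≤ 1 := by
    rw [fd_z]
    rcases hzu with ⟨h3, h4⟩ | ⟨h3, h4⟩
    · rw [Int.abs_eq_natAbs] at h4; omega
    · rw [Int.abs_eq_natAbs] at h4; omega
  have h3 : u ∈ T := (h u ((fd_triangle x z u).trans (by omega))).1
  rcases hu with ⟨-, h4⟩ | ⟨h4, -⟩
  · exact h4 h3
  · exact h4 h1

/-- **`C²` domains**: configurations of size `c / a` -/
theorem cfg_dom {D : Set ℂ} {r M : ℝ} (h : CD D r M) {n m : ℕ} {x : Fin n → ℂ} {y : Fin m → ℂ}
    (hx : ∀ i, x i ∈ D) (hy : ∀ j, y j ∈ D) (hinj : Function.Injective (Fin.append x y)) :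
    ∃ c > 0, ∀ᶠ a : ℝ in 𝓝[>] 0, Cfg (domainSites D a) (fun i => meshIndex a (x i))
      (fun j => meshIndex a (y j)) ⌊c / a⌋₊ := by
  have hxy : ∀ i, Fin.append x y i ∈ D := fun i => by
    refine Fin.addCases (fun i => ?_) (fun i => ?_) i
    · rw [Fin.append_left]; exact hx i
    · rw [Fin.append_right]; exact hy i
  obtain ⟨c, hc, H⟩ := geo_all h.isOpen hxy hinj
  have hr := h.r_pos
  have hM := h.M_nonneg
  set c1 : ℝ := min (c / 4) (min (r / 2) (1 / (M + 1))) with hc1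
  have hc10 : 0 < c1 := lt_min (by positivity) (lt_min (by positivity) (by positivity))
  refine ⟨c1, hc10, ?_⟩
  have hsmall : ∀ᶠ a : ℝ in 𝓝[>] 0, a ≤ c / 4 :=
    mem_of_superset (Ioc_mem_nhdsGT (by positivity : (0:ℝ) < c / 4)) fun a ha => ha.2
  filter_upwards [H, hsmall, self_mem_nhdsWithin] with a hH ha4 ha0
  have ha : (0 : ℝ) < a := ha0
  obtain ⟨h1, h2⟩ := hH
  have hfl : ((⌊c1 / a⌋₊ : ℕ) : ℝ) ≤ c1 / a := Nat.floor_le (by positivity)
  have hc4 : c1 / a ≤ c / 4 / a := by gcongr; exact min_le_left _ _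
  have h14 : (1 : ℝ) ≤ c / 4 / a := by rw [le_div_iff₀ ha]; linarith
  have e4 : c / a = c / 4 / a + c / 4 / a + c / 4 / a + c / 4 / a := by ring
  have hbig : ((⌊c1 / a⌋₊ + 1 : ℕ) : ℝ) < c / a := by push_cast; linarith
  have hb : ∀ i, ∀ z ∈ bdS (domainSites D a), ⌊c1 / a⌋₊ < fd (meshIndex a (Fin.append x y i)) z :=
    fun i => no_bd_of_corners fun f hf => h2 i f
      (le_trans (by exact_mod_cast hf) hbig.le)
  have hs : ∀ i j, i ≠ j →
      ⌊c1 / a⌋₊ < fd (meshIndex a (Fin.append x y i)) (meshIndex a (Fin.append x y j)) := by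
    intro i j hij
    have h3 := h1 i j hij
    have h4 : ((⌊c1 / a⌋₊ + 1 : ℕ) : ℝ) < (fd (meshIndex a (Fin.append x y i))
      (meshIndex a (Fin.append x y j)) : ℝ) := hbig.trans_le h3
    have h5 : ⌊c1 / a⌋₊ + 1 < fd (meshIndex a (Fin.append x y i))
      (meshIndex a (Fin.append x y j)) := by exact_mod_cast h4
    omega
  have hT : ∀ i, meshIndex a (Fin.append x y i) ∈ domainSites D a := fun i =>
    (h2 i _ (by rw [fd_self]; push_cast; positivity)).1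
  refine ⟨⟨M * a, ?_, ?_⟩, fun i => ?_, fun j => ?_, fun i => ?_, fun j => ?_, fun i j hij => ?_,
    fun i j hij => ?_, fun i j => ?_⟩
  · refine latReg_mono (latReg_domainSites h (r0 := r / 2) (by positivity) (by linarith) ha) ?_
    refine hfl.trans ?_
    gcongr
    exact (min_le_right _ _).trans (min_le_left _ _)
  · have h5 : c1 ≤ 1 / (M + 1) := (min_le_right _ _).trans (min_le_right _ _)
    have h6 : c1 * (M + 1) ≤ 1 := by rwa [le_div_iff₀ (by positivity)] at h5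
    calc M * a * (⌊c1 / a⌋₊ : ℝ) ≤ M * a * (c1 / a) :=
          mul_le_mul_of_nonneg_left hfl (by positivity)
      _ = M * c1 := by field_simp
      _ ≤ 1 := by nlinarith
  · have := hT (Fin.castAdd m i); rwa [Fin.append_left] at this
  · have := hT (Fin.natAdd n j); rwa [Fin.append_right] at this
  · have := hb (Fin.castAdd m i); rwa [Fin.append_left] at this
  · have := hb (Fin.natAdd n j); rwa [Fin.append_right] at this
  · have := hs (Fin.castAdd m i) (Fin.castAdd m j) (by simpa [Fin.ext_iff] using hij)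
    rwa [Fin.append_left, Fin.append_left] at this
  · have := hs (Fin.natAdd n i) (Fin.natAdd n j) (by simpa [Fin.ext_iff] using hij)
    rwa [Fin.append_right, Fin.append_right] at this
  · have := hs (Fin.castAdd m i) (Fin.natAdd n j) (by
      intro h7
      have := congrArg Fin.val h7
      simp only [Fin.val_castAdd, Fin.val_natAdd] at this
      have := i.2
      omega)
    rwa [Fin.append_left, Fin.append_right] at this

/-! ### the number of steps -/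

/-- number of steps up to the macroscopic scale `δ` -/
def KK (l k0 : ℕ) (δ a : ℝ) : ℕ := lastK l k0 (δ / a)

theorem rr_cast (l k0 k : ℕ) : (rr l k0 k : ℝ) = (2 : ℝ) ^ (l * (k0 + k)) := by
  unfold rr; push_cast; rfl

theorem rr_le_of_le_KK {l k0 k : ℕ} {δ a : ℝ} (h0 : (2 : ℝ) ^ (l * k0) ≤ δ / a)
    (hk : k ≤ KK l k0 δ a) : (rr l k0 k : ℝ) ≤ δ / a := by
  rw [rr_cast]
  refine le_trans ?_ (lastK_le h0)
  exact pow_le_pow_right₀ (by norm_num) (Nat.mul_le_mul_left _ (by unfold KK at hk; omega))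

theorem lt_rr_KK {l k0 : ℕ} (hl : 1 ≤ l) (δ a : ℝ) :
    δ / a < 2 ^ l * (rr l k0 (KK l k0 δ a) : ℝ) := by
  refine (lt_lastK (k0 := k0) hl (δ / a)).trans_le (le_of_eq ?_)
  rw [rr_cast, ← pow_add]
  congr 1
  unfold KK
  ring

theorem KK_tendsto {l : ℕ} (hl : 1 ≤ l) (k0 : ℕ) {δ : ℝ} (hδ : 0 < δ) :
    Tendsto (KK l k0 δ) (𝓝[>] 0) atTop := lastK_div_tendsto hl k0 hδ

theorem ev_pow_le (N : ℝ) {δ : ℝ} (hδ : 0 < δ) : ∀ᶠ a : ℝ in 𝓝[>] 0, N ≤ δ / a :=
  (Tendsto.const_mul_atTop hδ tendsto_inv_nhdsGT_zero).eventually_ge_atTop N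

/-- all scales of the steps `k < KK` are small compared with `c / a` -/
theorem scale_le {l k0 k C1 : ℕ} {δ c a : ℝ} (ha : 0 < a) (hδ : C1 * δ ≤ c)
    (h0 : (2 : ℝ) ^ (l * k0) ≤ δ / a) (hk : k < KK l k0 δ a) :
    C1 * (2 ^ l * rr l k0 k) ≤ ⌊c / a⌋₊ := by
  rw [← rr_succ]
  refine Nat.le_floor ?_
  push_cast
  calc (C1 : ℝ) * rr l k0 (k + 1) ≤ C1 * (δ / a) :=
        mul_le_mul_of_nonneg_left (rr_le_of_le_KK h0 (by omega)) (Nat.cast_nonneg _)
    _ = C1 * δ / a := by ring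
    _ ≤ c / a := by gcongr

/-- **all steps of a domain**: `StepGeo` with the absolute constants for `k < KK l k0 δ a` -/
theorem dom_steps {C C' Cs : ℝ} (hC : 0 ≤ C) (hC' : 0 ≤ C') (hCs : 0 ≤ Cs) (hG : GapU Cs)
    (hE : EXb C) (hE' : EXbr C') (Λ : ℕ) :
    ∃ r0 : ℕ, 2 ≤ r0 ∧ ∀ (D : Set ℂ) (r M : ℝ), CD D r M → ∀ (n m : ℕ) (x : Fin n → ℂ)
      (y : Fin m → ℂ), (∀ i, x i ∈ D) → (∀ j, y j ∈ D) → Function.Injective (Fin.append x y) →
      ∃ δ1 > 0, ∀ δ, 0 < δ → δ ≤ δ1 → ∀ (b : Bool) (Dd l k0 q : ℕ), s2 + 2 * q + 3 ≤ Dd →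
      Dd ≤ 4 * 2 ^ l → 6 ≤ rr l k0 0 →
      ∀ᶠ a : ℝ in 𝓝[>] 0, ∀ k < KK l k0 δ a, ∀ ac : Finset (ℤ × ℤ) → Prop,
      (∀ U, ac U → ∃ u ∈ U, ∃ t ∈ domainSites D a, fd u t ≤ q) →
      StepGeo (wX (wDom (domainSites D a) b) fun i => meshIndex a (x i)) (GeoRDx838.KG C C' Cs) Λ r0
        Dd (2 ^ l) (rr l k0 k) (fun i => meshIndex a (x i)) (bdS (domainSites D a))
        (Set.range fun j => meshIndex a (y j)) ac
        (emM (wX (wDom (domainSites D a) b) fun i => meshIndex a (x i))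
          (Set.range fun j => meshIndex a (y j)) (rr l k0 k)) ∧
      StepGeo (wDom (domainSites D a) b) (GeoRDx838.KG C C' Cs) Λ r0
        Dd (2 ^ l) (rr l k0 k) (Fin.elim0 : Fin 0 → ℤ × ℤ) (bdS (domainSites D a))
        (Set.range fun j => meshIndex a (y j)) ac
        (emM (wDom (domainSites D a) b)
          (Set.range fun j => meshIndex a (y j)) (rr l k0 k)) := by
  obtain ⟨r0, C1, hr0, hC1, H⟩ := stepGeo_of_cfg hC hC' hCs hG hE hE' Λ
  refine ⟨r0, hr0, ?_⟩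
  intro D r M h n m x y hx hy hinj
  obtain ⟨c, hc, Hc⟩ := cfg_dom h hx hy hinj
  have hC1' : (0 : ℝ) < C1 := by exact_mod_cast hC1
  refine ⟨c / C1, by positivity, fun δ hδ hδ1 b Dd l k0 q hq hDd h6 => ?_⟩
  have hle : C1 * δ ≤ c := by rw [le_div_iff₀ hC1'] at hδ1; linarith
  filter_upwards [Hc, ev_pow_le ((2 : ℝ) ^ (l * k0)) hδ, self_mem_nhdsWithin] with a hcf h0 ha0 k hk
    ac hac
  have ha : (0 : ℝ) < a := ha0
  have hsc := scale_le ha hle h0 hk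
  have hr6 : 6 ≤ rr l k0 k := h6.trans (rr_mono l k0 (Nat.zero_le k))
  refine ⟨H _ n m _ _ _ hcf b Dd (2 ^ l) _ q hq hDd hr6 hsc ac hac, ?_⟩
  have h7 := H _ 0 m _ _ _ hcf.noIns b Dd (2 ^ l) _ q hq hDd hr6 hsc ac hac
  have e : ∀ w : BW ℤ, wX w (Fin.elim0 : Fin 0 → ℤ × ℤ) = w := fun w => by
    funext z j; simp [wX, ray]
  rw [e] at h7
  exact h7

end dom

end Crest.Agent.R165.GeoScx420
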