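import Crest.Agent.R165.J1c_606
import Crest.Agent.R165.GeoCp_416
import Crest.Agent.R165.GeoC_65

/-!
# Row 165 (helper65): the site sets of `C²` Jordan domains have no holes for small mesh

* `noHole_of_join` : a finite set of sites with connected complement satisfies `NoHole` of `J1c_606`;
* `eventually_noHole` : for `CD D r M`, and hence for a nonempty `C²` Jordan domain, `NoHole` holds for
  every finset representing `domainSites D a`, for all small `a > 0`.
-/

set_option autoImplicit false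

open Set Topology Filter

namespace Crest.Agent.R165.NoHolex65

open Crest.Agent.R165.Geo
open Crest.Agent.R165.J1ax606 Crest.Agent.R165.J1bx606 Crest.Agent.R165.J1cx606
open Crest.ProbabilityR.IsingModel

theorem nn_edge {x y : ℤ × ℤ} (h : nn x y) :
    ∃ e : EG ℤ, (e.1 = x ∧ e.1 + uv e.2 = y) ∨ (e.1 = y ∧ e.1 + uv e.2 = x) := by
  obtain ⟨x1, x2⟩ := x
  obtain ⟨y1, y2⟩ := y
  rcases h with ⟨h1, h2⟩ | ⟨h1, h2⟩
  · simp only at h1 h2
    subst h1
    rcases (abs_eq (by norm_num : (0:ℤ) ≤ 1)).1 h2 with h3 | h3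
    · refine ⟨((y1, x2), 0), Or.inr ⟨rfl, ?_⟩⟩
      simp [uv]; omega
    · refine ⟨((x1, x2), 0), Or.inl ⟨rfl, ?_⟩⟩
      simp [uv]; omega
  · simp only at h1 h2
    subst h1
    rcases (abs_eq (by norm_num : (0:ℤ) ≤ 1)).1 h2 with h3 | h3
    · refine ⟨((x1, y2), 1), Or.inr ⟨rfl, ?_⟩⟩
      simp [uv]; omega
    · refine ⟨((x1, x2), 1), Or.inl ⟨rfl, ?_⟩⟩
      simp [uv]; omega

/-- along an edge outside `T` the membership in `N` does not change -/
theorem same_of_nn {N T : Finset (ℤ × ℤ)} (h : walls N ⊆ touch T) {x y : ℤ × ℤ} (hx : x ∉ T)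
    (hy : y ∉ T) (hxy : nn x y) : x ∈ N ↔ y ∈ N := by
  obtain ⟨e, he⟩ := nn_edge hxy
  by_contra hc
  have h1 : e ∈ walls N := by
    rw [mem_walls]
    rcases he with ⟨h2, h3⟩ | ⟨h2, h3⟩
    · rw [h3, h2]; exact hc
    · rw [h3, h2]; exact fun h4 => hc h4.symm
  have h2 := h h1
  rw [mem_touch] at h2
  rcases he with ⟨h3, h4⟩ | ⟨h3, h4⟩
  · rw [h4, h3] at h2
    exact h2.elim hx hy
  · rw [h4, h3] at h2
    exact h2.elim hy hx

theorem same_of_join {N T : Finset (ℤ × ℤ)} (h : walls N ⊆ touch T) {x y : ℤ × ℤ}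
    (hxy : JoinIn ((T : Set (ℤ × ℤ))ᶜ) x y) : x ∈ N ↔ y ∈ N := by
  induction hxy with
  | refl => exact Iff.rfl
  | tail _ h2 ih =>
    exact ih.trans (same_of_nn h (fun h3 => h2.1 (Finset.mem_coe.2 h3))
      (fun h3 => h2.2.1 (Finset.mem_coe.2 h3)) h2.2.2)

/-- a finite set of sites with connected complement has no holes -/
theorem noHole_of_join {T : Finset (ℤ × ℤ)}
    (h : ∀ u, u ∉ T → ∀ v, v ∉ T → JoinIn ((T : Set (ℤ × ℤ))ᶜ) u v) : NoHole T := by
  intro N hN z hz
  by_contra hzT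
  obtain ⟨w, hw⟩ := Infinite.exists_notMem_finset (N ∪ T)
  rw [Finset.mem_union, not_or] at hw
  exact hw.1 ((same_of_join hN (h z hzT w hw.2)).1 hz)

/-- **no holes for small mesh** -/
theorem eventually_noHole {D : Set ℂ} {r M : ℝ} (h : CD D r M) :
    ∀ᶠ a in 𝓝[>] (0:ℝ), ∀ T : Finset (ℤ × ℤ), (∀ z, z ∈ T ↔ z ∈ domainSites D a) → NoHole T := by
  obtain ⟨C, hC⟩ := h.join_compl
  filter_upwards [hC] with a ha T hT
  refine noHole_of_join fun u hu v hv => ?_
  have e : (T : Set (ℤ × ℤ)) = domainSites D a := by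
    ext z; exact hT z
  obtain ⟨n, -, hn⟩ := ha u (fun h1 => hu ((hT u).2 h1)) v (fun h1 => hv ((hT v).2 h1))
  rw [e]
  exact hn.joinIn

theorem eventually_noHole_C2 {D : Set ℂ} (h : IsC2JordanDomain D) (hne : D.Nonempty) :
    ∀ᶠ a in 𝓝[>] (0:ℝ), ∀ T : Finset (ℤ × ℤ), (∀ z, z ∈ T ↔ z ∈ domainSites D a) → NoHole T := by
  obtain ⟨r, M, hCD⟩ := Crest.Agent.R165.GeoCx65.exists_CD h hne
  exact eventually_noHole hCD

theorem domainSites_empty (a : ℝ) : domainSites (∅ : Set ℂ) a = ∅ := by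
  ext z; simp [domainSites]

/-- version without nonemptiness (the empty set has no hole) and for the canonical finset -/
theorem eventually_noHole_toFinset {D : Set ℂ} (h : IsC2JordanDomain D) :
    ∀ᶠ a in 𝓝[>] (0:ℝ), ∀ hf : (domainSites D a).Finite, NoHole hf.toFinset := by
  rcases D.eq_empty_or_nonempty with he | hne
  · refine Eventually.of_forall fun a hf => noHole_of_join fun u _ v _ => ?_
    have e : ((hf.toFinset : Finset (ℤ × ℤ)) : Set (ℤ × ℤ))ᶜ = univ := by
      rw [Set.Finite.coe_toFinset, he, domainSites_empty, compl_empty]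
    rw [e]
    -- paths in the whole lattice
    have h1 : PathIn univ (u.1, u.2) (u.1, v.2) (v.2 - u.2).natAbs := PathIn.vert' fun _ _ _ => mem_univ _
    have h2 : PathIn univ (u.1, v.2) (v.1, v.2) (v.1 - u.1).natAbs := PathIn.horiz' fun _ _ _ => mem_univ _
    exact (h1.trans h2).joinIn
  · filter_upwards [eventually_noHole_C2 h hne] with a ha hf
    exact ha hf.toFinset fun z => by rw [Set.Finite.mem_toFinset]

end Crest.Agent.R165.NoHolex65
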