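import Crest.Agent.R165.GeoI_838
import Crest.Agent.R165.GeoScale_420
import Crest.Agent.R165.DBd_915
import Crest.Agent.R165.Scale_900
import Crest.Agent.R165.GeoC_65
import Crest.Agent.R165.GeoH_65
import Crest.Agent.R165.NoHole_65
import Crest.Agent.R165.GeoLat1_416

/-!
# Row 165 (S0250): domain configurations at the distance `q` (helper485)

* `Cfg T X Z K q` : `T` is regular at the scale `q`; insertions `X`, marks `Z`, boundary sites are at
  distances `> q`; marks are in clusters of diameter `≤ K`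
* `Cfg.sepI`, `Cfg.hsep`, `Cfg.dcB`, `Cfg.dcM` : the inputs of `stepOK_of_geo`
* `cfg_C2` : `C²` Jordan domains, `q = δ / a`;  `cfg_plane`
* `cfg_steps` : all steps `k < KK l k0 δ a` of a `C²` Jordan domain, `q = C₁ rr (k+1)`
-/

set_option autoImplicit false
set_option linter.unusedSectionVars false

noncomputable section

open Filter Topology
open Crest.ProbabilityR.IsingModel
open Crest.Agent.R165.Geo
open Crest.Agent.R165.Latx683 (BW wDom wX wPl)
open Crest.Agent.R165.GDefx387 (fd fd_comm fd_triangle fd_self s2)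
open Crest.Agent.R165.GSysx387 (rr rr_succ rr_pos)
open Crest.Agent.R165.RIfx891 (GapU EXb EXbr)
open Crest.Agent.R165.NSumx915 (DCount)
open Crest.Agent.R165.Scalex900 (lastK fd_int)

namespace Crest.Agent.R165.GeoScAx485

/-- **configuration at the distance `q`** -/
structure Cfg (T : Set (ℤ × ℤ)) {m : ℕ} (X : Fin m → ℤ × ℤ) (Z : Set (ℤ × ℤ)) (K : ℕ) (q : ℝ) :
    Prop where
  reg : ∃ ρ κ : ℝ, LatReg T ρ κ ∧ κ * ρ ≤ 1 ∧ q ≤ ρ
  mem : ∀ i, X i ∈ T
  bd : ∀ i, ∀ z ∈ bdS T, q < (fd (X i) z : ℝ)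
  sep : ∀ i j, i ≠ j → q < (fd (X i) (X j) : ℝ)
  mbd : ∀ u ∈ Z, ∀ z ∈ bdS T, q < (fd u z : ℝ)
  msep : ∀ u ∈ Z, ∀ i, q < (fd u (X i) : ℝ)
  mcl : ∀ u ∈ Z, ∀ v ∈ Z, fd u v ≤ K ∨ q < (fd u v : ℝ)

variable {T : Set (ℤ × ℤ)} {m : ℕ} {X : Fin m → ℤ × ℤ} {Z : Set (ℤ × ℤ)} {K : ℕ} {q : ℝ}

theorem Cfg.mono {K' : ℕ} {q' : ℝ} (h : Cfg T X Z K q) (hK : K ≤ K') (hq : q' ≤ q) :
    Cfg T X Z K' q' := by
  obtain ⟨ρ, κ, h1, h2, h3⟩ := h.reg
  exact ⟨⟨ρ, κ, h1, h2, hq.trans h3⟩, h.mem, fun i z hz => hq.trans_lt (h.bd i z hz),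
    fun i j hij => hq.trans_lt (h.sep i j hij), fun u hu z hz => hq.trans_lt (h.mbd u hu z hz),
    fun u hu i => hq.trans_lt (h.msep u hu i),
    fun u hu v hv => (h.mcl u hu v hv).imp (fun h => h.trans hK) fun h => hq.trans_lt h⟩

/-- fewer marks -/
theorem Cfg.subset {Z' : Set (ℤ × ℤ)} (h : Cfg T X Z K q) (hZ : Z' ⊆ Z) : Cfg T X Z' K q :=
  ⟨h.reg, h.mem, h.bd, h.sep, fun u hu => h.mbd u (hZ hu), fun u hu => h.msep u (hZ hu),
    fun u hu v hv => h.mcl u (hZ hu) v (hZ hv)⟩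

/-- the separation of helper838 -/
theorem Cfg.sepI (h : Cfg T X Z K q) {R0 : ℕ} (hR : (R0 : ℝ) + 1 ≤ q) :
    GeoIx838.Sep T X Z R0 := by
  have e : ∀ {d : ℕ}, q < (d : ℝ) → R0 + 1 < d := fun {d} hd => by
    have h1 : ((R0 + 1 : ℕ) : ℝ) < (d : ℝ) := by push_cast; linarith
    exact_mod_cast h1
  refine ⟨h.mem, fun i z hz => e (h.bd i z hz), fun i j hij => ?_, fun u hu z hz => e (h.mbd u hu z hz),
    fun u hu i => ?_⟩
  · have := e (h.sep i j hij); omega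
  · have := e (h.msep u hu i); omega

/-- separation of the insertions in helper893's form -/
theorem Cfg.hsep (h : Cfg T X Z K q) {s : ℕ} (hs : (s : ℝ) ≤ q) (i j : Fin m) (hij : i ≠ j) :
    s < fd (X i) (X j) := by
  have h1 : (s : ℝ) < (fd (X i) (X j) : ℝ) := hs.trans_lt (h.sep i j hij)
  exact_mod_cast h1

/-- counting of the boundary sites -/
theorem Cfg.dcB (h : Cfg T X Z K q) {L D r : ℕ} (hr : 6 ≤ r)
    (hq : ((L * r + D * r : ℕ) : ℝ) + 1 ≤ q) :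
    DCount fd (bdS T) (L * r + D * r) r (8 * (L + D) + 1) := by
  obtain ⟨ρ, κ, h1, -, h3⟩ := h.reg
  exact (DBdx915.dcount_bd h1 (hq.trans h3) hr).mono (Set.Subset.refl _) le_rfl le_rfl
    (RegIx893.bd_count hr)

/-- counting of the marks -/
theorem Cfg.dcM (h : Cfg T X Z K q) {R r : ℕ} (hK : K ≤ r) (hq : ((2 * R : ℕ) : ℝ) ≤ q) :
    DCount fd Z R r 1 := by
  intro f S hS hs
  refine Finset.card_le_one.2 fun u hu v hv => ?_
  by_contra hne
  have h1 := hs u hu v hv hne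
  obtain ⟨hu1, hu2⟩ := hS u hu
  obtain ⟨hv1, hv2⟩ := hS v hv
  have h2 := fd_triangle u f v
  have h3 := fd_comm u f
  rcases h.mcl u hu1 v hv1 with h4 | h4
  · omega
  · have h5 : ((2 * R : ℕ) : ℝ) < (fd u v : ℝ) := hq.trans_lt h4
    have h6 : 2 * R < fd u v := by exact_mod_cast h5
    omega

/-! ### domains -/

theorem norm_mesh_le {a : ℝ} (ha : 0 < a) (z w : ℤ × ℤ) :
    ‖meshPoint a z - meshPoint a w‖ ≤ 2 * a * fd z w := by
  rw [fd_int]
  have e3 : meshPoint a z - meshPoint a w = ⟨a * (z.1 - w.1), a * (z.2 - w.2)⟩ := by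
    apply Complex.ext <;> simp [meshPoint] <;> ring
  rw [e3]
  refine (Complex.norm_le_abs_re_add_abs_im _).trans ?_
  simp only [abs_mul, abs_of_pos ha]
  have h1 : |(z.1 : ℝ) - w.1| ≤ ((max (z.1 - w.1).natAbs (z.2 - w.2).natAbs : ℕ) : ℝ) := by
    have : |(z.1 : ℝ) - w.1| = ((z.1 - w.1).natAbs : ℝ) := by
      rw [Nat.cast_natAbs]; push_cast; rfl
    rw [this]
    exact_mod_cast le_max_left _ _
  have h2 : |(z.2 : ℝ) - w.2| ≤ ((max (z.1 - w.1).natAbs (z.2 - w.2).natAbs : ℕ) : ℝ) := by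
    have : |(z.2 : ℝ) - w.2| = ((z.2 - w.2).natAbs : ℝ) := by
      rw [Nat.cast_natAbs]; push_cast; rfl
    rw [this]
    exact_mod_cast le_max_right _ _
  nlinarith

theorem fd_le_norm {a : ℝ} (ha : 0 < a) (z w : ℤ × ℤ) :
    a * fd z w ≤ ‖meshPoint a z - meshPoint a w‖ := by
  rw [fd_int]
  have h1 : a * ((z.1 - w.1).natAbs : ℝ) ≤ ‖meshPoint a z - meshPoint a w‖ := by
    have e : a * ((z.1 - w.1).natAbs : ℝ) = |(meshPoint a z - meshPoint a w).re| := by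
      have : (meshPoint a z - meshPoint a w).re = a * (z.1 - w.1) := by simp [meshPoint]; ring
      rw [this, abs_mul, abs_of_pos ha, Nat.cast_natAbs]; push_cast; rfl
    rw [e]; exact Complex.abs_re_le_norm _
  have h2 : a * ((z.2 - w.2).natAbs : ℝ) ≤ ‖meshPoint a z - meshPoint a w‖ := by
    have e : a * ((z.2 - w.2).natAbs : ℝ) = |(meshPoint a z - meshPoint a w).im| := by
      have : (meshPoint a z - meshPoint a w).im = a * (z.2 - w.2) := by simp [meshPoint]; ring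
      rw [this, abs_mul, abs_of_pos ha, Nat.cast_natAbs]; push_cast; rfl
    rw [e]; exact Complex.abs_im_le_norm _
  rcases le_total (z.1 - w.1).natAbs (z.2 - w.2).natAbs with h | h
  · rw [max_eq_right h]; exact h2
  · rw [max_eq_left h]; exact h1

theorem fd_of_nn {u v : ℤ × ℤ} (h : nn u v) : fd u v ≤ 1 := by
  rw [fd_int]
  rcases h with ⟨h1, h2⟩ | ⟨h1, h2⟩
  · rw [h1, sub_self, Int.natAbs_zero]
    have : (u.1 - v.1).natAbs = 1 := by
      have := congrArg Int.natAbs h2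
      rwa [Int.natAbs_abs] at this
    omega
  · rw [h1, sub_self, Int.natAbs_zero]
    have : (u.2 - v.2).natAbs = 1 := by
      have := congrArg Int.natAbs h2
      rwa [Int.natAbs_abs] at this
    omega

/-- points of the lattice close to an interior point are far from the boundary sites -/
theorem far_bd {D : Set ℂ} {x : ℂ} {δ a : ℝ} (hb : Metric.ball x (5 * δ) ⊆ D) (ha : 0 < a)
    (haδ : 2 * a ≤ δ) {X : ℤ × ℤ} (hX : ‖meshPoint a X - x‖ ≤ δ) {z : ℤ × ℤ}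
    (hz : z ∈ bdS (domainSites D a)) : δ / a < (fd X z : ℝ) := by
  have hδ : 0 < δ := by linarith
  by_contra hcon
  rw [not_lt, le_div_iff₀ ha] at hcon
  have key : ∀ w : ℤ × ℤ, (fd X w : ℝ) * a ≤ δ + a → w ∈ domainSites D a := by
    intro w hw
    apply hb
    rw [Metric.mem_ball, dist_eq_norm]
    have h1 := norm_mesh_le ha w X
    rw [fd_comm] at h1
    calc ‖meshPoint a w - x‖ ≤ ‖meshPoint a w - meshPoint a X‖ + ‖meshPoint a X - x‖ := by
          have := norm_add_le (meshPoint a w - meshPoint a X) (meshPoint a X - x)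
          simpa using this
      _ ≤ 2 * a * fd X w + δ := add_le_add h1 hX
      _ ≤ 2 * (δ + a) + δ := by linarith
      _ < 5 * δ := by linarith
  obtain ⟨u, hu, hz'⟩ := hz
  have hzT := key z (by linarith)
  have huT : u ∈ domainSites D a := by
    refine key u ?_
    have h1 : (fd X u : ℝ) ≤ fd X z + fd z u := by exact_mod_cast fd_triangle X z u
    have h2 : (fd z u : ℝ) ≤ 1 := by exact_mod_cast fd_of_nn hu
    nlinarith
  rcases hz' with ⟨-, h⟩ | ⟨h, -⟩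
  · exact h huT
  · exact h hzT

/-- points of the lattice close to distinct points are far from each other -/
theorem far_pts {x y : ℂ} {δ a : ℝ} (hxy : 5 * δ ≤ ‖x - y‖) (hδ : 0 < δ) (ha : 0 < a)
    {X Y : ℤ × ℤ} (hX : ‖meshPoint a X - x‖ ≤ δ) (hY : ‖meshPoint a Y - y‖ ≤ δ) :
    δ / a < (fd X Y : ℝ) := by
  rw [div_lt_iff₀ ha]
  have h1 := norm_mesh_le ha X Y
  have h2 : ‖x - y‖ ≤ ‖meshPoint a X - x‖ + ‖meshPoint a X - meshPoint a Y‖ +
      ‖meshPoint a Y - y‖ := by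
    have e : x - y = -(meshPoint a X - x) + (meshPoint a X - meshPoint a Y) +
        (meshPoint a Y - y) := by ring
    rw [e]
    refine norm_add₃_le.trans ?_
    rw [norm_neg]
  nlinarith

/-- a common radius -/
theorem exists_delta {D : Set ℂ} (hD : IsOpen D) {ι : Type} [Finite ι] {x : ι → ℂ}
    (hx : ∀ i, x i ∈ D) : ∃ δ > 0, (∀ i, Metric.ball (x i) (5 * δ) ⊆ D) ∧
      ∀ i j, x i ≠ x j → 5 * δ ≤ ‖x i - x j‖ := by
  classical
  have h1 : ∀ i, ∀ᶠ δ : ℝ in 𝓝[>] 0, Metric.ball (x i) (5 * δ) ⊆ D := by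
    intro i
    obtain ⟨ε, hε, hball⟩ := Metric.isOpen_iff.1 hD (x i) (hx i)
    filter_upwards [Ioo_mem_nhdsGT (show (0 : ℝ) < ε / 5 by positivity)] with δ hδ
    refine (Metric.ball_subset_ball ?_).trans hball
    linarith [hδ.2]
  have h2 : ∀ i j, ∀ᶠ δ : ℝ in 𝓝[>] 0, x i ≠ x j → 5 * δ ≤ ‖x i - x j‖ := by
    intro i j
    by_cases hij : x i = x j
    · exact Eventually.of_forall fun _ h => absurd hij h
    · have hpos : 0 < ‖x i - x j‖ := norm_pos_iff.2 (sub_ne_zero.2 hij)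
      filter_upwards [Ioo_mem_nhdsGT (show (0 : ℝ) < ‖x i - x j‖ / 5 by positivity)] with δ hδ _
      linarith [hδ.2]
  have h3 := (eventually_all.2 h1).and ((eventually_all.2 fun i => eventually_all.2 (h2 i)).and
    (self_mem_nhdsWithin (a := (0 : ℝ)) (s := Set.Ioi 0)))
  obtain ⟨δ, ha, hb, hc⟩ := h3.exists
  exact ⟨δ, hc, ha, hb⟩

theorem latReg_empty (ρ : ℝ) : LatReg (∅ : Set (ℤ × ℤ)) ρ 0 := by
  intro z
  refine ⟨0, fun _ => ρ + 1, fun _ => 0, fun s => hasDerivAt_const s _, ?_, ?_, ?_⟩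
  · intro s; norm_num
  · intro s t; simp
  · intro w _ h2
    rw [abs_le] at h2
    simp only [Set.mem_empty_iff_false, false_iff, not_lt]
    linarith [h2.2]

/-- **`C²` Jordan domains** : regularity of the lattice domain -/
theorem latReg_C2 {D : Set ℂ} (hD : IsC2JordanDomain D) :
    ∃ c > 0, ∀ a > 0, ∃ ρ κ : ℝ, LatReg (domainSites D a) ρ κ ∧ κ * ρ ≤ 1 ∧ c / a ≤ ρ := by
  rcases D.eq_empty_or_nonempty with rfl | hne
  · refine ⟨1, one_pos, fun a ha => ⟨1 / a, 0, ?_, by simp, le_rfl⟩⟩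
    rw [NoHolex65.domainSites_empty]
    exact latReg_empty _
  · obtain ⟨r, M, h⟩ := GeoCx65.exists_CD hD hne
    have hr := h.r_pos
    have hM := h.M_nonneg
    refine ⟨min (r / 2) (1 / (M + 1)), lt_min (by positivity) (by positivity), fun a ha =>
      ⟨_, _, latReg_domainSites h (lt_min (by positivity) (by positivity))
        (by linarith [min_le_left (r / 2) (1 / (M + 1))]) ha, ?_, le_rfl⟩⟩
    have h1 : M * a * (min (r / 2) (1 / (M + 1)) / a) = M * min (r / 2) (1 / (M + 1)) := by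
      field_simp
    rw [h1]
    calc M * min (r / 2) (1 / (M + 1)) ≤ M * (1 / (M + 1)) :=
          mul_le_mul_of_nonneg_left (min_le_right _ _) hM
      _ ≤ 1 := by rw [mul_one_div, div_le_one (by linarith)]; linarith

/-- **configurations of a `C²` Jordan domain**: `X i` within `δ` of the points `x i`, every mark within
`K₀ a` of one of the points `y j` -/
theorem cfg_C2 {D : Set ℂ} (hD : IsC2JordanDomain D) {m p : ℕ} {x : Fin m → ℂ}
    (hx : ∀ i, x i ∈ D) (hinj : Function.Injective x) {y : Fin p → ℂ} (hy : ∀ j, y j ∈ D)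
    (hxy : ∀ i j, x i ≠ y j) (K0 : ℝ) :
    ∃ δ > 0, ∀ᶠ a : ℝ in 𝓝[>] 0, ∀ X : Fin m → ℤ × ℤ, (∀ i, ‖meshPoint a (X i) - x i‖ ≤ δ) →
      ∀ Z : Set (ℤ × ℤ), (∀ u ∈ Z, ∃ j, ‖meshPoint a u - y j‖ ≤ K0 * a) →
        Cfg (domainSites D a) X Z ⌈2 * K0⌉₊ (δ / a) := by
  obtain ⟨c, hc, hreg⟩ := latReg_C2 hD
  obtain ⟨δ₀, hδ₀, hb, hs⟩ := exists_delta (GeoHx65.isOpen_C2 hD) (ι := Fin m ⊕ Fin p)
    (x := Sum.elim x y) (by rintro (i | j); exacts [hx i, hy j])
  refine ⟨min c δ₀, lt_min hc hδ₀, ?_⟩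
  have hδpos : 0 < min c δ₀ := lt_min hc hδ₀
  have e1 : ∀ᶠ a : ℝ in 𝓝[>] 0, K0 * a ≤ min c δ₀ := by
    have : Tendsto (fun a : ℝ => K0 * a) (𝓝[>] 0) (𝓝 (K0 * 0)) :=
      (tendsto_id.const_mul K0).mono_left nhdsWithin_le_nhds
    rw [mul_zero] at this
    exact this.eventually (ge_mem_nhds hδpos)
  have e2 : ∀ᶠ a : ℝ in 𝓝[>] 0, 2 * a ≤ min c δ₀ := by
    filter_upwards [Ioo_mem_nhdsGT (show (0 : ℝ) < min c δ₀ / 2 by positivity)] with a ha
    linarith [ha.2]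
  filter_upwards [e1, e2, self_mem_nhdsWithin] with a h1 h2 ha0 X hX Z hZ
  have ha : (0 : ℝ) < a := ha0
  set δ := min c δ₀ with hδ
  have hle : δ ≤ δ₀ := min_le_right _ _
  have hball : ∀ i : Fin m ⊕ Fin p, Metric.ball (Sum.elim x y i) (5 * δ) ⊆ D := fun i =>
    (Metric.ball_subset_ball (by linarith)).trans (hb i)
  have hfar : ∀ i j : Fin m ⊕ Fin p, Sum.elim x y i ≠ Sum.elim x y j →
      5 * δ ≤ ‖Sum.elim x y i - Sum.elim x y j‖ := fun i j hij => by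
    have := hs i j hij; linarith
  refine ⟨?_, ?_, ?_, ?_, ?_, ?_, ?_⟩
  · obtain ⟨ρ, κ, g1, g2, g3⟩ := hreg a ha
    refine ⟨ρ, κ, g1, g2, le_trans ?_ g3⟩
    gcongr
    exact min_le_left _ _
  · intro i
    refine hball (Sum.inl i) ?_
    rw [Metric.mem_ball, dist_eq_norm]
    exact lt_of_le_of_lt (hX i) (by linarith)
  · intro i z hz
    exact far_bd (hball (Sum.inl i)) ha h2 (hX i) hz
  · intro i j hij
    exact far_pts (hfar (Sum.inl i) (Sum.inl j) fun h => hij (hinj h)) hδpos ha (hX i) (hX j)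
  · intro u hu z hz
    obtain ⟨j, hj⟩ := hZ u hu
    exact far_bd (hball (Sum.inr j)) ha h2 (hj.trans h1) hz
  · intro u hu i
    obtain ⟨j, hj⟩ := hZ u hu
    exact far_pts (hfar (Sum.inr j) (Sum.inl i) fun h => hxy i j h.symm) hδpos ha (hj.trans h1)
      (hX i)
  · intro u hu v hv
    obtain ⟨j, hj⟩ := hZ u hu
    obtain ⟨j', hj'⟩ := hZ v hv
    by_cases hjj : y j = y j'
    · left
      rw [← hjj] at hj'
      have h3 := fd_le_norm ha u v
      have h4 : ‖meshPoint a u - meshPoint a v‖ ≤ K0 * a + K0 * a := by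
        have e : meshPoint a u - meshPoint a v = (meshPoint a u - y j) - (meshPoint a v - y j) := by
          ring
        rw [e]
        exact (norm_sub_le _ _).trans (add_le_add hj hj')
      have h5 : (fd u v : ℝ) ≤ 2 * K0 := by
        have : a * (fd u v : ℝ) ≤ a * (2 * K0) := by linarith
        exact le_of_mul_le_mul_left this ha
      have h6 : (fd u v : ℝ) ≤ (⌈2 * K0⌉₊ : ℝ) := h5.trans (Nat.le_ceil _)
      exact_mod_cast h6
    · right
      exact far_pts (hfar (Sum.inr j) (Sum.inr j') hjj) hδpos ha (hj.trans h1) (hj'.trans h1)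

/-! ### the plane -/

theorem cfg_plane (hsep : ∀ i j, i ≠ j → q < (fd (X i) (X j) : ℝ))
    (hms : ∀ u ∈ Z, ∀ i, q < (fd u (X i) : ℝ))
    (hcl : ∀ u ∈ Z, ∀ v ∈ Z, fd u v ≤ K ∨ q < (fd u v : ℝ)) : Cfg Set.univ X Z K q := by
  refine ⟨⟨q, 0, GeoIx838.latReg_univ q, by simp, le_rfl⟩, fun i => Set.mem_univ _, ?_, hsep, ?_,
    hms, hcl⟩
  · intro i z hz; rw [GeoIx838.bdS_univ] at hz; exact absurd hz (Set.notMem_empty z)
  · intro u _ z hz; rw [GeoIx838.bdS_univ] at hz; exact absurd hz (Set.notMem_empty z)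

/-! ### all steps of a domain -/

open Crest.Agent.R165.GeoScx420 (KK rr_le_of_le_KK ev_pow_le)

/-- the finset of the sites -/
theorem Cfg.toFinset (h : Cfg T X Z K q) (hf : T.Finite) :
    Cfg (hf.toFinset : Set (ℤ × ℤ)) X Z K q := by rwa [Set.Finite.coe_toFinset]

/-- no marks -/
theorem Cfg.noMarks (h : Cfg T X Z K q) : Cfg T X ∅ 0 q :=
  ⟨h.reg, h.mem, h.bd, h.sep, fun u hu => absurd hu (Set.notMem_empty u),
    fun u hu => absurd hu (Set.notMem_empty u), fun u hu => absurd hu (Set.notMem_empty u)⟩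

/-- no insertions -/
theorem Cfg.noIns (h : Cfg T X Z K q) (X' : Fin 0 → ℤ × ℤ) : Cfg T X' Z K q :=
  ⟨h.reg, fun i => i.elim0, fun i => i.elim0, fun i => i.elim0, h.mbd, fun _ _ i => i.elim0, h.mcl⟩

/-- **all steps `k < KK l k0 δ a` of a `C²` Jordan domain**, at the distance `C₁ rr (k+1)` -/
theorem cfg_steps {D : Set ℂ} (hD : IsC2JordanDomain D) {m p : ℕ} {x : Fin m → ℂ}
    (hx : ∀ i, x i ∈ D) (hinj : Function.Injective x) {y : Fin p → ℂ} (hy : ∀ j, y j ∈ D)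
    (hxy : ∀ i j, x i ≠ y j) (K0 : ℝ) :
    ∃ δ0 > 0, ∀ C1 : ℕ, ∃ δ1 > 0, ∀ δ, 0 < δ → δ ≤ δ1 → ∀ l k0 : ℕ, ∀ᶠ a : ℝ in 𝓝[>] 0,
      ∀ X : Fin m → ℤ × ℤ, (∀ i, ‖meshPoint a (X i) - x i‖ ≤ δ0) →
      ∀ Z : Set (ℤ × ℤ), (∀ u ∈ Z, ∃ j, ‖meshPoint a u - y j‖ ≤ K0 * a) →
      ∀ k < KK l k0 δ a, Cfg (domainSites D a) X Z ⌈2 * K0⌉₊ (C1 * rr l k0 (k + 1)) := by
  obtain ⟨c, hc, H⟩ := cfg_C2 hD hx hinj hy hxy K0
  refine ⟨c, hc, fun C1 => ⟨c / (C1 + 1), by positivity, fun δ hδ hδ1 l k0 => ?_⟩⟩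
  filter_upwards [H, ev_pow_le ((2 : ℝ) ^ (l * k0)) hδ, self_mem_nhdsWithin] with a hH h0 ha0 X hX
    Z hZ k hk
  have ha : (0 : ℝ) < a := ha0
  refine (hH X hX Z hZ).mono le_rfl ?_
  have h1 := rr_le_of_le_KK h0 (show k + 1 ≤ KK l k0 δ a by omega)
  have hC : (0 : ℝ) ≤ C1 := Nat.cast_nonneg _
  calc (C1 : ℝ) * rr l k0 (k + 1) ≤ C1 * (δ / a) := mul_le_mul_of_nonneg_left h1 hC
    _ ≤ C1 * (c / (C1 + 1) / a) := by gcongr
    _ = (C1 / (C1 + 1)) * (c / a) := by ring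
    _ ≤ 1 * (c / a) := by
        refine mul_le_mul_of_nonneg_right ?_ (by positivity)
        rw [div_le_one (by positivity)]; linarith
    _ = c / a := one_mul _

end Crest.Agent.R165.GeoScAx485
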