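import Crest.Agent.R165.Comp6_889
import Crest.Agent.R165.GeoScA_485
import Crest.Agent.R165.U5Props_422

/-!
# Row 165, block F, leaf P8: `C²` Jordan domains, final form (helper889)

* `ev_domCfg` : the lattice domains of a `C²` Jordan domain are configurations `DomCfg` of the scale
  `d / a`, insertions at the faces of given points
* `dom_bd`    : **the bounds (P8) for `C²` Jordan domains**, uniform constant
* `dom_forP`  : the same in the form `ForP` (hypothesis `DomBd` of helper900)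
-/

set_option autoImplicit false
set_option linter.unusedSectionVars false

noncomputable section

open Filter Topology
open scoped ENNReal
open Crest.ProbabilityR.IsingModel

namespace Crest.Agent.R165.Compx889

open Crest.Agent.R165.Gr0x606 Crest.Agent.R165.Gr1x606 Crest.Agent.R165.GeOpsx337
  Crest.Agent.R165.KFlowx337
open Crest.Agent.R165.Latx683 Crest.Agent.R165.GDefx387 Crest.Agent.R165.Packx915
open Crest.Agent.R165.NSumx915
open Crest.Agent.R165.Bridgex915 Crest.Agent.R165.GSysx387 Crest.Agent.R165.PEndx683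
open Crest.Agent.R165.Bkgx683 Crest.Agent.R165.Outx683 Crest.Agent.R165.SpinSysx892
open Crest.Agent.R165.Geo (LatReg bdS)
open Crest.Agent.R165.GeoIx838 (Sep)
open Crest.Agent.R165.StepOKx838 (MkOK)
open Crest.Agent.R165.Scalex900 (lastK lastK_le)
open Crest.Agent.R165.U5Px422 (TT mem_TT)
open Crest.Agent.R165.Red2x541 (Rel)
open Crest.Agent.R165.PlaneSumx901 (PlSym)
open Crest.Agent.R165.DefRecx915

theorem coe_TT {D : Set ℂ} (hD : Bornology.IsBounded D) {a : ℝ} (ha : 0 < a) :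
    (TT D a : Set (ℤ × ℤ)) = domainSites D a := by
  ext z
  exact mem_TT hD ha

/-- scales below `lastK` -/
theorem rr_lastK {l k0 : ℕ} {x : ℝ} (h : (2 : ℝ) ^ (l * k0) ≤ x) :
    (rr l k0 (lastK l k0 x) : ℝ) ≤ x := by
  have h1 := lastK_le h
  unfold rr
  push_cast
  exact h1

/-- **the lattice domains of a `C²` Jordan domain are configurations of the scale `d / a`** -/
theorem ev_domCfg (c : Cst) (C1 : ℕ) {D : Set ℂ} (hD : IsC2JordanDomain D) {n : ℕ}
    {x : Fin n → ℂ} (hx : ∀ i, x i ∈ D) (hinj : Function.Injective x) :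
    ∃ d1 > 0, ∀ d : ℝ, 0 < d → d ≤ d1 → ∀ᶠ a : ℝ in 𝓝[>] 0,
      DomCfg c C1 (TT D a) (fun i => meshIndex a (x i)) ∅ (lastK c.p c.k0 (d * a⁻¹)) := by
  obtain ⟨δ, hδ, H⟩ := GeoScAx485.cfg_C2 hD hx hinj (p := 0) (y := fun j => j.elim0)
    (fun j => j.elim0) (fun _ j => j.elim0) 0
  have hC1 : (0 : ℝ) < C1 + 33 := by positivity
  refine ⟨δ / (C1 + 33), by positivity, fun d hd hd1 => ?_⟩
  have e1 : ∀ᶠ a : ℝ in 𝓝[>] 0, (2 : ℝ) ^ (c.p * c.k0) ≤ d * a⁻¹ :=
    (Tendsto.const_mul_atTop hd tendsto_inv_nhdsGT_zero).eventually_ge_atTop _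
  have e2 : ∀ᶠ a : ℝ in 𝓝[>] 0, a ≤ δ / 2 :=
    mem_of_superset (Ioc_mem_nhdsGT (by positivity : (0 : ℝ) < δ / 2)) fun a ha => ha.2
  filter_upwards [H, e1, e2, self_mem_nhdsWithin] with a hH h1 h2 ha0
  have ha : (0 : ℝ) < a := ha0
  have hcfg := hH (fun i => meshIndex a (x i)) (fun i => by
    have := GeoGx65.norm_meshPoint_meshIndex ha (x i)
    linarith) ∅ (fun u hu => absurd hu (Set.notMem_empty u))
  have hr := rr_lastK (l := c.p) (k0 := c.k0) h1
  set r : ℕ := rr c.p c.k0 (lastK c.p c.k0 (d * a⁻¹)) with hrdef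
  have hr1 : (1 : ℝ) ≤ r := by exact_mod_cast rr_pos c.p c.k0 _
  have hmain : ((C1 : ℝ) + 33) * r ≤ δ / a := by
    have h3 : d * (C1 + 33) ≤ δ := by rwa [le_div_iff₀ hC1] at hd1
    calc ((C1 : ℝ) + 33) * r ≤ (C1 + 33) * (d * a⁻¹) :=
          mul_le_mul_of_nonneg_left hr hC1.le
      _ = (d * (C1 + 33)) / a := by rw [div_eq_mul_inv]; ring
      _ ≤ δ / a := by gcongr
  have hC0 : (0 : ℝ) ≤ C1 := Nat.cast_nonneg _
  have hTT : (TT D a : Set (ℤ × ℤ)) = domainSites D a :=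
    coe_TT (GeoHx65.isBounded_C2 hD) ha
  refine ⟨?_, ?_, ?_⟩
  · rw [hTT]
    obtain ⟨ρ, κ, g1, g2, g3⟩ := hcfg.reg
    exact ⟨ρ, κ, g1, g2, by nlinarith⟩
  · rw [hTT, Finset.coe_empty]
    refine hcfg.sepI ?_
    push_cast
    nlinarith
  · rw [Finset.coe_empty]
    exact MkOK.empty _ _

variable (J : ℝ) (R : ℕ) (V : Finset (ℤ × ℤ) → ℝ)

/-- symmetry of the initial activities of the plane -/
def SymL : Prop := ∀ (lam β z : ℝ) (l k0 : ℕ), PlSym fun U =>
  ((Bg.pl.K0 (mpar J lam R V β z) LinearMap.id (noSrc ℤ (Ge (Fld ℤ))) l k0 U : Ge (Fld ℤ)) :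
    Gr (Fld ℤ))

variable {J R V}

/-- **the bounds (P8) for `C²` Jordan domains**, uniform constant `M |lam|` -/
theorem dom_bd (hsym : SymL J R V) : EvC fun c => ∀ C : ℝ, ∃ ε > 0, ∃ M ≥ 0,
    ∀ lam β z : ℝ, |lam| < ε → NearP J C lam β z → PF J R V C c lam β z →
      ∀ D : Set ℂ, IsC2JordanDomain D → ∀ (b : BoundaryCondition) (n : ℕ) (x : Fin n → ℂ),
        (∀ i, x i ∈ D) → Function.Injective x → ∃ d1 > 0, ∀ d : ℝ, 0 < d → d ≤ d1 →
          ∀ᶠ a : ℝ in 𝓝[>] 0, DomB c (mpar J lam R V β z) (TT D a) b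
            (fun i => meshIndex a (x i)) (Outx683.amp c) M |lam|
            (lastK c.p c.k0 (d * a⁻¹)) := by
  refine ((dom_P8 J R V hsym).and Constx891.ev_std).mono fun c hc C => ?_
  obtain ⟨⟨C1, -, h1⟩, hst⟩ := hc
  obtain ⟨ε, hε, M, hM, h2⟩ := h1 C
  refine ⟨ε, hε, M, hM, fun lam β z hl hn hPF D hD b n x hx hinj => ?_⟩
  obtain ⟨d1, hd1, h3⟩ := ev_domCfg c C1 hD hx hinj
  refine ⟨d1, hd1, fun d hd hdd => (h3 d hd hdd).mono fun a ha => ?_⟩
  have hA0 : 0 ≤ c.A0 := by linarith [hst.A0_ge]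
  have hge : ∀ k, c.A0 ≤ Outx683.amp c k := fun k => amp_ge hA0 hst.δ_pos.le k
  have hsucc : ∀ k, Outx683.amp c (k + 1) ≤ 2 * Outx683.amp c k := fun k => by
    have h4 : Outx683.amp c (k + 1) ≤ (1 + c.δ) * Outx683.amp c k :=
      amp_succ_le hA0 hst.δ_pos.le k
    have h5 := hge k
    have h6 := hst.δ_le
    nlinarith
  exact h2 lam β z hl hn hPF (TT D a) b n _ _ ha (Outx683.amp c) hge hsucc fun k _ => le_rfl

/-- **the bounds (P8) for `C²` Jordan domains**, form `ForP` (`DomBd` of helper900): with (`n ≥ 1`)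
and without (`n = 0`) insertions -/
theorem dom_forP (hsym : SymL J R V) : ForP J (PF J R V) fun c lam β z =>
    ∀ D : Set ℂ, IsC2JordanDomain D → ∀ (b : BoundaryCondition) (n : ℕ), Rel b n →
      ∀ x : Fin n → ℂ, (∀ i, x i ∈ D) → Function.Injective x →
        ∃ C' : ℝ, ∃ d1 > 0, ∀ d : ℝ, 0 < d → d ≤ d1 → ∀ᶠ a : ℝ in 𝓝[>] 0,
          (∀ k, k ≤ lastK c.p c.k0 (d * a⁻¹) →
            NPc c (domF c (mpar J lam R V β z) (TT D a) b fun i => meshIndex a (x i))
              (Bg.dom (TT D a) b fun i => meshIndex a (x i)).w (Outx683.amp c) allP k ≤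
              ENNReal.ofReal (C' * (1 / 2) ^ k)) ∧
          (∀ k, k < lastK c.p c.k0 (d * a⁻¹) →
            NCc c (domF c (mpar J lam R V β z) (TT D a) b fun i => meshIndex a (x i)) k ≤
              ENNReal.ofReal (C' * (1 / 2) ^ k)) := by
  refine (dom_bd hsym).mono fun c hc C => ?_
  obtain ⟨ε, hε, M, hM, h⟩ := hc C
  refine ⟨ε, hε, fun lam β z hl hn hPF D hD b n _ x hx hinj => ?_⟩
  obtain ⟨d1, hd1, h1⟩ := h lam β z hl hn hPF D hD b n x hx hinj
  exact ⟨M * |lam|, d1, hd1, fun d hd hdd => (h1 d hd hdd).mono fun a ha => ⟨ha.nk, ha.nc⟩⟩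

end Crest.Agent.R165.Compx889
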