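import Crest.Agent.R165.J4K0D_126
import Crest.Agent.R165.Bkg_683
import Crest.Agent.R165.FlowD4_898
import Crest.Agent.R165.J4Lnk2_653

/-!
# Row 165 (S0250), block J4: symmetries of the plane of the initial activities (helper126)

* `LSym`      : a symmetry of faces, finite sets of sites and bonds; `lTr`, `lRot`, `lRef`, `comp`
* `K0_lsym`   : covariance of `K0` under a lattice symmetry
* `K00_plSym` : `PlSym (Bg.pl.K00 (mpar J lam R V β z) id noSrc)`
* `K0_plSym`  : `PlSym (Bg.pl.K0 .. l k0)`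
-/

set_option autoImplicit false
set_option linter.unusedSectionVars false

noncomputable section

open Finset

namespace Crest.Agent.R165.J4K0Symx126
open Crest.ProbabilityR.IsingModel
open Crest.Agent.R165.KCompx892 Crest.Agent.R165.J4Actx126
open Crest.Agent.R165.J4Datx126 Crest.Agent.R165.J4Geox126 Crest.Agent.R165.J4K0x126
open Crest.Agent.R165.J4K0Mapx126 Crest.Agent.R165.J4K0Dx126
open Crest.Agent.R165.J4Defx653 Crest.Agent.R165.J4Pathx653
open Crest.Agent.R165.J4RRx653 Crest.Agent.R165.J4RRAx653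
open Crest.Agent.R165.J1ax606 (HE EG pe qe pe_zero pe_one qe_zero qe_one)

/-! ### lattice symmetries -/

/-- a symmetry of faces, finite sets of sites and bonds -/
structure LSym where
  /-- on faces -/
  ψ : ℤ × ℤ → ℤ × ℤ
  /-- on finite sets of sites -/
  β : Finset (ℤ × ℤ) → Finset (ℤ × ℤ)
  /-- on bonds -/
  E : Ed → Ed
  ψ_inj : Function.Injective ψ
  ψ_surj : Function.Surjective ψ
  β_inj : Function.Injective β
  β_surj : Function.Surjective β
  E_inj : Function.Injective E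
  E_surj : Function.Surjective E
  card : ∀ B, (β B).card = B.card
  Yf : ∀ B, Yf (β B) = (Yf B).image ψ
  faE : ∀ e, faE (E e) = (faE e).image ψ
  kB : ∀ t B, B.Nonempty → kB t (β B) = em E (kB t B)

namespace LSym

variable (L : LSym)

theorem ne {B : Finset (ℤ × ℤ)} (h : B.Nonempty) : (L.β B).Nonempty := by
  rw [← Finset.card_pos, L.card]; exact h.card_pos

theorem ne' {B : Finset (ℤ × ℤ)} (h : (L.β B).Nonempty) : B.Nonempty := by
  rw [← Finset.card_pos, ← L.card]; exact h.card_pos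

/-- composition -/
def comp (L M : LSym) : LSym where
  ψ := L.ψ ∘ M.ψ
  β := L.β ∘ M.β
  E := L.E ∘ M.E
  ψ_inj := L.ψ_inj.comp M.ψ_inj
  ψ_surj := L.ψ_surj.comp M.ψ_surj
  β_inj := L.β_inj.comp M.β_inj
  β_surj := L.β_surj.comp M.β_surj
  E_inj := L.E_inj.comp M.E_inj
  E_surj := L.E_surj.comp M.E_surj
  card B := by rw [Function.comp_apply, L.card, M.card]
  Yf B := by rw [Function.comp_apply, L.Yf, M.Yf, Finset.image_image]
  faE e := by rw [Function.comp_apply, L.faE, M.faE, Finset.image_image]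
  kB t B hB := by
    rw [Function.comp_apply, L.kB t _ (M.ne hB), M.kB t _ hB, em_comp]

end LSym

theorem tr_surj (z : ℤ × ℤ) : Function.Surjective fun B => tr B z := fun B =>
  ⟨tr B (-z), by show tr (tr B (-z)) z = B; rw [tr_tr, neg_add_cancel, tr_zero]⟩

/-- translation -/
def lTr (z : ℤ × ℤ) : LSym where
  ψ x := x + z
  β B := tr B z
  E := trEd z
  ψ_inj := add_left_injective z
  ψ_surj x := ⟨x - z, sub_add_cancel x z⟩
  β_inj := tr_injective z
  β_surj := tr_surj z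
  E_inj := trEd_inj z
  E_surj e := ⟨trEd (-z) e, by rw [trEd_trEd, neg_add_cancel]; exact Prod.ext (add_zero _) rfl⟩
  card B := card_tr B z
  Yf B := Yf_tr B z
  faE e := faE_trEd z e
  kB t B hB := kB_tr t z hB

/-- rotation (of the sites about the origin) -/
def lRot : LSym where
  ψ := rF
  β := rB
  E := rotEd
  ψ_inj := rF_inj
  ψ_surj x := ⟨(x.2, -x.1 - 1), by unfold rF; ext <;> dsimp only <;> omega⟩
  β_inj := Finset.image_injective rotate_inj
  β_surj B := ⟨rB (rB (rB B)), rB_four B⟩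
  E_inj := rotEd_inj
  E_surj e := ⟨rotEd (rotEd (rotEd e)), rotEd_four e⟩
  card B := card_rB B
  Yf B := Yf_rB B
  faE e := faE_rotEd e
  kB t B _ := kB_rB t B

/-- reflection (of the sites in the first axis) -/
def lRef : LSym where
  ψ := gF
  β := fB
  E := refEd
  ψ_inj := gF_inj
  ψ_surj x := ⟨(x.1, -x.2 - 1), by unfold gF; ext <;> dsimp only <;> omega⟩
  β_inj := Finset.image_injective reflect_inj
  β_surj B := ⟨fB B, fB_fB B⟩
  E_inj := refEd_inj
  E_surj e := ⟨refEd e, refEd_refEd e⟩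
  card B := card_fB B
  Yf B := Yf_fB B
  faE e := faE_refEd e
  kB t B _ := kB_fB t B

/-- rotation of the faces about the face `0` -/
def lRho : LSym := (lTr (1, 0)).comp lRot

/-- reflection of the faces in the second axis -/
def lSig : LSym := (lTr (1, 0)).comp (lRot.comp (lRot.comp lRef))

/-! ### placed shapes -/

theorem ez_int (u : ℤ × ℤ) : (ez (G := ℤ) u : Ed → Ed) = trEd u := by
  funext e
  unfold ez fz cz trEd
  rw [Prod.mk.injEq]
  refine ⟨?_, rfl⟩
  simp only [Int.cast_id]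
  rw [add_comm]

theorem fz_int (u z : ℤ × ℤ) : fz (G := ℤ) u z = z + u := by
  unfold fz cz
  simp only [Int.cast_id]
  rw [add_comm]

theorem Yf_place (u : ℤ × ℤ) (S : Finset (ℤ × ℤ)) : (Yf S).image (fz (G := ℤ) u) = Yf (tr S u) := by
  rw [Yf_tr]
  exact Finset.image_congr fun z _ => fz_int u z

theorem kB_place (t : ℝ) (u : ℤ × ℤ) {S : Finset (ℤ × ℤ)} (h : S.Nonempty) :
    em (ez (G := ℤ) u) (kB t S) = kB t (tr S u) := by
  rw [ez_int, kB_tr t u h]

/-- canonical data of a placed set -/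
def can (B : Finset (ℤ × ℤ)) : (ℤ × ℤ) × Finset (ℤ × ℤ) := (lmin B, tr B (-lmin B))

theorem place_can (B : Finset (ℤ × ℤ)) : tr (can B).2 (can B).1 = B := by
  unfold can
  rw [tr_tr, neg_add_cancel, tr_zero]

theorem can_place {u : ℤ × ℤ} {S : Finset (ℤ × ℤ)} (h : IsLexMin S 0) : can (tr S u) = (u, S) := by
  have h1 : lmin (tr S u) = u := by
    have h2 := (lmin_spec (B := tr S u) ⟨_, (h.tr u).1⟩)
    have h3 := h.tr u
    rw [zero_add] at h3
    exact h2.unique h3
  unfold can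
  rw [h1, tr_tr, add_neg_cancel, tr_zero]

theorem can_mem {R : ℕ} {t : Finset (ℤ × ℤ) → ℝ} (hR : Rng R t)
    {B : Finset (ℤ × ℤ)} (hB : B.Nonempty) (h : t B ≠ 0) : (can B).2 ∈ Can R := by
  have hm := lmin_spec hB
  unfold can
  rw [mem_Can]
  refine ⟨fun x hx => ?_, ?_⟩
  · rw [mem_tr] at hx
    have h1 := hR B h _ hx _ hm.1
    rw [mem_bx]
    simpa using h1
  · simpa using hm.tr (-lmin B)

/-! ### covariance -/

section cov
variable {A : Type*} [CommRing A] [Algebra ℝ A] {κ : Type*} [DecidableEq κ] [Fintype κ]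

/-- the label map of a lattice symmetry -/
def mL (L : LSym) : Ix ℤ κ → Ix ℤ κ
  | .inl p => .inl (can (L.β (tr p.2 p.1)))
  | .inr (.inl f) => .inr (.inl (L.ψ f))
  | .inr (.inr (.inl e)) => .inr (.inr (.inl (L.E e)))
  | .inr (.inr (.inr k)) => .inr (.inr (.inr k))

/-- a translation invariant background without sources -/
structure Hom (B : Bk ℤ κ A) (y0 s0 : ℝ) : Prop where
  y : ∀ e, B.y e = y0
  s : ∀ f, B.s f = s0
  ok : ∀ u S, B.ok u S
  tT : TrInv B.t
  tR : Rng B.R B.t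

/-- the live labels: shapes with non-vanishing potential, faces, bonds -/
def live (B : Bk ℤ κ A) : Ix ℤ κ → Prop
  | .inl p => B.t p.2 ≠ 0
  | _ => True

open Classical in
/-- the live labels inside `U` -/
def liv (B : Bk ℤ κ A) (U : Finset (ℤ × ℤ)) : Finset (Ix ℤ κ) := (B.ixs U).filter (live B)

theorem mem_liv {B : Bk ℤ κ A} {U : Finset (ℤ × ℤ)} {i : Ix ℤ κ} :
    i ∈ liv B U ↔ (B.okI i ∧ B.YI i ⊆ U) ∧ live B i := by
  classical
  unfold liv
  rw [Finset.mem_filter, B.mem_ixs]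

theorem K0_liv (fr : Fr ℤ A) (B : Bk ℤ κ A) (U : Finset (ℤ × ℤ)) :
    B.K0 fr U = (B.dat fr (liv B U) (fun i hi => (mem_liv.1 hi).1.1)).items.act U := by
  refine K0_drop fr B (fun i hi => B.mem_ixs.2 (mem_liv.1 hi).1) _ fun i h1 h2 h3 => Or.inr ?_
  rw [mem_liv] at h3
  have h4 : ¬ live B i := fun h => h3 ⟨⟨h1, h2⟩, h⟩
  rcases i with p | f | e | k
  · unfold live at h4
    rw [not_not] at h4
    change em (ez p.1) (kB (B.t p.2) p.2) = 0
    rw [h4, kB_zero, map_zero]
  · exact absurd trivial h4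
  · exact absurd trivial h4
  · exact absurd trivial h4

/-- **covariance of the initial activities under a lattice symmetry** -/
theorem K0_lsym [IsEmpty κ] {fr : Fr ℤ A} {B : Bk ℤ κ A} {y0 s0 : ℝ} (hB : Hom B y0 s0)
    (L : LSym) (hL : ∀ S, B.t (L.β S) = B.t S) (τ : A →ₐ[ℝ] A)
    (hb : ∀ e, τ (fr.b e) = fr.b (L.E e)) (hI : ∀ f, τ (fr.I4 f) = fr.I4 (L.ψ f))
    (U : Finset (ℤ × ℤ)) : τ (B.K0 fr U) = B.K0 fr (U.image L.ψ) := by
  rw [K0_liv, K0_liv]
  -- shapes
  have hsh : ∀ p : (ℤ × ℤ) × Finset (ℤ × ℤ), p.2 ∈ Can B.R → Even p.2.card → B.t p.2 ≠ 0 →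
      (can (L.β (tr p.2 p.1))).2 ∈ Can B.R ∧ Even (can (L.β (tr p.2 p.1))).2.card ∧
        B.t (can (L.β (tr p.2 p.1))).2 = B.t p.2 := by
    intro p h1 h2 h3
    have hne : (L.β (tr p.2 p.1)).Nonempty := by
      refine L.ne ?_
      rw [← Finset.card_pos, card_tr]
      exact (Can.nonempty h1).card_pos
    have ht : B.t (L.β (tr p.2 p.1)) = B.t p.2 := by rw [hL, hB.tT]
    refine ⟨can_mem hB.tR hne (by rw [ht]; exact h3), ?_, ?_⟩
    · unfold can
      rw [card_tr, L.card, card_tr]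
      exact h2
    · unfold can
      rw [hB.tT, ht]
  have hYs : ∀ p : (ℤ × ℤ) × Finset (ℤ × ℤ),
      (Yf (can (L.β (tr p.2 p.1))).2).image (fz (G := ℤ) (can (L.β (tr p.2 p.1))).1) =
        ((Yf p.2).image (fz (G := ℤ) p.1)).image L.ψ := by
    intro p
    rw [Yf_place, place_can, L.Yf, Yf_place]
  have hYI : ∀ i ∈ liv B U, B.YI (mL L i) = (B.YI i).image L.ψ := by
    intro i hi
    rcases i with p | f | e | k
    · exact hYs p
    · exact (Finset.image_singleton _ _).symm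
    · exact L.faE e
    · exact isEmptyElim k
  refine dat_map (m := mL L) (eb := L.E) _ _ (fun i hi => (mem_liv.1 hi).1.2) L.ψ_inj.injOn
    L.E_inj.injOn ?_ ?_ ?_ ?_ hYI ?_ ?_
  · intro e _
    unfold Bk.g
    rw [map_sub, map_one, map_smul, hb, hB.y, hB.y, hB.s, hB.s, hB.s, hB.s]
  · intro i hi
    have h0 := hYI i hi
    rw [mem_liv] at hi
    rw [mem_liv]
    refine ⟨⟨?_, ?_⟩, ?_⟩
    · rcases i with p | f | e | k
      · obtain ⟨h1, h2, -⟩ := hsh p hi.1.1.1.1 hi.1.1.1.2 hi.2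
        exact ⟨⟨h1, h2⟩, hB.ok _ _⟩
      · trivial
      · trivial
      · exact isEmptyElim k
    · rw [h0]
      exact Finset.image_subset_image hi.1.2
    · rcases i with p | f | e | k
      · obtain ⟨-, -, h3⟩ := hsh p hi.1.1.1.1 hi.1.1.1.2 hi.2
        change B.t _ ≠ 0
        rw [h3]; exact hi.2
      · trivial
      · trivial
      · exact isEmptyElim k
  · intro i hi j hj hij
    rw [Finset.mem_coe, mem_liv] at hi hj
    rcases i with p | f | e | k
    · rcases j with p' | f' | e' | k'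
      · unfold mL at hij
        rw [Sum.inl.injEq] at hij
        have h1 : L.β (tr p.2 p.1) = L.β (tr p'.2 p'.1) := by
          rw [← place_can (L.β (tr p.2 p.1)), hij, place_can]
        have h2 := L.β_inj h1
        have h3 := can_place (u := p.1) (mem_Can.1 hi.1.1.1.1).2
        have h4 := can_place (u := p'.1) (mem_Can.1 hj.1.1.1.1).2
        rw [h2, h4] at h3
        rw [Sum.inl.injEq]
        exact h3.symm
      · unfold mL at hij; cases hij
      · unfold mL at hij; cases hij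
      · exact isEmptyElim k'
    · rcases j with p' | f' | e' | k'
      · unfold mL at hij; cases hij
      · unfold mL at hij
        rw [Sum.inr.injEq, Sum.inl.injEq] at hij
        rw [L.ψ_inj hij]
      · unfold mL at hij; cases hij
      · exact isEmptyElim k'
    · rcases j with p' | f' | e' | k'
      · unfold mL at hij; cases hij
      · unfold mL at hij; cases hij
      · unfold mL at hij
        rw [Sum.inr.injEq, Sum.inr.injEq, Sum.inl.injEq] at hij
        rw [L.E_inj hij]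
      · exact isEmptyElim k'
    · exact isEmptyElim k
  · intro i' hi'
    rw [mem_liv] at hi'
    obtain ⟨⟨hok, hY'⟩, hlv⟩ := hi'
    rcases i' with p | f | e | k
    · obtain ⟨B0, hB0⟩ := L.β_surj (tr p.2 p.1)
      have hne : B0.Nonempty := by
        refine L.ne' ?_
        rw [hB0, ← Finset.card_pos, card_tr]
        exact (Can.nonempty hok.1.1).card_pos
      have ht : B.t B0 = B.t p.2 := by rw [← hL, hB0, hB.tT]
      have hlv' : B.t p.2 ≠ 0 := hlv
      have hcard : Even B0.card := by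
        rw [← L.card, hB0, card_tr]; exact hok.1.2
      refine ⟨.inl (can B0), ?_, ?_⟩
      · rw [mem_liv]
        refine ⟨⟨⟨⟨can_mem hB.tR hne (by rw [ht]; exact hlv'), ?_⟩, hB.ok _ _⟩, ?_⟩, ?_⟩
        · unfold can
          rw [card_tr]; exact hcard
        · change (Yf (can B0).2).image (fz (G := ℤ) (can B0).1) ⊆ U
          rw [Yf_place, place_can]
          have h5 : (Yf B0).image L.ψ ⊆ U.image L.ψ := by
            rw [← L.Yf, hB0, ← Yf_place]
            exact hY'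
          exact (Finset.image_subset_image_iff L.ψ_inj).1 h5
        · change B.t (can B0).2 ≠ 0
          unfold can
          rw [hB.tT, ht]; exact hlv'
      · change (Sum.inl (can (L.β (tr (can B0).2 (can B0).1))) : Ix ℤ κ) = _
        rw [place_can, hB0, can_place (mem_Can.1 hok.1.1).2]
    · obtain ⟨g, hg, hg'⟩ := Finset.mem_image.1 (hY' (Finset.mem_singleton_self f))
      refine ⟨.inr (.inl g), ?_, ?_⟩
      · rw [mem_liv]
        exact ⟨⟨trivial, Finset.singleton_subset_iff.2 hg⟩, trivial⟩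
      · change (Sum.inr (Sum.inl (L.ψ g)) : Ix ℤ κ) = _
        rw [hg']
    · obtain ⟨g, hg⟩ := L.E_surj e
      refine ⟨.inr (.inr (.inl g)), ?_, ?_⟩
      · rw [mem_liv]
        refine ⟨⟨trivial, ?_⟩, trivial⟩
        change J4Geox126.faE g ⊆ U
        have h5 : (J4Geox126.faE g).image L.ψ ⊆ U.image L.ψ := by
          rw [← L.faE, hg]
          exact hY'
        exact (Finset.image_subset_image_iff L.ψ_inj).1 h5
      · change (Sum.inr (Sum.inr (Sum.inl (L.E g))) : Ix ℤ κ) = _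
        rw [hg]
    · exact isEmptyElim k
  · intro i hi
    rcases i with p | f | e | k
    · exact map_one τ
    · change τ (B.cI f • fr.I4 f + (B.cI f ^ 2 / 2) • (fr.I4 f * fr.I4 f)) =
        B.cI (L.ψ f) • fr.I4 (L.ψ f) + (B.cI (L.ψ f) ^ 2 / 2) • (fr.I4 (L.ψ f) * fr.I4 (L.ψ f))
      have hc : B.cI f = B.cI (L.ψ f) := by unfold Bk.cI; rw [hB.s, hB.s]
      rw [map_add, map_smul, map_smul, map_mul, hI, hc]
    · change τ ((B.y e * (B.s (pe e).1 * B.s (qe e).1 - 1)) • fr.b e) =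
        (B.y (L.E e) * (B.s (pe (L.E e)).1 * B.s (qe (L.E e)).1 - 1)) • fr.b (L.E e)
      rw [map_smul, hb, hB.y, hB.y, hB.s, hB.s, hB.s, hB.s]
    · exact isEmptyElim k
  · intro i hi
    rw [mem_liv] at hi
    rcases i with p | f | e | k
    · obtain ⟨h1, -, h3⟩ := hsh p hi.1.1.1.1 hi.1.1.1.2 hi.2
      have hne : (tr p.2 p.1).Nonempty := by
        rw [← Finset.card_pos, card_tr]
        exact (Can.nonempty hi.1.1.1.1).card_pos
      change em (ez (can (L.β (tr p.2 p.1))).1)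
        (kB (B.t (can (L.β (tr p.2 p.1))).2) (can (L.β (tr p.2 p.1))).2) =
          em L.E (em (ez p.1) (kB (B.t p.2) p.2))
      rw [h3, kB_place _ _ (Can.nonempty h1), place_can, L.kB _ _ hne,
        kB_place _ _ (Can.nonempty hi.1.1.1.1)]
    · exact (map_one _).symm
    · exact (map_one _).symm
    · exact isEmptyElim k

end cov

/-! ### the plane -/

section plane

open Crest.Agent.R165.Gr0x606 Crest.Agent.R165.Gr1x606 Crest.Agent.R165.GeOpsx337
open Crest.Agent.R165.GDefx387 Crest.Agent.R165.GSysx387 Crest.Agent.R165.KFlowx337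
open Crest.Agent.R165.PlaneModesx901 Crest.Agent.R165.PlaneSumx901 Crest.Agent.R165.WtD4x898
open Crest.Agent.R165.KInitx892 Crest.Agent.R165.Bkgx683 Crest.Agent.R165.FlowD4x898
open Crest.Agent.R165.Latx683 (xc wPl Fld)

variable {V' : Type*} [AddCommGroup V'] [Module ℝ V']

theorem bi_smul2 (a c : ℝ) (x y : V') : bi (a • x) (c • y) = (a * c) • bi x y := by
  apply ge_ext
  rw [coe_bi, Ge.coe_smul, coe_bi, fi_smul, fi_smul, smul_mul_smul_comm]

theorem bi_swap (x y : V') : bi x y = -bi y x := by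
  apply ge_ext
  rw [Ge.coe_neg, coe_bi, coe_bi, fi_anti]

theorem revG_bi (x y : V') : revG (bi x y) = -bi x y := by
  apply ge_ext
  rw [coe_revG, coe_bi, Locx901.rev'_mul, Locx901.rev'_fi, Locx901.rev'_fi, Ge.coe_neg, coe_bi,
    fi_anti]

theorem mpG_push_bi (p : Latx683.HE ℤ → Latx683.HE ℤ) (s : Latx683.HE ℤ → ℝ)
    (h k : Latx683.HE ℤ) :
    mpG (push p s) (bi (Finsupp.single h 1) (Finsupp.single k 1)) =
      (s h * s k) • bi (Finsupp.single (p h) 1) (Finsupp.single (p k) 1) := by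
  rw [mpG_bi, push_single, push_single, bi_smul2]

theorem I4_six {G : Type} [CommRing G] (ι : Fld G →ₗ[ℝ] V') (f : G × G) :
    (frG ι).I4 f =
      bi (ι (Finsupp.single (f, 0) 1)) (ι (Finsupp.single (f, 1) 1)) +
      bi (ι (Finsupp.single (f, 0) 1)) (ι (Finsupp.single (f, 2) 1)) +
      bi (ι (Finsupp.single (f, 0) 1)) (ι (Finsupp.single (f, 3) 1)) +
      bi (ι (Finsupp.single (f, 1) 1)) (ι (Finsupp.single (f, 2) 1)) +
      bi (ι (Finsupp.single (f, 1) 1)) (ι (Finsupp.single (f, 3) 1)) +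
      bi (ι (Finsupp.single (f, 2) 1)) (ι (Finsupp.single (f, 3) 1)) := by
  have h : (Finset.univ : Finset (Fin 4 × Fin 4)).filter (fun p => p.1 < p.2) =
      {(0, 1), (0, 2), (0, 3), (1, 2), (1, 3), (2, 3)} := by decide
  rw [frG_I4, h, Finset.sum_insert (by decide), Finset.sum_insert (by decide),
    Finset.sum_insert (by decide), Finset.sum_insert (by decide), Finset.sum_insert (by decide),
    Finset.sum_singleton]
  ring

theorem tau_b (t : ℤ × ℤ) (e : Ed) :
    mpG (tauV t) ((frG (G := ℤ) LinearMap.id).b e) = (frG LinearMap.id).b ((lTr t).E e) := by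
  rw [frG_b, frG_b]
  change mpG (push (tauH t) fun _ => 1) (bi (Finsupp.single (pe e) 1) (Finsupp.single (qe e) 1)) =
    bi (Finsupp.single (pe (trEd t e)) 1) (Finsupp.single (qe (trEd t e)) 1)
  rw [mpG_push_bi, one_mul, one_smul]
  obtain ⟨z, j⟩ := e
  rcases fin2 j with rfl | rfl
  · unfold trEd tauH
    rw [pe_zero, pe_zero, qe_zero, qe_zero]
    dsimp only
    rw [add_sub_right_comm]
  · unfold trEd tauH
    rw [pe_one, pe_one, qe_one, qe_one]
    dsimp only
    rw [add_sub_right_comm]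

theorem tau_I4 (t : ℤ × ℤ) (f : ℤ × ℤ) :
    mpG (tauV t) ((frG (G := ℤ) LinearMap.id).I4 f) = (frG LinearMap.id).I4 ((lTr t).ψ f) := by
  rw [I4_six, I4_six]
  change mpG (push (tauH t) fun _ => 1) _ = _
  simp only [map_add, LinearMap.id_apply, mpG_push_bi, one_mul, one_smul]
  rfl

theorem rho_b (e : Ed) :
    mpG (rhoV 0) ((frG (G := ℤ) LinearMap.id).b e) = (frG LinearMap.id).b (lRho.E e) := by
  rw [frG_b, frG_b]
  change mpG (push (rhoH 0) rhoSgn)
    (bi (Finsupp.single (pe e) 1) (Finsupp.single (qe e) 1)) =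
    bi (Finsupp.single (pe (lRho.E e)) 1) (Finsupp.single (qe (lRho.E e)) 1)
  rw [mpG_push_bi]
  obtain ⟨⟨x, y⟩, j⟩ := e
  rcases fin2 j with rfl | rfl
  · have h : lRho.E ((x, y), 0) = ((-y + 1, x), 1) := by
      change trEd (1, 0) (rotEd ((x, y), 0)) = _
      simp [trEd, rotEd, rotate]
    have h1 : (rhoH 0 (pe (((x, y), 0) : Ed)) : Latx683.HE ℤ) = pe (((-y + 1, x), 1) : Ed) := by
      rw [pe_zero, pe_one]; simp [rhoH, rot]
    have h2 : (rhoH 0 (qe (((x, y), 0) : Ed)) : Latx683.HE ℤ) = qe (((-y + 1, x), 1) : Ed) := by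
      rw [qe_zero, qe_one]; simp [rhoH, rot]; ring
    have h3 : rhoSgn (pe (((x, y), 0) : Ed)) * rhoSgn (qe (((x, y), 0) : Ed)) = 1 := by
      rw [pe_zero, qe_zero]; simp [rhoSgn]
    rw [h, h1, h2, h3, one_smul]
  · have h : lRho.E ((x, y), 1) = ((-y, x), 0) := by
      change trEd (1, 0) (rotEd ((x, y), 1)) = _
      simp [trEd, rotEd, rotate]
    have h1 : (rhoH 0 (pe (((x, y), 1) : Ed)) : Latx683.HE ℤ) = qe (((-y, x), 0) : Ed) := by
      rw [pe_one, qe_zero]; simp [rhoH, rot]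
    have h2 : (rhoH 0 (qe (((x, y), 1) : Ed)) : Latx683.HE ℤ) = pe (((-y, x), 0) : Ed) := by
      rw [qe_one, pe_zero]; simp [rhoH, rot]
    have h3 : rhoSgn (pe (((x, y), 1) : Ed)) * rhoSgn (qe (((x, y), 1) : Ed)) = -1 := by
      rw [pe_one, qe_one]; simp [rhoSgn]
    rw [h, h1, h2, h3, neg_one_smul, ← bi_swap]

theorem rho_I4 (f : ℤ × ℤ) :
    mpG (rhoV 0) ((frG (G := ℤ) LinearMap.id).I4 f) = (frG LinearMap.id).I4 (lRho.ψ f) := by
  rw [I4_six, I4_six]
  change mpG (push (rhoH 0) rhoSgn) _ = _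
  have h0 : rot 0 f = lRho.ψ f := by
    change rot 0 f = rF f + (1, 0)
    obtain ⟨x, y⟩ := f
    simp [rot, rF]
  simp only [map_add, LinearMap.id_apply, mpG_push_bi]
  simp only [rhoH, rhoSgn, h0, Matrix.cons_val_zero, Matrix.cons_val_one, Matrix.cons_val,
    one_mul, mul_one, mul_neg, one_smul, neg_smul]
  rw [← bi_swap, ← bi_swap, ← bi_swap]
  ring

theorem sig_b (e : Ed) :
    revG (mpG (sigV 0) ((frG (G := ℤ) LinearMap.id).b e)) = (frG LinearMap.id).b (lSig.E e) := by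
  rw [frG_b, frG_b]
  change revG (mpG (push (sigH 0) sigSgn)
    (bi (Finsupp.single (pe e) 1) (Finsupp.single (qe e) 1))) =
    bi (Finsupp.single (pe (lSig.E e)) 1) (Finsupp.single (qe (lSig.E e)) 1)
  rw [mpG_push_bi, map_smul, revG_bi]
  obtain ⟨⟨x, y⟩, j⟩ := e
  rcases fin2 j with rfl | rfl
  · have h : lSig.E ((x, y), 0) = ((-x, y), 0) := by
      change trEd (1, 0) (rotEd (rotEd (refEd ((x, y), 0)))) = _
      simp [trEd, rotEd, refEd, rotate, reflect]
    have h1 : (sigH 0 (pe (((x, y), 0) : Ed)) : Latx683.HE ℤ) = pe (((-x, y), 0) : Ed) := by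
      rw [pe_zero, pe_zero]; simp [sigH, ref]
    have h2 : (sigH 0 (qe (((x, y), 0) : Ed)) : Latx683.HE ℤ) = qe (((-x, y), 0) : Ed) := by
      rw [qe_zero, qe_zero]; simp [sigH, ref]
    have h3 : sigSgn (pe (((x, y), 0) : Ed)) * sigSgn (qe (((x, y), 0) : Ed)) = -1 := by
      rw [pe_zero, qe_zero]; simp [sigSgn]
    rw [h, h1, h2, h3, neg_one_smul, neg_neg]
  · have h : lSig.E ((x, y), 1) = ((-x + 1, y), 1) := by
      change trEd (1, 0) (rotEd (rotEd (refEd ((x, y), 1)))) = _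
      simp [trEd, rotEd, refEd, rotate, reflect]
    have h1 : (sigH 0 (pe (((x, y), 1) : Ed)) : Latx683.HE ℤ) = qe (((-x + 1, y), 1) : Ed) := by
      rw [pe_one, qe_one]; simp [sigH, ref]; ring
    have h2 : (sigH 0 (qe (((x, y), 1) : Ed)) : Latx683.HE ℤ) = pe (((-x + 1, y), 1) : Ed) := by
      rw [qe_one, pe_one]; simp [sigH, ref]
    have h3 : sigSgn (pe (((x, y), 1) : Ed)) * sigSgn (qe (((x, y), 1) : Ed)) = 1 := by
      rw [pe_one, qe_one]; simp [sigSgn]
    rw [h, h1, h2, h3, one_smul, ← bi_swap]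

theorem sig_I4 (f : ℤ × ℤ) :
    revG (mpG (sigV 0) ((frG (G := ℤ) LinearMap.id).I4 f)) =
      (frG LinearMap.id).I4 (lSig.ψ f) := by
  rw [I4_six, I4_six]
  change revG (mpG (push (sigH 0) sigSgn) _) = _
  have h0 : ref 0 f = lSig.ψ f := by
    change ref 0 f = rF (rF (gF f)) + (1, 0)
    obtain ⟨x, y⟩ := f
    simp [ref, rF, gF]
  simp only [map_add, LinearMap.id_apply, mpG_push_bi, map_smul, revG_bi]
  simp only [sigH, sigSgn, h0, Matrix.cons_val_zero, Matrix.cons_val_one, Matrix.cons_val,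
    one_mul, mul_one, mul_neg, one_smul, neg_smul, neg_neg]
  rw [← bi_swap, ← bi_swap, ← bi_swap]
  ring

variable {κ : Type} [DecidableEq κ] [Fintype κ]

theorem rot0_eq : (rot 0 : ℤ × ℤ → ℤ × ℤ) = lRho.ψ := by
  funext f
  change rot 0 f = rF f + (1, 0)
  obtain ⟨x, y⟩ := f
  simp [rot, rF]

theorem ref0_eq : (ref 0 : ℤ × ℤ → ℤ × ℤ) = lSig.ψ := by
  funext f
  change ref 0 f = rF (rF (gF f)) + (1, 0)
  obtain ⟨x, y⟩ := f
  simp [ref, rF, gF]

/-- **the initial activities of a homogeneous background have the symmetries of the plane** -/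
theorem plSym_hom [IsEmpty κ] {B : Bk ℤ κ (Ge (Fld ℤ))} {y0 s0 : ℝ} (hB : Hom B y0 s0)
    (hr : ∀ S, B.t (rB S) = B.t S) (hf : ∀ S, B.t (fB S) = B.t S) :
    PlSym fun U => ((B.K0 (frG LinearMap.id) U : Ge (Fld ℤ)) : Gr (Fld ℤ)) := by
  refine plSym_iff.2 ?_
  rintro c (⟨t, rfl⟩ | rfl | rfl) U
  · rw [gTau_Φ]
    exact K0_lsym hB (lTr t) (fun S => hB.tT S t) (mpG (tauV t)) (tau_b t) (tau_I4 t) U
  · rw [gRho_Φ, gRho_φ, rot0_eq]
    exact K0_lsym hB lRho (fun S => (hB.tT _ _).trans (hr S)) (mpG (rhoV 0)) rho_b rho_I4 U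
  · rw [gSig_Φ, gSig_φ, ref0_eq]
    exact K0_lsym hB lSig (fun S => (hB.tT _ _).trans ((hr _).trans ((hr _).trans (hf S))))
      (revG.comp (mpG (sigV 0))) sig_b sig_I4 U

/-! ### the potential -/

theorem isNN_of_image {B : Finset (ℤ × ℤ)} (L : LSym) (hL : ∀ e : Ed, pr (L.E e) = L.β (pr e)) :
    IsNN (L.β B) ↔ IsNN B := by
  constructor
  · rintro ⟨e, he⟩
    obtain ⟨e', rfl⟩ := L.E_surj e
    exact ⟨e', L.β_inj (he.trans (hL e'))⟩
  · rintro ⟨e, rfl⟩
    exact ⟨L.E e, (hL e).symm⟩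

theorem tpot_lsym {J lam β : ℝ} {V : Finset (ℤ × ℤ) → ℝ} (L : LSym)
    (hL : ∀ e : Ed, pr (L.E e) = L.β (pr e)) (hV : ∀ B, V (L.β B) = V B) (B : Finset (ℤ × ℤ)) :
    tpot J lam β V (L.β B) = tpot J lam β V B := by
  classical
  unfold tpot
  rw [hV]
  congr 2
  by_cases h : IsNN B
  · rw [if_pos h, if_pos ((isNN_of_image L hL).2 h)]
  · rw [if_neg h, if_neg fun h' => h ((isNN_of_image L hL).1 h')]

theorem hom_pl {J lam β z : ℝ} {R : ℕ} {V : Finset (ℤ × ℤ) → ℝ} (hT : TrInv V) (hR : Rng R V)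
    (src : Srcs κ ℤ (Ge (Fld ℤ))) :
    Hom (Bg.pl.bk (mpar J lam R V β z) src) xc (Real.sqrt (1 + z)) where
  y _ := rfl
  s f := by
    show Bg.sc _ _ f = _
    exact if_pos trivial
  ok _ _ := trivial
  tT B t := tpot_lsym (lTr t) (fun e => pr_trEd t e) (fun B => hT B t) B
  tR := J4Lnkx653.tpot_rng hR

/-- **PlSym of the initial activities of the plane** (hard core form) -/
theorem K00_plSym {J lam β z : ℝ} {R : ℕ} {V : Finset (ℤ × ℤ) → ℝ} (hT : TrInv V) (hR : Rng R V)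
    (hr : ∀ S, V (rB S) = V S) (hf : ∀ S, V (fB S) = V S) :
    PlSym fun U => ((Bg.pl.K00 (mpar J lam R V β z) LinearMap.id (noSrc ℤ (Ge (Fld ℤ))) U :
      Ge (Fld ℤ)) : Gr (Fld ℤ)) :=
  plSym_hom (hom_pl hT hR _) (tpot_lsym lRot (fun e => pr_rotEd e) hr)
    (tpot_lsym lRef (fun e => pr_refEd e) hf)

/-- **PlSym of the initial activities of the plane** (reclustered) -/
theorem K0_plSym {J lam β z : ℝ} {R : ℕ} {V : Finset (ℤ × ℤ) → ℝ} (hT : TrInv V) (hR : Rng R V)
    (hr : ∀ S, V (rB S) = V S) (hf : ∀ S, V (fB S) = V S) (l k0 : ℕ) :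
    PlSym fun U => ((Bg.pl.K0 (mpar J lam R V β z) LinearMap.id (noSrc ℤ (Ge (Fld ℤ))) l k0 U :
      Ge (Fld ℤ)) : Gr (Fld ℤ)) := by
  refine plSym_KK (fun c _ a b => c.φ.injective.eq_iff) (fun c _ a b => ?_)
    (K00_plSym hT hR hr hf) ?_
  · unfold near
    rw [c.iso]
  · refine plSym_iff.2 fun c _ U => ?_
    exact map_zero _

end plane

end Crest.Agent.R165.J4K0Symx126
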