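import Crest.Agent.R165.K0Iso_900
import Crest.Agent.R165.Out_683
import Crest.Agent.R165.SData_900
import Crest.Agent.R165.GSysOK_439
import Crest.Agent.R165.J4K0L_126

/-!
# Row 165 (S0250): the spin data of `C²` domains (helper432)

* `bgK0_mem`, `bgK0_empty`, `fl_OK` : algebraic facts about the flow of any background
* `bgK0_iso` : the initial activities correspond under an isomorphism of backgrounds
* `cc_fl` : **the constants correspond**; instances `far_cc`, `close1_cc`, `close2_cc`, `farB_cc`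
* `zeta_transl` : `∑_U (c^{BR(x)}_k - c^{PL}_k) = zetaK c P k` for every `x`
* `spinData_dom` : **`SpinData` for domains**, from the bounds, the telescoping data and the last step
-/

set_option autoImplicit false
set_option linter.unusedSectionVars false

noncomputable section

open Filter Topology
open scoped ENNReal
open Crest.ProbabilityR.IsingModel
open Crest.Agent.R165.Gr0x606 Crest.Agent.R165.Gr1x606 Crest.Agent.R165.GeOpsx337
open Crest.Agent.R165.Latx683 Crest.Agent.R165.GDefx387 Crest.Agent.R165.GSysx387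
open Crest.Agent.R165.KFlowx337 Crest.Agent.R165.Telx337 Crest.Agent.R165.FRDPolyx439
open Crest.Agent.R165.BgIsox432 Crest.Agent.R165.CmpBgx432 Crest.Agent.R165.GrLocx337
open Crest.Agent.R165.Bkgx683 Crest.Agent.R165.PEndx683 Crest.Agent.R165.Outx683
open Crest.Agent.R165.J4K0x126 Crest.Agent.R165.J4K0Lx126 Crest.Agent.R165.J4Geox126
open Crest.Agent.R165.J4Lnkx653 Crest.Agent.R165.K0Isox900 Crest.Agent.R165.KInitx892
open Crest.Agent.R165.J1ax606 (pe qe pe_zero pe_one qe_zero qe_one)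
open Crest.Agent.R165.J4Defx653 (tr BB thick mem_tr)
open Crest.Agent.R165.DomGeox900 Crest.Agent.R165.SDatax900 Crest.Agent.R165.Spinx930
open Crest.Agent.R165.SpinSysx892 Crest.Agent.R165.DiscDatax892

namespace Crest.Agent.R165.SpinDomx432

/-! ### the flow of a background -/

section gen

variable {G G' : Type} [CommRing G] [CN G] [DecidableEq G] [CommRing G'] [CN G'] [DecidableEq G']

theorem frG_id : frG (LinearMap.id : Fld G →ₗ[ℝ] Fld G) = frV G := rfl

theorem bi_mem_grG {V : Type*} [AddCommGroup V] [Module ℝ V] {W : Submodule ℝ V} {x y : V}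
    (hx : x ∈ W) (hy : y ∈ W) : bi x y ∈ grG W := by
  rw [mem_grG, coe_bi]
  exact mul_mem (fi_mem_gr hx) (fi_mem_gr hy)

/-- the initial activities are local -/
theorem bgK0_mem (B : Bg G) (P : MPar) (l k0 : ℕ) (U : Finset (G × G)) :
    B.K0 P LinearMap.id (noSrc G (Ge (Fld G))) l k0 U ∈ grG (fldU U) := by
  unfold Bg.K0
  refine K1_mem (fun U => grG (fldU U)) (fun U W h => grG_mono (GSysOKx439.fldU_mono h)) _ U
    fun U' _ => ?_
  unfold Bg.K00
  have hs : ∀ (U : Finset (G × G)) (h : HE G), h.1 ∈ U →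
      (Finsupp.single h (1 : ℝ) : Fld G) ∈ (fldU U : Submodule ℝ (Fld G)) := fun U h hh =>
    single_mem_fldS (subset_nbhd U 1 hh) 1
  refine J4K0Lx126.K0_mem (fun U => grG (fldU U)) ?_ ?_ ?_ U'
  · intro U e he
    rw [frG_b]
    exact bi_mem_grG (hs U _ (he (Finset.mem_insert_self _ _)))
      (hs U _ (he (Finset.mem_insert_of_mem (Finset.mem_singleton_self _))))
  · intro U f hf
    rw [frG_I4]
    exact Subalgebra.sum_mem _ fun p _ => bi_mem_grG (hs U _ hf) (hs U _ hf)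
  · intro U k
    exact k.elim0

theorem bgK0_empty (B : Bg G) (P : MPar) (l k0 : ℕ) :
    B.K0 P LinearMap.id (noSrc G (Ge (Fld G))) l k0 ∅ = 0 := K1_empty _ _

variable [CNZ G] [CNZ G']

/-- the algebraic hypotheses hold -/
theorem fl_OK (c : Cst) (P : MPar) (B : Bg G) (h5 : 5 ≤ c.p * (c.k0 + 1)) : (fl c P B).OK ⊥ :=
  GSysOKx439.sys_OK DD (by norm_num) B.w ∅ h5 (bgK0_mem B P c.p c.k0)

/-- **the initial activities correspond** -/
theorem bgK0_iso {Z : Set (G × G)} {B : Bg G} {B' : Bg G'} (b : BgIso B.w B'.w Z) (P : MPar)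
    (l k0 : ℕ) (htch : ∀ f ∈ Z, (B.tch f ↔ B'.tch (b.τ f)))
    (hok : ∀ u ∈ Z, ∀ S ∈ J4Defx653.Can P.R, Even S.card → (∀ f ∈ (Yf S).image (fz u), f ∈ Z) →
      (B.ok P.R u S ↔ B'.ok P.R (b.τ u) S)) {U : Finset (G × G)} (hU : nbhd 1 U ⊆ Z) :
    mpG b.push (B.K0 P LinearMap.id (noSrc G (Ge (Fld G))) l k0 U) =
      B'.K0 P LinearMap.id (noSrc G' (Ge (Fld G'))) l k0 (U.image b.τ) := by
  have hm : ∀ f ∈ U, f ∈ Z := fun f hf => hU (subset_nbhd U 1 hf)
  refine K1_iso b l k0 hm fun U' hU' _ => ?_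
  refine K0_iso (κ := Fin 0) (κ' := Fin 0) b (fun f hf => (ball_subset_nbhd (hU' hf)).trans hU)
    (B := B.bk P (noSrc G (Ge (Fld G)))) (B' := B'.bk P (noSrc G' (Ge (Fld G')))) (fun _ => rfl)
    (fun _ => rfl) (fun f hf => ?_) rfl (fun _ _ _ => rfl) fun u hu S hS hev hYf => ?_
  · show B.sc P f = B'.sc P (b.τ f)
    unfold Bg.sc
    have := htch f (hm f (hU' hf))
    by_cases h : B.tch f
    · rw [if_pos h, if_pos (this.1 h)]
    · rw [if_neg h, if_neg fun h' => h (this.2 h')]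
  · exact hok u (hm u (hU' hu)) S hS hev fun f hf => hm f (hU' (hYf hf))

/-- **the constants of the flow correspond** -/
theorem cc_fl {Z : Set (G × G)} {B : Bg G} {B' : Bg G'} (b : BgIso B.w B'.w Z) (c : Cst) (P : MPar)
    (h5 : 5 ≤ c.p * (c.k0 + 1)) (hp : 1 ≤ c.p) (h2 : (2 : G') ≠ 0)
    (htch : ∀ f ∈ Z, (B.tch f ↔ B'.tch (b.τ f)))
    (hok : ∀ u ∈ Z, ∀ S ∈ J4Defx653.Can P.R, Even S.card → (∀ f ∈ (Yf S).image (fz u), f ∈ Z) →
      (B.ok P.R u S ↔ B'.ok P.R (b.τ u) S)) (n : ℕ) {U : Finset (G × G)} (hne : U.Nonempty)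
    (hU : nbhd (rhoH c.p c.k0 n) U ⊆ Z) :
    cc (fl c P B) n U = cc (fl c P B') n (U.image b.τ) := by
  refine ct_eq DD b (mk := ∅) (mk' := ∅) (fun f _ => by simp) h2 hp (by norm_num)
    (K0 := B.K0 P LinearMap.id (noSrc G (Ge (Fld G))) c.p c.k0)
    (K0' := B'.K0 P LinearMap.id (noSrc G' (Ge (Fld G'))) c.p c.k0)
    (fun U _ hU => ?_) (fl_OK c P B h5) n hne hU
  refine bgK0_iso b P c.p c.k0 htch hok ((nbhd_mono ?_).trans hU)
  have e2 : s2 = 128 := rfl
  have e3 := rr_pos c.p c.k0 0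
  rw [e2]
  omega

end gen

end Crest.Agent.R165.SpinDomx432
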