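import Crest.Agent.R165.TorNorm_583
import Crest.Agent.R165.SysDeepT_898
import Crest.Agent.R165.XBd2_915
import Crest.Agent.R165.SpinDom_432
import Crest.Agent.R165.K0IsoB_900
import Crest.Agent.R165.J4K0L_126
import Crest.Agent.R165.Const_891
import Crest.Agent.R165.Out_683

/-!
# Row 165 (S0250): the norm flow on the torus with real sources (helper583)

* `SrcOK`     : real sources with connected supports, each support contains a mark
* `srcK0_mem`, `srcK0_acS`, `srcK0_iso` : locality, connectedness, comparison with the plane of the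
  initial activities with sources (every background)
* `tor_bd`    : bounds of the activities and of the constants of the flow on the torus, from the
  bound of the plane flow without source and of the initial activities
* `tor_flow`  : the same in terms of the constants, from `PlB` (plane, growing amplitudes)
-/

set_option autoImplicit false
set_option linter.unusedSectionVars false

noncomputable section

open Filter Topology
open scoped ENNReal
open Crest.ProbabilityR.IsingModel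
open Crest.Agent.R165.Gr0x606 Crest.Agent.R165.Gr1x606 Crest.Agent.R165.GeOpsx337
  Crest.Agent.R165.ExpGx337 Crest.Agent.R165.KFlowx337 Crest.Agent.R165.Telx337
open Crest.Agent.R165.Latx683 Crest.Agent.R165.PNormx417 Crest.Agent.R165.GrLocx337
open Crest.Agent.R165.GDefx387 Crest.Agent.R165.Packx915 Crest.Agent.R165.NSumx915
open Crest.Agent.R165.Bridgex915 Crest.Agent.R165.DefStepx915 Crest.Agent.R165.NKDefx915
  Crest.Agent.R165.DefRecx915 Crest.Agent.R165.Compx889 Crest.Agent.R165.TorChartx723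
  Crest.Agent.R165.GSysx387 Crest.Agent.R165.FRDPolyx439 Crest.Agent.R165.FRDLatx439
  Crest.Agent.R165.TorDx583 Crest.Agent.R165.TorNumx583 Crest.Agent.R165.PEndx683
  Crest.Agent.R165.TorNormx583 Crest.Agent.R165.XBdx915 Crest.Agent.R165.SysDeepx898
  Crest.Agent.R165.BgIsox432 Crest.Agent.R165.KInitx892 Crest.Agent.R165.KMapx892
  Crest.Agent.R165.Bkgx683 Crest.Agent.R165.Outx683 Crest.Agent.R165.K0Isox900
  Crest.Agent.R165.K0IsoBx900 Crest.Agent.R165.J4K0x126 Crest.Agent.R165.J4K0Mapx126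
  Crest.Agent.R165.J4Geox126 Crest.Agent.R165.J4Lnkx653 Crest.Agent.R165.SpinSysx892
  Crest.Agent.R165.Constx891 Crest.Agent.R165.SpinDomx432
open Crest.Agent.R165.J1ax606 (pe qe)
open Crest.Agent.R165.J4Defx653 (Can)

namespace Crest.Agent.R165.TorNorm2x583

/-! ### the initial activities with real sources -/

section src

variable {G : Type} [CommRing G] [CN G] [DecidableEq G] {κ : Type} [DecidableEq κ] [Fintype κ]

/-- real sources, connected supports, each support contains a mark -/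
structure SrcOK (src : Srcs κ G (Ge (Fld G))) (mk : Finset (G × G)) : Prop where
  real : ∀ k, ∃ t : ℝ, src.as k = algebraMap ℝ (Ge (Fld G)) t
  conn : ∀ k, Packx915.Conn fd 1 (src.Ys k)
  mark : ∀ k, (src.Ys k).Nonempty → ∃ x ∈ mk, x ∈ src.Ys k

variable {src : Srcs κ G (Ge (Fld G))} {mk : Finset (G × G)}

/-- **locality** -/
theorem srcK0_mem (hs : SrcOK src mk) (B : Bg G) (P : MPar) (l k0 : ℕ) (U : Finset (G × G)) :
    B.K0 P LinearMap.id src l k0 U ∈ grG (fldU U) := by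
  unfold Bg.K0
  refine K1_mem (fun U => grG (fldU U)) (fun U W h => grG_mono (GSysOKx439.fldU_mono h)) _ U
    fun U' _ => ?_
  unfold Bg.K00
  have h1 : ∀ (U : Finset (G × G)) (h : HE G), h.1 ∈ U →
      (Finsupp.single h (1 : ℝ) : Fld G) ∈ (fldU U : Submodule ℝ (Fld G)) := fun U h hh =>
    single_mem_fldS (subset_nbhd U 1 hh) 1
  refine J4K0Lx126.K0_mem (fun U => grG (fldU U)) ?_ ?_ ?_ U'
  · intro U e he
    rw [frG_b]
    exact bi_mem_grG (h1 U _ (he (Finset.mem_insert_self _ _)))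
      (h1 U _ (he (Finset.mem_insert_of_mem (Finset.mem_singleton_self _))))
  · intro U f hf
    rw [frG_I4]
    exact Subalgebra.sum_mem _ fun p _ => bi_mem_grG (h1 U _ hf) (h1 U _ hf)
  · intro U k _
    obtain ⟨t, ht⟩ := hs.real k
    show src.as k ∈ _
    rw [ht]
    exact Subalgebra.algebraMap_mem _ t

/-- **connectedness** -/
theorem srcK0_acS [GoodG G] (hs : SrcOK src mk) (B : Bg G) (P : MPar) {l k0 : ℕ}
    (h1 : 1 ≤ nearR l k0 0) (U : Finset (G × G)) (hU : B.K0 P LinearMap.id src l k0 U ≠ 0) :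
    acS fd (nearR l k0 0) Set.univ U := by
  refine ⟨?_, ?_, fun _ _ => Set.mem_univ _⟩
  · rw [Finset.nonempty_iff_ne_empty]
    rintro rfl
    exact hU (K1_empty _ _)
  · exact K1f_conn h1 (fun U h => J4K0Lx126.K0_conn1 (fun k => hs.conn k) h) hU

variable {G' : Type} [CommRing G'] [CN G'] [DecidableEq G']

/-- no source inside -/
theorem K0_iso_none {w : BW G} {w' : BW G'} {Z : Set (G × G)} (b : BgIso w w' Z)
    {U : Finset (G × G)} (hU : ∀ f ∈ U, ball f 1 ⊆ Z)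
    {B : Bk G κ (Ge (Fld G))} {B' : Bk G' (Fin 0) (Ge (Fld G'))}
    (hy : ∀ e, B.y e = w e.1 e.2) (hy' : ∀ e, B'.y e = w' e.1 e.2)
    (hs : ∀ f ∈ U, B.s f = B'.s (b.τ f)) (hR : B.R = B'.R)
    (ht : ∀ S ∈ Can B.R, Even S.card → B.t S = B'.t S)
    (hok : ∀ u ∈ U, ∀ S ∈ Can B.R, Even S.card → (Yf S).image (fz u) ⊆ U →
      (B.ok u S ↔ B'.ok (b.τ u) S))
    (hno : ∀ k, (B.Ys k).Nonempty → B.Ys k ⊆ U → False) :
    mpG b.push (B.K0 (frV G) U) = B'.K0 (frV G') (U.image b.τ) := by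
  have h : Chart0 (frV G) B (frV G') B' b.τ (fun _ : κ => (none : Option (Fin 0)))
      (mpG b.push) U := by
    refine chart0_of b hU (hb_V b hU) (fun f _ => hI_V b f) hy hy' hs hR ht hok ?_ ?_ ?_
    · exact fun k hk hsub => (hno k hk hsub).elim
    · exact fun k hk hsub => (hno k hk hsub).elim
    · exact fun k' => k'.elim0
  exact K0_chart h

/-- **comparison with a background without sources** on regions without marks -/
theorem srcK0_iso (hs : SrcOK src mk) {B : Bg G} {B' : Bg G'} {Z : Set (G × G)}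
    (b : BgIso B.w B'.w Z) (P : MPar) (l k0 : ℕ) {U : Finset (G × G)}
    (hU : ∀ f ∈ U, ball f 1 ⊆ Z) (hmk : ∀ f ∈ Z, f ∉ mk)
    (htch : ∀ f ∈ U, (B.tch f ↔ B'.tch (b.τ f)))
    (hok : ∀ u ∈ U, ∀ S ∈ Can P.R, Even S.card → (Yf S).image (fz u) ⊆ U →
      (B.ok P.R u S ↔ B'.ok P.R (b.τ u) S)) :
    mpG b.push (B.K0 P LinearMap.id src l k0 U) =
      B'.K0 P LinearMap.id (noSrc G' (Ge (Fld G'))) l k0 (U.image b.τ) := by
  refine K1_iso b l k0 (fun f hf => hU f hf (mem_ball_self f 1)) fun U₁ hU₁ _ => ?_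
  show mpG b.push ((B.bk P src).K0 (frG LinearMap.id) U₁) =
    (B'.bk P (noSrc G' (Ge (Fld G')))).K0 (frG LinearMap.id) (U₁.image b.τ)
  rw [K0IsoBx900.frG_id, K0IsoBx900.frG_id]
  refine K0_iso_none b (fun f hf => hU f (hU₁ hf)) (B := B.bk P src)
    (B' := B'.bk P (noSrc G' (Ge (Fld G')))) (fun _ => rfl) (fun _ => rfl) (fun f hf => ?_) rfl
    (fun _ _ _ => rfl) (fun u hu S hS hev hSU => hok u (hU₁ hu) S hS hev (hSU.trans hU₁)) ?_
  · show B.sc P f = B'.sc P (b.τ f)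
    unfold Bg.sc
    by_cases h : B.tch f
    · rw [if_pos h, if_pos ((htch f (hU₁ hf)).1 h)]
    · rw [if_neg h, if_neg fun h' => h ((htch f (hU₁ hf)).2 h')]
  · intro k hk hsub
    obtain ⟨x, hx, hxk⟩ := hs.mark k hk
    exact hmk x (hU x (hU₁ (hsub hxk)) (mem_ball_self x 1)) hx

end src

/-! ### the torus -/

section tor

variable {κ : Type} [DecidableEq κ] [Fintype κ]

/-- the initial activities of the torus are those of the plane away from the marks -/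
theorem initG_tor {M : ℕ} [NeZero M] {ε₁ ε₂ : ℝ} {src : Srcs κ (ZMod M) (Ge (Fld (ZMod M)))}
    {mk : Finset (ZMod M × ZMod M)} (hs : SrcOK src mk) (P : MPar) (l k0 : ℕ) :
    InitG (wTor M ε₁ ε₂) mk l k0 ((Bg.tor M ε₁ ε₂).K0 P LinearMap.id src l k0)
      (Bg.pl.K0 P LinearMap.id (noSrc ℤ (Ge (Fld ℤ))) l k0) := by
  intro U Z b _ hU hmk
  exact srcK0_iso (B := Bg.tor M ε₁ ε₂) (B' := Bg.pl) hs b P l k0
    (fun _ hf => ball_of_nbhd hU hf) hmk (fun _ _ => Iff.rfl) fun _ _ _ _ _ _ => Iff.rfl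

/-- constants -/
structure TC (c : Cst) : Prop where
  num : Num DD.C 1 c.p c.k0 c.Γ c.A0
  A0_ge : 2 * GSysOKx439.c0 DD.C c.p c.k0 ≤ c.A0
  δ0 : 0 ≤ c.δ
  δ1 : c.δ ≤ 1
  near : 1 ≤ nearR c.p c.k0 0
  five : 5 ≤ c.p * (c.k0 + 1)

theorem ev_TC : EvC TC := by
  have h1 := ev_Num DD.C 1
  have h2 := ev_A0_ge fun p _ k0 => 2 * GSysOKx439.c0 DD.C p k0
  have h3 := ev_std
  have h4 := ev_p_ge 5
  refine (((h1.and h2).and h3).and h4).mono fun c hc => ?_
  obtain ⟨⟨⟨h1, h2⟩, h3⟩, h4⟩ := hc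
  refine ⟨h1, h2, h3.δ_pos.le, h3.δ_le, ?_, ?_⟩
  · have h5 : 2 ^ 3 ≤ 2 ^ (c.p * (c.k0 + 1)) :=
      Nat.pow_le_pow_right (by norm_num) ((by omega : 3 ≤ c.p).trans (Nat.le_mul_of_pos_right _ (by omega)))
    have h6 : rr c.p c.k0 1 = 2 ^ (c.p * (c.k0 + 1)) := rfl
    have h7 : nearR c.p c.k0 0 = rr c.p c.k0 (0 + 1) / 8 := rfl
    rw [h7, zero_add, h6]
    omega
  · exact h4.trans (Nat.le_mul_of_pos_right _ (by omega))

/-- **the flow on the torus with real sources**: bounds of the activities and of the constants -/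
theorem tor_bd {c : Cst} (hc : TC c) : ∃ M₀ ε₀ : ℝ, 0 < M₀ ∧ 0 < ε₀ ∧
    ∀ (P : MPar) (θ : ℝ) (K : ℕ), 0 ≤ θ → θ ≤ ε₀ →
      (∀ n, n ≤ K → NK (wPl ℤ) (amp c n) (rr c.p c.k0 n) (ENNReal.ofReal c.Γ) (fun _ => True)
        (fun U => (((plF c P).K n U : Ge (Fld ℤ)) : Gr (Fld ℤ))) ≤
          ENNReal.ofReal (θ * (1 / 2) ^ n)) →
      ∀ (M : ℕ) [NeZero M] (ε₁ ε₂ : ℝ), ε₁ * ε₁ = 1 → ε₂ * ε₂ = 1 →
      4 * (rr c.p c.k0 K + s2 * rr c.p c.k0 K + 1) ≤ M →
      ∀ (mk : Finset (ZMod M × ZMod M)), mk.card ≤ 1 →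
      ∀ (κ : Type) [DecidableEq κ] [Fintype κ] (src : Srcs κ (ZMod M) (Ge (Fld (ZMod M)))),
      SrcOK src mk →
      NK (wTor M ε₁ ε₂) (amp c 0) (rr c.p c.k0 0) (ENNReal.ofReal c.Γ) (fun _ => True)
        (fun U => (((Bg.tor M ε₁ ε₂).K0 P LinearMap.id src c.p c.k0 U : Ge (Fld (ZMod M))) :
          Gr (Fld (ZMod M)))) ≤ ENNReal.ofReal θ →
      (∀ k, k ≤ K → NK (wTor M ε₁ ε₂) (amp c k) (rr c.p c.k0 k) (ENNReal.ofReal c.Γ)
        (fun _ => True) (fun U => ((((Bg.tor M ε₁ ε₂).flow P DD mk src c.p c.k0).K k U :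
          Ge (Fld (ZMod M))) : Gr (Fld (ZMod M)))) ≤ ENNReal.ofReal (M₀ * θ * (1 / 2) ^ k)) ∧
      Bd ((Bg.tor M ε₁ ε₂).flow P DD mk src c.p c.k0) fd (fun k => rr c.p c.k0 (k + 1))
        (nearR c.p c.k0) (ENNReal.ofReal c.Γ) (fun k => M₀ * θ * (1 / 2) ^ k) K := by
  have hD : MM + 1 ≤ 8 := by norm_num [MM]
  obtain ⟨CX, hCX, hX⟩ := exists_xbd
  obtain ⟨M₀, ε₀, hM₀, hε₀, key⟩ := tor_comp DD hD hc.num (CX := CX) (m := 1) hCX ENNReal.one_ne_top
  obtain ⟨ε₁', hε₁', hle⟩ : ∃ e : ℝ, 0 < e ∧ ENNReal.ofReal e ≤ ε₀ := by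
    rcases eq_or_ne ε₀ ∞ with h | h
    · exact ⟨1, one_pos, by rw [h]; exact le_top⟩
    · exact ⟨ε₀.toReal, ENNReal.toReal_pos hε₀ h, by rw [ENNReal.ofReal_toReal h]⟩
  refine ⟨M₀.toReal + 1, ε₁', by positivity, hε₁', ?_⟩
  intro P θ K hθ hθε hpl M _ ε₁ ε₂ h₁ h₂ hM mk hmk κ _ _ src hs h0
  have half : (1 / 2 : ℝ≥0∞) = ENNReal.ofReal (1 / 2) := by
    rw [ENNReal.ofReal_div_of_pos (by norm_num)]; simp
  have hA0 := hc.num.A0_pos
  have hamp : ∀ n, c.A0 ≤ amp c n := fun n => by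
    unfold Outx683.amp
    have := mul_nonneg hc.δ0 (Nat.cast_nonneg (α := ℝ) n)
    nlinarith
  have hamp2 : ∀ n, amp c (n + 1) ≤ 2 * amp c n := fun n => by
    unfold Outx683.amp
    have := mul_nonneg hc.δ0 (Nat.cast_nonneg (α := ℝ) n)
    have h1 := hc.δ1
    push_cast
    nlinarith
  have hloc := fun U => srcK0_mem hs (Bg.tor M ε₁ ε₂) P c.p c.k0 U
  have hOK : (sys DD (wTor M ε₁ ε₂) mk c.p c.k0
      ((Bg.tor M ε₁ ε₂).K0 P LinearMap.id src c.p c.k0)).OK ⊥ :=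
    GSysOKx439.sys_OK DD (by norm_num) (wTor M ε₁ ε₂) mk hc.five hloc
  have hac0 := fun U h => srcK0_acS hs (Bg.tor M ε₁ ε₂) P hc.near U h
  have hac : ∀ k U, (sys DD (wTor M ε₁ ε₂) mk c.p c.k0
      ((Bg.tor M ε₁ ε₂).K0 P LinearMap.id src c.p c.k0)).K k U ≠ 0 → acT c.p c.k0 k U := by
    intro k U hU
    have := ac_sys DD hac0 k U hU
    exact ⟨this.1, this.2.1⟩
  have hrrK : ∀ k, k ≤ K → 4 * (rr c.p c.k0 k + s2 * rr c.p c.k0 k + 1) ≤ M := by
    intro k hk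
    have := rr_mono c.p c.k0 hk
    have hs : s2 = 128 := rfl
    rw [hs] at hM ⊢
    omega
  have hdeep : ∀ k, k ≤ K → NP (sys DD (wTor M ε₁ ε₂) mk c.p c.k0
      ((Bg.tor M ε₁ ε₂).K0 P LinearMap.id src c.p c.k0)) (wTor M ε₁ ε₂) (amp c) (rr c.p c.k0)
        (ENNReal.ofReal c.Γ) (emT (wTor M ε₁ ε₂) mk (rr c.p c.k0 k)) k ≤
          ENNReal.ofReal θ * (1 / 2) ^ k := by
    intro k hk
    refine (sys_deep_tor_of DD h₁ h₂ hc.five (by norm_num) hloc (initG_tor hs P c.p c.k0) k ?_ ?_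
      (amp c k) (ENNReal.ofReal c.Γ)).trans ?_
    · rintro U ⟨-, x, ρ, hρ, hU⟩
      exact ⟨x, ρ, fun u hu => hU u hu, hρ⟩
    · rintro U ⟨⟨-, hU⟩, -⟩ u hu x hx
      exact hU u hu x hx
    · refine (hpl k hk).trans (le_of_eq ?_)
      rw [ENNReal.ofReal_mul hθ, ENNReal.ofReal_pow (by norm_num), half]
  have hc0 : NP (sys DD (wTor M ε₁ ε₂) mk c.p c.k0
      ((Bg.tor M ε₁ ε₂).K0 P LinearMap.id src c.p c.k0)) (wTor M ε₁ ε₂) (amp c) (rr c.p c.k0)
        (ENNReal.ofReal c.Γ) (fun U => ¬ emT (wTor M ε₁ ε₂) mk (rr c.p c.k0 0) U) 0 ≤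
          1 * ENNReal.ofReal θ := by
    rw [one_mul]
    exact (NK_mono fun U _ => ⟨trivial, le_rfl⟩).trans h0
  obtain ⟨k1, k2⟩ := key M ε₁ ε₂ h₁ h₂ mk hmk K hM (amp c) hamp hamp2 _ hac
    (fun k hk => hX (ZMod M) (wTor M ε₁ ε₂) (TorDx583.wTor_le h₁ h₂) 8 64 DD hD mk c.p c.k0 _ hOK k
      (amp c k) (amp c (k + 1)) (hc.A0_ge.trans (hamp k)) (hA0.trans_le (hamp _)) (hamp2 k) _)
    (ENNReal.ofReal θ) (1 / 2) le_rfl (ENNReal.half_le_self.trans_eq rfl)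
    ((ENNReal.ofReal_le_ofReal hθε).trans hle) hdeep hc0
  have hfin : ∀ k : ℕ, M₀ * (ENNReal.ofReal θ * (1 / 2) ^ k) ≤
      ENNReal.ofReal ((M₀.toReal + 1) * θ * (1 / 2) ^ k) := by
    intro k
    rw [mul_assoc (M₀.toReal + 1), ENNReal.ofReal_mul (by positivity), ENNReal.ofReal_mul hθ,
      ENNReal.ofReal_pow (by norm_num), ← half]
    refine mul_le_mul' ?_ le_rfl
    calc M₀ = ENNReal.ofReal M₀.toReal := (ENNReal.ofReal_toReal hM₀).symm
      _ ≤ _ := ENNReal.ofReal_le_ofReal (by linarith)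
  refine ⟨fun k hk => (k1 k hk).trans (hfin k), fun k hk => (k2 k hk).trans (hfin k), ?_⟩
  intro k hk U hU
  have hKU : (sys DD (wTor M ε₁ ε₂) mk c.p c.k0
      ((Bg.tor M ε₁ ε₂).K0 P LinearMap.id src c.p c.k0)).K k U ≠ 0 := by
    intro h
    apply hU
    show ctG (Sys.H _ k U) = 0
    rw [Sys.H]
    have h' : ((Bg.tor M ε₁ ε₂).flow P DD mk src c.p c.k0).K k U = 0 := h
    rw [h', map_zero, map_zero]
  exact hac k U hKU

/-! ### in terms of the constants -/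

/-- the plane flow with growing amplitudes (conclusion of helper889's `plane_P8`) -/
def PlB (J : ℝ) (R : ℕ) (V : Finset (ℤ × ℤ) → ℝ) : Prop :=
  EvC fun c => ∀ C : ℝ, ∃ ε > 0, ∃ C' ≥ 0, ∀ lam β z : ℝ, |lam| < ε → NearP J C lam β z →
    PF J R V C c lam β z → ∀ n, NK (wPl ℤ) (Outx683.amp c n) (rr c.p c.k0 n)
      (ENNReal.ofReal c.Γ) (fun _ => True)
      (fun U => (((plF c (mpar J lam R V β z)).K n U : Ge (Fld ℤ)) : Gr (Fld ℤ))) ≤
        ENNReal.ofReal (C' * |lam| * (1 / 2) ^ n)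

/-- **the flow on the torus** with any source whose initial activities are at most `s` -/
theorem tor_flow {J : ℝ} {R : ℕ} {V : Finset (ℤ × ℤ) → ℝ} (hpl : PlB J R V) :
    EvC fun c => ∀ C : ℝ, ∃ ε > 0, ∃ η > 0, ∃ C' ≥ 0, ∀ lam β z : ℝ, |lam| < ε →
      NearP J C lam β z → PF J R V C c lam β z → ∀ s : ℝ, 0 ≤ s → s ≤ η →
      ∀ (M : ℕ) [NeZero M] (ε₁ ε₂ : ℝ), ε₁ * ε₁ = 1 → ε₂ * ε₂ = 1 → ∀ K : ℕ,
      4 * (rr c.p c.k0 K + s2 * rr c.p c.k0 K + 1) ≤ M →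
      ∀ (mk : Finset (ZMod M × ZMod M)), mk.card ≤ 1 →
      ∀ (κ : Type) [DecidableEq κ] [Fintype κ] (src : Srcs κ (ZMod M) (Ge (Fld (ZMod M)))),
      SrcOK src mk →
      NK (wTor M ε₁ ε₂) c.A0 (rr c.p c.k0 0) (ENNReal.ofReal c.Γ) (fun _ => True)
        (fun U => (((Bg.tor M ε₁ ε₂).K0 (mpar J lam R V β z) LinearMap.id src c.p c.k0 U :
          Ge (Fld (ZMod M))) : Gr (Fld (ZMod M)))) ≤ ENNReal.ofReal s →
      (∀ k, k ≤ K → NK (wTor M ε₁ ε₂) (Outx683.amp c k) (rr c.p c.k0 k) (ENNReal.ofReal c.Γ)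
        (fun _ => True)
        (fun U => ((((Bg.tor M ε₁ ε₂).flow (mpar J lam R V β z) DD mk src c.p c.k0).K k U :
          Ge (Fld (ZMod M))) : Gr (Fld (ZMod M)))) ≤
            ENNReal.ofReal (C' * (|lam| + s) * (1 / 2) ^ k)) ∧
      Bd ((Bg.tor M ε₁ ε₂).flow (mpar J lam R V β z) DD mk src c.p c.k0) fd
        (fun k => rr c.p c.k0 (k + 1)) (nearR c.p c.k0) (ENNReal.ofReal c.Γ)
        (fun k => C' * (|lam| + s) * (1 / 2) ^ k) K := by
  refine (EvC.and ev_TC hpl).mono fun c hc C => ?_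
  obtain ⟨hT, hP⟩ := hc
  obtain ⟨M₀, ε₀, hM₀, hε₀, key⟩ := tor_bd hT
  obtain ⟨ε₁, hε₁, C₁, hC₁, hP⟩ := hP C
  have hpos : 0 < C₁ + 1 := by linarith
  refine ⟨min ε₁ (ε₀ / 2 / (C₁ + 1)), lt_min hε₁ (by positivity), ε₀ / 2, by positivity,
    M₀ * (C₁ + 1), by positivity, ?_⟩
  intro lam β z hlam hn hPF s hs hsη M _ e₁ e₂ h₁ h₂ K hM mk hmk κ _ _ src hsrc h0
  have hl1 := hlam.trans_le (min_le_left _ _)
  have hl2 : (C₁ + 1) * |lam| ≤ ε₀ / 2 := by
    have := (hlam.trans_le (min_le_right _ _)).le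
    rwa [le_div_iff₀ hpos, mul_comm] at this
  have hθ : 0 ≤ C₁ * |lam| + s := by positivity
  have habs := abs_nonneg lam
  obtain ⟨k1, k2⟩ := key (mpar J lam R V β z) (C₁ * |lam| + s) K hθ (by nlinarith)
    (fun n _ => (hP lam β z hl1 hn hPF n).trans (ENNReal.ofReal_le_ofReal
      (mul_le_mul_of_nonneg_right (by linarith) (by positivity)))) M e₁ e₂ h₁ h₂ hM mk hmk κ src
    hsrc (by
      have e : Outx683.amp c 0 = c.A0 := by unfold Outx683.amp; simp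
      rw [e]
      exact h0.trans (ENNReal.ofReal_le_ofReal (by nlinarith)))
  have hle : ∀ k : ℕ, M₀ * (C₁ * |lam| + s) * (1 / 2) ^ k ≤
      M₀ * (C₁ + 1) * (|lam| + s) * (1 / 2 : ℝ) ^ k := by
    intro k
    refine mul_le_mul_of_nonneg_right ?_ (by positivity)
    rw [mul_assoc M₀]
    exact mul_le_mul_of_nonneg_left (by nlinarith) hM₀.le
  refine ⟨fun k hk => (k1 k hk).trans (ENNReal.ofReal_le_ofReal (hle k)), ?_, k2.conn⟩
  intro k hk
  exact (k2.nn k hk).trans (ENNReal.ofReal_le_ofReal (hle k))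

end tor

end Crest.Agent.R165.TorNorm2x583
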