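import Crest.Agent.R165.Out_683
import Crest.Agent.R165.SData_900
import Crest.Agent.R165.SrcER_441
import Crest.Agent.R165.PinSys_723
import Crest.Agent.R165.TorFin_63
import Crest.Agent.R165.EbTor_723
import Crest.Agent.R165.TorusUT_922

/-!
# Row 165 (S0250): the universality half from its literal leaves (helper386)

`PFn` : the plane flow is controlled, norm form (amplitude `A0`, rate `1/4`) = field `PF`.

Leaves (all literal, on the concrete names of `Bkg_683`, `Out_683`):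
* `P7L`    : shooting
* `ZetaL`  : size of `zetaK`
* `SpDL`, `SpPL` : spin data in domains / large plus discs
* `EnL`    : energy packs in domains / large plus discs (with functions `Ze`, `eb`)
* `TorL`, `DisL` : torus / disc half of the limit of bond expectations (real source `t`)

`flowOut_of`, `pflow_of_leaves : Leaves → PFlow`.
-/

set_option autoImplicit false
set_option linter.unusedSectionVars false

noncomputable section

open Filter Topology
open scoped ENNReal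
open Crest.ProbabilityR.IsingModel
open Crest.Agent.R165.Gr0x606 Crest.Agent.R165.Gr1x606 Crest.Agent.R165.GeOpsx337
open Crest.Agent.R165.Latx683 Crest.Agent.R165.GDefx387 Crest.Agent.R165.GSysx387
open Crest.Agent.R165.KFlowx337 Crest.Agent.R165.Telx337
open Crest.Agent.R165.Bkgx683 Crest.Agent.R165.PEndx683 Crest.Agent.R165.Outx683
open Crest.Agent.R165.DiscDatax892 Crest.Agent.R165.SrcERx441 Crest.Agent.R165.PinSysx723
open Crest.Agent.R165.Symx541 Crest.Agent.R165.Redx541 Crest.Agent.R165.Red2x541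
open Crest.Agent.R165.Centx541 Crest.Agent.R165.Mastx541 Crest.Agent.R165.SRx541
open Crest.Agent.R165.Topx683 Crest.Agent.R165.Bridgex915

namespace Crest.Agent.R165.PTopx386

variable (J : ℝ) (R : ℕ) (V : Finset (ℤ × ℤ) → ℝ)

/-! ### the controlled plane flow -/

/-- **the plane flow is controlled** (= `PF` of `Out_683`) -/
abbrev PFn (C : ℝ) (c : Cst) (lam β z : ℝ) : Prop := PF J R V C c lam β z

/-- a field `Q` proved for one notion of control holds for a stronger one -/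
theorem ForP.congr {J : ℝ} {PF PF' : ℝ → Cst → ℝ → ℝ → ℝ → Prop} {Q : Cst → ℝ → ℝ → ℝ → Prop}
    (h : ForP J PF' Q)
    (hPF : EvC fun c => ∀ C : ℝ, ∃ C' : ℝ, C ≤ C' ∧ ∀ lam β z : ℝ, PF C c lam β z →
      PF' C' c lam β z) : ForP J PF Q := by
  refine (EvC.and h hPF).mono fun c hc C => ?_
  obtain ⟨C', hCC, hP⟩ := hc.2 C
  obtain ⟨ε, hε, h1⟩ := hc.1 C'
  refine ⟨ε, hε, fun lam β z hl hn hp => h1 lam β z hl ?_ (hP lam β z hp)⟩
  unfold NearP at hn ⊢
  exact hn.trans (mul_le_mul_of_nonneg_right hCC (abs_nonneg _))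

/-! ### the leaves -/

/-- **(P7)** shooting -/
def P7L : Prop :=
  EvC fun c => ∃ C : ℝ, ∃ ε > 0, ∃ β z : ℝ → ℝ, ∀ lam : ℝ, |lam| < ε →
    NearP J C lam (β lam) (z lam) ∧ PF J R V C c lam (β lam) (z lam)

/-- size of the contribution of one branch point -/
def ZetaL : Prop :=
  EvC fun c => ∀ C : ℝ, ∃ ε > 0, ∃ C' : ℝ, ∀ lam β z : ℝ, |lam| < ε → NearP J C lam β z →
    PF J R V C c lam β z → ∀ k, |zetaK c (mpar J lam R V β z) k| ≤ C' * |lam| * (1 / 2) ^ k

/-- **spin data, domains** -/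
def SpDL : Prop :=
  ForP J (PF J R V) fun c lam β z =>
    ∀ D : Set ℂ, IsC2JordanDomain D → ∀ (b : BoundaryCondition) (n : ℕ), 1 ≤ n → Rel b n →
      ∀ x : Fin n → ℂ, (∀ i, x i ∈ D) → Function.Injective x →
        ∃ G : ScaleData (fd : ℤ × ℤ → ℤ × ℤ → ℕ), Nonempty (SpinData G (𝓝[>] (0 : ℝ)) n
          (fun a => spm D a b J lam R V β x / spm0 D a b x) (zetaK c (mpar J lam R V β z)))

/-- **spin data, large plus discs** -/
def SpPL : Prop :=
  ForP J (PF J R V) fun c lam β z =>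
    ∀ (n : ℕ), 1 ≤ n → Even n → ∀ x : Fin n → ℂ, Function.Injective x →
        ∃ G : ScaleData (fd : ℤ × ℤ → ℤ × ℤ → ℕ),
          Nonempty (SpinData G ((𝓝[>] (0 : ℝ)).curry (atTop : Filter ℝ)) n
          (fun p => spm (Metric.ball 0 p.2) p.1 .plus J lam R V β x /
            spm0 (Metric.ball 0 p.2) p.1 .plus x) (zetaK c (mpar J lam R V β z)))

/-- energy packs in domains, for given `Ze`, `eb` -/
def EnD (Ze : Cst → ℝ → ℝ → ℝ → ℝ) (eb : Cst → ℝ → ℝ → ℝ → Fin 2 → ℝ) : Prop :=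
  ForP J (PF J R V) fun c lam β z =>
    ∀ D : Set ℂ, IsC2JordanDomain D → ∀ (b : BoundaryCondition) (n m : ℕ), 1 ≤ m → Rel b n →
      ∀ (x : Fin n → ℂ) (y : Fin m → ℂ) (j : Fin m → Fin 2),
        (∀ i, x i ∈ D) → (∀ k, y k ∈ D) → Function.Injective (Fin.append x y) →
        ∃ C₁ κ : ℝ, 0 ≤ C₁ ∧ 0 < κ ∧ ∀ ε > 0, ∀ᶠ a : ℝ in 𝓝[>] 0,
          ERPack m (domMom D a b J lam R V β x y j (fun k => eb c lam β z (j k)) /
              spm D a b J lam R V β x)
            (D0c D a b x y j / spm0 D a b x) (Ze c lam β z) C₁ κ a ε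

/-- energy packs in large plus discs, for given `Ze`, `eb` -/
def EnP (Ze : Cst → ℝ → ℝ → ℝ → ℝ) (eb : Cst → ℝ → ℝ → ℝ → Fin 2 → ℝ) : Prop :=
  ForP J (PF J R V) fun c lam β z =>
    ∀ (n m : ℕ), 1 ≤ m → Even n → ∀ (x : Fin n → ℂ) (y : Fin m → ℂ) (j : Fin m → Fin 2),
        Function.Injective (Fin.append x y) →
        ∃ C₁ κ : ℝ, 0 ≤ C₁ ∧ 0 < κ ∧ ∀ ε > 0, ∀ᶠ a : ℝ in 𝓝[>] 0, ∀ᶠ B : ℝ in atTop,
          ERPack m (domMom (Metric.ball 0 B) a .plus J lam R V β x y j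
                (fun k => eb c lam β z (j k)) /
              spm (Metric.ball 0 B) a .plus J lam R V β x)
            (D0c (Metric.ball 0 B) a .plus x y j / spm0 (Metric.ball 0 B) a .plus x)
            (Ze c lam β z) C₁ κ a ε

/-- **energy** -/
def EnL : Prop :=
  ∃ (Ze : Cst → ℝ → ℝ → ℝ → ℝ) (eb : Cst → ℝ → ℝ → ℝ → Fin 2 → ℝ),
    OneP J (PF J R V) Ze ∧ EnD J R V Ze eb ∧ EnP J R V Ze eb

/-- the limit exponent of the real source `1 + t ∏_{e ∈ S} eps_e` in the plane -/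
def expoT (c : Cst) (P : MPar) (S : Finset ((ℤ × ℤ) × Fin 2)) (t : ℝ) : ℝ :=
  expo (flt c P Bg.pl 0 S t) (flt c P Bg.pl 0 S 0)

open Crest.Agent.R165.TorusCombx922 Crest.Agent.R165.TorusJ1x922 Crest.Agent.R165.TorusJ2x922
  Crest.Agent.R165.J4RRx653 Crest.Agent.R165.TorFinx63 Crest.Agent.R165.PPdx63 in
/-- **torus half** of the limit of the bond expectations -/
def TorL : Prop :=
  ForP J (PF J R V) fun c lam β z => ∀ S : Finset ((ℤ × ℤ) × Fin 2), ∃ t0 > 0, ∀ t : ℝ, 0 < t →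
    t < t0 → ∃ ZG ZT : Fin 2 × Fin 2 → ℕ → ℝ,
      (∀ᶠ N : ℕ in atTop, ∃ F G : RR (Ed (N + 1)),
        (∀ σ, evT σ F = (∏ e ∈ S, Symx541.ep e fun z => σ (toTorus (N + 1) z)) *
          Real.exp (pertT J lam β R V σ)) ∧
        (∀ σ, evT σ G = Real.exp (pertT J lam β R V σ)) ∧
        (∀ s, ZG s N = ZS s G) ∧ (∀ s, ZT s N = ZS s (G + t • F))) ∧
      SecData t (expoT c (mpar J lam R V β z) S t) ZG ZT

/-- **disc half** of the limit of the bond expectations -/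
def DisL : Prop :=
  ForP J (PF J R V) fun c lam β z => ∀ S : Finset ((ℤ × ℤ) × Fin 2), ∃ t0 > 0, ∀ t : ℝ, 0 < t →
    t < t0 → Tendsto (fun B : ℝ => 1 + t * discBonds B J lam R V β S) atTop
      (𝓝 (Real.exp (expoT c (mpar J lam R V β z) S t)))

/-- **all leaves** -/
structure Leaves : Prop where
  p7 : ∀ J : ℝ, 0 < J → ∀ (R : ℕ) (V : Finset (ℤ × ℤ) → ℝ), VHyp R V → P7L J R V
  zeta : ∀ J : ℝ, 0 < J → ∀ (R : ℕ) (V : Finset (ℤ × ℤ) → ℝ), VHyp R V → ZetaL J R V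
  spd : ∀ J : ℝ, 0 < J → ∀ (R : ℕ) (V : Finset (ℤ × ℤ) → ℝ), VHyp R V → SpDL J R V
  spp : ∀ J : ℝ, 0 < J → ∀ (R : ℕ) (V : Finset (ℤ × ℤ) → ℝ), VHyp R V → SpPL J R V
  en : ∀ J : ℝ, 0 < J → ∀ (R : ℕ) (V : Finset (ℤ × ℤ) → ℝ), VHyp R V → EnL J R V
  tor : ∀ J : ℝ, 0 < J → ∀ (R : ℕ) (V : Finset (ℤ × ℤ) → ℝ), VHyp R V → TorL J R V
  dis : ∀ J : ℝ, 0 < J → ∀ (R : ℕ) (V : Finset (ℤ × ℤ) → ℝ), VHyp R V → DisL J R V

/-! ### the spin renormalisation -/

variable {J R V}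

theorem tsum_geo_le {f : ℕ → ℝ} {K : ℝ} (h : ∀ k, |f k| ≤ K * (1 / 2) ^ k) :
    Summable f ∧ |∑' k, f k| ≤ 2 * K := by
  have hs : Summable fun k : ℕ => K * (1 / 2 : ℝ) ^ k :=
    (summable_geometric_of_lt_one (by norm_num) (by norm_num)).mul_left K
  have h1 : Summable f := Summable.of_norm_bounded hs fun k => by
    rw [Real.norm_eq_abs]; exact h k
  refine ⟨h1, ?_⟩
  have h2 := norm_tsum_le_tsum_norm (f := f) h1.norm
  have h3 : ∑' k, ‖f k‖ ≤ ∑' k : ℕ, K * (1 / 2 : ℝ) ^ k :=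
    Summable.tsum_le_tsum (fun k => by rw [Real.norm_eq_abs]; exact h k) h1.norm hs
  rw [tsum_mul_left, tsum_geometric_of_lt_one (by norm_num) (by norm_num)] at h3
  rw [Real.norm_eq_abs] at h2
  calc _ ≤ _ := h2
    _ ≤ _ := h3
    _ = 2 * K := by norm_num; ring

theorem exp_sub_one_le {x : ℝ} (h : |x| ≤ 1) : |Real.exp x - 1| ≤ 2 * |x| := by
  have h1 := Real.abs_exp_sub_one_sub_id_le h
  have h2 : |Real.exp x - 1| ≤ |Real.exp x - 1 - x| + |x| := by
    have := abs_add_le (Real.exp x - 1 - x) x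
    simpa using this
  have h3 : x ^ 2 ≤ |x| := by
    rw [← sq_abs]
    nlinarith [abs_nonneg x]
  linarith

/-- summability of the constants -/
theorem ZetaL.summable (h : ZetaL J R V) :
    ForP J (PF J R V) fun c lam β z => Summable (zetaK c (mpar J lam R V β z)) := by
  refine h.mono fun c hc C => ?_
  obtain ⟨ε, hε, C', h1⟩ := hc C
  exact ⟨ε, hε, fun lam β z hl hn hp => (tsum_geo_le (h1 lam β z hl hn hp)).1⟩

/-- **the field `zs`** -/
theorem ZetaL.zs (h : ZetaL J R V) : OneP J (PF J R V) (Zs J R V) := by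
  refine h.mono fun c hc C => ?_
  obtain ⟨ε, hε, C', h1⟩ := hc C
  have hC : 0 < 2 * |C'| + 1 := by positivity
  refine ⟨min ε (1 / (2 * |C'| + 1)), lt_min hε (by positivity), 4 * |C'|,
    fun lam β z hl hn hp => ?_⟩
  have h2 := (tsum_geo_le (h1 lam β z (hl.trans_le (min_le_left _ _)) hn hp)).2
  have h3 : 2 * (C' * |lam|) ≤ 2 * |C'| * |lam| := by
    have := mul_le_mul_of_nonneg_right (le_abs_self C') (abs_nonneg lam)
    linarith
  have h4 : |lam| * (2 * |C'| + 1) < 1 := by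
    have := hl.trans_le (min_le_right _ _)
    rwa [lt_div_iff₀ hC] at this
  have h5 : |∑' k, zetaK c (mpar J lam R V β z) k| ≤ 1 := by
    nlinarith [abs_nonneg lam]
  calc |Zs J R V c lam β z - 1| ≤ 2 * |∑' k, zetaK c (mpar J lam R V β z) k| := exp_sub_one_le h5
    _ ≤ 4 * |C'| * |lam| := by linarith

/-! ### the fields `srd`, `srp` -/

theorem srd_of' {lam β : ℝ} {ζ : ℕ → ℝ} (hζ : Summable ζ)
    (h : ∀ D : Set ℂ, IsC2JordanDomain D → ∀ (b : BoundaryCondition) (n : ℕ), 1 ≤ n → Rel b n →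
      ∀ x : Fin n → ℂ, (∀ i, x i ∈ D) → Function.Injective x →
        ∃ G : ScaleData (fd : ℤ × ℤ → ℤ × ℤ → ℕ), Nonempty (SpinData G (𝓝[>] (0 : ℝ)) n
          (fun a => spm D a b J lam R V β x / spm0 D a b x) ζ)) :
    SRD J lam R V β (Real.exp (∑' k, ζ k)) := by
  intro D hD b n hn hR x hx hinj ε hε
  obtain ⟨G, ⟨S⟩⟩ := h D hD b n hn hR x hx hinj
  have h1 := (S.tendsto hζ).eventually (Metric.closedBall_mem_nhds _ hε)
  filter_upwards [h1] with a ha
  rwa [Real.dist_eq] at ha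

theorem srp_of' {lam β : ℝ} {ζ : ℕ → ℝ} (hζ : Summable ζ)
    (h : ∀ (n : ℕ), 1 ≤ n → Even n → ∀ x : Fin n → ℂ, Function.Injective x →
        ∃ G : ScaleData (fd : ℤ × ℤ → ℤ × ℤ → ℕ),
          Nonempty (SpinData G ((𝓝[>] (0 : ℝ)).curry (atTop : Filter ℝ)) n
          (fun p => spm (Metric.ball 0 p.2) p.1 .plus J lam R V β x /
            spm0 (Metric.ball 0 p.2) p.1 .plus x) ζ)) :
    SRP J lam R V β (Real.exp (∑' k, ζ k)) := by
  intro n hn hev x hinj ε hε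
  obtain ⟨G, ⟨S⟩⟩ := h n hn hev x hinj
  have h1 := (S.tendsto hζ).eventually (Metric.closedBall_mem_nhds _ hε)
  rw [eventually_curry_iff] at h1
  refine h1.mono fun a ha => ha.mono fun B hB => ?_
  rwa [Real.dist_eq] at hB

theorem ForP.imp {J : ℝ} {PF : ℝ → Cst → ℝ → ℝ → ℝ → Prop} {Q Q' : Cst → ℝ → ℝ → ℝ → Prop}
    (h : ForP J PF Q) (hQ : ∀ c lam β z, Q c lam β z → Q' c lam β z) : ForP J PF Q' := by
  refine EvC.mono h fun c hc C => ?_
  obtain ⟨ε, hε, h1⟩ := hc C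
  exact ⟨ε, hε, fun lam β z hl hn hp => hQ c lam β z (h1 lam β z hl hn hp)⟩

theorem srd (hz : ZetaL J R V) (h : SpDL J R V) :
    ForP J (PF J R V) fun c lam β z => SRD J lam R V β (Zs J R V c lam β z) :=
  ForP.imp (ForP.and hz.summable h) fun _ _ _ _ h => srd_of' h.1 h.2

theorem srp (hz : ZetaL J R V) (h : SpPL J R V) :
    ForP J (PF J R V) fun c lam β z => SRP J lam R V β (Zs J R V c lam β z) :=
  ForP.imp (ForP.and hz.summable h) fun _ _ _ _ h => srp_of' h.1 h.2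

/-! ### the field `dl` -/

theorem dl (hJ : 0 < J) (hV : VHyp R V) (hT : TorL J R V) (hD : DisL J R V) :
    ForP J (PF J R V) fun _ lam β _ => DiscLim J lam R V β := by
  refine ForP.imp (ForP.and hT hD) fun c lam β z h S => ?_
  obtain ⟨t0, ht0, h1⟩ := h.1 S
  obtain ⟨t1, ht1, h2⟩ := h.2 S
  have hm : 0 < min t0 t1 / 2 := by have := lt_min ht0 ht1; linarith
  set t := min t0 t1 / 2 with ht
  have htlt : t < min t0 t1 := by rw [ht]; linarith
  obtain ⟨ZG, ZT, h3, h4⟩ := h1 t hm (htlt.trans_le (min_le_left _ _))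
  refine ⟨_, TorFinx63.torBonds_of hJ hV lam β S hm.ne' h3 h4, ?_⟩
  exact lin_of_ratio hm.ne' (h2 t hm (htlt.trans_le (min_le_right _ _)))
    (Eventually.of_forall fun _ => rfl)

/-- the unperturbed model -/
theorem vhyp_zero : VHyp 0 (fun _ => 0) :=
  ⟨fun _ h => absurd rfl h, fun _ h => absurd rfl h, fun _ _ => rfl, fun _ => rfl, fun _ => rfl⟩

/-- the unperturbed disc limit -/
theorem discLim_zero (h7 : P7L 1 0 (fun _ => 0))
    (hdl : ForP 1 (PF 1 0 (fun _ => 0)) fun _ lam β _ => DiscLim 1 lam 0 (fun _ => 0) β) :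
    DiscLim 1 0 0 (fun _ => 0) (criticalBeta 1) := by
  obtain ⟨c, ⟨C, ε, hε, β, z, hβ⟩, hc⟩ := (EvC.and h7 hdl).exists
  obtain ⟨ε', hε', h1⟩ := hc C
  have h2 := hβ 0 (by simpa using hε)
  have h3 := h1 0 (β 0) (z 0) (by simpa using hε') h2.1 h2.2
  have h4 : β 0 = criticalBeta 1 := by
    have := h2.1
    unfold NearP at this
    rw [abs_zero, mul_zero] at this
    have h5 : |β 0 - criticalBeta 1| = 0 :=
      le_antisymm (by linarith [abs_nonneg (z 0)]) (abs_nonneg _)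
    exact sub_eq_zero.1 (abs_eq_zero.1 h5)
  rwa [h4] at h3

/-! ### the instance -/

/-- **the instance of `FlowOut`** -/
theorem flowOut_of (hJ : 0 < J) (hV : VHyp R V)
    (h0 : DiscLim 1 0 0 (fun _ => 0) (criticalBeta 1)) (h7 : P7L J R V) (hz : ZetaL J R V)
    (hsd : SpDL J R V) (hsp : SpPL J R V) (he : EnL J R V) (hT : TorL J R V) (hD : DisL J R V) :
    Nonempty (FlowOut J R V) := by
  obtain ⟨Ze, eb, hZe, hEd, hEp⟩ := he
  have herp : ForP J (PF J R V) fun c lam β z =>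
      ERP J lam R V β (Ze c lam β z) (eb c lam β z) :=
    ForP.imp hEp fun _ _ _ _ h => ERP_of h
  refine ⟨⟨PF J R V, Zs J R V, Ze, eb, h7, hz.zs, hZe, srd hz hsd,
    ForP.imp hEd fun _ _ _ _ h => ERD_of h, srp hz hsp, herp, dl hJ hV hT hD, ?_⟩⟩
  exact ForP.imp (ForP.and herp (dl hJ hV hT hD)) fun c lam β z h j =>
    EbTorx723.bm_of TorusUTx922.UTb_proof h0 h.1 h.2 j

/-- **`PFlow` from the literal leaves** -/
theorem pflow_of_leaves (h : Leaves) : PFlow := by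
  refine pflow_of fun J hJ R V hV => ?_
  refine flowOut_of hJ hV ?_ (h.p7 J hJ R V hV) (h.zeta J hJ R V hV) (h.spd J hJ R V hV)
    (h.spp J hJ R V hV) (h.en J hJ R V hV) (h.tor J hJ R V hV) (h.dis J hJ R V hV)
  exact discLim_zero (h.p7 1 one_pos 0 _ vhyp_zero)
    (dl one_pos vhyp_zero (h.tor 1 one_pos 0 _ vhyp_zero) (h.dis 1 one_pos 0 _ vhyp_zero))

end Crest.Agent.R165.PTopx386
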