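import Crest.Agent.R165.SpinDom_432
import Crest.Agent.R165.K0IsoB_900

/-!
# Row 165 (S0250): the spin data of `C²` domains, part 2 (helper432)

* `far_cc`, `close1_cc`, `close2_cc`, `farB_cc` : **the constants of the flows agree** (domain with
  insertions / without, plane with one branch point, plane)
* `br_transl`, `zeta_transl` : `∑_U (c^{BR(x)}_k - c^{PL}_k) = zetaK c P k` for every `x`
* `Mesh T X ρ` : the geometric hypotheses; `mesh_dom` : they hold for domains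
* `spinSys` : **`SpinSys` for domains** (any filter), from the bounds, the telescoping data and the
  last step
-/

set_option autoImplicit false
set_option linter.unusedSectionVars false

noncomputable section

open Filter Topology
open scoped ENNReal
open Crest.ProbabilityR.IsingModel
open Crest.Agent.R165.Gr0x606 Crest.Agent.R165.Gr1x606 Crest.Agent.R165.GeOpsx337
open Crest.Agent.R165.Latx683 Crest.Agent.R165.GDefx387 Crest.Agent.R165.GSysx387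
open Crest.Agent.R165.KFlowx337 Crest.Agent.R165.Telx337 Crest.Agent.R165.FRDPolyx439
open Crest.Agent.R165.BgIsox432 Crest.Agent.R165.CmpBgx432 Crest.Agent.R165.GrLocx337
open Crest.Agent.R165.Bkgx683 Crest.Agent.R165.PEndx683 Crest.Agent.R165.Outx683
open Crest.Agent.R165.J4Defx653 (tr BB Can)
open Crest.Agent.R165.DomGeox900 Crest.Agent.R165.SDatax900 Crest.Agent.R165.Spinx930
open Crest.Agent.R165.SpinSysx892 Crest.Agent.R165.DiscDatax892 Crest.Agent.R165.Scalex900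

namespace Crest.Agent.R165.SpinDomx432

/-! ### isomorphisms -/

/-- two families of insertions which both avoid `U` -/
def isoAv2 {n m : ℕ} (w : BW ℤ) (X : Fin n → ℤ × ℤ) (Y : Fin m → ℤ × ℤ) {R : ℕ}
    {U : Finset (ℤ × ℤ)} (hU : U.Nonempty) (hX : ∀ i, Avoids fd R (X i) U)
    (hY : ∀ i, Avoids fd R (Y i) U) : BgIso (wX w X) (wX w Y) (hl R hU) :=
  rayIso w X Y (fun _ => True) (fun _ => True)
    (fun i _ => away_of_notMem (notMem_hl hU (hX i)))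
    (fun i _ => away_of_notMem (notMem_hl hU (hY i))) (by intro z j; simp)

@[simp] theorem isoAv2_τ {n m : ℕ} (w : BW ℤ) (X : Fin n → ℤ × ℤ) (Y : Fin m → ℤ × ℤ) {R : ℕ}
    {U : Finset (ℤ × ℤ)} (hU : U.Nonempty) (hX : ∀ i, Avoids fd R (X i) U)
    (hY : ∀ i, Avoids fd R (Y i) U) (f : ℤ × ℤ) : (isoAv2 w X Y hU hX hY).τ f = f := rfl

/-- inside the domain, away from the insertions: the plane -/
def isoDomPl {T : Set (ℤ × ℤ)} (fr : Bool) {n : ℕ} (X : Fin n → ℤ × ℤ) (x : ℤ × ℤ) (r : ℕ)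
    (h : ∀ j, r < fd x (X j)) (hZ : ∀ f ∈ ball x r, cornersIn T f) :
    BgIso (wX (wDom T fr) X) (wPl ℤ) (ball x r) :=
  ((rayIso0 (a := x.1 - r) (b := x.1 + r) (c := x.2 - r) (d := x.2 + r) (wDom T fr) X
    fun j => away_of_notMem (by rw [← ball_eq_box, mem_ball, not_le]; exact h j)).mono
      (by rw [ball_eq_box])).trans (isoDom0 fr hZ) fun _ hf => hf

@[simp] theorem isoDomPl_τ {T : Set (ℤ × ℤ)} (fr : Bool) {n : ℕ} (X : Fin n → ℤ × ℤ) (x : ℤ × ℤ)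
    (r : ℕ) (h : ∀ j, r < fd x (X j)) (hZ : ∀ f ∈ ball x r, cornersIn T f) (f : ℤ × ℤ) :
    (isoDomPl fr X x r h hZ).τ f = f := rfl

/-- translation of the plane -/
def plTrans (x : ℤ × ℤ) (Z : Set (ℤ × ℤ)) : BgIso (wPl ℤ) (wPl ℤ) Z where
  τ f := (f.1 - x.1, f.2 - x.2)
  s _ := 1
  sq _ := by norm_num
  iso f _ g _ := by
    unfold fd
    simp
  e1 f _ _ := by ext <;> simp; ring
  e2 f _ _ := by ext <;> simp; ring
  wE f _ _ := by simp [yE, wPl]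
  wN f _ _ := by simp [yN, wPl]

/-! ### the constants -/

section cst

variable {c : Cst} {P : MPar}

theorem image_of_id {τ : ℤ × ℤ → ℤ × ℤ} (h : ∀ f, τ f = f) (U : Finset (ℤ × ℤ)) :
    U.image τ = U := by
  have : τ = id := funext h
  rw [this, Finset.image_id]

/-- constants agree under an isomorphism over the identity chart -/
theorem cc_id {B B' : Bg ℤ} {Z : Set (ℤ × ℤ)} (b : BgIso B.w B'.w Z) (hτ : ∀ f, b.τ f = f)
    (h5 : 5 ≤ c.p * (c.k0 + 1)) (hp : 1 ≤ c.p) (htch : ∀ f ∈ Z, (B.tch f ↔ B'.tch f))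
    (hok : ∀ u ∈ Z, ∀ S ∈ Can P.R, (∀ f ∈ (J4Geox126.Yf S).image (J4Geox126.fz u), f ∈ Z) →
      (B.ok P.R u S ↔ B'.ok P.R u S)) (n : ℕ) {U : Finset (ℤ × ℤ)} (hne : U.Nonempty)
    (hU : nbhd (rhoH c.p c.k0 n) U ⊆ Z) :
    cc (fl c P B) n U = cc (fl c P B') n U := by
  have h := cc_fl b c P h5 hp (by norm_num) (fun f hf => by rw [hτ]; exact htch f hf)
    (fun u hu S hS _ hYf => by rw [hτ]; exact hok u hu S hS hYf) n hne hU
  rwa [image_of_id hτ] at h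

/-- **far from the insertions the insertions are not seen** -/
theorem far_cc (h5 : 5 ≤ c.p * (c.k0 + 1)) (hp : 1 ≤ c.p) (T : Finset (ℤ × ℤ))
    (b : BoundaryCondition) {n m : ℕ} (X : Fin n → ℤ × ℤ) (Y : Fin m → ℤ × ℤ) {R k : ℕ}
    (hR : rhoH c.p c.k0 k ≤ R) {U : Finset (ℤ × ℤ)} (hU : U.Nonempty)
    (hX : ∀ i, Avoids fd R (X i) U) (hY : ∀ i, Avoids fd R (Y i) U) :
    cc (domF c P T b X) k U = cc (domF c P T b Y) k U :=
  cc_id (B := Bg.dom T b X) (B' := Bg.dom T b Y)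
    (isoAv2 (wDom (T : Set (ℤ × ℤ)) (isF b)) X Y hU hX hY) (fun _ => rfl) h5 hp
    (fun _ _ => Iff.rfl) (fun _ _ _ _ _ => Iff.rfl) k hU
    ((nbhd_mono hR).trans (nbhd_subset_hl R hU))

theorem cor_of_cornersIn {T : Finset (ℤ × ℤ)} {f : ℤ × ℤ} (h : cornersIn (T : Set (ℤ × ℤ)) f) :
    cor T f := Or.inl (Finset.mem_coe.1 h.1)

theorem ok_of_in {T : Finset (ℤ × ℤ)} {b : BoundaryCondition} {R : ℕ} {u : ℤ × ℤ}
    {S : Finset (ℤ × ℤ)} (hS : S ∈ Can R) {Z : Set (ℤ × ℤ)}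
    (hYf : ∀ f ∈ (J4Geox126.Yf S).image (J4Geox126.fz u), f ∈ Z)
    (hZ : ∀ f ∈ Z, cornersIn (T : Set (ℤ × ℤ)) f) : tr S u ∈ BB T b R :=
  K0IsoBx900.ok_of_corners hS (Finset.Subset.refl _)
    fun f hf => Finset.mem_coe.1 (hZ f (hYf f hf)).1

/-- **close to one insertion**: plane with one branch point -/
theorem close1_cc (h5 : 5 ≤ c.p * (c.k0 + 1)) (hp : 1 ≤ c.p) (T : Finset (ℤ × ℤ))
    (b : BoundaryCondition) {n : ℕ} (X : Fin n → ℤ × ℤ) (i : Fin n) {ρ r k : ℕ}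
    (hr : ρ + rhoH c.p c.k0 k ≤ r) (hsep : ∀ j, j ≠ i → r < fd (X i) (X j))
    (hT : ∀ f, fd (X i) f ≤ r → cornersIn (T : Set (ℤ × ℤ)) f) {U : Finset (ℤ × ℤ)}
    (hU : U.Nonempty) (hUx : ∀ u ∈ U, fd (X i) u ≤ ρ) :
    cc (domF c P T b X) k U = cc (brF c P (X i)) k U := by
  have hZ : ∀ f ∈ ball (X i) r, cornersIn (T : Set (ℤ × ℤ)) f := fun f hf => hT f (mem_ball.1 hf)
  exact cc_id (B := Bg.dom T b X) (B' := Bg.br (X i)) (isoDom1 (isF b) X i r hsep hZ)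
    (fun _ => rfl) h5 hp (fun f hf => ⟨fun _ => trivial, fun _ => cor_of_cornersIn (hZ f hf)⟩)
    (fun u _ S hS hYf => ⟨fun _ => trivial, fun _ => ok_of_in hS hYf hZ⟩) k hU
    ((nbhd_subset_ball hUx).trans (ball_mono _ hr))

/-- **in the interior, away from the insertions**: the plane -/
theorem close2_cc (h5 : 5 ≤ c.p * (c.k0 + 1)) (hp : 1 ≤ c.p) (T : Finset (ℤ × ℤ))
    (b : BoundaryCondition) {n : ℕ} (X : Fin n → ℤ × ℤ) (x : ℤ × ℤ) {ρ r k : ℕ}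
    (hr : ρ + rhoH c.p c.k0 k ≤ r) (hX : ∀ j, r < fd x (X j))
    (hT : ∀ f, fd x f ≤ r → cornersIn (T : Set (ℤ × ℤ)) f) {U : Finset (ℤ × ℤ)}
    (hU : U.Nonempty) (hUx : ∀ u ∈ U, fd x u ≤ ρ) :
    cc (domF c P T b X) k U = cc (plF c P) k U := by
  have hZ : ∀ f ∈ ball x r, cornersIn (T : Set (ℤ × ℤ)) f := fun f hf => hT f (mem_ball.1 hf)
  exact cc_id (B := Bg.dom T b X) (B' := Bg.pl) (isoDomPl (isF b) X x r hX hZ)
    (fun _ => rfl) h5 hp (fun f hf => ⟨fun _ => trivial, fun _ => cor_of_cornersIn (hZ f hf)⟩)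
    (fun u _ S hS hYf => ⟨fun _ => trivial, fun _ => ok_of_in hS hYf hZ⟩) k hU
    ((nbhd_subset_ball hUx).trans (ball_mono _ hr))

/-- **far from the branch point**: the plane -/
theorem farB_cc (h5 : 5 ≤ c.p * (c.k0 + 1)) (hp : 1 ≤ c.p) (x : ℤ × ℤ) {R k : ℕ}
    (hR : rhoH c.p c.k0 k ≤ R) {U : Finset (ℤ × ℤ)} (hU : U.Nonempty) (hX : Avoids fd R x U) :
    cc (brF c P x) k U = cc (plF c P) k U :=
  cc_id (B := Bg.br x) (B' := Bg.pl)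
    (isoAv (wPl ℤ) ![x] hU fun i => by fin_cases i; exact hX) (fun _ => rfl) h5 hp
    (fun _ _ => Iff.rfl) (fun _ _ _ _ _ => Iff.rfl) k hU
    ((nbhd_mono hR).trans (nbhd_subset_hl R hU))

theorem cc_empty {G : Type} [CommRing G] [CN G] [CNZ G] [DecidableEq G] (B : Bg G) (k : ℕ) :
    cc (fl c P B) k ∅ = 0 := by
  have h : (fl c P B).H k ∅ = 0 := H_empty (bgK0_empty B P c.p c.k0) k
  rw [cc, h, map_zero]

/-- translation `f ↦ f - x` -/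
def subE (x : ℤ × ℤ) : ℤ × ℤ ≃ ℤ × ℤ where
  toFun f := (f.1 - x.1, f.2 - x.2)
  invFun f := (f.1 + x.1, f.2 + x.2)
  left_inv f := by ext <;> simp
  right_inv f := by ext <;> simp

/-- translation of the branch point -/
theorem br_transl (h5 : 5 ≤ c.p * (c.k0 + 1)) (hp : 1 ≤ c.p) (x : ℤ × ℤ) (k : ℕ)
    (U : Finset (ℤ × ℤ)) :
    cc (brF c P x) k U = cc (brF c P 0) k (U.image (subE x)) := by
  rcases U.eq_empty_or_nonempty with rfl | hU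
  · rw [Finset.image_empty, cc_empty, cc_empty]
  · exact cc_fl (B := Bg.br x) (B' := Bg.br 0) (brTrans x Set.univ) c P h5 hp (by norm_num)
      (fun _ _ => Iff.rfl) (fun _ _ _ _ _ _ => Iff.rfl) k hU (Set.subset_univ _)

/-- translation of the plane -/
theorem pl_transl (h5 : 5 ≤ c.p * (c.k0 + 1)) (hp : 1 ≤ c.p) (x : ℤ × ℤ) (k : ℕ)
    (U : Finset (ℤ × ℤ)) :
    cc (plF c P) k U = cc (plF c P) k (U.image (subE x)) := by
  rcases U.eq_empty_or_nonempty with rfl | hU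
  · rw [Finset.image_empty]
  · exact cc_fl (B := Bg.pl) (B' := Bg.pl) (plTrans x Set.univ) c P h5 hp (by norm_num)
      (fun _ _ => Iff.rfl) (fun _ _ _ _ _ _ => Iff.rfl) k hU (Set.subset_univ _)

/-- **the renormalisation constants do not depend on the position of the branch point** -/
theorem zeta_transl (h5 : 5 ≤ c.p * (c.k0 + 1)) (hp : 1 ≤ c.p) (x : ℤ × ℤ) (k : ℕ) :
    ∑' U, (cc (brF c P x) k U - cc (plF c P) k U) = zetaK c P k :=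
  tsum_chart (subE x) _ _ fun U => by rw [br_transl h5 hp x k U, pl_transl h5 hp x k U]

end cst

/-! ### the spin data -/

/-- the geometric hypotheses: the points `X i` are `2 ρ`-separated, their `2 ρ`-neighbourhoods lie in
`T` -/
structure Mesh {n : ℕ} (T : Finset (ℤ × ℤ)) (X : Fin n → ℤ × ℤ) (ρ : ℕ) : Prop where
  sep : ∀ i j, i ≠ j → 2 * ρ < fd (X i) (X j)
  inn : ∀ i (f : ℤ × ℤ), fd (X i) f ≤ 2 * ρ → cornersIn (T : Set (ℤ × ℤ)) f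

theorem Mesh.mono {n : ℕ} {T : Finset (ℤ × ℤ)} {X : Fin n → ℤ × ℤ} {ρ ρ' : ℕ} (h : Mesh T X ρ)
    (hρ : ρ' ≤ ρ) : Mesh T X ρ' :=
  ⟨fun i j hij => lt_of_le_of_lt (by omega) (h.sep i j hij), fun i f hf => h.inn i f (by omega)⟩

theorem rhoH_le (l k0 k : ℕ) : rhoH l k0 k ≤ 128 * rr l k0 (k + 1) := by
  have h1 : rr l k0 k ≤ rr l k0 (k + 1) := by
    unfold rr
    exact Nat.pow_le_pow_right (by norm_num) (Nat.mul_le_mul_left _ (by omega))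
  have h2 : s2 = 128 := rfl
  unfold rhoH
  rw [h2]
  omega

section sys

variable {Γ : ℝ≥0∞} (hΓ4 : 4 ≤ Γ) (hΓt : Γ ≠ ∞) {E : ℕ → ℝ} (hE0 : ∀ k, 0 ≤ E k)
  (hE : Summable E) {c : Cst} (P : MPar) (h5 : 5 ≤ c.p * (c.k0 + 1)) (hp : 1 ≤ c.p)
  {Cr : ℕ} (hCr : ∀ k, rhoH c.p c.k0 k ≤ Cr * rr c.p c.k0 (k + 1))
  {α : Type*} {l : Filter α} {n : ℕ} (T : α → Finset (ℤ × ℤ)) (b : BoundaryCondition)
  (X : α → Fin n → ℤ × ℤ) (X₀ : α → Fin 0 → ℤ × ℤ) (K Kf ρ : α → ℕ)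
  (Λ1 Λ2 : α → Finset (ℤ × ℤ)) (S1 Sf1 S2 Sf2 : α → Gr0x606.Cov (Fld ℤ))

include h5 hp hCr in
/-- **the flow data of the spin ratio of domains** -/
def spinSys (hK : Tendsto K l atTop) (hρ : Tendsto ρ l atTop) (hKf : ∀ᶠ a in l, K a ≤ Kf a)
    (hM : ∀ᶠ a in l, Mesh (T a) (X a) (ρ a))
    (hR : ∀ᶠ a in l, ∀ k < K a, Cr * rr c.p c.k0 (k + 1) ≤ ρ a)
    (fl1 : ∀ᶠ a in l, Fl (domF c P (T a) b (X a)) (Λ1 a) (Kf a) (S1 a) (Sf1 a))
    (fl2 : ∀ᶠ a in l, Fl (domF c P (T a) b (X₀ a)) (Λ2 a) (Kf a) (S2 a) (Sf2 a))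
    (bd1 : ∀ᶠ a in l, Bd (domF c P (T a) b (X a)) fd (gScale (G := ℤ) c.p c.k0 Cr hΓ4 hΓt hE0 hE).r
      (gScale (G := ℤ) c.p c.k0 Cr hΓ4 hΓt hE0 hE).R Γ E (Kf a))
    (bd2 : ∀ᶠ a in l, Bd (domF c P (T a) b (X₀ a)) fd
      (gScale (G := ℤ) c.p c.k0 Cr hΓ4 hΓt hE0 hE).r
      (gScale (G := ℤ) c.p c.k0 Cr hΓ4 hΓt hE0 hE).R Γ E (Kf a))
    (bdB : ∀ᶠ a in l, ∀ i, Bd (brF c P (X a i)) fd
      (gScale (G := ℤ) c.p c.k0 Cr hΓ4 hΓt hE0 hE).r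
      (gScale (G := ℤ) c.p c.k0 Cr hΓ4 hΓt hE0 hE).R Γ E (K a))
    (bdP : ∀ᶠ a in l, Bd (plF c P) fd
      (gScale (G := ℤ) c.p c.k0 Cr hΓ4 hΓt hE0 hE).r
      (gScale (G := ℤ) c.p c.k0 Cr hΓ4 hΓt hE0 hE).R Γ E (K a))
    (fin1 : Tendsto (fun a => Zf (domF c P (T a) b (X a)) (Λ1 a) (Kf a) (Sf1 a)) l (𝓝 1))
    (fin2 : Tendsto (fun a => Zf (domF c P (T a) b (X₀ a)) (Λ2 a) (Kf a) (Sf2 a)) l (𝓝 1)) :
    SpinSys (gScale (G := ℤ) c.p c.k0 Cr hΓ4 hΓt hE0 hE) (Fld ℤ) l n (zetaK c P) where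
  K := K
  Kf := Kf
  ρ := ρ
  x := X
  D1 a := domF c P (T a) b (X a)
  D2 a := domF c P (T a) b (X₀ a)
  DB a i := brF c P (X a i)
  DP := plF c P
  Λ1 := Λ1
  Λ2 := Λ2
  S1 := S1
  Sf1 := Sf1
  S2 := S2
  Sf2 := Sf2
  hK := hK
  hρ := hρ
  hKf := hKf
  fl1 := fl1
  fl2 := fl2
  bd1 := bd1
  bd2 := bd2
  bdB := bdB
  bdP := bdP
  far := Eventually.of_forall fun a k _ U hU hX =>
    far_cc h5 hp (T a) b (X a) (X₀ a) (hCr k) hU hX fun i => i.elim0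
  close1 := by
    filter_upwards [hM, hR] with a hM hR k hk i U hU hUx
    have h1 := (hCr k).trans (hR k hk)
    exact close1_cc h5 hp (T a) b (X a) i (r := 2 * ρ a) (by omega)
      (fun j hj => hM.sep i j (Ne.symm hj)) (hM.inn i) hU hUx
  close2 := by
    filter_upwards [hM, hR] with a hM hR k hk i U hU hUx
    have h1 := (hCr k).trans (hR k hk)
    exact close2_cc h5 hp (T a) b (X₀ a) (X a i) (r := 2 * ρ a) (by omega)
      (fun j => j.elim0) (hM.inn i) hU hUx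
  farB := Eventually.of_forall fun a k _ i U hU hX => farB_cc h5 hp (X a i) (hCr k) hU hX
  sep := hM.mono fun a hM => hM.sep
  R'le := hR
  hz := Eventually.of_forall fun a k _ i => zeta_transl h5 hp (X a i) k
  fin1 := fin1
  fin2 := fin2

end sys

/-! ### domains -/

/-- the geometric hypotheses hold for domains -/
theorem mesh_dom {D : Set ℂ} (hD : IsOpen D) {n : ℕ} {x : Fin n → ℂ} (hx : ∀ i, x i ∈ D)
    (hinj : Function.Injective x) :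
    ∃ c₀ > 0, ∀ {α : Type} {l : Filter α} {a : α → ℝ} (_ : Tendsto a l (𝓝[>] 0))
      (T : α → Finset (ℤ × ℤ)) (_ : ∀ᶠ i in l, (T i : Set (ℤ × ℤ)) = domainSites D (a i)),
      ∀ᶠ i in l, Mesh (T i) (fun j => meshIndex (a i) (x j)) (rad c₀ 8 (a i)) := by
  obtain ⟨c₀, hc₀, h⟩ := geo_all hD hx hinj
  refine ⟨c₀, hc₀, fun {α l a} ha T hT => ?_⟩
  filter_upwards [ha.eventually h, hT, ha.eventually self_mem_nhdsWithin] with i h1 h2 h3
  have h4 : ((8 * rad c₀ 8 (a i) : ℕ) : ℝ) ≤ c₀ / a i := rad_le hc₀ (by norm_num) h3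
  have h5 : (0 : ℝ) < c₀ / a i := div_pos hc₀ h3
  constructor
  · intro j k hjk
    have h6 := h1.1 j k hjk
    have h7 : 8 * rad c₀ 8 (a i) ≤ fd (meshIndex (a i) (x j)) (meshIndex (a i) (x k)) := by
      exact_mod_cast h4.trans h6
    have h8 : 0 < fd (meshIndex (a i) (x j)) (meshIndex (a i) (x k)) := by
      exact_mod_cast h5.trans_le h6
    omega
  · intro j f hf
    rw [h2]
    refine h1.2 j f (le_trans ?_ h4)
    exact_mod_cast (by omega : fd (meshIndex (a i) (x j)) f ≤ 8 * rad c₀ 8 (a i))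

/-- the scales below `K` see at most the radius `rad c₀ 8 a` -/
theorem mesh_scale {p k0 Cr : ℕ} {c₀ : ℝ} (hc₀ : 0 < c₀) {a : ℝ} (ha : 0 < a) {K : ℕ}
    (hK : (rr p k0 K : ℝ) ≤ c₀ / (8 * (Cr + 1)) / a) : ∀ k < K, Cr * rr p k0 (k + 1) ≤ rad c₀ 8 a := by
  intro k hk
  have h1 : rr p k0 (k + 1) ≤ rr p k0 K := by
    unfold rr
    exact Nat.pow_le_pow_right (by norm_num) (Nat.mul_le_mul_left _ (by omega))
  refine (Nat.mul_le_mul_left _ h1).trans (Nat.le_floor ?_)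
  have h2 : ((Cr * rr p k0 K : ℕ) : ℝ) ≤ (Cr + 1) * (c₀ / (8 * (Cr + 1)) / a) := by
    push_cast
    have h3 : (0 : ℝ) ≤ Cr := Nat.cast_nonneg _
    have h4 : (0 : ℝ) ≤ (rr p k0 K : ℝ) := Nat.cast_nonneg _
    nlinarith
  refine h2.trans (le_of_eq ?_)
  have h5 : ((Cr : ℝ) + 1) ≠ 0 := by positivity
  push_cast
  field_simp

section dom

variable {Γ : ℝ≥0∞} (hΓ4 : 4 ≤ Γ) (hΓt : Γ ≠ ∞) {E : ℕ → ℝ} (hE0 : ∀ k, 0 ≤ E k)
  (hE : Summable E) {c : Cst} (P : MPar) (h5 : 5 ≤ c.p * (c.k0 + 1)) (hp : 1 ≤ c.p)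

/-- **the spin data of domains** (insertions at the lattice points of `x`): all steps `k < K a` are
fine; for every `δ` below a threshold which depends on `D, x` -/
theorem spinData_dom {D : Set ℂ} (hD : IsOpen D) {n : ℕ} {x : Fin n → ℂ} (hx : ∀ i, x i ∈ D)
    (hinj : Function.Injective x) : ∃ δ₀ > 0,
    ∀ {Γ : ℝ≥0∞} (hΓ4 : 4 ≤ Γ) (hΓt : Γ ≠ ∞) {E : ℕ → ℝ} (hE0 : ∀ k, 0 ≤ E k) (hE : Summable E)
      {c : Cst} (P : MPar) (_ : 5 ≤ c.p * (c.k0 + 1)) (_ : 1 ≤ c.p) (b : BoundaryCondition)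
      {α : Type} {l : Filter α} {a : α → ℝ} (_ : Tendsto a l (𝓝[>] 0)) (T : α → Finset (ℤ × ℤ))
      (_ : ∀ᶠ i in l, (T i : Set (ℤ × ℤ)) = domainSites D (a i)) (X₀ : α → Fin 0 → ℤ × ℤ)
      (K : α → ℕ) (_ : Tendsto K l atTop)
      (_ : ∀ᶠ i in l, (rr c.p c.k0 (K i) : ℝ) ≤ δ₀ / a i)
      (Λ1 Λ2 : α → Finset (ℤ × ℤ)) (S1 Sf1 S2 Sf2 : α → Gr0x606.Cov (Fld ℤ))
      (_ : ∀ᶠ i in l, Fl (domF c P (T i) b fun j => meshIndex (a i) (x j)) (Λ1 i) (K i) (S1 i)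
        (Sf1 i))
      (_ : ∀ᶠ i in l, Fl (domF c P (T i) b (X₀ i)) (Λ2 i) (K i) (S2 i) (Sf2 i))
      (_ : ∀ᶠ i in l, Bd (domF c P (T i) b fun j => meshIndex (a i) (x j)) fd
        (gScale (G := ℤ) c.p c.k0 128 hΓ4 hΓt hE0 hE).r
        (gScale (G := ℤ) c.p c.k0 128 hΓ4 hΓt hE0 hE).R Γ E (K i))
      (_ : ∀ᶠ i in l, Bd (domF c P (T i) b (X₀ i)) fd
        (gScale (G := ℤ) c.p c.k0 128 hΓ4 hΓt hE0 hE).r
        (gScale (G := ℤ) c.p c.k0 128 hΓ4 hΓt hE0 hE).R Γ E (K i))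
      (_ : ∀ᶠ i in l, ∀ j, Bd (brF c P (meshIndex (a i) (x j))) fd
        (gScale (G := ℤ) c.p c.k0 128 hΓ4 hΓt hE0 hE).r
        (gScale (G := ℤ) c.p c.k0 128 hΓ4 hΓt hE0 hE).R Γ E (K i))
      (_ : ∀ᶠ i in l, Bd (plF c P) fd
        (gScale (G := ℤ) c.p c.k0 128 hΓ4 hΓt hE0 hE).r
        (gScale (G := ℤ) c.p c.k0 128 hΓ4 hΓt hE0 hE).R Γ E (K i))
      (_ : Tendsto (fun i => Zf (domF c P (T i) b fun j => meshIndex (a i) (x j)) (Λ1 i) (K i)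
        (Sf1 i)) l (𝓝 1))
      (_ : Tendsto (fun i => Zf (domF c P (T i) b (X₀ i)) (Λ2 i) (K i) (Sf2 i)) l (𝓝 1))
      {g : α → ℝ} (_ : ∀ᶠ i in l, g i =
        Z0 (domF c P (T i) b fun j => meshIndex (a i) (x j)) (Λ1 i) (S1 i) /
          Z0 (domF c P (T i) b (X₀ i)) (Λ2 i) (S2 i)),
      Nonempty (SpinData (gScale (G := ℤ) c.p c.k0 128 hΓ4 hΓt hE0 hE) l n g (zetaK c P)) := by
  obtain ⟨c₀, hc₀, hmesh⟩ := mesh_dom hD hx hinj
  refine ⟨c₀ / (8 * ((128 : ℕ) + 1)), by positivity, ?_⟩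
  intro Γ hΓ4 hΓt E hE0 hE c P h5 hp b α l a ha T hT X₀ K hK hKr Λ1 Λ2 S1 Sf1 S2 Sf2 fl1 fl2 bd1 bd2
    bdB bdP fin1 fin2 g hg
  exact ⟨(spinSys hΓ4 hΓt hE0 hE P h5 hp (rhoH_le c.p c.k0) T b
    (fun i j => meshIndex (a i) (x j)) X₀ K K (fun i => rad c₀ 8 (a i)) Λ1 Λ2 S1 Sf1 S2 Sf2 hK
    ((rad_tendsto hc₀ (by norm_num)).comp ha) (Eventually.of_forall fun _ => le_rfl)
    (hmesh ha T hT)
    (by
      filter_upwards [hKr, ha.eventually self_mem_nhdsWithin] with i h1 h2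
      exact mesh_scale hc₀ h2 h1)
    fl1 fl2 bd1 bd2 bdB bdP fin1 fin2).spinData hg⟩

end dom

end Crest.Agent.R165.SpinDomx432
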