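import Crest.Agent.R165.Out_683
import Crest.Agent.R165.SData_900
import Crest.Agent.R165.Comp2_889

/-!
# Row 165 (S0250), block F: the spin renormalisation `Zs = 1 + O(lam)` (helper387)

* `NCB c D B` : the constants of the flow `D` are bounded by `B (1/2)^k` at all scales `rr (k+1)`
* `ConstB J R V` : this for the plane and for the plane with one branch point, `B = M |lam|`
* `zeta_le` : `|zetaK k| ≤ C B (1/2)^k`
* `zs_of` : **`OneP (PF J R V) (Zs J R V)`**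
-/

set_option autoImplicit false

noncomputable section

open Filter Topology
open scoped ENNReal
open Crest.ProbabilityR.IsingModel
open Crest.Agent.R165.Gr0x606 Crest.Agent.R165.Gr1x606 Crest.Agent.R165.GeOpsx337
open Crest.Agent.R165.Latx683 Crest.Agent.R165.GDefx387 Crest.Agent.R165.GSysx387
open Crest.Agent.R165.KFlowx337 Crest.Agent.R165.Telx337 Crest.Agent.R165.Spinx930
open Crest.Agent.R165.Packx915 Crest.Agent.R165.NSumx915
open Crest.Agent.R165.SpinSysx892 Crest.Agent.R165.DiscDatax892 Crest.Agent.R165.SDatax900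
open Crest.Agent.R165.Bkgx683 Crest.Agent.R165.PEndx683 Crest.Agent.R165.Outx683
open Crest.Agent.R165.Compx889

namespace Crest.Agent.R165.Zsx387

/-- the constants of a flow are bounded, rate `1/2` -/
def NCB (c : Cst) (D : Sys (ℤ × ℤ) (Fld ℤ)) (B : ℝ) : Prop :=
  ∀ k, NC D (rr c.p c.k0) (ENNReal.ofReal c.Γ) k ≤ ENNReal.ofReal (B * (1 / 2) ^ k)

/-- the constants live on connected sets -/
def CCn (c : Cst) (D : Sys (ℤ × ℤ) (Fld ℤ)) : Prop :=
  ∀ k U, cc D k U ≠ 0 → U.Nonempty ∧ Packx915.Conn fd (nearR c.p c.k0 k) U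

/-- **bounds of the constants of the plane and of one branch point** -/
def ConstB (J : ℝ) (R : ℕ) (V : Finset (ℤ × ℤ) → ℝ) : Prop :=
  EvC fun c => ∀ C : ℝ, ∃ ε > 0, ∃ M : ℝ, ∀ lam β z : ℝ, |lam| < ε → NearP J C lam β z →
    PF J R V C c lam β z →
    NCB c (plF c (mpar J lam R V β z)) (M * |lam|) ∧
    NCB c (brF c (mpar J lam R V β z) 0) (M * |lam|)

theorem bd_of {c : Cst} {D : Sys (ℤ × ℤ) (Fld ℤ)} {B : ℝ} (h : NCB c D B) (hc : CCn c D)
    (n : ℕ) : Bd D fd (fun k => rr c.p c.k0 (k + 1)) (nearR c.p c.k0) (ENNReal.ofReal c.Γ)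
      (fun k => B * (1 / 2) ^ k) n :=
  ⟨fun k _ => h k, fun k _ U hU => hc k U hU⟩

theorem summable_geo (B : ℝ) : Summable fun k : ℕ => B * (1 / 2 : ℝ) ^ k :=
  (summable_geometric_of_lt_one (by norm_num) (by norm_num)).mul_left _

/-- **size of the constants of one branch point** -/
theorem zeta_le {c : Cst} (hΓ : 4 ≤ c.Γ) {P : MPar} {B : ℝ} (hB : 0 ≤ B)
    (h1 : NCB c (plF c P) B) (h2 : NCB c (brF c P 0) B) (c1 : CCn c (plF c P))
    (c2 : CCn c (brF c P 0)) {Cr : ℕ}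
    (far : ∀ k (U : Finset (ℤ × ℤ)), U.Nonempty → Avoids fd (Cr * rr c.p c.k0 (k + 1)) 0 U →
      cc (brF c P 0) k U = cc (plF c P) k U) (k : ℕ) :
    |zetaK c P k| ≤ 4 * gA Cr * (B * (1 / 2) ^ k) := by
  have hΓ4 : (4 : ℝ≥0∞) ≤ ENNReal.ofReal c.Γ := by
    rw [show (4 : ℝ≥0∞) = ENNReal.ofReal 4 by norm_num]
    exact ENNReal.ofReal_le_ofReal hΓ
  set G : ScaleData (fd : ℤ × ℤ → ℤ × ℤ → ℕ) := gScale c.p c.k0 Cr hΓ4 ENNReal.ofReal_ne_top
    (E := fun k => B * (1 / 2) ^ k) (fun k => by positivity) (summable_geo B) with hG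
  have h := SpinSysx892.zeta_le (n := k + 1) (k := k) (DB := brF c P 0) (DP := plF c P) G
    (Nat.lt_succ_self k) (bd_of h2 c2 _) (bd_of h1 c1 _) (0 : ℤ × ℤ) (fun U hU hA => far k U hU hA)
  exact h.2

theorem exp_sub_one_le {x : ℝ} (hx : |x| ≤ 1) : |Real.exp x - 1| ≤ 2 * |x| :=
  Real.abs_exp_sub_one_le hx

/-- **`Zs = 1 + O(lam)`** -/
theorem zs_of {J : ℝ} {R : ℕ} {V : Finset (ℤ × ℤ) → ℝ} (h : ConstB J R V) (Cr : ℕ)
    (hcc : EvC fun c => ∀ P : MPar, P.R = max R 1 → CCn c (plF c P) ∧ CCn c (brF c P 0))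
    (far : EvC fun c => ∀ P : MPar, P.R = max R 1 → ∀ k (U : Finset (ℤ × ℤ)), U.Nonempty →
      Avoids fd (Cr * rr c.p c.k0 (k + 1)) 0 U → cc (brF c P 0) k U = cc (plF c P) k U)
    (hΓ : EvC fun c => 4 ≤ c.Γ) : OneP J (PF J R V) (Zs J R V) := by
  refine (((h.and hcc).and far).and hΓ).mono fun c hc C => ?_
  obtain ⟨⟨⟨h1, h2⟩, h3⟩, h4⟩ := hc
  obtain ⟨ε, hε, M, hM⟩ := h1 C
  set B : ℝ := 4 * gA Cr * (|M| * 2) + 1 with hBdef
  have hB : 0 < B := by positivity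
  refine ⟨min ε (1 / B), lt_min hε (by positivity), 2 * B, fun lam β z hl hn hp => ?_⟩
  obtain ⟨g1, g2⟩ := hM lam β z (hl.trans_le (min_le_left _ _)) hn hp
  have hle : ∀ {D : Sys (ℤ × ℤ) (Fld ℤ)}, NCB c D (M * |lam|) → NCB c D (|M| * |lam|) := by
    intro D hD k
    refine (hD k).trans (ENNReal.ofReal_le_ofReal ?_)
    refine mul_le_mul_of_nonneg_right ?_ (by positivity)
    exact mul_le_mul_of_nonneg_right (le_abs_self M) (abs_nonneg _)
  set P := mpar J lam R V β z with hP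
  have hz : ∀ k, |zetaK c P k| ≤ 4 * gA Cr * (|M| * |lam| * (1 / 2) ^ k) := fun k =>
    zeta_le h4 (by positivity) (hle g1) (hle g2) (h2 P rfl).1 (h2 P rfl).2 (h3 P rfl) k
  have hz' : ∀ k, ‖zetaK c P k‖ ≤ 4 * gA Cr * (|M| * |lam|) * (1 / 2) ^ k := fun k => by
    rw [Real.norm_eq_abs]
    refine (hz k).trans (le_of_eq (by ring))
  have hs : |∑' k, zetaK c P k| ≤ B * |lam| := by
    have h5 := tsum_of_norm_bounded (f := fun k => zetaK c P k)
      (hasSum_geometric_two.mul_left (4 * gA Cr * (|M| * |lam|))) hz'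
    rw [Real.norm_eq_abs] at h5
    refine h5.trans ?_
    rw [hBdef]
    have : (0 : ℝ) ≤ |lam| := abs_nonneg _
    nlinarith
  have hlam : B * |lam| ≤ 1 := by
    have h6 : |lam| < 1 / B := hl.trans_le (min_le_right _ _)
    rw [lt_div_iff₀ hB] at h6
    linarith
  refine (exp_sub_one_le (hs.trans hlam)).trans ?_
  calc 2 * |∑' k, zetaK c P k| ≤ 2 * (B * |lam|) := by linarith
    _ = 2 * B * |lam| := by ring

end Crest.Agent.R165.Zsx387
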