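import Crest.Agent.R165.SRdomA_900
import Crest.Agent.R165.SpinDom2_432
import Crest.Agent.R165.Comp4_889
import Crest.Agent.R165.StrS_897
import Crest.Agent.R165.Zs_387
import Crest.Agent.R165.PTop_386

/-!
# Row 165 (S0250): the leaf `SpDL` of `PTop_386` (helper900)

* `NN_tr` : the norm of constants is translation invariant
* `ccn` : the constants of any flow of `Out_683` live on connected nonempty sets
* `Basic R c`, `ev_basic` : the elementary conditions on the constants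
* `DomBd J R V` : **the bounds of the domain flows** (leaf P8)
* `spDL_of : SpinLeaf → DomBd J R V → ConstB J R V → SpDL J R V`
-/

set_option autoImplicit false
set_option linter.unusedSectionVars false

noncomputable section

open Filter Topology
open scoped ENNReal
open Crest.ProbabilityR.IsingModel
open Crest.Agent.R165.Gr0x606 Crest.Agent.R165.Gr1x606 Crest.Agent.R165.GeOpsx337
open Crest.Agent.R165.Latx683 Crest.Agent.R165.GDefx387 Crest.Agent.R165.GSysx387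
open Crest.Agent.R165.KFlowx337 Crest.Agent.R165.Telx337 Crest.Agent.R165.FRDPolyx439
open Crest.Agent.R165.NSumx915 Crest.Agent.R165.Packx915 Crest.Agent.R165.Bridgex915
open Crest.Agent.R165.PNormx417 Crest.Agent.R165.Compx889
open Crest.Agent.R165.DefRecx915
open Crest.Agent.R165.Bkgx683 Crest.Agent.R165.PEndx683 Crest.Agent.R165.Outx683
open Crest.Agent.R165.JRunx445 Crest.Agent.R165.JDomAx606 Crest.Agent.R165.JVolx950
open Crest.Agent.R165.Topx683 Crest.Agent.R165.Redx541 Crest.Agent.R165.Red2x541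
  Crest.Agent.R165.Centx541 Crest.Agent.R165.Symx541 Crest.Agent.R165.SRx541
open Crest.Agent.R165.UKerx420 (wD Cof Sof Sof_spec Sof_skew)
open Crest.Agent.R165.U5Px422 (TT mem_TT)
open Crest.Agent.R165.SpinSysx892 Crest.Agent.R165.DiscDatax892 Crest.Agent.R165.SDatax900
open Crest.Agent.R165.Scalex900 Crest.Agent.R165.FarBx900 Crest.Agent.R165.SRdomAx900
open Crest.Agent.R165.SpinDomx432 (spinData_dom)
open Crest.Agent.R165.Zsx387 (ConstB NCB)

namespace Crest.Agent.R165.SRdomx900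

/-! ### translation invariance -/

section tr

variable {X : Type*} [DecidableEq X] {d : X → X → ℕ} (e : X ≃ X) (he : ∀ a b, d (e a) (e b) = d a b)

include he

theorem pack_tr_le (r : ℕ) (U : Finset X) : pack d r U ≤ pack d r (U.image e) := by
  classical
  refine pack_le_iff.2 fun S hS hs => ?_
  have h1 : (S.image e).card = S.card := Finset.card_image_of_injective _ e.injective
  rw [← h1]
  refine card_le_pack (Finset.image_subset_image hS) ?_
  intro x hx y hy hne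
  obtain ⟨a, ha, rfl⟩ := Finset.mem_image.1 hx
  obtain ⟨b, hb, rfl⟩ := Finset.mem_image.1 hy
  rw [he]
  exact hs a ha b hb fun h => hne (by rw [h])

theorem he_symm (a b : X) : d (e.symm a) (e.symm b) = d a b := by
  rw [← he, e.apply_symm_apply, e.apply_symm_apply]

theorem pack_tr (r : ℕ) (U : Finset X) : pack d r (U.image e) = pack d r U := by
  classical
  refine le_antisymm ?_ (pack_tr_le e he r U)
  have h := pack_tr_le e.symm (he_symm e he) r (U.image e)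
  rwa [Finset.image_image, show (e.symm : X → X) ∘ e = id from funext fun x => e.symm_apply_apply x,
    Finset.image_id] at h

theorem near_tr (r : ℕ) (f : X) (U : Finset X) : near d r (e f) (U.image e) ↔ near d r f U := by
  classical
  constructor
  · rintro ⟨u, hu, h⟩
    obtain ⟨v, hv, rfl⟩ := Finset.mem_image.1 hu
    exact ⟨v, hv, by rwa [he] at h⟩
  · rintro ⟨u, hu, h⟩
    exact ⟨e u, Finset.mem_image_of_mem _ hu, by rwa [he]⟩

/-- **the norm is invariant under isometries** -/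
theorem NN_tr (r : ℕ) (Γ : ℝ≥0∞) (a : Finset X → ℝ≥0∞) :
    NN d r Γ (fun U => a (U.image e)) ≤ NN d r Γ a := by
  classical
  refine iSup_le fun f => le_trans (le_of_eq ?_) (bs_le_NN a (e f))
  set F : Finset X → ℝ≥0∞ := fun U =>
    Set.indicator {U | near d r (e f) U} (fun U => Γ ^ pack d r U * a U) U with hF
  have h0 : NSumx915.bs d r Γ a (e f) = ∑' U, F U := rfl
  rw [h0, ← (Equiv.finsetCongr e).tsum_eq F]
  unfold NSumx915.bs
  refine tsum_congr fun U => ?_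
  have hU : (Equiv.finsetCongr e) U = U.image e := by
    ext x
    simp only [Finset.mem_image, Equiv.finsetCongr_apply, Finset.mem_map, Equiv.coe_toEmbedding]
  rw [hU, hF]
  beta_reduce
  by_cases h : near d r f U
  · rw [Set.indicator_of_mem (by exact h),
      Set.indicator_of_mem (by exact (near_tr e he r f U).2 h), pack_tr e he]
  · rw [Set.indicator_of_notMem (by exact h),
      Set.indicator_of_notMem (by exact fun h' => h ((near_tr e he r f U).1 h'))]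

end tr

theorem trE_iso (x a b : ℤ × ℤ) : fd (trE x a) (trE x b) = fd a b := by
  unfold fd trE
  simp

theorem cc_br_zero {c : Cst} (h5 : 5 ≤ c.p * (c.k0 + 1)) (hp : 1 ≤ c.p) (P : MPar) (x : ℤ × ℤ)
    (k : ℕ) (U : Finset (ℤ × ℤ)) :
    cc (brF c P x) k U = cc (brF c P 0) k (U.image (trE x)) := by
  rcases U.eq_empty_or_nonempty with h | hne
  · rw [h, Finset.image_empty, FarBx900.cc_empty c P (Bg.br x) k,
      FarBx900.cc_empty c P (Bg.br 0) k]
  · exact cc_br_tr h5 hp P x k hne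

theorem NCc_eq (c : Cst) (D : Sys (ℤ × ℤ) (Fld ℤ)) (k : ℕ) :
    NCc c D k = NN fd (rr c.p c.k0 (k + 1)) (ENNReal.ofReal c.Γ)
      (fun U => ENNReal.ofReal |cc D k U|) := rfl

/-- the bounds of the constants do not depend on the position of the branch point -/
theorem NC_br {c : Cst} (h5 : 5 ≤ c.p * (c.k0 + 1)) (hp : 1 ≤ c.p) (P : MPar) (x : ℤ × ℤ) (k : ℕ) :
    NCc c (brF c P x) k ≤ NCc c (brF c P 0) k := by
  rw [NCc_eq, NCc_eq]
  have h3 : (fun U => ENNReal.ofReal |cc (brF c P x) k U|) =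
      fun U : Finset (ℤ × ℤ) => ENNReal.ofReal |cc (brF c P 0) k (U.image (trE x))| := by
    funext U
    rw [cc_br_zero h5 hp P x k U]
  rw [h3]
  exact NN_tr (d := (fd : ℤ × ℤ → ℤ × ℤ → ℕ)) (trE x) (trE_iso x) (rr c.p c.k0 (k + 1))
    (ENNReal.ofReal c.Γ) (fun U => ENNReal.ofReal |cc (brF c P 0) k U|)

/-! ### connectedness -/

/-- the constants live on connected nonempty sets -/
theorem ccn {c : Cst} {P : MPar} (hR : 2 * P.R + 1 ≤ nearR c.p c.k0 0) (B : Bg ℤ) (k : ℕ)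
    (U : Finset (ℤ × ℤ)) (h : cc (fl c P B) k U ≠ 0) :
    U.Nonempty ∧ Packx915.Conn fd (nearR c.p c.k0 k) U := by
  have h1 := StrSx897.hac_sys DD B.w ∅ c.p c.k0
    (B.K0 P LinearMap.id (noSrc ℤ (Ge (Fld ℤ))) c.p c.k0) (Ac := Set.univ)
    (JVolx950.K0_empty B P LinearMap.id (noSrc ℤ (Ge (Fld ℤ))) c.p c.k0)
    (fun U hU => JVolx950.K0_conn B P LinearMap.id (noSrc ℤ (Ge (Fld ℤ))) hR
      (noSrc_conn (G := ℤ) _ _) hU)
    (fun _ _ _ _ => Set.mem_univ _) k U (Compx889.cc_ne_zero h)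
  exact ⟨h1.1, h1.2.1⟩

/-! ### the constants -/

/-- the elementary conditions on the constants -/
structure Basic (R : ℕ) (c : Cst) : Prop where
  p1 : 1 ≤ c.p
  h5 : 5 ≤ c.p * (c.k0 + 1)
  Γ4 : 4 ≤ c.Γ
  A0 : 0 < c.A0
  δ0 : 0 < c.δ
  near : 2 * max R 1 + 1 ≤ nearR c.p c.k0 0

theorem ev_basic (R : ℕ) : EvC (Basic R) := by
  filter_upwards [eventually_ge_atTop 1] with p hp
  filter_upwards [eventually_ge_atTop (4 : ℝ)] with Γ hΓ
  filter_upwards [eventually_ge_atTop (8 * (2 * max R 1 + 1) + 5)] with k0 hk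
  filter_upwards [eventually_gt_atTop (0 : ℝ)] with A0 hA
  filter_upwards [self_mem_nhdsWithin] with δ hδ
  refine ⟨hp, ?_, hΓ, hA, hδ, ?_⟩
  · show 5 ≤ p * (k0 + 1)
    calc 5 ≤ k0 + 1 := by omega
      _ ≤ p * (k0 + 1) := Nat.le_mul_of_pos_left _ hp
  · show 2 * max R 1 + 1 ≤ rr p k0 (0 + 1) / 8
    rw [Nat.le_div_iff_mul_le (by norm_num)]
    unfold rr
    have h1 : p * (k0 + (0 + 1)) < 2 ^ (p * (k0 + (0 + 1))) := Nat.lt_two_pow_self
    have h2 : k0 ≤ p * (k0 + (0 + 1)) := by nlinarith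
    omega

theorem amp_tendsto {c : Cst} (hA : 0 < c.A0) (hδ : 0 < c.δ) :
    Tendsto (Outx683.amp c) atTop atTop := by
  unfold Outx683.amp
  refine Tendsto.const_mul_atTop hA ?_
  refine tendsto_atTop_add_const_left _ _ ?_
  exact Tendsto.const_mul_atTop hδ tendsto_natCast_atTop_atTop

/-! ### the leaf -/

/-- the bounds of one flow at all scales up to the scale of the domain -/
def BdAt (c : Cst) (P : MPar) (D : Set ℂ) (b : BoundaryCondition) {n : ℕ} (x : Fin n → ℂ)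
    (C' δ a : ℝ) : Prop :=
  (∀ k ≤ lastK c.p c.k0 (δ * a⁻¹), NPc c (domF c P (TT D a) b (fun i => meshIndex a (x i)))
    (Bg.dom (TT D a) b (fun i => meshIndex a (x i))).w (Outx683.amp c) allP k ≤
      ENNReal.ofReal (C' * (1 / 2) ^ k)) ∧
  ∀ k < lastK c.p c.k0 (δ * a⁻¹),
    NCc c (domF c P (TT D a) b (fun i => meshIndex a (x i))) k ≤ ENNReal.ofReal (C' * (1 / 2) ^ k)

/-- **(P8) for domains** -/
def DomBd (J : ℝ) (R : ℕ) (V : Finset (ℤ × ℤ) → ℝ) : Prop :=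
  ForP J (PF J R V) fun c lam β z =>
    ∀ D : Set ℂ, IsC2JordanDomain D → ∀ (b : BoundaryCondition) (n : ℕ), Rel b n →
      ∀ x : Fin n → ℂ, (∀ i, x i ∈ D) → Function.Injective x →
        ∃ C' : ℝ, ∃ δ₁ > 0, ∀ δ : ℝ, 0 < δ → δ ≤ δ₁ →
          ∀ᶠ a in 𝓝[>] (0 : ℝ), BdAt c (mpar J lam R V β z) D b x C' δ a

theorem lastK_scale {p k0 : ℕ} {δ δ₀ : ℝ} (hδ : 0 < δ) (hδ₀ : δ ≤ δ₀) :
    ∀ᶠ a in 𝓝[>] (0 : ℝ), (rr p k0 (lastK p k0 (δ * a⁻¹)) : ℝ) ≤ δ₀ / a := by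
  have h1 : Tendsto (fun a : ℝ => δ * a⁻¹) (𝓝[>] 0) atTop :=
    Tendsto.const_mul_atTop hδ tendsto_inv_nhdsGT_zero
  filter_upwards [h1.eventually_ge_atTop ((2 : ℝ) ^ (p * k0)), self_mem_nhdsWithin] with a h2 ha
  have ha : 0 < a := ha
  have h3 := lastK_le h2
  have h4 : (rr p k0 (lastK p k0 (δ * a⁻¹)) : ℝ) = 2 ^ (p * (k0 + lastK p k0 (δ * a⁻¹))) := by
    unfold rr; push_cast; rfl
  rw [h4]
  refine h3.trans ?_
  rw [div_eq_mul_inv]
  exact mul_le_mul_of_nonneg_right hδ₀ (by positivity)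

/-- the norm at the last scale tends to zero -/
theorem NK_last {c : Cst} {P : MPar} {D : Set ℂ} {b : BoundaryCondition} {n : ℕ} {x : Fin n → ℂ}
    {C' δ : ℝ} (hp : 1 ≤ c.p) (hδ : 0 < δ)
    (h : ∀ᶠ a in 𝓝[>] (0 : ℝ), BdAt c P D b x C' δ a) :
    Tendsto (fun a : ℝ => NK (Bg.dom (TT D a) b (fun i => meshIndex a (x i))).w
      (Outx683.amp c (lastK c.p c.k0 (δ * a⁻¹))) (rr c.p c.k0 (lastK c.p c.k0 (δ * a⁻¹)))
      (ENNReal.ofReal c.Γ) (fun _ => True)
      (fun U => ((fl c P (Bg.dom (TT D a) b (fun i => meshIndex a (x i)))).K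
        (lastK c.p c.k0 (δ * a⁻¹)) U : Gr (Fld ℤ)))) (𝓝[>] 0) (𝓝 0) := by
  have h1 : Tendsto (fun a : ℝ => lastK c.p c.k0 (δ * a⁻¹)) (𝓝[>] 0) atTop :=
    lastK_tendsto c.k0 hp (Tendsto.const_mul_atTop hδ tendsto_inv_nhdsGT_zero)
  have h2 : Tendsto (fun k : ℕ => ENNReal.ofReal (C' * (1 / 2) ^ k)) atTop (𝓝 0) := by
    have h3 : Tendsto (fun k : ℕ => C' * (1 / 2 : ℝ) ^ k) atTop (𝓝 (C' * 0)) :=
      (tendsto_pow_atTop_nhds_zero_of_lt_one (by norm_num) (by norm_num)).const_mul C'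
    rw [mul_zero] at h3
    have h4 := ENNReal.tendsto_ofReal h3
    rwa [ENNReal.ofReal_zero] at h4
  refine tendsto_of_tendsto_of_tendsto_of_le_of_le' tendsto_const_nhds (h2.comp h1)
    (Eventually.of_forall fun _ => zero_le) ?_
  filter_upwards [h] with a ha
  exact ha.1 _ le_rfl

/-- **the leaf `SpDL`** -/
theorem spDL_of (hS : UFinx420.SpinLeaf) {J : ℝ} (hJ : 0 < J) {R : ℕ} {V : Finset (ℤ × ℤ) → ℝ}
    (hV : VHyp R V) (hD : DomBd J R V) (hB : ConstB J R V) : PTopx386.SpDL J R V := by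
  unfold DomBd ForP at hD
  unfold ConstB at hB
  unfold PTopx386.SpDL ForP
  refine (EvC.and (EvC.and hD hB) (ev_basic R)).mono fun c hc C => ?_
  obtain ⟨⟨hcD, hcB⟩, bas⟩ := hc
  obtain ⟨ε₁, hε₁, h1⟩ := hcD C
  obtain ⟨ε₂, hε₂, M, h2⟩ := hcB C
  refine ⟨min (min ε₁ ε₂) (1 / (|C| + 1)), by positivity, fun lam β z hl hn hp => ?_⟩
  have hl1 : |lam| < ε₁ := hl.trans_le ((min_le_left _ _).trans (min_le_left _ _))
  have hl2 : |lam| < ε₂ := hl.trans_le ((min_le_left _ _).trans (min_le_right _ _))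
  have hl3 : |lam| < 1 / (|C| + 1) := hl.trans_le (min_le_right _ _)
  have hdom := h1 lam β z hl1 hn hp
  obtain ⟨hpl, hbr⟩ := h2 lam β z hl2 hn hp
  have hz : 0 < 1 + z := by
    have h3 : |z| < 1 := by
      have h4 : |z| ≤ C * |lam| := by
        have := hn
        unfold NearP at this
        linarith [abs_nonneg (β - criticalBeta J)]
      have h5 : C * |lam| ≤ |C| * |lam| := mul_le_mul_of_nonneg_right (le_abs_self C) (abs_nonneg _)
      rw [lt_div_iff₀ (by positivity)] at hl3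
      nlinarith [abs_nonneg lam, abs_nonneg C]
    linarith [(abs_lt.1 h3).1]
  intro D hC2 b n hn1 hR x hx hinj
  have hbd : Bornology.IsBounded D := bounded_of_C2 hC2
  have hO : IsOpen D := isOpen_of_C2 hC2
  have hbm : b ≠ BoundaryCondition.minus := UFinx420.rel_ne_minus hR
  have hR0 : Rel b 0 := by
    rcases hR with rfl | ⟨rfl, -⟩
    · exact Or.inl rfl
    · exact Or.inr ⟨rfl, Even.zero⟩
  obtain ⟨C₁, δ₁, hδ₁, hb1⟩ := hdom D hC2 b n hR x hx hinj
  obtain ⟨C₂, δ₂, hδ₂, hb2⟩ := hdom D hC2 b 0 hR0 (fun i : Fin 0 => i.elim0) (fun i => i.elim0)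
    (Function.injective_of_subsingleton _)
  obtain ⟨δ₀, hδ₀, hsp⟩ := spinData_dom hO hx hinj
  set δ : ℝ := min δ₀ (min δ₁ δ₂) with hδdef
  have hδ : 0 < δ := lt_min hδ₀ (lt_min hδ₁ hδ₂)
  have e0 : (fun a : ℝ => fun i : Fin 0 => meshIndex a ((i.elim0 : ℂ))) =
      fun _ => fun i : Fin 0 => (i.elim0 : ℤ × ℤ) := by
    funext a i
    exact i.elim0
  have hB1 := hb1 δ hδ ((min_le_right _ _).trans (min_le_left _ _))
  have hB2 := hb2 δ hδ ((min_le_right _ _).trans (min_le_right _ _))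
  set P := mpar J lam R V β z with hP
  set X : ℝ → Fin n → ℤ × ℤ := fun a i => meshIndex a (x i) with hX
  have X0eq : ∀ a : ℝ, (fun i : Fin 0 => meshIndex a ((fun i : Fin 0 => (i.elim0 : ℂ)) i)) =
      fun i : Fin 0 => (i.elim0 : ℤ × ℤ) := fun a => funext fun i => i.elim0
  obtain ⟨Bd0, hBd0⟩ := hbd.exists_norm_le
  have hBD : ∀ w ∈ D, ‖w‖ ≤ |Bd0| := fun w hw => (hBd0 w hw).trans (le_abs_self _)
  set Λ : ℝ → Finset (ℤ × ℤ) := Lam |Bd0| (max R 1) with hΛ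
  -- the error sequence
  set E : ℕ → ℝ := fun k => (|C₁| + |C₂| + |M| * |lam|) * (1 / 2) ^ k with hE
  have hE0 : ∀ k, 0 ≤ E k := fun k => by positivity
  have hEs : Summable E := (summable_geometric_of_lt_one (by norm_num) (by norm_num)).mul_left _
  have hΓ4 : (4 : ℝ≥0∞) ≤ ENNReal.ofReal c.Γ := by
    rw [show (4 : ℝ≥0∞) = ENNReal.ofReal 4 by norm_num]
    exact ENNReal.ofReal_le_ofReal bas.Γ4
  have hΓt : ENNReal.ofReal c.Γ ≠ ∞ := ENNReal.ofReal_ne_top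
  have hle1 : ∀ k, ENNReal.ofReal (C₁ * (1 / 2) ^ k) ≤ ENNReal.ofReal (E k) := fun k => by
    refine ENNReal.ofReal_le_ofReal (mul_le_mul_of_nonneg_right ?_ (by positivity))
    have := le_abs_self C₁
    have h6 : 0 ≤ |M| * |lam| := by positivity
    linarith [abs_nonneg C₂]
  have hle2 : ∀ k, ENNReal.ofReal (C₂ * (1 / 2) ^ k) ≤ ENNReal.ofReal (E k) := fun k => by
    refine ENNReal.ofReal_le_ofReal (mul_le_mul_of_nonneg_right ?_ (by positivity))
    have := le_abs_self C₂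
    have h6 : 0 ≤ |M| * |lam| := by positivity
    linarith [abs_nonneg C₁]
  have hle3 : ∀ k, ENNReal.ofReal (M * |lam| * (1 / 2) ^ k) ≤ ENNReal.ofReal (E k) := fun k => by
    refine ENNReal.ofReal_le_ofReal (mul_le_mul_of_nonneg_right ?_ (by positivity))
    have h6 : M * |lam| ≤ |M| * |lam| := mul_le_mul_of_nonneg_right (le_abs_self M) (abs_nonneg _)
    linarith [abs_nonneg C₁, abs_nonneg C₂]
  have hPR : 2 * P.R + 1 ≤ nearR c.p c.k0 0 := bas.near
  have hKt : Tendsto (fun a : ℝ => lastK c.p c.k0 (δ * a⁻¹)) (𝓝[>] 0) atTop :=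
    lastK_tendsto c.k0 bas.p1 (Tendsto.const_mul_atTop hδ tendsto_inv_nhdsGT_zero)
  have hTc : ∀ᶠ a in 𝓝[>] (0 : ℝ), ((TT D a : Finset (ℤ × ℤ)) : Set (ℤ × ℤ)) = domainSites D a := by
    filter_upwards [self_mem_nhdsWithin] with a ha
    exact TT_coe hbd ha
  have ha1 : ∀ᶠ a in 𝓝[>] (0 : ℝ), a ≤ 1 :=
    mem_of_superset (Ioo_mem_nhdsGT one_pos) fun a ha => ha.2.le
  have hVol : ∀ᶠ a in 𝓝[>] (0 : ℝ),
      ∀ f ∈ Λ a, (fd ((0, 0) : ℤ × ℤ) f : ℝ) ≤ (|Bd0| + (max R 1 : ℕ) + 3) * a⁻¹ := by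
    filter_upwards [self_mem_nhdsWithin, ha1] with a ha ha1 f hf
    exact fd_Lam (abs_nonneg _) _ ha ha1 hf
  -- the final factors
  have hΓ1 : (1 : ℝ≥0∞) ≤ ENNReal.ofReal c.Γ := le_trans (by norm_num) hΓ4
  have fin1 : Tendsto (fun a : ℝ => Zf (domF c P (TT D a) b (X a)) (Λ a)
      (lastK c.p c.k0 (δ * a⁻¹)) (rem c (Bg.dom (TT D a) b (X a)).w
        (lastK c.p c.k0 (δ * a⁻¹)))) (𝓝[>] 0) (𝓝 1) := by
    obtain ⟨Cg, hCg, hg⟩ := goodBg_ev hS hC2 b hn1 hR (x := x) ⟨hx, hinj⟩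
    exact fin_bg bas.p1 hΓ1 P hδ hCg (Cv := |Bd0| + (max R 1 : ℕ) + 3) (by positivity)
      (fun a => Bg.dom (TT D a) b (X a)) (fun a z j => Fin3x315.abs_wX_le _ _ _ z j) hg
      (amp_tendsto bas.A0 bas.δ0) Λ hVol (NK_last bas.p1 hδ hB1)
  have fin2 : Tendsto (fun a : ℝ => Zf (domF c P (TT D a) b (fun i : Fin 0 => (i.elim0 : ℤ × ℤ)))
      (Λ a) (lastK c.p c.k0 (δ * a⁻¹)) (rem c (Bg.dom (TT D a) b
        (fun i : Fin 0 => (i.elim0 : ℤ × ℤ))).w (lastK c.p c.k0 (δ * a⁻¹)))) (𝓝[>] 0) (𝓝 1) := by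
    obtain ⟨Cg, hCg, hg⟩ := goodBg_ev0 hC2 b hbm
    have h7 := NK_last bas.p1 hδ hB2
    simp only [X0eq] at h7
    exact fin_bg bas.p1 hΓ1 P hδ hCg (Cv := |Bd0| + (max R 1 : ℕ) + 3) (by positivity)
      (fun a => Bg.dom (TT D a) b (fun i : Fin 0 => (i.elim0 : ℤ × ℤ)))
      (fun a z j => Fin3x315.abs_wX_le _ _ _ z j) hg
      (amp_tendsto bas.A0 bas.δ0) Λ hVol h7
  -- the bounds
  have bd1 : ∀ᶠ a in 𝓝[>] (0 : ℝ), Bd (domF c P (TT D a) b (X a)) fd
      (fun k => rr c.p c.k0 (k + 1)) (nearR c.p c.k0) (ENNReal.ofReal c.Γ) E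
      (lastK c.p c.k0 (δ * a⁻¹)) := by
    filter_upwards [hB1] with a ha
    exact Compx889.bd_of (fun k hk => (ha.2 k hk).trans (hle1 k)) fun k _ U hU => ccn hPR _ k U hU
  have bd2 : ∀ᶠ a in 𝓝[>] (0 : ℝ),
      Bd (domF c P (TT D a) b (fun i : Fin 0 => (i.elim0 : ℤ × ℤ))) fd
      (fun k => rr c.p c.k0 (k + 1)) (nearR c.p c.k0) (ENNReal.ofReal c.Γ) E
      (lastK c.p c.k0 (δ * a⁻¹)) := by
    filter_upwards [hB2] with a ha
    refine Compx889.bd_of (fun k hk => ?_) fun k _ U hU => ccn hPR _ k U hU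
    have h8 := ha.2 k hk
    rw [X0eq a] at h8
    exact h8.trans (hle2 k)
  have bdB : ∀ (y : ℤ × ℤ) (N : ℕ), Bd (brF c P y) fd (fun k => rr c.p c.k0 (k + 1))
      (nearR c.p c.k0) (ENNReal.ofReal c.Γ) E N := fun y N =>
    Compx889.bd_of (fun k _ => ((NC_br bas.h5 bas.p1 P y k).trans (hbr k)).trans (hle3 k))
      fun k _ U hU => ccn hPR _ k U hU
  have bdP : ∀ N : ℕ, Bd (plF c P) fd (fun k => rr c.p c.k0 (k + 1))
      (nearR c.p c.k0) (ENNReal.ofReal c.Γ) E N := fun N =>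
    Compx889.bd_of (fun k _ => (hpl k).trans (hle3 k)) fun k _ U hU => ccn hPR _ k U hU
  -- the flows
  have vol : ∀ᶠ a in 𝓝[>] (0 : ℝ), Vol (TT D a) b P.R (noSrc ℤ (Ge (Fld ℤ))).Ys (Λ a) := by
    filter_upwards [self_mem_nhdsWithin] with a ha
    exact vol_Lam hBD hbd ha b (max R 1) _ fun _ => rfl
  have ev := ev_C2 (m := 0) b hR hC2 x hx (fun i : Fin 0 => i.elim0) (fun i : Fin 0 => i.elim0)
    (fun i => i.elim0)
  have hratio : ∀ᶠ a in 𝓝[>] (0 : ℝ), spm D a b J lam R V β x / spm0 D a b x =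
      Z0 (domF c P (TT D a) b (X a)) (Λ a) (Cof (Bg.dom (TT D a) b (X a)).w) /
      Z0 (domF c P (TT D a) b (fun i : Fin 0 => (i.elim0 : ℤ × ℤ))) (Λ a)
        (Cof (Bg.dom (TT D a) b (fun i : Fin 0 => (i.elim0 : ℤ × ℤ))).w) := by
    filter_upwards [ev, self_mem_nhdsWithin] with a h9 ha
    exact spm_eq bas.h5 hJ.ne' hV.trans hV.range hV.even hz hBD hbd hbm x ha h9.2.1 h9.2.2.1
      h9.2.2.2.1.ne'
  refine ⟨_, hsp hΓ4 hΓt hE0 hEs (c := c) P bas.h5 bas.p1 b (l := 𝓝[>] (0 : ℝ)) (a := fun a => a)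
    tendsto_id (fun a => TT D a) hTc (fun _ i => i.elim0) (fun a => lastK c.p c.k0 (δ * a⁻¹)) hKt
    (lastK_scale hδ (min_le_left _ _)) Λ Λ (fun a => Cof (Bg.dom (TT D a) b (X a)).w)
    (fun a => rem c (Bg.dom (TT D a) b (X a)).w (lastK c.p c.k0 (δ * a⁻¹)))
    (fun a => Cof (Bg.dom (TT D a) b (fun i : Fin 0 => (i.elim0 : ℤ × ℤ))).w)
    (fun a => rem c (Bg.dom (TT D a) b (fun i : Fin 0 => (i.elim0 : ℤ × ℤ))).w
      (lastK c.p c.k0 (δ * a⁻¹)))
    (vol.mono fun a v => fl_Fl bas.h5 P v _) (vol.mono fun a v => fl_Fl bas.h5 P v _)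
    bd1 bd2 (Eventually.of_forall fun a j => bdB _ _) (Eventually.of_forall fun a => bdP _)
    fin1 fin2 hratio⟩

end Crest.Agent.R165.SRdomx900
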