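import Crest.Agent.R165.Comp7_889
import Crest.Agent.R165.PlB_117
import Crest.Agent.R165.SRdom_900

/-!
# Row 165, block F, leaf P8: `DomBd` for the perturbations of S0250 (helper889)

* `symL : VHyp R V → SymL J R V` (126's `K0_plSym`)
* `domBd : VHyp R V → SRdomx900.DomBd J R V`, no hypothesis left
-/

set_option autoImplicit false

noncomputable section

open Crest.Agent.R165.Topx683 (VHyp)

namespace Crest.Agent.R165.Compx889

variable {J : ℝ} {R : ℕ} {V : Finset (ℤ × ℤ) → ℝ}

theorem symL (hV : VHyp R V) : SymL J R V := fun _ _ _ l k0 =>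
  J4K0Symx126.K0_plSym (fun A z => hV.trans A z) (fun A h => hV.range A h)
    (fun S => hV.rot S) (fun S => hV.refl S) l k0

/-- **(P8) for `C²` Jordan domains**, the hypothesis of `SRdomx900.spDL_of` -/
theorem domBd (hV : VHyp R V) : SRdomx900.DomBd J R V := dom_forP (symL hV)

end Crest.Agent.R165.Compx889
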