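import Crest.Agent.R165.SpPL_67
import Crest.Agent.R165.Zs_387

/-!
# Row 165 (S0250): the bounds `ConstB` of the constants (helper67)

* `constB : ConstB J R V` (input of `SRdom_900.spDL_of`), no hypotheses
-/

set_option autoImplicit false

noncomputable section

open scoped ENNReal
open Crest.Agent.R165.Outx683 Crest.Agent.R165.PEndx683

namespace Crest.Agent.R165.SpPLx67

/-- **the bounds of the constants for one branch point and the plane** -/
theorem constB (J : ℝ) (R : ℕ) (V : Finset (ℤ × ℤ) → ℝ) : Zsx387.ConstB J R V := by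
  unfold Zsx387.ConstB
  refine (flc_ev J R V).mono fun c hc C => ?_
  obtain ⟨ε, hε, M, -, h⟩ := hc.2 C
  exact ⟨ε, hε, M, fun lam β z hl hn hp => ⟨(h lam β z hl hn hp).2, (h lam β z hl hn hp).1 0⟩⟩

end Crest.Agent.R165.SpPLx67
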