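import Crest.Agent.R165.ConstA_729
import Crest.Agent.R165.PStepN_901
import Crest.Agent.R165.GSysPl_387
import Crest.Agent.R165.Out_683
import Crest.Agent.R165.BkEx_812

/-!
# Row 165 (S0250), block G: the hypotheses `PDat` of the plane step (helper729)

* `StepNum.pdat` : `PDat` of `PStepN_901` for every step `n`, pair of amplitudes, covering numbers
  `nB (2^p)`, `nS (2^p)` independent of `n`
* `StepNum.ke_real` : the contraction factor as a real number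
* `pdat_ev` : for all constants
-/

set_option autoImplicit false
set_option linter.unusedSectionVars false
set_option linter.unusedVariables false

noncomputable section

open scoped ENNReal NNReal
open Filter Topology
open Crest.Agent.R165.Gr0x606 Crest.Agent.R165.Gr1x606 Crest.Agent.R165.Latx683
open Crest.Agent.R165.PNormx417 Crest.Agent.R165.GDefx387 Crest.Agent.R165.GeOpsx337
open Crest.Agent.R165.KFlowx337 Crest.Agent.R165.Packx915 Crest.Agent.R165.Bridgex915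
open Crest.Agent.R165.NSumx915 Crest.Agent.R165.FRDPolyx439 Crest.Agent.R165.FRDLatx439
open Crest.Agent.R165.PlaneModesx901 Crest.Agent.R165.PlaneLocx901 Crest.Agent.R165.PlaneCovx901
open Crest.Agent.R165.PlaneSumx901 Crest.Agent.R165.PlaneCoefx901 Crest.Agent.R165.W2x812
open Crest.Agent.R165.Locx901 Crest.Agent.R165.GBulkx417 Crest.Agent.R165.PStepx417
open Crest.Agent.R165.GSysx387 Crest.Agent.R165.GSysOKx439 Crest.Agent.R165.PEndx683

namespace Crest.Agent.R165.ConstAx729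

section plane

variable {M K : ℕ} (D : FRD 16 M K) {C a a' η Γ Dc : ℝ} {p k0 n : ℕ}

theorem cov_big (hp : 4 ≤ p) (k0 n : ℕ) :
    NSumx915.Cov (fd : Fc → Fc → ℕ) (rr p k0 (n + 1) + nearR p k0 (n + 1)) (rr p k0 (n + 1))
      (nB (2 ^ p)) := by
  have hr' := rr_pos p k0 (n + 1)
  refine (cov_fd hr' _).mono le_rfl le_rfl ?_
  have h1 : (rr p k0 (n + 1) + nearR p k0 (n + 1)) / rr p k0 (n + 1) ≤ 2 ^ p + 1 := by
    rw [Nat.div_le_iff_le_mul_add_pred hr']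
    have := (geo p k0 n hp).2.2.2
    calc rr p k0 (n + 1) + nearR p k0 (n + 1) ≤ rr p k0 (n + 1) + 2 ^ p * rr p k0 (n + 1) := by
          omega
      _ ≤ rr p k0 (n + 1) * (2 ^ p + 1) + (rr p k0 (n + 1) - 1) := by
          rw [mul_add, mul_one, mul_comm (rr p k0 (n + 1)) (2 ^ p)]; omega
  unfold nB
  gcongr

theorem cov_small (p k0 n : ℕ) :
    NSumx915.Cov (fd : Fc → Fc → ℕ) (rr p k0 (n + 1)) (rr p k0 n) (nS (2 ^ p)) := by
  have hr := rr_pos p k0 n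
  refine (cov_fd hr _).mono le_rfl le_rfl ?_
  have : rr p k0 (n + 1) / rr p k0 n = 2 ^ p := by
    rw [rr_succ, Nat.mul_div_cancel _ hr]
  rw [this]
  exact le_rfl

/-- **the hypotheses of the plane step**, pair of amplitudes -/
theorem StepNum.pdat (N : StepNum D.C C η Γ p k0 n a a') (h : BkReg C) (hM : MM + 1 ≤ M) :
    PStepNx901.PDat a a' (rr p k0 n) (rr p k0 (n + 1)) (nearR p k0 n) (nearR p k0 (n + 1))
      (nB (2 ^ p)) (nS (2 ^ p)) (ENNReal.ofReal Γ) C (gw D (wPl ℤ) (lo p k0 n) (hi p k0 n))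
      (v0 C a a' p k0 n) (v1 C a a' p k0 n) (v2 C a a' p k0 n) (v3 D.C a p k0) (vC C)
      (slC D (wPl ℤ) p k0 n) where
  ha := N.a_pos
  hr := rr_pos p k0 n
  hΓ := N.Γ_ge
  hΓt := ENNReal.ofReal_ne_top
  reg := h
  H := bulkHyp_rr D h hM N.a_pos N.a_pos' N.hr16
  N := N.num
  gram := slC_gram D _ wPl_le p k0 n
  sym := symS_slC D p k0 n
  kap1 := N.kap_le
  hR := N.hR
  RR := N.hRR
  cov := cov_big N.p_ge k0 n
  cov' := cov_small p k0 n

/-- the contraction factor as a real number -/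
theorem StepNum.ke_real (N : StepNum Dc C η Γ p k0 n a a') (hη : 0 ≤ η) :
    ((((2 * (rr p k0 (n + 1) / rr p k0 n) + 3) ^ 2 : ℕ) : ℝ≥0∞) *
      (kap (v0 C a a' p k0 n) (v1 C a a' p k0 n) (v2 C a a' p k0 n) (v3 Dc a p k0) (vC C) +
        (ENNReal.ofReal Γ)⁻¹)).toReal ≤ η :=
  ENNReal.toReal_le_of_le_ofReal hη N.ke_le

/-- the contraction factor, ratio evaluated -/
theorem StepNum.ke_pow (N : StepNum Dc C η Γ p k0 n a a') :
    (((2 * 2 ^ p + 3) ^ 2 : ℕ) : ℝ≥0∞) *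
      (kap (v0 C a a' p k0 n) (v1 C a a' p k0 n) (v2 C a a' p k0 n) (v3 Dc a p k0) (vC C) +
        (ENNReal.ofReal Γ)⁻¹) ≤ ENNReal.ofReal η := by
  have h := N.ke_le
  have e : rr p k0 (n + 1) / rr p k0 n = 2 ^ p := by
    rw [rr_succ, Nat.mul_div_cancel _ (rr_pos p k0 n)]
  rw [κe, e] at h
  exact h

/-- **the plane step for all constants** (pair of amplitudes) -/
theorem pdat_ev (h : BkReg C) (hM : MM + 1 ≤ M) (hη : 0 < η) :
    EvC fun c => 4 ≤ c.p ∧ 3 ≤ c.Γ ∧ 1 ≤ c.A0 ∧ 0 < c.δ ∧ c.δ ≤ 1 ∧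
      ∀ (k : ℕ) (a a' : ℝ), c.A0 ≤ a → a ≤ 2 * a' → a' ≤ 2 * a →
        PStepNx901.PDat a a' (rr c.p c.k0 k) (rr c.p c.k0 (k + 1)) (nearR c.p c.k0 k)
          (nearR c.p c.k0 (k + 1)) (nB (2 ^ c.p)) (nS (2 ^ c.p)) (ENNReal.ofReal c.Γ) C
          (gw D (wPl ℤ) (lo c.p c.k0 k) (hi c.p c.k0 k)) (v0 C a a' c.p c.k0 k)
          (v1 C a a' c.p c.k0 k) (v2 C a a' c.p c.k0 k) (v3 D.C a c.p c.k0) (vC C)
          (slC D (wPl ℤ) c.p c.k0 k) ∧
        ((((2 * (rr c.p c.k0 (k + 1) / rr c.p c.k0 k) + 3) ^ 2 : ℕ) : ℝ≥0∞) *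
          (kap (v0 C a a' c.p c.k0 k) (v1 C a a' c.p c.k0 k) (v2 C a a' c.p c.k0 k)
            (v3 D.C a c.p c.k0) (vC C) + (ENNReal.ofReal c.Γ)⁻¹)).toReal ≤ η :=
  (stepNum_ev D.C_pos h.nonneg hη).mono fun c hc => by
    obtain ⟨h1, h2, h3, h4, h5, h6⟩ := hc
    refine ⟨h1, h2, h3, h4, h5, fun k a a' ha h7 h8 => ?_⟩
    have N := h6 k a a' ha h7 h8
    exact ⟨N.pdat D h hM, N.ke_real hη.le⟩

end plane

/-- the instance for the decomposition `DD` of `Out_683`, unconditional -/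
theorem exists_pdat {η : ℝ} (hη : 0 < η) : ∃ C : ℝ, 0 < C ∧ BkReg C ∧
    EvC fun c => 4 ≤ c.p ∧ 3 ≤ c.Γ ∧ 1 ≤ c.A0 ∧ 0 < c.δ ∧ c.δ ≤ 1 ∧
      ∀ (k : ℕ) (a a' : ℝ), c.A0 ≤ a → a ≤ 2 * a' → a' ≤ 2 * a →
        PStepNx901.PDat a a' (rr c.p c.k0 k) (rr c.p c.k0 (k + 1)) (nearR c.p c.k0 k)
          (nearR c.p c.k0 (k + 1)) (nB (2 ^ c.p)) (nS (2 ^ c.p)) (ENNReal.ofReal c.Γ) C
          (gw Outx683.DD (wPl ℤ) (lo c.p c.k0 k) (hi c.p c.k0 k)) (v0 C a a' c.p c.k0 k)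
          (v1 C a a' c.p c.k0 k) (v2 C a a' c.p c.k0 k) (v3 Outx683.DD.C a c.p c.k0) (vC C)
          (slC Outx683.DD (wPl ℤ) c.p c.k0 k) ∧
        ((((2 * (rr c.p c.k0 (k + 1) / rr c.p c.k0 k) + 3) ^ 2 : ℕ) : ℝ≥0∞) *
          (kap (v0 C a a' c.p c.k0 k) (v1 C a a' c.p c.k0 k) (v2 C a a' c.p c.k0 k)
            (v3 Outx683.DD.C a c.p c.k0) (vC C) + (ENNReal.ofReal c.Γ)⁻¹)).toReal ≤ η := by
  obtain ⟨C, hC, h⟩ := BkExx812.exists_bkReg
  exact ⟨C, hC, h, pdat_ev Outx683.DD h (by decide) hη⟩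

end Crest.Agent.R165.ConstAx729
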