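import Crest.Agent.R165.U5Props_422
import Crest.Agent.R165.USpin_641

/-!
# Row 165 (S0250), U5 / S0: balls are `C²` Jordan domains, disc automorphisms, one-point function of
discs up to a constant (helper422)
-/

set_option autoImplicit false
set_option linter.unusedSectionVars false
set_option linter.unusedVariables false

noncomputable section

open Filter Topology Finset
open Crest.ProbabilityR.IsingModel

namespace Crest.Agent.R165.Nm1x422

open Crest.Agent.R165.U5Px422
open Crest.Agent.R165.USpinx641 (SpinInB)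

/-! ### balls -/

/-- the circle as a curve -/
def circ (c : ℂ) (r : ℝ) (t : ℝ) : ℂ := c + r * Complex.exp (2 * Real.pi * Complex.I * t)

theorem norm_circ_sub (c : ℂ) {r : ℝ} (hr : 0 < r) (t : ℝ) : ‖circ c r t - c‖ = r := by
  unfold circ
  rw [add_sub_cancel_left, norm_mul, Complex.norm_real, Real.norm_of_nonneg hr.le]
  have : (2 * Real.pi * Complex.I * t : ℂ) = ((2 * Real.pi * t : ℝ) : ℂ) * Complex.I := by
    push_cast; ring
  rw [this, Complex.norm_exp_ofReal_mul_I, mul_one]

theorem range_circ (c : ℂ) {r : ℝ} (hr : 0 < r) : Set.range (circ c r) = Metric.sphere c r := by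
  ext z
  constructor
  · rintro ⟨t, rfl⟩
    rw [mem_sphere_iff_norm]; exact norm_circ_sub c hr t
  · intro hz
    rw [mem_sphere_iff_norm] at hz
    refine ⟨Complex.arg (z - c) / (2 * Real.pi), ?_⟩
    unfold circ
    have h1 : (2 * Real.pi * Complex.I * ((Complex.arg (z - c) / (2 * Real.pi) : ℝ) : ℂ)) =
        Complex.arg (z - c) * Complex.I := by
      push_cast
      have : (Real.pi : ℂ) ≠ 0 := Complex.ofReal_ne_zero.2 Real.pi_ne_zero
      field_simp
    rw [h1]
    have h2 := Complex.norm_mul_exp_arg_mul_I (z - c)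
    rw [hz] at h2
    rw [h2]; ring

theorem hasDerivAt_circ (c : ℂ) (r t : ℝ) : HasDerivAt (circ c r)
    (r * (2 * Real.pi * Complex.I) * Complex.exp (2 * Real.pi * Complex.I * t)) t := by
  unfold circ
  have h1 : HasDerivAt (fun t : ℝ => (2 * Real.pi * Complex.I * t : ℂ)) (2 * Real.pi * Complex.I) t := by
    have := (Complex.ofRealCLM.hasDerivAt (x := t)).const_mul (2 * Real.pi * Complex.I : ℂ)
    simpa using this
  have h2 := (h1.cexp.const_mul (r : ℂ)).const_add c
  exact h2.congr_deriv (by ring)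

theorem isC2_ball (c : ℂ) {r : ℝ} (hr : 0 < r) : IsC2JordanDomain (Metric.ball c r) := by
  refine ⟨circ c r, ?_, ?_, ?_, ?_, ?_⟩
  · unfold circ
    exact contDiff_const.add (contDiff_const.mul
      (contDiff_const.mul Complex.ofRealCLM.contDiff).cexp)
  · intro t
    unfold circ
    have : (2 * Real.pi * Complex.I * ((t + 1 : ℝ) : ℂ)) =
        2 * Real.pi * Complex.I * t + 2 * Real.pi * Complex.I := by push_cast; ring
    rw [this, Complex.exp_add, Complex.exp_two_pi_mul_I, mul_one]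
  · intro s hs t ht hst
    unfold circ at hst
    have h1 : (r : ℂ) ≠ 0 := Complex.ofReal_ne_zero.2 hr.ne'
    have h2 : Complex.exp (2 * Real.pi * Complex.I * s) = Complex.exp (2 * Real.pi * Complex.I * t) :=
      mul_left_cancel₀ h1 (add_left_cancel hst)
    rw [Complex.exp_eq_exp_iff_exists_int] at h2
    obtain ⟨n, hn⟩ := h2
    have h3 : (s : ℂ) = t + n := by
      have h4 : (2 * Real.pi * Complex.I : ℂ) ≠ 0 := Complex.two_pi_I_ne_zero
      have h5 : (2 * Real.pi * Complex.I : ℂ) * s = (2 * Real.pi * Complex.I) * (t + n) := by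
        rw [hn]; ring
      exact mul_left_cancel₀ h4 h5
    have h4 : s = t + n := by exact_mod_cast h3
    have h5 : (n : ℝ) < 1 := by linarith [hs.2, ht.1]
    have h6 : (-1 : ℝ) < n := by linarith [hs.1, ht.2]
    have h7 : n < 1 := by exact_mod_cast h5
    have h8 : -1 < n := by exact_mod_cast h6
    have h9 : n = 0 := by omega
    rw [h4, h9]; simp
  · intro t
    rw [(hasDerivAt_circ c r t).deriv]
    exact mul_ne_zero (mul_ne_zero (Complex.ofReal_ne_zero.2 hr.ne') Complex.two_pi_I_ne_zero)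
      (Complex.exp_ne_zero _)
  · rw [range_circ c hr]
    ext z
    constructor
    · intro hz
      have hz' : ‖z - c‖ < r := by rwa [mem_ball_iff_norm] at hz
      refine ⟨fun h => ?_, ?_⟩
      · rw [mem_sphere_iff_norm] at h; linarith
      · -- the component of `z` stays in the ball
        refine (Metric.isBounded_ball (x := c) (r := r)).subset ?_
        have hpre := isPreconnected_connectedComponentIn (x := z) (F := (Metric.sphere c r)ᶜ)
        have hsub := connectedComponentIn_subset (Metric.sphere c r)ᶜ z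
        intro w hw
        by_contra hcon
        have hw' : w ∉ Metric.closedBall c r := by
          intro h
          rw [mem_closedBall_iff_norm] at h
          rw [mem_ball_iff_norm, not_lt] at hcon
          exact hsub hw (by rw [mem_sphere_iff_norm]; linarith)
        have hzc : z ∈ connectedComponentIn (Metric.sphere c r)ᶜ z := by
          refine mem_connectedComponentIn ?_
          intro h
          rw [mem_sphere_iff_norm] at h; linarith
        obtain ⟨v, hv1, hv2, hv3⟩ := hpre (Metric.ball c r) (Metric.closedBall c r)ᶜ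
          Metric.isOpen_ball Metric.isClosed_closedBall.isOpen_compl
          (fun v hv => by
            have := hsub hv
            rw [Set.mem_compl_iff, mem_sphere_iff_norm] at this
            by_cases h : ‖v - c‖ < r
            · exact Or.inl (by rwa [mem_ball_iff_norm])
            · right
              rw [Set.mem_compl_iff, mem_closedBall_iff_norm]
              intro h2
              exact this (le_antisymm h2 (not_lt.1 h)))
          ⟨z, hzc, hz⟩ ⟨w, hw, hw'⟩
        exact hv3 (Metric.ball_subset_closedBall hv2)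
    · rintro ⟨h1, h2⟩
      rw [mem_ball_iff_norm]
      by_contra hcon
      have h3 : r < ‖z - c‖ := lt_of_le_of_ne (not_lt.1 hcon) fun h => h1 (by
        rw [mem_sphere_iff_norm]; exact h.symm)
      -- the component contains everything far away
      have himg : {w : ℂ | r < ‖w - c‖} = (fun w => w + c) '' {w : ℂ | r < ‖w‖} := by
        ext w
        constructor
        · intro hw
          exact ⟨w - c, hw, by ring⟩
        · rintro ⟨v, hv, rfl⟩
          simpa using hv
      have hpre : IsPreconnected {w : ℂ | r < ‖w - c‖} := by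
        rw [himg]
        exact (Crest.Agent.R165.Redx541.isPreconnected_far r hr.le).image _ (by fun_prop)
      have hsub : {w : ℂ | r < ‖w - c‖} ⊆ (Metric.sphere c r)ᶜ := by
        intro w hw h
        rw [mem_sphere_iff_norm] at h
        have hw' : r < ‖w - c‖ := hw
        linarith
      have h4 := h2.subset (hpre.subset_connectedComponentIn h3 hsub)
      have h5 : Bornology.IsBounded {w : ℂ | r < ‖w‖} := by
        have h6 : {w : ℂ | r < ‖w‖} ⊆ (fun w => w - c) '' {w : ℂ | r < ‖w - c‖} := by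
          intro w hw
          exact ⟨w + c, by simpa using hw, by ring⟩
        refine Bornology.IsBounded.subset ?_ h6
        have h7 : (fun w : ℂ => w - c) = (fun w => w + (-c)) := by funext w; ring
        rw [h7]
        obtain ⟨R, hR⟩ := h4.exists_norm_le
        refine (Metric.isBounded_closedBall (x := (0 : ℂ)) (r := R + ‖c‖)).subset ?_
        rintro _ ⟨w, hw, rfl⟩
        rw [mem_closedBall_iff_norm, sub_zero]
        calc ‖w + -c‖ ≤ ‖w‖ + ‖-c‖ := norm_add_le _ _
          _ ≤ R + ‖c‖ := by rw [norm_neg]; linarith [hR w hw]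
      exact Crest.Agent.R165.Redx541.not_isBounded_far r h5

/-! ### disc automorphisms -/

/-- the involution of the unit disc exchanging `0` and `w` -/
def mob (w z : ℂ) : ℂ := (w - z) / (1 - (starRingEnd ℂ) w * z)

theorem normSq_id (w z : ℂ) : Complex.normSq (1 - (starRingEnd ℂ) w * z) - Complex.normSq (w - z) =
    (1 - Complex.normSq w) * (1 - Complex.normSq z) := by
  simp only [Complex.normSq_apply, Complex.sub_re, Complex.sub_im, Complex.mul_re, Complex.mul_im,
    Complex.one_re, Complex.one_im, Complex.conj_re, Complex.conj_im]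
  ring

theorem normSq_lt_one {z : ℂ} (hz : z ∈ Metric.ball (0 : ℂ) 1) : Complex.normSq z < 1 := by
  rw [mem_ball_iff_norm, sub_zero] at hz
  rw [Complex.normSq_eq_norm_sq]
  have := norm_nonneg z
  nlinarith

theorem den_ne {w z : ℂ} (hw : w ∈ Metric.ball (0 : ℂ) 1) (hz : z ∈ Metric.ball (0 : ℂ) 1) :
    1 - (starRingEnd ℂ) w * z ≠ 0 := by
  intro h
  have h1 := normSq_id w z
  rw [h] at h1
  have h2 := normSq_lt_one hw
  have h3 := normSq_lt_one hz
  have h4 : 0 < (1 - Complex.normSq w) * (1 - Complex.normSq z) :=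
    mul_pos (by linarith) (by linarith)
  have h5 := Complex.normSq_nonneg (w - z)
  rw [map_zero] at h1
  linarith

theorem mob_mem {w z : ℂ} (hw : w ∈ Metric.ball (0 : ℂ) 1) (hz : z ∈ Metric.ball (0 : ℂ) 1) :
    mob w z ∈ Metric.ball (0 : ℂ) 1 := by
  rw [mem_ball_iff_norm, sub_zero]
  unfold mob
  rw [norm_div, div_lt_one (norm_pos_iff.2 (den_ne hw hz))]
  have h1 := normSq_id w z
  have h2 := normSq_lt_one hw
  have h3 := normSq_lt_one hz
  have h4 : 0 < (1 - Complex.normSq w) * (1 - Complex.normSq z) :=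
    mul_pos (by linarith) (by linarith)
  rw [Complex.normSq_eq_norm_sq, Complex.normSq_eq_norm_sq] at h1
  have h5 : ‖w - z‖ ^ 2 < ‖1 - (starRingEnd ℂ) w * z‖ ^ 2 := by linarith
  exact lt_of_pow_lt_pow_left₀ 2 (norm_nonneg _) h5

theorem mob_mob {w z : ℂ} (hw : w ∈ Metric.ball (0 : ℂ) 1) (hz : z ∈ Metric.ball (0 : ℂ) 1) :
    mob w (mob w z) = z := by
  have h1 := den_ne hw hz
  have h2 := den_ne hw (mob_mem hw hz)
  have hm : mob w z * (1 - (starRingEnd ℂ) w * z) = w - z := div_mul_cancel₀ _ h1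
  show (w - mob w z) / (1 - (starRingEnd ℂ) w * mob w z) = z
  rw [div_eq_iff h2]
  linear_combination -hm

theorem mob_diff {w : ℂ} (hw : w ∈ Metric.ball (0 : ℂ) 1) :
    DifferentiableOn ℂ (mob w) (Metric.ball 0 1) := by
  intro z hz
  unfold mob
  refine DifferentiableAt.differentiableWithinAt ?_
  exact ((differentiableAt_const w).sub differentiableAt_id).div
    ((differentiableAt_const _).sub ((differentiableAt_const _).mul differentiableAt_id))
    (den_ne hw hz)

theorem mob_bij {w : ℂ} (hw : w ∈ Metric.ball (0 : ℂ) 1) :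
    Set.BijOn (mob w) (Metric.ball 0 1) (Metric.ball 0 1) :=
  Set.InvOn.bijOn (f' := mob w) ⟨fun z hz => mob_mob hw hz, fun z hz => mob_mob hw hz⟩
    (fun z hz => mob_mem hw hz) (fun z hz => mob_mem hw hz)

theorem mob_hasDeriv {w z : ℂ} (hw : w ∈ Metric.ball (0 : ℂ) 1)
    (hz : z ∈ Metric.ball (0 : ℂ) 1) :
    HasDerivAt (mob w) (-(1 - (starRingEnd ℂ) w * w) / (1 - (starRingEnd ℂ) w * z) ^ 2) z := by
  have h1 : HasDerivAt (fun z : ℂ => w - z) (-1) z := by
    simpa using (hasDerivAt_id z).const_sub w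
  have h2 : HasDerivAt (fun z : ℂ => 1 - (starRingEnd ℂ) w * z) (-((starRingEnd ℂ) w)) z := by
    have := ((hasDerivAt_id z).const_mul ((starRingEnd ℂ) w)).const_sub 1
    simpa using this
  have h3 := h1.div h2 (den_ne hw hz)
  refine h3.congr_deriv ?_
  congr 1
  ring

theorem mob_zero (w : ℂ) : mob w 0 = w := by simp [mob]
theorem mob_self (w : ℂ) : mob w w = 0 := by simp [mob]

theorem conj_mul_self_eq (w : ℂ) : (starRingEnd ℂ) w * w = ((‖w‖ ^ 2 : ℝ) : ℂ) := by
  rw [← Complex.normSq_eq_norm_sq, mul_comm, Complex.mul_conj]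

theorem mob_deriv_zero {w : ℂ} (hw : w ∈ Metric.ball (0 : ℂ) 1) :
    ‖deriv (mob w) 0‖ = 1 - ‖w‖ ^ 2 := by
  have h0 : (0 : ℂ) ∈ Metric.ball (0 : ℂ) 1 := Metric.mem_ball_self one_pos
  rw [(mob_hasDeriv hw h0).deriv]
  have h1 : 0 < 1 - ‖w‖ ^ 2 := by
    have := normSq_lt_one hw
    rw [Complex.normSq_eq_norm_sq] at this
    linarith
  rw [mul_zero, sub_zero, one_pow, div_one, norm_neg, conj_mul_self_eq]
  have : (1 - ((‖w‖ ^ 2 : ℝ) : ℂ)) = ((1 - ‖w‖ ^ 2 : ℝ) : ℂ) := by push_cast; ring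
  rw [this, Complex.norm_real, Real.norm_of_nonneg h1.le]

theorem mob_deriv_self {w : ℂ} (hw : w ∈ Metric.ball (0 : ℂ) 1) :
    ‖deriv (mob w) w‖ = (1 - ‖w‖ ^ 2)⁻¹ := by
  rw [(mob_hasDeriv hw hw).deriv]
  have h1 : 0 < 1 - ‖w‖ ^ 2 := by
    have := normSq_lt_one hw
    rw [Complex.normSq_eq_norm_sq] at this
    linarith
  rw [norm_div, norm_neg, norm_pow, conj_mul_self_eq]
  have : (1 - ((‖w‖ ^ 2 : ℝ) : ℂ)) = ((1 - ‖w‖ ^ 2 : ℝ) : ℂ) := by push_cast; ring
  rw [this, Complex.norm_real, Real.norm_of_nonneg h1.le]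
  field_simp

/-! ### the one-point function of discs up to a constant -/

/-- conformal radius of the disc `B(c, r)` at `z` -/
def cb (c : ℂ) (r : ℝ) (z : ℂ) : ℝ := (r ^ 2 - ‖z - c‖ ^ 2) / r

theorem cb_pos {c : ℂ} {r : ℝ} {z : ℂ} (hz : z ∈ Metric.ball c r) : 0 < cb c r z := by
  rw [mem_ball_iff_norm] at hz
  have h0 := norm_nonneg (z - c)
  have hr : 0 < r := lt_of_le_of_lt h0 hz
  unfold cb
  apply div_pos _ hr
  nlinarith

theorem cb_affine (c : ℂ) {r : ℝ} (hr : 0 < r) (z : ℂ) :
    cb c r (c + r * z) = r * cb 0 1 z := by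
  unfold cb
  rw [add_sub_cancel_left, norm_mul, Complex.norm_real, Real.norm_of_nonneg hr.le, sub_zero]
  field_simp

variable {Lam : (n : ℕ) → Set ℂ → (Fin n → ℂ) → ℝ}

theorem conf_one {D : Set ℂ} {z : ℂ} (hz : z ∈ D) : (fun _ : Fin 1 => z) ∈ Conf D 1 :=
  ⟨fun _ => hz, fun i j _ => Subsingleton.elim i j⟩

theorem lam_unit (H : SpinInB .plus Lam) {w : ℂ} (hw : w ∈ Metric.ball (0 : ℂ) 1) :
    Lam 1 (Metric.ball 0 1) (fun _ => w) =
      Lam 1 (Metric.ball 0 1) (fun _ => 0) * (cb 0 1 w) ^ (-(1 : ℝ) / 8) := by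
  have hA : Allow .plus 1 := Or.inl rfl
  have hC : IsC2JordanDomain (Metric.ball (0 : ℂ) 1) := isC2_ball 0 one_pos
  have h0 : (0 : ℂ) ∈ Metric.ball (0 : ℂ) 1 := Metric.mem_ball_self one_pos
  obtain ⟨k, hk, hcov⟩ := H.cov 1 _ _ hA hC hC (mob w) (mob_diff hw) (mob_bij hw)
  have e1 := hcov _ (conf_one h0)
  have e2 := hcov _ (conf_one hw)
  simp only [mob_zero, mob_self, Finset.univ_unique, Finset.prod_const, Finset.card_singleton,
    pow_one, Fin.default_eq_zero, mob_deriv_zero hw, mob_deriv_self hw] at e1 e2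
  set A := Lam 1 (Metric.ball 0 1) (fun _ => w)
  set B := Lam 1 (Metric.ball 0 1) (fun _ => (0 : ℂ))
  have hApos : 0 < A := H.pos _ _ hA hC _ (conf_one hw)
  have hBpos : 0 < B := H.pos _ _ hA hC _ (conf_one h0)
  have hcb : cb 0 1 w = 1 - ‖w‖ ^ 2 := by simp [cb]
  set s : ℝ := 1 - ‖w‖ ^ 2 with hs
  have hs0 : 0 < s := by
    have := cb_pos hw
    rwa [hcb] at this
  rw [hcb]
  set q : ℝ := s ^ ((1 : ℝ) / 8) with hq
  have hq0 : 0 < q := Real.rpow_pos_of_pos hs0 _
  have e3 : (s⁻¹) ^ ((1 : ℝ) / 8) = q⁻¹ := by rw [Real.inv_rpow hs0.le]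
  have e4 : s ^ (-(1 : ℝ) / 8) = q⁻¹ := by
    rw [hq, ← Real.rpow_neg hs0.le]; congr 1; ring
  rw [e3] at e2
  rw [e4]
  -- `A q = k B`, `B / q = k A`
  have e5 : (A * q) ^ 2 = B ^ 2 := by
    have h6 : A * q * A = k * B * A := by rw [e1]
    have h7 : B * q⁻¹ * B = k * A * B := by rw [e2]
    have h8 : A * q * A = B * q⁻¹ * B := by rw [h6, h7]; ring
    have h9 : A * q * A * q = B * q⁻¹ * B * q := by rw [h8]
    have h10 : B * q⁻¹ * B * q = B ^ 2 := by field_simp
    rw [← h10, ← h9]; ring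
  have e6 : A * q = B := by
    have h1 : 0 < A * q := mul_pos hApos hq0
    nlinarith [sq_nonneg (A * q - B), sq_nonneg (A * q + B)]
  rw [← e6]; field_simp

theorem affine_bij (c : ℂ) {r : ℝ} (hr : 0 < r) :
    Set.BijOn (fun z : ℂ => c + r * z) (Metric.ball 0 1) (Metric.ball c r) := by
  have hr' : (r : ℂ) ≠ 0 := Complex.ofReal_ne_zero.2 hr.ne'
  refine ⟨?_, ?_, ?_⟩
  · intro z hz
    rw [mem_ball_iff_norm, sub_zero] at hz
    rw [mem_ball_iff_norm, add_sub_cancel_left, norm_mul, Complex.norm_real,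
      Real.norm_of_nonneg hr.le]
    nlinarith
  · intro z _ w _ h
    exact mul_left_cancel₀ hr' (add_left_cancel h)
  · intro z hz
    rw [mem_ball_iff_norm] at hz
    refine ⟨(z - c) / r, ?_, ?_⟩
    · rw [mem_ball_iff_norm, sub_zero, norm_div, Complex.norm_real, Real.norm_of_nonneg hr.le,
        div_lt_one hr]
      exact hz
    · simp only
      field_simp
      ring

theorem affine_deriv (c : ℂ) (r : ℝ) (z : ℂ) : deriv (fun z : ℂ => c + r * z) z = r := by
  have h : HasDerivAt (fun z : ℂ => c + r * z) (r : ℂ) z := by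
    simpa using ((hasDerivAt_id z).const_mul (r : ℂ)).const_add c
  exact h.deriv

/-- the one-point function of a disc is a constant times `crad^{-1/8}` -/
theorem lam_ball (H : SpinInB .plus Lam) (c : ℂ) {r : ℝ} (hr : 0 < r) :
    ∃ C : ℝ, 0 < C ∧ ∀ z ∈ Metric.ball c r,
      Lam 1 (Metric.ball c r) (fun _ => z) = C * (cb c r z) ^ (-(1 : ℝ) / 8) := by
  have hA : Allow .plus 1 := Or.inl rfl
  have h0 : (0 : ℂ) ∈ Metric.ball (0 : ℂ) 1 := Metric.mem_ball_self one_pos
  obtain ⟨k, hk, hcov⟩ := H.cov 1 _ _ hA (isC2_ball 0 one_pos) (isC2_ball c hr)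
    (fun z : ℂ => c + r * z) (by fun_prop) (affine_bij c hr)
  set B := Lam 1 (Metric.ball 0 1) (fun _ => (0 : ℂ)) with hB
  have hBpos : 0 < B := H.pos _ _ hA (isC2_ball 0 one_pos) _ (conf_one h0)
  refine ⟨k * B, mul_pos hk hBpos, fun z hz => ?_⟩
  obtain ⟨w, hw, hwz⟩ := (affine_bij c hr).surjOn hz
  have e1 := hcov _ (conf_one hw)
  simp only [hwz, Finset.univ_unique, Finset.prod_const, Finset.card_singleton, pow_one,
    affine_deriv, Complex.norm_real, Real.norm_of_nonneg hr.le] at e1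
  rw [lam_unit H hw, ← hB] at e1
  have e2 : cb c r z = r * cb 0 1 w := by rw [← hwz, cb_affine c hr]
  have hw0 := cb_pos hw
  rw [e2, Real.mul_rpow hr.le hw0.le]
  have e3 : r ^ (-(1 : ℝ) / 8) = (r ^ ((1 : ℝ) / 8))⁻¹ := by
    rw [← Real.rpow_neg hr.le]; congr 1; ring
  have hr8 : 0 < r ^ ((1 : ℝ) / 8) := Real.rpow_pos_of_pos hr _
  rw [e3]
  rw [← mul_assoc] at e1
  calc Lam 1 (Metric.ball c r) (fun _ => z)
      = Lam 1 (Metric.ball c r) (fun _ => z) * r ^ ((1 : ℝ) / 8) * (r ^ ((1 : ℝ) / 8))⁻¹ := by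
        field_simp
    _ = k * B * cb 0 1 w ^ (-(1 : ℝ) / 8) * (r ^ ((1 : ℝ) / 8))⁻¹ := by rw [e1]
    _ = _ := by ring

end Crest.Agent.R165.Nm1x422
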