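import Crest.Agent.R165.Kw8_871
import Crest.Agent.R165.NoHole_65
import Crest.Agent.R165.Nm1_422
import Crest.Agent.R165.Cov2_359
import Crest.Agent.R165.U3E_576

/-!
# Row 165 (S0250), block U (helper871): the input (I3) of U5 from the kernel limit at two branch points

* `BrLim B` : in the unit disc with plus boundary conditions, the covariance between the two branch
  points (`tot S (u 0) (u 1)`) tends in absolute value to `B (x 0) (x 1)` (B3 (c) of the chart of block U)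
* `muIn_of` : `BrLim B → (B → 1 at merging) → MuIn B`
* `kapB x y = √(kap2 x y)`, `muIn_kapB : BrLim kapB → MuIn kapB`
* `merge_kapB : BrLim kapB → PlaneLim P → Merge P`
-/

set_option autoImplicit false
set_option linter.unusedSimpArgs false
set_option linter.unusedSectionVars false

noncomputable section

open Filter Topology
open Crest.ProbabilityR.IsingModel

namespace Crest.Agent.R165.Kw9x871

open Crest.Agent.R165.Kw8x871
open U5Px422 U5bx697
open Latx683 (IsCov wX wDom BW ray HE)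

/-- the site set as a finset -/
theorem coe_TT {D : Set ℂ} (hD : Bornology.IsBounded D) {a : ℝ} (ha : 0 < a) :
    ((TT D a : Finset (ℤ × ℤ)) : Set (ℤ × ℤ)) = domainSites D a := by
  ext z
  rw [Finset.mem_coe, mem_TT hD ha]
  rfl

/-- the site sets of a `C²` Jordan domain have no holes -/
theorem noHole_TT {D : Set ℂ} (hD : IsC2JordanDomain D) :
    ∀ᶠ a in 𝓝[>] (0 : ℝ), J1cx606.NoHole (TT D a) := by
  have hb : Bornology.IsBounded D := Redx541.bounded_of_C2 hD
  filter_upwards [NoHolex65.eventually_noHole_toFinset hD, self_mem_nhdsWithin] with a h ha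
  have hf := Redx541.domainSites_finite hb ha
  have hT : TT D a = hf.toFinset := by unfold TT; rw [dif_pos hf]
  rw [hT]
  exact h hf

/-- **both ends at branch points**: kernel limit in the unit disc -/
def BrLim (B : ℂ → ℂ → ℝ) : Prop :=
  ∀ x ∈ Conf (Metric.ball (0 : ℂ) 1) 2, ∀ u : ℝ → Fin 2 → ℤ × ℤ, LApp u x →
    ∀ S : ℝ → HE ℤ → HE ℤ → ℝ,
    (∀ᶠ a in 𝓝[>] (0 : ℝ),
      IsCov (wX (wDom (domainSites (Metric.ball (0 : ℂ) 1) a) false) (u a)) (S a)) →
    Tendsto (fun a : ℝ => |tot (S a) (u a 0) (u a 1)|) (𝓝[>] 0) (𝓝 (B (x 0) (x 1)))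

theorem ne_of_lapp {u : ℝ → Fin 2 → ℤ × ℤ} {x : Fin 2 → ℂ} (h : LApp u x) (hx : x 0 ≠ x 1) :
    ∀ᶠ a in 𝓝[>] (0 : ℝ), u a 0 ≠ u a 1 := by
  obtain ⟨U, V, hU, hV, h0, h1, hd⟩ := t2_separation hx
  filter_upwards [(h 0).eventually (hU.mem_nhds h0), (h 1).eventually (hV.mem_nhds h1)] with a h2 h3 h4
  rw [← h4] at h3
  exact Set.disjoint_left.1 hd h2 h3

/-- **(I3)** from the kernel limit -/
theorem muIn_of {B : ℂ → ℂ → ℝ} (hB : BrLim B)
    (h1 : ∀ ε > (0 : ℝ), ∃ δ > (0 : ℝ), ∀ x y : ℂ, x ≠ y → ‖x‖ < δ → ‖y‖ < δ → 1 - ε < B x y) :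
    MuIn B := by
  refine ⟨fun x hx u hu => ?_, h1⟩
  have hex : ∀ a : ℝ, ∃ S : HE ℤ → HE ℤ → ℝ,
      IsCov (wX (wDom ((TT (Metric.ball (0 : ℂ) 1) a : Finset (ℤ × ℤ)) : Set (ℤ × ℤ)) false) (u a)) S := by
    intro a
    obtain ⟨S, hS, -⟩ := Covx359.exists_isCov_plus (TT (Metric.ball (0 : ℂ) 1) a) (u a)
    exact ⟨S, hS⟩
  choose S hS using hex
  have hbd : Bornology.IsBounded (Metric.ball (0 : ℂ) 1) := Metric.isBounded_ball
  have hcov : ∀ᶠ a in 𝓝[>] (0 : ℝ),
      IsCov (wX (wDom (domainSites (Metric.ball (0 : ℂ) 1) a) false) (u a)) (S a) := by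
    filter_upwards [self_mem_nhdsWithin] with a ha
    rw [← coe_TT hbd ha]
    exact hS a
  have hlim := hB x hx u hu S hcov
  have hxne : x 0 ≠ x 1 := fun h => absurd (hx.2 h) (by decide)
  refine hlim.congr' ?_
  filter_upwards [noHole_TT (Nm1x422.isC2_ball 0 one_pos), ne_of_lapp hu hxne,
    hu.mem hbd Metric.isOpen_ball hx.1] with a hT hne hmem
  have h2 := mu_main hT hne hmem (hS a)
  have h3 := plus_ne hT (hS a)
  rw [h2, mul_div_assoc, div_self h3, mul_one]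

/-! ### the explicit function -/

/-- `B(x,y) = √((|1 - x̄ y| - |x - y|) / (|1 - x̄ y| + |x - y|))` -/
def kapB (x y : ℂ) : ℝ := Real.sqrt (U3Ex576.kap2 x y)

theorem kapB_one (ε : ℝ) (hε : 0 < ε) :
    ∃ δ > (0 : ℝ), ∀ x y : ℂ, x ≠ y → ‖x‖ < δ → ‖y‖ < δ → 1 - ε < kapB x y := by
  have h := U3Ex576.kap2_tendsto (w := (0 : ℂ)) (by simp)
  have h2 : Tendsto (fun p : ℂ × ℂ => Real.sqrt (U3Ex576.kap2 p.1 p.2)) (𝓝 (0, 0)) (𝓝 1) := by
    have h5 := (Real.continuous_sqrt.tendsto (1 : ℝ)).comp h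
    rw [Real.sqrt_one] at h5
    exact h5
  have h3 := h2.eventually (lt_mem_nhds (by linarith : 1 - ε < 1))
  rw [Metric.eventually_nhds_iff] at h3
  obtain ⟨δ, hδ, h4⟩ := h3
  refine ⟨δ, hδ, fun x y _ hx hy => ?_⟩
  have := @h4 (x, y) (by
    rw [Prod.dist_eq, dist_zero_right, dist_zero_right]
    exact max_lt hx hy)
  exact this

/-- **(I3)** with the explicit function -/
theorem muIn_kapB (h : BrLim kapB) : MuIn kapB := muIn_of h kapB_one

theorem merge_kapB {P : {n : ℕ} → (Fin n → ℤ × ℤ) → ℝ} (hP : PlaneLim P) (h : BrLim kapB) :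
    Merge P := merge_of_mu hP (muIn_kapB h)

end Crest.Agent.R165.Kw9x871
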