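import Crest.Agent.R165.Nm4_422

/-!
# Row 165 (S0250), U5 / S5: `n`-point functions with plus boundary conditions (helper422)

* `prod_le_GB`, `GB_le_prod` : Griffiths lower bound, splitting upper bound for `n` points
* `frontier_infinite`
* `S5` : existence of the `n`-point scaling limits, `F_n ≥ ∏ F_1`, and `inf F_n / ∏ F_1 = 1`
* `spinOut_plus` : `SpinOut .plus n`
-/

set_option autoImplicit false
set_option linter.unusedSectionVars false
set_option linter.unusedVariables false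

noncomputable section

open Filter Topology
open Crest.ProbabilityR.IsingModel

namespace Crest.Agent.R165.Nm5x422

open Crest.Agent.R165.Gk0x422
open Crest.Agent.R165.Gk1x422
open Crest.Agent.R165.U5Px422
open Crest.Agent.R165.USpinx641 (SpinInB)
open Crest.Agent.R165.Nm1x422
open Crest.Agent.R165.Nm2x422
open Crest.Agent.R165.Nm3x422
open Crest.Agent.R165.Nm4x422
open Crest.Agent.R165.Redx541

variable {Lam : (n : ℕ) → Set ℂ → (Fin n → ℂ) → ℝ}

/-! ### finite volume -/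

theorem GB_plus_zero (T : Finset (ℤ × ℤ)) (u : Fin 0 → ℤ × ℤ) : GB .plus T u = 1 := by
  show Gp Kc T u = 1
  unfold Gp EX
  have : (sp u : (ℤ × ℤ → Bool) → ℝ) = fun _ => 1 := by
    funext s; simp [sp]
  rw [this]
  exact div_self ZZ_one_pos.ne'

theorem append_init_last {n : ℕ} {α : Type*} (u : Fin (n + 1) → α) :
    Fin.append (fun i : Fin n => u i.castSucc) (fun _ : Fin 1 => u (Fin.last n)) = u := by
  funext i
  refine Fin.lastCases ?_ (fun j => ?_) i
  · have : (Fin.last n : Fin (n + 1)) = Fin.natAdd n (0 : Fin 1) := rfl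
    rw [this, Fin.append_right]
  · have : (j.castSucc : Fin (n + 1)) = Fin.castAdd 1 j := rfl
    rw [this, Fin.append_left]
    rfl

/-- Griffiths lower bound -/
theorem prod_le_GB (T : Finset (ℤ × ℤ)) : ∀ {n : ℕ} (u : Fin n → ℤ × ℤ),
    ∏ i, GB .plus T (fun _ : Fin 1 => u i) ≤ GB .plus T u := by
  intro n
  induction n with
  | zero => intro u; rw [GB_plus_zero]; simp
  | succ n ih =>
    intro u
    rw [Fin.prod_univ_castSucc]
    have h1 := ih fun i => u i.castSucc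
    have h2 := GB_plus_mul_le T (fun i : Fin n => u i.castSucc) (fun _ : Fin 1 => u (Fin.last n))
    rw [append_init_last u] at h2
    exact (mul_le_mul_of_nonneg_right h1 (GB_nonneg (by simp) T _)).trans h2

/-- splitting upper bound -/
theorem GB_le_prod {a d : ℝ} (ha : 0 < a) (had : a < d) : ∀ {n : ℕ} {D : Set ℂ}
    (_ : Bornology.IsBounded D) (B : Fin n → Set ℂ) (_ : ∀ i, B i ⊆ D)
    (_ : ∀ i j, i ≠ j → ∀ z ∈ B i, ∀ w ∈ B j, d ≤ ‖z - w‖)
    (u : Fin n → ℤ × ℤ) (_ : ∀ i, u i ∈ TT (B i) a),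
    GB .plus (TT D a) u ≤ ∏ i, GB .plus (TT (B i) a) (fun _ : Fin 1 => u i) := by
  intro n
  induction n with
  | zero => intro D _ B _ _ u _; rw [GB_plus_zero]; simp
  | succ n ih =>
    intro D hD B hB hsep u hu
    rw [Fin.prod_univ_castSucc]
    set D' : Set ℂ := ⋃ i : Fin n, B i.castSucc with hD'
    have hsub : D' ⊆ D := Set.iUnion_subset fun i => hB _
    have hD'b := hD.subset hsub
    have h1 := GB_split (D := D) (D₁ := D') (D₂ := B (Fin.last n)) hD hsub (hB _)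
      (d := d) (fun z hz w hw => by
        obtain ⟨i, hi⟩ := Set.mem_iUnion.1 hz
        exact hsep _ _ (Fin.castSucc_lt_last i).ne z hi w hw) ha had
      (u := fun i : Fin n => u i.castSucc) (v := fun _ : Fin 1 => u (Fin.last n))
      (fun i => TT_mono hD'b (Set.subset_iUnion (fun i : Fin n => B i.castSucc) i) ha (hu _))
      (fun _ => hu _)
    rw [append_init_last u] at h1
    refine h1.trans (mul_le_mul_of_nonneg_right ?_ (GB_nonneg (by simp) _ _))
    exact ih hD'b (fun i => B i.castSucc)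
      (fun i => Set.subset_iUnion (fun i : Fin n => B i.castSucc) i)
      (fun i j hij z hz w hw => hsep _ _ (fun h => hij (Fin.castSucc_injective n h)) z hz w hw)
      _ (fun i => hu _)

theorem hh_prod {a : ℝ} (ha : 0 < a) (n : ℕ) (f : Fin n → ℝ) :
    a ^ (-((n : ℝ) / 8)) * ∏ i, f i = ∏ i, (a ^ (-(((1 : ℕ) : ℝ) / 8)) * f i) := by
  rw [Finset.prod_mul_distrib, Finset.prod_const, Finset.card_univ, Fintype.card_fin,
    ← Real.rpow_natCast, ← Real.rpow_mul ha.le]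
  congr 2
  push_cast; ring

/-! ### infinitely many boundary points -/

theorem frontier_infinite {D : Set ℂ} (hO : IsOpen D) (hB : Bornology.IsBounded D)
    (hne : D.Nonempty) : (frontier D).Infinite := by
  intro hfin
  have h1 : IsConnected (frontier D)ᶜ := by
    apply Set.Countable.isConnected_compl_of_one_lt_rank _ hfin.countable
    rw [← Module.finrank_eq_rank, Complex.finrank_real_complex]
    norm_num
  obtain ⟨z0, hz0⟩ := hne
  have h2 : (frontier D)ᶜ ⊆ D ∪ (closure D)ᶜ := by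
    intro z hz
    by_cases h : z ∈ closure D
    · left
      by_contra h3
      exact hz ⟨h, fun h4 => h3 (interior_subset h4)⟩
    · exact Or.inr h
  have h3 : z0 ∈ (frontier D)ᶜ := by
    intro h
    rw [hO.frontier_eq] at h
    exact h.2 hz0
  obtain ⟨R, hR⟩ := hB.exists_norm_le
  have h4 : ∃ w : ℂ, w ∉ closure D := by
    refine ⟨((|R| + 1 : ℝ) : ℂ), fun h => ?_⟩
    have h5 : closure D ⊆ Metric.closedBall 0 |R| :=
      closure_minimal (fun z hz => by
        rw [mem_closedBall_iff_norm, sub_zero]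
        exact (hR z hz).trans (le_abs_self R)) Metric.isClosed_closedBall
    have h6 := h5 h
    rw [mem_closedBall_iff_norm, sub_zero, Complex.norm_real,
      Real.norm_of_nonneg (by positivity)] at h6
    linarith
  obtain ⟨w, hw⟩ := h4
  have h5 : w ∈ (frontier D)ᶜ := fun h => hw h.1
  obtain ⟨v, -, hv1, hv2⟩ := h1.isPreconnected D (closure D)ᶜ hO isClosed_closure.isOpen_compl h2
    ⟨z0, h3, hz0⟩ ⟨w, h5, hw⟩
  exact hv2 (subset_closure hv1)

/-- `n` boundary points with tangent balls of a common radius, separated -/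
theorem exists_tangent_family {D : Set ℂ} {r0 M0 : ℝ} (hCD : Geo.CD D r0 M0) (hne : D.Nonempty)
    (n : ℕ) : ∃ (p ν : Fin n → ℂ) (ρ d : ℝ), 0 < ρ ∧ 0 < d ∧ (∀ i, ‖ν i‖ = 1) ∧
      (∀ i, Metric.ball (p i + ρ * ν i) ρ ⊆ D) ∧
      (∀ i, Metric.ball (p i - ρ * ν i) ρ ⊆ (D ∪ frontier D)ᶜ) ∧
      ∀ i j, i ≠ j → ∀ z ∈ Metric.ball (p i + ρ * ν i) ρ, ∀ w ∈ Metric.ball (p j + ρ * ν j) ρ,
        d ≤ ‖z - w‖ := by
  have hinf := frontier_infinite hCD.isOpen hCD.bdd hne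
  obtain ⟨e⟩ : Nonempty (Fin n ↪ frontier D) := by
    have := hinf.to_subtype
    exact ⟨(Fin.valEmbedding.trans (Infinite.natEmbedding _))⟩
  set p : Fin n → ℂ := fun i => e i with hp
  have hpinj : Function.Injective p := fun i j h => e.injective (Subtype.ext h)
  have hball : ∀ i, ∃ ν : ℂ, ‖ν‖ = 1 ∧ ∀ ρ : ℝ, 0 < ρ → 2 * ρ ≤ r0 → 2 * M0 * ρ ≤ 1 →
      Metric.ball (p i + ρ * ν) ρ ⊆ D ∧ Metric.ball (p i - ρ * ν) ρ ⊆ (D ∪ frontier D)ᶜ :=
    fun i => GeoDx65.CD.ball_open hCD (e i).2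
  choose ν hν hb using hball
  -- separation of the boundary points
  obtain ⟨δ, hδ, hδp⟩ : ∃ δ : ℝ, 0 < δ ∧ ∀ i j, i ≠ j → δ ≤ ‖p i - p j‖ := by
    by_cases hn : (Finset.univ.filter fun q : Fin n × Fin n => q.1 ≠ q.2).Nonempty
    · obtain ⟨q, hq, hmin⟩ := Finset.exists_min_image _
        (fun q : Fin n × Fin n => ‖p q.1 - p q.2‖) hn
      refine ⟨‖p q.1 - p q.2‖, norm_pos_iff.2 (sub_ne_zero.2 fun h => ?_), fun i j hij => ?_⟩
      · exact (Finset.mem_filter.1 hq).2 (hpinj h)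
      · exact hmin (i, j) (Finset.mem_filter.2 ⟨Finset.mem_univ _, hij⟩)
    · refine ⟨1, one_pos, fun i j hij => absurd ?_ hn⟩
      exact ⟨(i, j), Finset.mem_filter.2 ⟨Finset.mem_univ _, hij⟩⟩
  have hr0 := hCD.r_pos
  have hM0 := hCD.M_nonneg
  obtain ⟨ρ, hρ, hρ1, hρ2, hρ3⟩ : ∃ ρ : ℝ, 0 < ρ ∧ 2 * ρ ≤ r0 ∧ 2 * M0 * ρ ≤ 1 ∧ 8 * ρ ≤ δ := by
    refine ⟨min (min (r0 / 2) (1 / (2 * M0 + 1))) (δ / 8), by positivity, ?_, ?_, ?_⟩
    · have h1 := min_le_left (min (r0 / 2) (1 / (2 * M0 + 1))) (δ / 8)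
      have h2 := min_le_left (r0 / 2) (1 / (2 * M0 + 1))
      linarith
    · have h1 := (min_le_left (min (r0 / 2) (1 / (2 * M0 + 1))) (δ / 8)).trans
        (min_le_right (r0 / 2) (1 / (2 * M0 + 1)))
      have h3 : 2 * M0 * min (min (r0 / 2) (1 / (2 * M0 + 1))) (δ / 8) ≤
          2 * M0 * (1 / (2 * M0 + 1)) := mul_le_mul_of_nonneg_left h1 (by linarith)
      have h4 : 2 * M0 * (1 / (2 * M0 + 1)) ≤ 1 := by
        rw [mul_one_div, div_le_one (by linarith)]; linarith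
      linarith
    · have h1 := min_le_right (min (r0 / 2) (1 / (2 * M0 + 1))) (δ / 8)
      linarith
  refine ⟨p, ν, ρ, δ / 2, hρ, by linarith, hν, fun i => (hb i ρ hρ hρ1 hρ2).1,
    fun i => (hb i ρ hρ hρ1 hρ2).2, fun i j hij z hz w hw => ?_⟩
  have key : ∀ i, ∀ z ∈ Metric.ball (p i + ρ * ν i) ρ, ‖z - p i‖ ≤ 2 * ρ := by
    intro i z hz
    rw [mem_ball_iff_norm] at hz
    have e1 : z - p i = (z - (p i + ρ * ν i)) + ρ * ν i := by ring
    have e2 : ‖(ρ : ℂ) * ν i‖ = ρ := by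
      rw [norm_mul, hν, mul_one, Complex.norm_real, Real.norm_of_nonneg hρ.le]
    rw [e1]
    have := norm_add_le (z - (p i + ρ * ν i)) (ρ * ν i)
    rw [e2] at this
    linarith
  have h1 := key i z hz
  have h2 := key j w hw
  have h3 := hδp i j hij
  have e : p i - p j = (z - w) - (z - p i) + (w - p j) := by ring
  have h4 : ‖p i - p j‖ ≤ ‖z - w‖ + ‖z - p i‖ + ‖w - p j‖ := by
    calc ‖p i - p j‖ = ‖(z - w) - (z - p i) + (w - p j)‖ := by rw [← e]
      _ ≤ ‖(z - w) - (z - p i)‖ + ‖w - p j‖ := norm_add_le _ _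
      _ ≤ _ := by linarith [norm_sub_le (z - w) (z - p i)]
  linarith

/-! ### the main step -/

/-- one-point function as a value -/
def F1 (κ : ℝ) (f : ℂ → ℂ) (z : ℂ) : ℝ := κ * (cr f z) ^ (-(1 : ℝ) / 8)

theorem F1_pos {κ : ℝ} (hκ : 0 < κ) {D : Set ℂ} {f : ℂ → ℂ} (R : RMap D f) (hO : IsOpen D)
    {z : ℂ} (hz : z ∈ D) : 0 < F1 κ f z := mul_pos hκ (Real.rpow_pos_of_pos (R.cr_pos hO hz) _)

/-- near the boundary: a configuration `x`, and numbers `lo ≤ ∏ F1`, with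
`∏ F1 (x i) ≤ liminf`, `limsup ≤ (1+ε) ∏ F1 (x i)` -/
theorem near_boundary (H : SpinInB .plus Lam) {κ : ℝ} (hκ : 0 < κ)
    (h3 : ∀ (c : ℂ) (r : ℝ), 0 < r → ∀ z ∈ Metric.ball c r,
      SLim .plus (Metric.ball c r) (fun _ : Fin 1 => z) (κ * fb c r z))
    {D : Set ℂ} (hD : IsC2JordanDomain D) (hne : D.Nonempty) {f : ℂ → ℂ} (R : RMap D f) (n : ℕ)
    {ε : ℝ} (hε : 0 < ε) :
    ∃ x ∈ Conf D n, ∃ U : ℝ, U < (1 + ε) * ∏ i, F1 κ f (x i) ∧
      ∀ u, LApp u x → ∀ U' > U, ∀ᶠ a in 𝓝[>] (0 : ℝ), hh .plus D u a < U' := by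
  obtain ⟨r0, M0, hCD⟩ := GeoCx65.exists_CD hD hne
  have hO := hCD.isOpen
  have hB := hCD.bdd
  obtain ⟨p, ν, ρ, d, hρ, hd, hν, hin, hout, hsep⟩ := exists_tangent_family hCD hne n
  -- the comparison `fb ≤ (1+η) F1` along the normals
  have hlim := ratio_tendsto' (-ρ) ρ
  have hpow : Tendsto (fun t : ℝ => ((2 * t - t ^ 2 / ρ) ^ (-(1 : ℝ) / 8) /
      (2 * t - t ^ 2 / (-ρ)) ^ (-(1 : ℝ) / 8)) ^ n) (𝓝[>] 0) (𝓝 1) := by
    have := hlim.pow n
    rwa [one_pow] at this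
  have hsmall : ∀ᶠ t in 𝓝[>] (0 : ℝ), t < ρ :=
    (eventually_lt_nhds hρ).filter_mono nhdsWithin_le_nhds
  obtain ⟨t, ht1, ht2, ht3⟩ := ((hpow.eventually (gt_mem_nhds (show (1 : ℝ) < 1 + ε by linarith))).and
    (hsmall.and self_mem_nhdsWithin)).exists
  have ht : 0 < t := ht3
  set x : Fin n → ℂ := fun i => p i + t * ν i with hx
  have hxB : ∀ i, x i ∈ Metric.ball (p i + ρ * ν i) ρ := fun i => tangent_mem (hν i) ht ht2.le
  have hxD : ∀ i, x i ∈ D := fun i => hin i (hxB i)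
  have hxc : x ∈ Conf D n := by
    refine ⟨hxD, fun i j hij => ?_⟩
    by_contra hne
    have := hsep i j hne _ (hxB i) _ (hxB j)
    rw [hij, sub_self, norm_zero] at this
    linarith
  refine ⟨x, hxc, ∏ i, (κ * fb (p i + ρ * ν i) ρ (x i)), ?_, ?_⟩
  · -- comparison of constants
    set q : ℝ := (2 * t - t ^ 2 / ρ) ^ (-(1 : ℝ) / 8) / (2 * t - t ^ 2 / (-ρ)) ^ (-(1 : ℝ) / 8)
      with hq
    have hone : ∀ i, κ * fb (p i + ρ * ν i) ρ (x i) ≤ q * F1 κ f (x i) := by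
      intro i
      have e1 : cb (p i + ρ * ν i) ρ (x i) = 2 * t - t ^ 2 / ρ := cb_tangent hρ (hν i)
      have l2 : cr f (x i) ≤ (‖x i - (p i - ρ * ν i)‖ ^ 2 - ρ ^ 2) / ρ := by
        refine SPext R hO hρ (fun v hv => ?_) (hxD i)
        by_contra hcon
        have hcon' : ‖v - (p i - ρ * ν i)‖ ≤ ρ := not_lt.1 hcon
        obtain ⟨ε', hε', hb'⟩ := Metric.isOpen_iff.1 hO v hv
        -- a point of `D` in the open exterior ball
        set s : ℝ := min (ε' / (2 * (ρ + 1))) (1 / 2) with hs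
        have hs0 : 0 < s := by positivity
        have hs1 : s ≤ 1 / 2 := min_le_right _ _
        have hs2 : s * (ρ + 1) ≤ ε' / 2 := by
          have h5 : s ≤ ε' / (2 * (ρ + 1)) := min_le_left _ _
          calc s * (ρ + 1) ≤ ε' / (2 * (ρ + 1)) * (ρ + 1) :=
            mul_le_mul_of_nonneg_right h5 (by linarith)
            _ = ε' / 2 := by field_simp
        have hmem : v - s * (v - (p i - ρ * ν i)) ∈ D := by
          apply hb'
          rw [mem_ball_iff_norm, sub_sub_cancel_left, norm_neg, norm_mul, Complex.norm_real,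
            Real.norm_of_nonneg hs0.le]
          have h6 : s * ‖v - (p i - ρ * ν i)‖ ≤ s * ρ := mul_le_mul_of_nonneg_left hcon' hs0.le
          nlinarith
        have hin2 : v - s * (v - (p i - ρ * ν i)) ∈ Metric.ball (p i - ρ * ν i) ρ := by
          rw [mem_ball_iff_norm]
          have e5 : v - s * (v - (p i - ρ * ν i)) - (p i - ρ * ν i) =
              ((1 - s : ℝ) : ℂ) * (v - (p i - ρ * ν i)) := by push_cast; ring
          rw [e5, norm_mul, Complex.norm_real, Real.norm_of_nonneg (by linarith)]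
          have h6 : (1 - s) * ‖v - (p i - ρ * ν i)‖ ≤ (1 - s) * ρ :=
            mul_le_mul_of_nonneg_left hcon' (by linarith)
          nlinarith
        exact hout i hin2 (Or.inl hmem)
      have e2 : (‖x i - (p i - ρ * ν i)‖ ^ 2 - ρ ^ 2) / ρ = 2 * t - t ^ 2 / (-ρ) := by
        have e3 : x i - (p i - ρ * ν i) = ((t + ρ : ℝ) : ℂ) * ν i := by
          simp only [hx]; push_cast; ring
        rw [e3, norm_mul, hν, mul_one, Complex.norm_real, Real.norm_of_nonneg (by positivity)]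
        field_simp
        ring
      rw [e2] at l2
      have hcr := R.cr_pos hO (hxD i)
      have h5 := rpow_anti hcr l2
      have hpos : 0 < (2 * t - t ^ 2 / (-ρ)) ^ (-(1 : ℝ) / 8) :=
        Real.rpow_pos_of_pos (lt_of_lt_of_le hcr l2) _
      have hfb : fb (p i + ρ * ν i) ρ (x i) = q * (2 * t - t ^ 2 / (-ρ)) ^ (-(1 : ℝ) / 8) := by
        unfold fb
        rw [e1, hq, div_mul_cancel₀ _ hpos.ne']
      have hq0 : 0 ≤ q := by
        have h6 := (fb_pos (hxB i)).le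
        rw [hfb] at h6
        exact nonneg_of_mul_nonneg_left h6 hpos
      unfold F1
      rw [hfb]
      calc κ * (q * (2 * t - t ^ 2 / (-ρ)) ^ (-(1 : ℝ) / 8))
          = κ * q * (2 * t - t ^ 2 / (-ρ)) ^ (-(1 : ℝ) / 8) := by ring
        _ ≤ κ * q * (cr f (x i)) ^ (-(1 : ℝ) / 8) :=
          mul_le_mul_of_nonneg_left h5 (mul_nonneg hκ.le hq0)
        _ = _ := by ring
    have h5 : ∏ i, (κ * fb (p i + ρ * ν i) ρ (x i)) ≤ ∏ i, (q * F1 κ f (x i)) :=
      Finset.prod_le_prod (fun i _ => (mul_pos hκ (fb_pos (hxB i))).le) fun i _ => hone i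
    have h6 : ∏ i, (q * F1 κ f (x i)) = q ^ n * ∏ i, F1 κ f (x i) := by
      rw [Finset.prod_mul_distrib, Finset.prod_const, Finset.card_univ, Fintype.card_fin]
    rw [h6] at h5
    have hP : 0 < ∏ i, F1 κ f (x i) := Finset.prod_pos fun i _ => F1_pos hκ R hO (hxD i)
    exact lt_of_le_of_lt h5 (mul_lt_mul_of_pos_right ht1 hP)
  · intro u hu U' hU'
    -- splitting into the tangent discs
    have h1 : ∀ i, Tendsto (hh .plus (Metric.ball (p i + ρ * ν i) ρ) (fun a (_ : Fin 1) => u a i))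
        (𝓝[>] 0) (𝓝 (κ * fb (p i + ρ * ν i) ρ (x i))) := fun i =>
      h3 _ ρ hρ (x i) (hxB i) _ (fun _ => hu i)
    have h2 : Tendsto (fun a => ∏ i, hh .plus (Metric.ball (p i + ρ * ν i) ρ)
        (fun a (_ : Fin 1) => u a i) a) (𝓝[>] 0) (𝓝 (∏ i, (κ * fb (p i + ρ * ν i) ρ (x i)))) :=
      tendsto_finsetProd _ fun i _ => h1 i
    have hm : ∀ᶠ a in 𝓝[>] (0 : ℝ), ∀ i, u a i ∈ TT (Metric.ball (p i + ρ * ν i) ρ) a := by
      rw [eventually_all]
      intro i
      have h5 : LApp (fun a (_ : Fin 1) => u a i) (fun _ => x i) := fun _ => hu i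
      filter_upwards [h5.mem Metric.isBounded_ball Metric.isOpen_ball (fun _ => hxB i)] with a ha
      exact ha 0
    have hsm : ∀ᶠ a in 𝓝[>] (0 : ℝ), a < d :=
      (eventually_lt_nhds hd).filter_mono nhdsWithin_le_nhds
    filter_upwards [h2.eventually (gt_mem_nhds hU'), hm, hsm, self_mem_nhdsWithin]
      with a h5 h6 h7 ha
    refine lt_of_le_of_lt ?_ h5
    have h8 := GB_le_prod (a := a) (d := d) ha h7 hB (fun i => Metric.ball (p i + ρ * ν i) ρ) hin
      hsep (u a) h6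
    unfold hh
    rw [← hh_prod ha]
    exact mul_le_mul_of_nonneg_left h8 (Real.rpow_nonneg (le_of_lt ha) _)

/-- lower bound -/
theorem lower {κ : ℝ} {D : Set ℂ} {f : ℂ → ℂ} {n : ℕ} {x : Fin n → ℂ}
    (h4 : ∀ i, SLim .plus D (fun _ : Fin 1 => x i) (F1 κ f (x i)))
    {u : ℝ → Fin n → ℤ × ℤ} (hu : LApp u x) {s : ℝ} (hs : s < ∏ i, F1 κ f (x i)) :
    ∀ᶠ a in 𝓝[>] (0 : ℝ), s < hh .plus D u a := by
  have h1 : Tendsto (fun a => ∏ i, hh .plus D (fun a (_ : Fin 1) => u a i) a) (𝓝[>] 0)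
      (𝓝 (∏ i, F1 κ f (x i))) :=
    tendsto_finsetProd _ fun i _ => h4 i _ fun _ => hu i
  filter_upwards [h1.eventually (lt_mem_nhds hs), self_mem_nhdsWithin] with a h5 ha
  refine lt_of_lt_of_le h5 ?_
  unfold hh
  rw [← hh_prod ha]
  exact mul_le_mul_of_nonneg_left (prod_le_GB _ _) (Real.rpow_nonneg (le_of_lt ha) _)

/-- **S5**: existence of the `n`-point limits -/
theorem S5 (H : SpinInB .plus Lam) {κ : ℝ} (hκ : 0 < κ)
    (h3 : ∀ (c : ℂ) (r : ℝ), 0 < r → ∀ z ∈ Metric.ball c r,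
      SLim .plus (Metric.ball c r) (fun _ : Fin 1 => z) (κ * fb c r z))
    {D : Set ℂ} (hD : IsC2JordanDomain D) {f : ℂ → ℂ} (R : RMap D f) (n : ℕ) {x : Fin n → ℂ}
    (hx : x ∈ Conf D n) (hne : D.Nonempty) :
    ∃ F : ℝ, 0 < F ∧ SLim .plus D x F := by
  have hA : Allow .plus n := Or.inl rfl
  obtain ⟨r0, M0, hCD⟩ := GeoCx65.exists_CD hD hne
  have hO := hCD.isOpen
  have hu0 : LApp (fun a i => meshIndex a (x i)) x := lapp_meshIndex x
  suffices h : ∃ F : ℝ, 0 < F ∧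
      Tendsto (hh .plus D (fun a i => meshIndex a (x i))) (𝓝[>] 0) (𝓝 F) by
    obtain ⟨F, hF, hF'⟩ := h
    refine ⟨F, hF, ?_⟩
    have h5 := transfer H hA hD hx hx hu0 hF'
    rwa [div_self (H.pos n D hA hD x hx).ne', one_mul] at h5
  refine exists_limit fun ε hε => ?_
  obtain ⟨y, hy, U, hU, hup⟩ := near_boundary H hκ h3 hD hne R n (ε := ε / 2) (by positivity)
  set P : ℝ := ∏ i, F1 κ f (y i) with hP
  have hP0 : 0 < P := Finset.prod_pos fun i _ => F1_pos hκ R hO (hy.1 i)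
  have hv0 : LApp (fun a i => meshIndex a (y i)) y := lapp_meshIndex y
  set ℓ : ℝ := Lam n D x / Lam n D y with hℓ
  have hℓ0 : 0 < ℓ := div_pos (H.pos n D hA hD x hx) (H.pos n D hA hD y hy)
  have hr := H.ratio n D hA hD x hx y hy _ _ hu0 hv0
  -- choose `θ < 1` with `(1 + ε/2)/θ² < 1 + ε`
  obtain ⟨θ, hθ0, hθ1, hθ2⟩ : ∃ θ : ℝ, 0 < θ ∧ θ < 1 ∧ (1 + ε / 2) ≤ (1 + ε) * θ ^ 3 := by
    have hc : Tendsto (fun θ : ℝ => (1 + ε) * θ ^ 3) (𝓝[<] 1) (𝓝 ((1 + ε) * 1 ^ 3)) :=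
      ((continuous_const.mul (continuous_pow 3)).tendsto 1).mono_left nhdsWithin_le_nhds
    rw [one_pow, mul_one] at hc
    have h6 := hc.eventually (lt_mem_nhds (show 1 + ε / 2 < 1 + ε by linarith))
    have h7 : ∀ᶠ θ in 𝓝[<] (1 : ℝ), 0 < θ :=
      (lt_mem_nhds (show (0 : ℝ) < 1 by norm_num)).filter_mono nhdsWithin_le_nhds
    obtain ⟨θ, h8, h9, h10⟩ := (h6.and (h7.and self_mem_nhdsWithin)).exists
    exact ⟨θ, h9, h10, h8.le⟩
  have hlo := lower (κ := κ) (f := f) (fun i => S4 H hκ h3 hD R (hy.1 i)) hv0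
    (s := θ * P) (by rw [← hP]; nlinarith)
  have hUp := hup _ hv0 (U' := (1 + ε / 2) * P) hU
  refine ⟨ℓ * (θ ^ 2 * P), by positivity, ?_⟩
  have hθℓ : θ * ℓ < ℓ := by nlinarith
  have hℓθ : ℓ < ℓ / θ := by rw [lt_div_iff₀ hθ0]; nlinarith
  filter_upwards [hh_ratio H hA hD hx hy hu0 hv0, hr.eventually (lt_mem_nhds hθℓ),
    hr.eventually (gt_mem_nhds hℓθ), hlo, hUp] with a h5 h6 h7 h8 h9
  have hrat0 : 0 < GB .plus (TT D a) (fun i => meshIndex a (x i)) /
      GB .plus (TT D a) (fun i => meshIndex a (y i)) := lt_trans (mul_pos hθ0 hℓ0) h6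
  have hh0 : 0 < hh .plus D (fun a i => meshIndex a (y i)) a := lt_trans (mul_pos hθ0 hP0) h8
  rw [h5]
  constructor
  · calc ℓ * (θ ^ 2 * P) = (θ * ℓ) * (θ * P) := by ring
      _ ≤ _ := mul_le_mul h6.le h8.le (mul_pos hθ0 hP0).le hrat0.le
  · calc _ ≤ (ℓ / θ) * ((1 + ε / 2) * P) := mul_le_mul h7.le h9.le hh0.le (by positivity)
      _ = (ℓ * P / θ) * (1 + ε / 2) := by ring
      _ ≤ (ℓ * P / θ) * ((1 + ε) * θ ^ 3) := mul_le_mul_of_nonneg_left hθ2 (by positivity)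
      _ = _ := by field_simp

end Crest.Agent.R165.Nm5x422
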