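import Crest.Agent.R165.NoHole_65
import Crest.Agent.R165.USpin_641
import Crest.Agent.R165.Kw7_871

/-!
# Row 165 (helper583): the starred site sets approximate the domain and have no holes

* `starS s T` (`s = ±1`): the sites `f ∈ T` with `f + (s,0), f + (0,s), f + (s,s) ∈ T`
  (`s = -1`: `Kw5x871.starT`)
* `latApp_of` : `LatApp D T`, `T' a ⊆ T a`, `T' a ⊇` the `1`-interior of `T a` ⟹ `LatApp D T'`
* `latApp_starT` : `LatApp D (fun a => starT (TT D a))`
* `noHole_starS_of_join`, `eventually_noHole_starT`, `eventually_noHole_TT`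
-/

set_option autoImplicit false

open Set Topology Filter

namespace Crest.Agent.R165.StarAppx583

open Crest.Agent.R165.Geo
open Crest.Agent.R165.J1ax606 Crest.Agent.R165.J1bx606 Crest.Agent.R165.J1cx606
open Crest.ProbabilityR.IsingModel
open Crest.Agent.R165
open Crest.Agent.R165.USpinx641 (LatApp latApp_TT)
open Crest.Agent.R165.U5Px422 (TT mem_TT)
open Crest.Agent.R165.Kw5x871 (starT NHF)
open Crest.Agent.R165.NoHolex65

/-- star of a site set in the direction `s = ±1` -/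
def starS (s : ℤ) (T : Finset (ℤ × ℤ)) : Finset (ℤ × ℤ) :=
  T.filter fun v => v + (s, 0) ∈ T ∧ v + (0, s) ∈ T ∧ v + (s, s) ∈ T

theorem starT_eq (T : Finset (ℤ × ℤ)) : starT T = starS (-1) T := by
  unfold starT starS
  refine Finset.filter_congr fun v _ => ?_
  have e1 : v + ((-1 : ℤ), (0 : ℤ)) = v - (1, 0) := by ext <;> simp [sub_eq_add_neg]
  have e2 : v + ((0 : ℤ), (-1 : ℤ)) = v - (0, 1) := by ext <;> simp [sub_eq_add_neg]
  have e3 : v + ((-1 : ℤ), (-1 : ℤ)) = v - (1, 1) := by ext <;> simp [sub_eq_add_neg]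
  rw [e1, e2, e3]

theorem mem_starS {s : ℤ} {T : Finset (ℤ × ℤ)} {v : ℤ × ℤ} :
    v ∈ starS s T ↔ v ∈ T ∧ v + (s, 0) ∈ T ∧ v + (0, s) ∈ T ∧ v + (s, s) ∈ T := by
  unfold starS; rw [Finset.mem_filter]

theorem starS_subset (s : ℤ) (T : Finset (ℤ × ℤ)) : starS s T ⊆ T := Finset.filter_subset _ _

/-! ### approximation -/

theorem norm_mesh_le {a : ℝ} (ha : 0 < a) {u v : ℤ × ℤ} (h1 : |u.1 - v.1| ≤ 1) (h2 : |u.2 - v.2| ≤ 1) :
    dist (meshPoint a u) (meshPoint a v) ≤ 2 * a := by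
  rw [dist_eq_norm]
  refine (Complex.norm_le_abs_re_add_abs_im _).trans ?_
  have e1 : (meshPoint a u - meshPoint a v).re = a * ((u.1 - v.1 : ℤ) : ℝ) := by
    simp [meshPoint]; ring
  have e2 : (meshPoint a u - meshPoint a v).im = a * ((u.2 - v.2 : ℤ) : ℝ) := by
    simp [meshPoint]; ring
  rw [e1, e2, abs_mul, abs_mul, abs_of_pos ha, ← Int.cast_abs, ← Int.cast_abs]
  have h1' : ((|u.1 - v.1| : ℤ) : ℝ) ≤ 1 := by exact_mod_cast h1
  have h2' : ((|u.2 - v.2| : ℤ) : ℝ) ≤ 1 := by exact_mod_cast h2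
  nlinarith

/-- subfamilies containing the `1`-interior -/
theorem latApp_of {D : Set ℂ} (hD : IsOpen D) {T T' : ℝ → Finset (ℤ × ℤ)} (h : LatApp D T)
    (h1 : ∀ a, T' a ⊆ T a)
    (h2 : ∀ a f, (∀ g : ℤ × ℤ, |g.1 - f.1| ≤ 1 → |g.2 - f.2| ≤ 1 → g ∈ T a) → f ∈ T' a) :
    LatApp D T' where
  inn K hK hKD := by
    obtain ⟨δ, hδ, hKδ⟩ := hK.exists_cthickening_subset_open hD hKD
    have hK' : IsCompact (Metric.cthickening δ K) := hK.cthickening
    have h3 : ∀ᶠ a : ℝ in 𝓝[>] (0 : ℝ), 2 * a < δ := by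
      have : ∀ᶠ a : ℝ in 𝓝 (0 : ℝ), 2 * a < δ := by
        have hc : Tendsto (fun a : ℝ => 2 * a) (𝓝 0) (𝓝 (2 * 0)) := tendsto_id.const_mul 2
        rw [mul_zero] at hc
        exact hc.eventually (Iio_mem_nhds hδ)
      exact mem_nhdsWithin_of_mem_nhds this
    filter_upwards [h.inn _ hK' hKδ, h3, self_mem_nhdsWithin] with a ha ha2 ha0 f hf
    refine h2 a f fun g hg1 hg2 => ha g ?_
    refine Metric.mem_cthickening_of_dist_le _ _ δ K hf ?_
    exact (norm_mesh_le ha0 hg1 hg2).trans ha2.le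
  out K hK hKD := by
    filter_upwards [h.out K hK hKD] with a ha f hf hfT
    exact ha f hf (h1 a hfT)

theorem latApp_starS {D : Set ℂ} (hD : IsOpen D) {T : ℝ → Finset (ℤ × ℤ)} (h : LatApp D T) {s : ℤ}
    (hs : |s| ≤ 1) : LatApp D (fun a => starS s (T a)) := by
  refine latApp_of hD h (fun a => starS_subset s _) fun a f hf => ?_
  rw [mem_starS]
  refine ⟨hf _ (by simp) (by simp), hf _ ?_ ?_, hf _ ?_ ?_, hf _ ?_ ?_⟩ <;> simp [hs]

theorem latApp_starT' {D : Set ℂ} (hD : IsOpen D) {T : ℝ → Finset (ℤ × ℤ)} (h : LatApp D T) :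
    LatApp D (fun a => starT (T a)) := by
  have := latApp_starS hD h (s := -1) (by norm_num)
  simpa only [starT_eq] using this

/-- **the star of `T(D,a)` approximates `D`** -/
theorem latApp_starT {D : Set ℂ} (hD : IsC2JordanDomain D) :
    LatApp D (fun a => starT (TT D a)) :=
  latApp_starT' (Red2x541.isOpen_of_C2 hD) (latApp_TT hD)

/-- bounded translations of the index do not matter -/
theorem latApp_shift {D : Set ℂ} (hD : IsOpen D) (hb : Bornology.IsBounded D) {T : ℝ → Finset (ℤ × ℤ)}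
    (h : LatApp D T) (v : ℤ × ℤ) : LatApp D (fun a => (T a).image fun f => f + v) where
  inn K hK hKD := by
    obtain ⟨δ, hδ, hKδ⟩ := hK.exists_cthickening_subset_open hD hKD
    have hK' : IsCompact (Metric.cthickening δ K) := hK.cthickening
    have h3 : ∀ᶠ a : ℝ in 𝓝[>] (0 : ℝ), a * (|(v.1:ℝ)| + |(v.2:ℝ)|) < δ := by
      have : ∀ᶠ a : ℝ in 𝓝 (0 : ℝ), a * (|(v.1:ℝ)| + |(v.2:ℝ)|) < δ := by
        have hc : Tendsto (fun a : ℝ => a * (|(v.1:ℝ)| + |(v.2:ℝ)|)) (𝓝 0) (𝓝 (0 * (|(v.1:ℝ)| + |(v.2:ℝ)|))) :=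
          tendsto_id.mul_const _
        rw [zero_mul] at hc
        exact hc.eventually (Iio_mem_nhds hδ)
      exact mem_nhdsWithin_of_mem_nhds this
    filter_upwards [h.inn _ hK' hKδ, h3, self_mem_nhdsWithin] with a ha ha2 ha0 f hf
    have ha0' : 0 < a := ha0
    rw [Finset.mem_image]
    refine ⟨f - v, ha _ ?_, by simp⟩
    refine Metric.mem_cthickening_of_dist_le _ _ δ K hf ?_
    rw [dist_eq_norm]
    refine (Complex.norm_le_abs_re_add_abs_im _).trans ?_
    have e1 : (meshPoint a (f - v) - meshPoint a f).re = -(a * (v.1 : ℝ)) := by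
      simp [meshPoint]; ring
    have e2 : (meshPoint a (f - v) - meshPoint a f).im = -(a * (v.2 : ℝ)) := by
      simp [meshPoint]; ring
    rw [e1, e2, abs_neg, abs_neg, abs_mul, abs_mul, abs_of_pos ha0']
    linarith
  out K hK hKD := by
    -- a closed set disjoint from the compact closure has positive distance
    have hcD : IsCompact (closure D) := hb.isCompact_closure
    obtain ⟨δ, hδ, hd⟩ := hcD.exists_cthickening_subset_open hK.isOpen_compl
      (Set.subset_compl_iff_disjoint_left.2 hKD)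
    have hK' : IsClosed (Metric.thickening δ (closure D))ᶜ := Metric.isOpen_thickening.isClosed_compl
    have hdis : Disjoint (Metric.thickening δ (closure D))ᶜ (closure D) :=
      Set.disjoint_left.2 fun z hz hz' => hz (Metric.self_subset_thickening hδ _ hz')
    have h3 : ∀ᶠ a : ℝ in 𝓝[>] (0 : ℝ), a * (|(v.1:ℝ)| + |(v.2:ℝ)|) < δ / 2 := by
      have : ∀ᶠ a : ℝ in 𝓝 (0 : ℝ), a * (|(v.1:ℝ)| + |(v.2:ℝ)|) < δ / 2 := by
        have hc : Tendsto (fun a : ℝ => a * (|(v.1:ℝ)| + |(v.2:ℝ)|)) (𝓝 0) (𝓝 (0 * (|(v.1:ℝ)| + |(v.2:ℝ)|))) :=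
          tendsto_id.mul_const _
        rw [zero_mul] at hc
        exact hc.eventually (Iio_mem_nhds (half_pos hδ))
      exact mem_nhdsWithin_of_mem_nhds this
    have hK2 : IsClosed (Metric.thickening (δ/2) (closure D))ᶜ := Metric.isOpen_thickening.isClosed_compl
    have hdis2 : Disjoint (Metric.thickening (δ/2) (closure D))ᶜ (closure D) :=
      Set.disjoint_left.2 fun z hz hz' => hz (Metric.self_subset_thickening (half_pos hδ) _ hz')
    filter_upwards [h.out _ hK2 hdis2, h3, self_mem_nhdsWithin] with a ha ha2 ha0 f hf hfT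
    have ha0' : 0 < a := ha0
    rw [Finset.mem_image] at hfT
    obtain ⟨g, hg, rfl⟩ := hfT
    refine ha g ?_ hg
    intro hmem
    rw [Metric.mem_thickening_iff] at hmem
    obtain ⟨z, hz, hzd⟩ := hmem
    have h5 : dist (meshPoint a (g + v)) (meshPoint a g) < δ / 2 := by
      rw [dist_eq_norm]
      refine lt_of_le_of_lt (Complex.norm_le_abs_re_add_abs_im _) ?_
      have e1 : (meshPoint a (g + v) - meshPoint a g).re = a * (v.1 : ℝ) := by
        simp [meshPoint]; ring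
      have e2 : (meshPoint a (g + v) - meshPoint a g).im = a * (v.2 : ℝ) := by
        simp [meshPoint]; ring
      rw [e1, e2, abs_mul, abs_mul, abs_of_pos ha0']
      linarith
    have h6 : meshPoint a (g + v) ∈ Metric.cthickening δ (closure D) := by
      refine Metric.mem_cthickening_of_dist_le _ z δ _ hz ?_
      have := dist_triangle (meshPoint a (g + v)) (meshPoint a g) z
      linarith
    exact hd h6 hf

/-! ### no holes -/

theorem join_mono {A B : Set (ℤ × ℤ)} (hAB : A ⊆ B) {u v : ℤ × ℤ} (h : JoinIn A u v) :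
    JoinIn B u v := by
  induction h with
  | refl => exact Relation.ReflTransGen.refl
  | tail _ h2 ih => exact Relation.ReflTransGen.tail ih ⟨hAB h2.1, hAB h2.2.1, h2.2.2⟩

theorem joinIn_compl_starS {s : ℤ} (hs : s = 1 ∨ s = -1) {T : Finset (ℤ × ℤ)}
    (h : ∀ u, u ∉ T → ∀ v, v ∉ T → JoinIn ((T : Set (ℤ × ℤ))ᶜ) u v) :
    ∀ u, u ∉ starS s T → ∀ v, v ∉ starS s T → JoinIn ((starS s T : Set (ℤ × ℤ))ᶜ) u v := by
  have habs : |s| = 1 := by rcases hs with rfl | rfl <;> simp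
  have hsub : ((T : Set (ℤ × ℤ))ᶜ) ⊆ ((starS s T : Set (ℤ × ℤ))ᶜ) := by
    intro z hz hz'
    exact hz (Finset.mem_coe.2 (starS_subset s T (Finset.mem_coe.1 hz')))
  have hmem : ∀ z, z ∉ starS s T → z ∈ ((starS s T : Set (ℤ × ℤ))ᶜ) := fun z hz hz' =>
    hz (Finset.mem_coe.1 hz')
  have hout : ∀ z, z ∉ T → z ∈ ((starS s T : Set (ℤ × ℤ))ᶜ) := fun z hz =>
    hsub fun hz' => hz (Finset.mem_coe.1 hz')
  -- every point outside the star is joined to a point outside `T`
  have key : ∀ u, u ∉ starS s T → ∃ c, c ∉ T ∧ JoinIn ((starS s T : Set (ℤ × ℤ))ᶜ) u c := by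
    intro u hu
    by_cases h0 : u ∈ T
    swap
    · exact ⟨u, h0, Relation.ReflTransGen.refl⟩
    by_cases h1 : u + (s, 0) ∈ T
    swap
    · exact ⟨_, h1, Relation.ReflTransGen.single ⟨hmem u hu, hout _ h1,
        Or.inl ⟨by simp, by simp [habs]⟩⟩⟩
    by_cases h2 : u + (0, s) ∈ T
    swap
    · exact ⟨_, h2, Relation.ReflTransGen.single ⟨hmem u hu, hout _ h2,
        Or.inr ⟨by simp, by simp [habs]⟩⟩⟩
    have h3 : u + (s, s) ∉ T := fun h3 => hu (mem_starS.2 ⟨h0, h1, h2, h3⟩)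
    have e : u + (s, 0) + (0, s) = u + (s, s) := by ext <;> simp
    have h4 : u + (s, 0) ∉ starS s T := fun h4 => h3 (by rw [← e]; exact (mem_starS.1 h4).2.2.1)
    refine ⟨_, h3, ?_⟩
    refine Relation.ReflTransGen.trans (b := u + (s, 0)) (Relation.ReflTransGen.single
      ⟨hmem u hu, hmem _ h4, Or.inl ⟨by simp, by simp [habs]⟩⟩) (Relation.ReflTransGen.single
      ⟨hmem _ h4, hout _ h3, Or.inr ⟨by simp, by simp [habs]⟩⟩)
  intro u hu v hv
  obtain ⟨c, hc, huc⟩ := key u hu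
  obtain ⟨c', hc', hvc⟩ := key v hv
  refine huc.trans (Relation.ReflTransGen.trans ?_ (JoinIn.symm hvc))
  exact join_mono hsub (h c hc c' hc')

theorem noHole_starS_of_join {s : ℤ} (hs : s = 1 ∨ s = -1) {T : Finset (ℤ × ℤ)}
    (h : ∀ u, u ∉ T → ∀ v, v ∉ T → JoinIn ((T : Set (ℤ × ℤ))ᶜ) u v) : NoHole (starS s T) :=
  noHole_of_join (joinIn_compl_starS hs h)

/-- connected complement of `T(D,a)` for small mesh -/
theorem eventually_join_TT {D : Set ℂ} (hD : IsC2JordanDomain D) :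
    ∀ᶠ a in 𝓝[>] (0:ℝ), ∀ u, u ∉ TT D a → ∀ v, v ∉ TT D a → JoinIn ((TT D a : Set (ℤ × ℤ))ᶜ) u v := by
  rcases D.eq_empty_or_nonempty with he | hne
  · filter_upwards [self_mem_nhdsWithin] with a ha u _ v _
    have e : ((TT D a : Finset (ℤ × ℤ)) : Set (ℤ × ℤ))ᶜ = univ := by
      ext z
      simp only [mem_compl_iff, Finset.mem_coe, mem_univ, iff_true]
      rw [mem_TT (Redx541.bounded_of_C2 hD) ha, he]
      exact fun h => h
    rw [e]
    have h1 : PathIn univ (u.1, u.2) (u.1, v.2) (v.2 - u.2).natAbs := PathIn.vert' fun _ _ _ => mem_univ _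
    have h2 : PathIn univ (u.1, v.2) (v.1, v.2) (v.1 - u.1).natAbs := PathIn.horiz' fun _ _ _ => mem_univ _
    exact (h1.trans h2).joinIn
  · obtain ⟨r, M, hCD⟩ := Crest.Agent.R165.GeoCx65.exists_CD hD hne
    obtain ⟨C, hC⟩ := hCD.join_compl
    filter_upwards [hC, self_mem_nhdsWithin] with a ha ha0 u hu v hv
    have hm : ∀ z, z ∈ TT D a ↔ z ∈ domainSites D a := fun z =>
      mem_TT (Redx541.bounded_of_C2 hD) ha0
    have e : (TT D a : Set (ℤ × ℤ)) = domainSites D a := by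
      ext z; exact hm z
    obtain ⟨n, -, hn⟩ := ha u (fun h1 => hu ((hm u).2 h1)) v (fun h1 => hv ((hm v).2 h1))
    rw [e]
    exact hn.joinIn

theorem eventually_noHole_TT {D : Set ℂ} (hD : IsC2JordanDomain D) :
    ∀ᶠ a in 𝓝[>] (0:ℝ), NoHole (TT D a) :=
  (eventually_join_TT hD).mono fun _ h => noHole_of_join h

/-- **the star of `T(D,a)` has no holes for small mesh** -/
theorem eventually_noHole_starT {D : Set ℂ} (hD : IsC2JordanDomain D) :
    ∀ᶠ a in 𝓝[>] (0:ℝ), NoHole (starT (TT D a)) :=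
  (eventually_join_TT hD).mono fun a h => by
    rw [starT_eq]
    exact noHole_starS_of_join (Or.inr rfl) h

theorem eventually_noHole_starP {D : Set ℂ} (hD : IsC2JordanDomain D) :
    ∀ᶠ a in 𝓝[>] (0:ℝ), NoHole (starS 1 (TT D a)) :=
  (eventually_join_TT hD).mono fun _ h => noHole_starS_of_join (Or.inl rfl) h

theorem eventually_nhf_TT {D : Set ℂ} (hD : IsC2JordanDomain D) :
    ∀ᶠ a in 𝓝[>] (0:ℝ), NHF (TT D a) :=
  (eventually_noHole_TT hD).mono fun _ h => Kw7x871.nhf_of_noHole h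

end Crest.Agent.R165.StarAppx583
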