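import Crest.Agent.R165.FrFin_887
import Crest.Agent.R165.Kw9_871
import Crest.Agent.R165.StarApp_583
import Crest.Agent.R165.Nm5_422
import Crest.Agent.R165.GapFin_40

/-!
# Row 165 (S0250): the gap of the free backgrounds of a domain, uniform in the mesh (helper887)

* `CG_scale`, `CF_scale` : behaviour of the constants of `FrFin_887` under `r = R / a`
* `plus_upper` : `GB .plus (starT (TT D a)) (u a) ≤ C a^{n/8}`
* `det_lower` : `|det (tot S (X i) (X j))| ≥ c₀` uniformly in `a`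
* `gap_free` : **free gap** `|φ| ≤ (C / a) |A φ|`, uniformly in `a`, from `SpinOut .plus 1` and
  `SpinOut .free n`
* `gap_plus` : the same for plus
-/

set_option autoImplicit false
set_option linter.unusedSimpArgs false
set_option linter.unusedSectionVars false

noncomputable section

open Filter Topology Finset
open Crest.ProbabilityR.IsingModel

namespace Crest.Agent.R165.FrDomx887

open Crest.Agent.R165.FrFinx887 Crest.Agent.R165.PlGapx887
open Crest.Agent.R165.U5Px422 Crest.Agent.R165.Kw8x871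
open Crest.Agent.R165.Latx683 (BW HE Aop wX wDom ray IsCov)
open Crest.Agent.R165.GDefx387 (l2)

/-! ### constants -/

theorem CG_scale {R a : ℝ} (hR : 0 ≤ R) (ha : 0 < a) (ha1 : a ≤ 1) : CG (R / a) ≤ CG R / a := by
  have h1 : 1 ≤ 1 / a := by rw [le_div_iff₀ ha]; linarith
  have hCQ : (0 : ℝ) ≤ CQ := by unfold CQ; norm_num
  have e : CG R / a = CQ * (9 * (1 / a) + 8 * (R / a)) + 3 * (1 / a) := by
    unfold CG; field_simp
  rw [e]
  unfold CG
  have h2 : CQ * (9 + 8 * (R / a)) ≤ CQ * (9 * (1 / a) + 8 * (R / a)) :=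
    mul_le_mul_of_nonneg_left (by linarith) hCQ
  linarith

theorem CP_scale {R a : ℝ} (hR : 0 ≤ R) (ha : 0 < a) (ha1 : a ≤ 1) :
    CP (R / a) ≤ CP R / Real.sqrt a := by
  have hCQ : (0 : ℝ) ≤ CQ := by unfold CQ; norm_num
  have h1 := CG_scale hR ha ha1
  unfold CP
  rw [mul_div_assoc, ← Real.sqrt_div' _ ha.le]
  refine mul_le_mul_of_nonneg_left (Real.sqrt_le_sqrt ?_) (by norm_num)
  rw [mul_div_assoc]
  exact mul_le_mul_of_nonneg_left h1 (by positivity)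

theorem CP_nonneg (r : ℝ) : 0 ≤ CP r := by unfold CP; positivity

theorem CB_scale {R a δ : ℝ} (hR : 0 ≤ R) (ha : 0 < a) (ha1 : a ≤ 1) (hδ : 0 < δ) :
    CB (R / a) (δ / a) ≤ CB R δ := by
  have hCQ : (0 : ℝ) ≤ CQ := by unfold CQ; norm_num
  unfold CB
  refine max_le_max le_rfl (mul_le_mul_of_nonneg_left ?_ (by norm_num))
  have h1 := CP_scale hR ha ha1
  have hs : 0 < Real.sqrt a := Real.sqrt_pos.2 ha
  have e1 : 2 * CQ / (δ / a) = 2 * CQ / δ * a := by field_simp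
  rw [e1, Real.sqrt_mul (by positivity)]
  calc Real.sqrt (2 * CQ / δ) * Real.sqrt a * CP (R / a)
      ≤ Real.sqrt (2 * CQ / δ) * Real.sqrt a * (CP R / Real.sqrt a) :=
        mul_le_mul_of_nonneg_left h1 (by positivity)
    _ = Real.sqrt (2 * CQ / δ) * CP R := by field_simp

theorem CB_nonneg (r ρ : ℝ) : 0 ≤ CB r ρ := by unfold CB; exact le_max_of_le_left zero_le_one

theorem CF_scale {n : ℕ} {R a δ c₀ : ℝ} (hR : 0 ≤ R) (ha : 0 < a) (ha1 : a ≤ 1) (hδ : 0 < δ)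
    (hc₀ : 0 < c₀) : CF n (R / a) (δ / a) c₀ ≤ CF n R δ c₀ / a := by
  have hs : 0 < Real.sqrt a := Real.sqrt_pos.2 ha
  have hs1 : Real.sqrt a ≤ 1 := by
    rw [show (1 : ℝ) = Real.sqrt 1 by simp]; exact Real.sqrt_le_sqrt ha1
  have hN : CN' n (R / a) (δ / a) c₀ ≤ CN' n R δ c₀ := by
    unfold CN'
    refine div_le_div_of_nonneg_right ?_ hc₀.le
    refine mul_le_mul_of_nonneg_left ?_ (by positivity)
    exact pow_le_pow_left₀ (CB_nonneg _ _) (CB_scale hR ha ha1 hδ) n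
  have hN0 : 0 ≤ CN' n (R / a) (δ / a) c₀ := by
    unfold CN'
    have := CB_nonneg (R / a) (δ / a)
    positivity
  have h1 := CG_scale hR ha ha1
  have h2 := CP_scale hR ha ha1
  have h0 := CP_nonneg (R / a)
  have h00 := CP_nonneg R
  have h3 : 4 + 4 * CP (R / a) ≤ (4 + 4 * CP R) / Real.sqrt a := by
    rw [le_div_iff₀ hs]
    rw [le_div_iff₀ hs] at h2
    nlinarith
  have h4 : (n : ℝ) ^ 2 * CN' n (R / a) (δ / a) c₀ * CP (R / a) * (4 + 4 * CP (R / a)) ≤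
      (n : ℝ) ^ 2 * CN' n R δ c₀ * (CP R / Real.sqrt a) * ((4 + 4 * CP R) / Real.sqrt a) := by
    have h5 : (n : ℝ) ^ 2 * CN' n (R / a) (δ / a) c₀ * CP (R / a) ≤
        (n : ℝ) ^ 2 * CN' n R δ c₀ * (CP R / Real.sqrt a) := by
      refine mul_le_mul (mul_le_mul_of_nonneg_left hN (by positivity)) h2 h0 ?_
      have := hN0.trans hN
      positivity
    refine mul_le_mul h5 h3 (by positivity) ?_
    have := hN0.trans hN
    positivity
  have e : CF n R δ c₀ / a = 2 * (4 * (CG R / a) +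
      (n : ℝ) ^ 2 * CN' n R δ c₀ * (CP R / Real.sqrt a) * ((4 + 4 * CP R) / Real.sqrt a)) := by
    have hsa : Real.sqrt a * Real.sqrt a = a := Real.mul_self_sqrt ha.le
    have e2 : (n : ℝ) ^ 2 * CN' n R δ c₀ * (CP R / Real.sqrt a) * ((4 + 4 * CP R) / Real.sqrt a) =
        ((n : ℝ) ^ 2 * CN' n R δ c₀ * CP R * (4 + 4 * CP R)) / a := by
      rw [mul_assoc, div_mul_div_comm, hsa]
      ring
    rw [e2]
    unfold CF
    ring
  rw [e]
  unfold CF
  linarith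

/-! ### geometry -/

theorem TT_box {D : Set ℂ} (hD : Bornology.IsBounded D) :
    ∃ R : ℝ, 0 < R ∧ ∀ a > (0 : ℝ), ∀ f ∈ TT D a,
      |((f.1 : ℝ) - (((0, 0) : ℤ × ℤ).1 : ℝ))| ≤ R / a ∧
      |((f.2 : ℝ) - (((0, 0) : ℤ × ℤ).2 : ℝ))| ≤ R / a := by
  obtain ⟨M, hM⟩ := hD.exists_norm_le
  refine ⟨|M| + 1, by positivity, fun a ha f hf => ?_⟩
  have h1 : ‖meshPoint a f‖ ≤ |M| + 1 := (hM _ ((mem_TT hD ha).1 hf)).trans
    ((le_abs_self M).trans (by linarith))
  have h2 : |a * f.1| ≤ |M| + 1 := (Complex.abs_re_le_norm _).trans h1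
  have h3 : |a * f.2| ≤ |M| + 1 := (Complex.abs_im_le_norm _).trans h1
  rw [abs_mul, abs_of_pos ha] at h2 h3
  simp only [Int.cast_zero, sub_zero]
  exact ⟨by rw [le_div_iff₀ ha]; linarith, by rw [le_div_iff₀ ha]; linarith⟩

/-- separation of the configuration -/
theorem exists_sep {n : ℕ} {x : Fin n → ℂ} (hx : Function.Injective x) :
    ∃ d : ℝ, 0 < d ∧ ∀ i j, i ≠ j → d ≤ ‖x i - x j‖ := by
  classical
  by_cases h : (univ.filter fun p : Fin n × Fin n => p.1 ≠ p.2).Nonempty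
  · obtain ⟨p, hp, hmin⟩ := exists_min_image _ (fun p : Fin n × Fin n => ‖x p.1 - x p.2‖) h
    refine ⟨‖x p.1 - x p.2‖, ?_, fun i j hij => hmin (i, j) (by simp [hij])⟩
    rw [norm_pos_iff, sub_ne_zero]
    exact fun hc => (mem_filter.1 hp).2 (hx hc)
  · refine ⟨1, one_pos, fun i j hij => absurd ⟨(i, j), ?_⟩ h⟩
    simp [hij]

theorem mesh_sub_le {a : ℝ} (ha : 0 < a) (z w : ℤ × ℤ) :
    ‖meshPoint a z - meshPoint a w‖ ≤ 2 * (a * dm w z) := by
  refine (Complex.norm_le_abs_re_add_abs_im _).trans ?_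
  rw [Complex.sub_re, Complex.sub_im, meshPoint_re, meshPoint_im, meshPoint_re, meshPoint_im,
    ← mul_sub, ← mul_sub, abs_mul, abs_mul, abs_of_pos ha]
  have h1 : |((z.1 : ℝ) - (w.1 : ℝ))| ≤ dm w z := le_max_left _ _
  have h2 : |((z.2 : ℝ) - (w.2 : ℝ))| ≤ dm w z := le_max_right _ _
  nlinarith

theorem lapp_sep {n : ℕ} {x : Fin n → ℂ} {u : ℝ → Fin n → ℤ × ℤ} (hu : LApp u x) {d : ℝ}
    (hd0 : 0 < d) (hd : ∀ i j, i ≠ j → d ≤ ‖x i - x j‖) :
    ∀ᶠ a in 𝓝[>] (0 : ℝ), ∀ i j, i ≠ j → d / 4 / a ≤ dm (u a i) (u a j) := by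
  have h1 : ∀ i, ∀ᶠ a in 𝓝[>] (0 : ℝ), ‖meshPoint a (u a i) - x i‖ < d / 4 := by
    intro i
    have := (hu i).eventually (Metric.ball_mem_nhds (x i) (by linarith : 0 < d / 4))
    filter_upwards [this] with a ha
    rwa [dist_eq_norm] at ha
  filter_upwards [eventually_all.2 h1, self_mem_nhdsWithin] with a h ha i j hij
  have ha : 0 < a := ha
  have h2 := hd i j hij
  have h3 := h i
  have h4 := h j
  have h5 := mesh_sub_le ha (u a j) (u a i)
  have h6 : ‖x i - x j‖ ≤ ‖meshPoint a (u a i) - x i‖ + ‖meshPoint a (u a j) - meshPoint a (u a i)‖ +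
      ‖meshPoint a (u a j) - x j‖ := by
    have e : x i - x j = -(meshPoint a (u a i) - x i) +
        -(meshPoint a (u a j) - meshPoint a (u a i)) + (meshPoint a (u a j) - x j) := by ring
    rw [e]
    refine (norm_add_le _ _).trans (add_le_add ((norm_add_le _ _).trans ?_) le_rfl)
    rw [norm_neg, norm_neg]
  rw [div_le_iff₀ ha]
  nlinarith

theorem lapp_inj {n : ℕ} {x : Fin n → ℂ} {u : ℝ → Fin n → ℤ × ℤ} (hu : LApp u x)
    (hx : Function.Injective x) : ∀ᶠ a in 𝓝[>] (0 : ℝ), Function.Injective (u a) := by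
  obtain ⟨d, hd0, hd⟩ := exists_sep hx
  filter_upwards [lapp_sep hu hd0 hd, self_mem_nhdsWithin] with a h ha i j hij
  by_contra hc
  have ha : 0 < a := ha
  have h1 := h i j hc
  rw [hij] at h1
  have h2 : dm (u a j) (u a j) = 0 := by simp [dm]
  rw [h2] at h1
  have : 0 < d / 4 / a := by positivity
  linarith

/-! ### upper bound of plus correlations -/

theorem exists_balls {n : ℕ} {D : Set ℂ} (hD : IsOpen D) {x : Fin n → ℂ} (hx : x ∈ Conf D n) :
    ∃ r : ℝ, 0 < r ∧ (∀ i, Metric.closedBall (x i) r ⊆ D) ∧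
      ∀ i j, i ≠ j → ∀ z ∈ Metric.ball (x i) r, ∀ w ∈ Metric.ball (x j) r, r ≤ ‖z - w‖ := by
  obtain ⟨d, hd0, hd⟩ := exists_sep hx.2
  have h1 : ∀ i, ∃ r > 0, Metric.closedBall (x i) r ⊆ D := fun i =>
    Metric.nhds_basis_closedBall.mem_iff.1 (hD.mem_nhds (hx.1 i))
  choose r hr hrD using h1
  have h2 : ∃ ρ : ℝ, 0 < ρ ∧ ∀ i, ρ ≤ r i := by
    by_cases hn : (univ : Finset (Fin n)).Nonempty
    · obtain ⟨i, _, hi⟩ := exists_min_image univ r hn
      exact ⟨r i, hr i, fun j => hi j (mem_univ _)⟩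
    · exact ⟨1, one_pos, fun i => absurd ⟨i, mem_univ _⟩ hn⟩
  obtain ⟨ρ, hρ0, hρ⟩ := h2
  refine ⟨min ρ (d / 3), lt_min hρ0 (by linarith), fun i => ?_, fun i j hij z hz w hw => ?_⟩
  · exact (Metric.closedBall_subset_closedBall ((min_le_left _ _).trans (hρ i))).trans (hrD i)
  · have h3 := hd i j hij
    rw [Metric.mem_ball, dist_eq_norm] at hz hw
    have h4 : min ρ (d / 3) ≤ d / 3 := min_le_right _ _
    have h5 : ‖x i - x j‖ ≤ ‖z - x i‖ + ‖z - w‖ + ‖w - x j‖ := by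
      have e : x i - x j = -(z - x i) + (z - w) + (w - x j) := by ring
      rw [e]
      refine (norm_add_le _ _).trans (add_le_add ((norm_add_le _ _).trans ?_) le_rfl)
      rw [norm_neg]
    linarith

theorem lapp_comp {n : ℕ} {x : Fin n → ℂ} {u : ℝ → Fin n → ℤ × ℤ} (hu : LApp u x) (i : Fin n) :
    LApp (fun a (_ : Fin 1) => u a i) (fun _ => x i) := fun _ => hu i

/-- one-point functions of discs are bounded after normalisation -/
theorem one_upper (hP : SpinOut .plus 1) {c : ℂ} {r : ℝ} (hr : 0 < r) {x : Fin 1 → ℂ}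
    (hx : x ∈ Conf (Metric.ball c r) 1) {u : ℝ → Fin 1 → ℤ × ℤ} (hu : LApp u x) :
    ∃ C : ℝ, 0 < C ∧ ∀ᶠ a in 𝓝[>] (0 : ℝ),
      a ^ (-(((1 : ℕ) : ℝ) / 8)) * GB .plus (TT (Metric.ball c r) a) (u a) ≤ C := by
  obtain ⟨F, hF, -⟩ := hP
  obtain ⟨h0, h1⟩ := hF _ (Nm1x422.isC2_ball c hr) x hx
  refine ⟨F (Metric.ball c r) x + 1, by linarith, ?_⟩
  filter_upwards [(h1 u hu).eventually (gt_mem_nhds (by linarith :
    F (Metric.ball c r) x < F (Metric.ball c r) x + 1))] with a ha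
  exact ha.le

/-- **upper bound of plus correlations on lattice approximations of `D`** -/
theorem plus_upper (hP : SpinOut .plus 1) {n : ℕ} {D : Set ℂ} (hD : IsOpen D)
    (hb : Bornology.IsBounded D) {T : ℝ → Finset (ℤ × ℤ)} (hT : USpinx641.LatApp D T)
    {x : Fin n → ℂ} (hx : x ∈ Conf D n) {u : ℝ → Fin n → ℤ × ℤ} (hu : LApp u x) :
    ∃ C : ℝ, 0 < C ∧ ∀ᶠ a in 𝓝[>] (0 : ℝ), a ^ (-((n : ℝ) / 8)) * GB .plus (T a) (u a) ≤ C := by
  obtain ⟨r, hr, hrD, hsep⟩ := exists_balls hD hx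
  have hB : ∀ i, ∃ C : ℝ, 0 < C ∧ ∀ᶠ a in 𝓝[>] (0 : ℝ),
      a ^ (-(((1 : ℕ) : ℝ) / 8)) * GB .plus (TT (Metric.ball (x i) r) a) (fun _ : Fin 1 => u a i) ≤ C :=
    fun i => one_upper hP hr (x := fun _ => x i)
      ⟨fun _ => Metric.mem_ball_self hr, fun a b _ => Subsingleton.elim a b⟩ (lapp_comp hu i)
  choose C hC0 hC using hB
  refine ⟨∏ i, C i, prod_pos fun i _ => hC0 i, ?_⟩
  set K : Set ℂ := ⋃ i, Metric.closedBall (x i) r with hK
  have hKc : IsCompact K := isCompact_iUnion fun i => isCompact_closedBall _ _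
  have hKD : K ⊆ D := Set.iUnion_subset hrD
  set D' : Set ℂ := ⋃ i, Metric.ball (x i) r with hD'
  have hD'K : D' ⊆ K := Set.iUnion_mono fun i => Metric.ball_subset_closedBall
  have hD'b : Bornology.IsBounded D' := hb.subset (hD'K.trans hKD)
  have hmem : ∀ i, ∀ᶠ a in 𝓝[>] (0 : ℝ), u a i ∈ TT (Metric.ball (x i) r) a := by
    intro i
    have h := LApp.mem (lapp_comp hu i) Metric.isBounded_ball Metric.isOpen_ball
      (D := Metric.ball (x i) r) (fun _ => Metric.mem_ball_self hr)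
    filter_upwards [h] with a ha
    exact ha 0
  have hlt : ∀ᶠ a in 𝓝[>] (0 : ℝ), a < r := by
    have : ∀ᶠ a in 𝓝 (0 : ℝ), a < r := gt_mem_nhds hr
    exact this.filter_mono nhdsWithin_le_nhds
  filter_upwards [hT.inn K hKc hKD, eventually_all.2 hC, eventually_all.2 hmem, hlt,
    self_mem_nhdsWithin] with a h1 h2 h3 h4 ha
  have ha : 0 < a := ha
  have h5 : TT D' a ⊆ T a := fun f hf => h1 f (hD'K ((mem_TT hD'b ha).1 hf))
  have h6 : GB .plus (T a) (u a) ≤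
      ∏ i, GB .plus (TT (Metric.ball (x i) r) a) (fun _ : Fin 1 => u a i) :=
    (GB_plus_anti h5 (u a)).trans
      (Nm5x422.GB_le_prod ha h4 hD'b (fun i => Metric.ball (x i) r)
        (fun i => Set.subset_iUnion (fun i => Metric.ball (x i) r) i) hsep (u a) h3)
  refine (mul_le_mul_of_nonneg_left h6 (by positivity)).trans ?_
  rw [Nm5x422.hh_prod ha]
  exact prod_le_prod (fun i _ => mul_nonneg (by positivity) (GB_nonneg (by simp) _ _))
    fun i _ => h2 i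

/-! ### the corner determinant -/

/-- `wSt` in the form of `free_det` -/
theorem wSt_eq (T : Finset (ℤ × ℤ)) (e : J1ax606.EG ℤ) :
    wSt (T : Set (ℤ × ℤ)) e.1 e.2 =
      if e ∈ (J4Defx653.EE T .free).image Kw5x871.dE then KwHix408.xc else 0 := by
  classical
  obtain ⟨z, j⟩ := e
  have h := mem_in (T' := T) z
  have e1 : z - (0, 1) = (z.1, z.2 - 1) := by ext <;> simp
  have e2 : z - (1, 0) = (z.1 - 1, z.2) := by ext <;> simp
  have e3 : Latx683.xc = KwHix408.xc := rfl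
  fin_cases j
  · have h1 := h.1
    rw [e1] at h1
    simp only [wSt, Fin.zero_eta, if_true, Finset.mem_coe, Fin.isValue]
    rw [if_congr h1 rfl rfl]
    congr
  · have h2 := h.2
    rw [e2] at h2
    simp only [wSt, Fin.mk_one, Fin.isValue, one_ne_zero, if_false, Finset.mem_coe]
    rw [if_congr h2 rfl rfl]
    congr

/-- existence of the covariance of the starred background -/
theorem exists_star (T : Finset (ℤ × ℤ)) {n : ℕ} (X : Fin n → ℤ × ℤ) :
    ∃ S, IsCov (wX (wSt (T : Set (ℤ × ℤ))) X) S := by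
  have h1 : ∀ e, e ∉ (J4Defx653.EE T .free).image Kw5x871.dE →
      Covx359.un (wX (wSt (T : Set (ℤ × ℤ))) X) e = 0 := by
    intro e he
    obtain ⟨z, j⟩ := e
    rw [Covx359.un_apply, wX, wSt_eq T (z, j), if_neg he, mul_zero]
  have h2 : ∀ e ∈ (J4Defx653.EE T .free).image Kw5x871.dE,
      |Covx359.un (wX (wSt (T : Set (ℤ × ℤ))) X) e| < 1 := by
    intro e he
    rw [Covx359.un_wX]
    simp only
    rw [abs_mul, Covx359.abs_cut, mul_one]
    obtain ⟨z, j⟩ := e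
    rw [Covx359.un_apply, wSt_eq T (z, j), if_pos he]
    rw [show KwHix408.xc = Latx683.xc from rfl, abs_of_pos Covx359.xc_pos]
    exact Covx359.xc_lt_one
  obtain ⟨S, hS, -⟩ := Covx359.existsUnique_isCov_of_lt (wX (wSt (T : Set (ℤ × ℤ))) X) _ h1 h2
  exact ⟨S, hS⟩

/-- **lower bound of the corner determinant** -/
theorem det_lower {n : ℕ} (hP : SpinOut .plus 1) (hF : SpinOut .free n) {D : Set ℂ}
    (hD : IsC2JordanDomain D) {x : Fin n → ℂ} (hx : x ∈ Conf D n) {u : ℝ → Fin n → ℤ × ℤ}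
    (hu : LApp u x) : ∃ c₀ : ℝ, 0 < c₀ ∧ ∀ᶠ a in 𝓝[>] (0 : ℝ), ∀ S,
      IsCov (wX (wSt ((TT D a : Finset (ℤ × ℤ)) : Set (ℤ × ℤ))) (u a)) S →
        c₀ ≤ |(Mt S (u a)).det| := by
  have hb : Bornology.IsBounded D := Redx541.bounded_of_C2 hD
  have hO : IsOpen D := Crest.Agent.R165.Red2x541.isOpen_of_C2 hD
  obtain ⟨F, hF1, -⟩ := hF
  obtain ⟨hF0, hFl⟩ := hF1 D hD x hx
  obtain ⟨C, hC0, hC⟩ := plus_upper hP hO hb (StarAppx583.latApp_starT hD) hx hu
  set f := F D x with hf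
  refine ⟨(f / 2 / C) ^ 2, by positivity, ?_⟩
  filter_upwards [(hFl u hu).eventually (lt_mem_nhds (by linarith : f / 2 < f)), hC,
    Kw9x871.noHole_TT hD, lapp_inj hu hx.2, hu.mem hb hO hx.1, self_mem_nhdsWithin] with
    a h1 h2 h3 h4 h5 ha S hS
  have ha : 0 < a := ha
  have h6 := free_det h3 h4 h5 (wSt_eq (TT D a)) hS
  set s : ℝ := a ^ (-((n : ℝ) / 8)) with hs
  have hs0 : 0 < s := Real.rpow_pos_of_pos ha _
  have hG0 : 0 ≤ GB .plus (Kw5x871.starT (TT D a)) (u a) := GB_nonneg (by simp) _ _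
  have h7 : (f / 2) ^ 2 ≤ |(Mt S (u a)).det| * C ^ 2 := by
    calc (f / 2) ^ 2 ≤ (s * GB .free (TT D a) (u a)) ^ 2 :=
          pow_le_pow_left₀ (by positivity) h1.le 2
      _ = (Mt S (u a)).det * (s * GB .plus (Kw5x871.starT (TT D a)) (u a)) ^ 2 := by
          rw [mul_pow, h6]; ring
      _ ≤ |(Mt S (u a)).det| * C ^ 2 := by
          refine mul_le_mul (le_abs_self _) (pow_le_pow_left₀ (by positivity) h2 2)
            (by positivity) (abs_nonneg _)
  rw [div_pow, div_le_iff₀ (by positivity)]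
  exact h7

/-! ### the gaps -/

/-- **free gap of a domain with `n` spin insertions**, uniform in the mesh -/
theorem gap_free {n : ℕ} (hP : SpinOut .plus 1) (hF : SpinOut .free n) {D : Set ℂ}
    (hD : IsC2JordanDomain D) {x : Fin n → ℂ} (hx : x ∈ Conf D n) {u : ℝ → Fin n → ℤ × ℤ}
    (hu : LApp u x) : ∃ C : ℝ, 0 < C ∧ ∀ᶠ a in 𝓝[>] (0 : ℝ), ∀ φ : HE ℤ → ℝ, FSH φ →
      l2 φ ≤ C / a * l2 (Aop (wX (wDom ((TT D a : Finset (ℤ × ℤ)) : Set (ℤ × ℤ)) true) (u a)) φ) := by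
  have hb : Bornology.IsBounded D := Redx541.bounded_of_C2 hD
  have hO : IsOpen D := Crest.Agent.R165.Red2x541.isOpen_of_C2 hD
  obtain ⟨c₀, hc₀, hdet⟩ := det_lower hP hF hD hx hu
  obtain ⟨R, hR0, hR⟩ := TT_box hb
  obtain ⟨d, hd0, hd⟩ := exists_sep hx.2
  refine ⟨|CF n R (d / 4) c₀| + 1, by positivity, ?_⟩
  have hlt : ∀ᶠ a in 𝓝[>] (0 : ℝ), a < 1 := by
    have : ∀ᶠ a in 𝓝 (0 : ℝ), a < 1 := gt_mem_nhds one_pos
    exact this.filter_mono nhdsWithin_le_nhds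
  filter_upwards [hdet, lapp_sep hu hd0 hd, lapp_inj hu hx.2, hu.mem hb hO hx.1, hlt,
    self_mem_nhdsWithin] with a h1 h2 h3 h4 h5 ha φ hφ
  have ha : 0 < a := ha
  obtain ⟨S, hS⟩ := exists_star (TT D a) (u a)
  have h6 := free_gap_box h3 h4 (c := (0, 0)) (r := R / a) (by positivity) (hR a ha)
    (ρ := d / 4 / a) (by positivity) h2 hc₀ S hS.inv (h1 S hS) hφ
  refine h6.trans (mul_le_mul_of_nonneg_right ?_ (Real.sqrt_nonneg _))
  refine (CF_scale hR0.le ha h5.le (by positivity) hc₀).trans ?_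
  refine div_le_div_of_nonneg_right ?_ ha.le
  have := le_abs_self (CF n R (d / 4) c₀)
  linarith

/-- **plus gap of a domain, any insertions**, uniform in the mesh -/
theorem gap_plus {D : Set ℂ} (hb : Bornology.IsBounded D) {n : ℕ} :
    ∃ C : ℝ, 0 < C ∧ ∀ᶠ a in 𝓝[>] (0 : ℝ), ∀ (X : Fin n → ℤ × ℤ), ∀ φ : HE ℤ → ℝ, FSH φ →
      l2 φ ≤ C / a * l2 (Aop (wX (wDom ((TT D a : Finset (ℤ × ℤ)) : Set (ℤ × ℤ)) false) X) φ) := by
  obtain ⟨R, hR0, hR⟩ := TT_box hb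
  have hCG : 0 ≤ CG (R + 1) := CG_nonneg (by linarith)
  refine ⟨CG (R + 1) + 1, by linarith, ?_⟩
  have hlt : ∀ᶠ a in 𝓝[>] (0 : ℝ), a < 1 := by
    have : ∀ᶠ a in 𝓝 (0 : ℝ), a < 1 := gt_mem_nhds one_pos
    exact this.filter_mono nhdsWithin_le_nhds
  filter_upwards [hlt, self_mem_nhdsWithin] with a h5 ha X φ hφ
  have ha : 0 < a := ha
  have h6 := plus_gap_box X (c := (0, 0)) (r := R / a) (by positivity) (hR a ha) hφ
  refine h6.trans (mul_le_mul_of_nonneg_right ?_ (Real.sqrt_nonneg _))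
  have h7 : CG (R / a + 1) ≤ CG ((R + 1) / a) := by
    have h8 : R / a + 1 ≤ (R + 1) / a := by
      rw [add_div]
      have : 1 ≤ 1 / a := by rw [le_div_iff₀ ha]; linarith
      linarith
    unfold CG
    have hCQ : (0 : ℝ) ≤ CQ := by unfold CQ; norm_num
    have := mul_le_mul_of_nonneg_left (show 9 + 8 * (R / a + 1) ≤ 9 + 8 * ((R + 1) / a) by
      linarith) hCQ
    linarith
  refine h7.trans ((CG_scale (by linarith) ha h5.le).trans ?_)
  exact div_le_div_of_nonneg_right (by linarith) ha.le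

end Crest.Agent.R165.FrDomx887
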