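import Crest.Agent.R165.UJ3_420
import Crest.Agent.R165.J2f_606

/-!
# Row 165 (S0250), U6-DOM (helper420): `ExCov` and `J2Leaf` proved

(`J2Set` of `UJ2_420` quantifies over all bonds, which is wrong for free boundary conditions; here the
restricted form `J2SetOn` is used.)

* `J2SetOn T w S P` : bond identities for all finite sets of bonds satisfying `P`
* `centredOn`, `j2On_plus`, `j2On_free`
* `exCov : ExCov`, `j2Leaf : J2Leaf`
-/

set_option autoImplicit false

noncomputable section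

open Filter Topology Finset
open Crest.ProbabilityR.IsingModel

namespace Crest.Agent.R165.UJ4x420

open Crest.Agent.R165.Gr0x606 Crest.Agent.R165.Gr1x606 Crest.Agent.R165.J1ax606
  Crest.Agent.R165.J1bx606 Crest.Agent.R165.J1cx606
open Crest.Agent.R165.J2ax606 (IsInv PP)
open Crest.Agent.R165.J2bx606 (FInv)
open Crest.Agent.R165.J2cx606 (sig sgr cut Zs BB J2_plus exists_finv_plus)
open Crest.Agent.R165.Topx683 Crest.Agent.R165.Redx541 Crest.Agent.R165.Red2x541
  Crest.Agent.R165.Centx541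
open Crest.Agent.R165.Latx683 (BW hp hq wDom ray wX IsCov covS formS Fld)
open Crest.Agent.R165.UKerx420 Crest.Agent.R165.UFinx420 Crest.Agent.R165.UJ2x420
  Crest.Agent.R165.UJ3x420 Crest.Agent.R165.UDomBx420
open Crest.Agent.R165.UDomCx420 Crest.Agent.R165.UZsx420
open Crest.Agent.R165.UDomAx420 (eps tip)

/-- the exact bond identity on finite sets of bonds satisfying `P` -/
def J2SetOn (T : Finset (ℤ × ℤ)) (w : BW ℤ) (S : Cov (Fld ℤ)) (P : EG ℤ → Prop) : Prop :=
  ∀ A : Finset (EG ℤ), (∀ e ∈ A, P e) → Nsum T w (fun s => ∏ e ∈ A, eps s e) =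
    Nsum T w (fun _ => 1) *
      EE S ((∏ e ∈ A, (1 - (2 * w e.1 e.2) • bb e) : Ge (VI (HE ℤ))) : Gr (VI (HE ℤ)))

/-- **centred products of distinct bonds** -/
theorem centredOn {κ : Type*} {T : Finset (ℤ × ℤ)} {w : BW ℤ} {S : Cov (Fld ℤ)} {P : EG ℤ → Prop}
    (h : J2SetOn T w S P) (e : κ → EG ℤ) (c : κ → ℝ) (K : List κ) (hK : (K.map e).Nodup)
    (hP : ∀ k ∈ K, P (e k)) (B : Finset (EG ℤ)) (hBP : ∀ e ∈ B, P e)
    (hB : ∀ k ∈ K, e k ∉ B) :
    Nsum T w (fun s => (∏ e ∈ B, eps s e) * (K.map fun k => eps s (e k) - c k).prod) =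
      Nsum T w (fun _ => 1) *
        EE S (((∏ e ∈ B, (1 - (2 * w e.1 e.2) • bb e) : Ge (VI (HE ℤ))) : Gr (VI (HE ℤ))) *
          bpr (fun k i => (Finsupp.single (hb (e k).1 (e k).2 i) 1 : Fld ℤ))
            (fun k => w (e k).1 (e k).2) c K) := by
  induction K generalizing B with
  | nil => simpa [bpr] using h B hBP
  | cons k K ih =>
    rw [List.map_cons, List.nodup_cons] at hK
    have hk : e k ∉ B := hB k (List.mem_cons_self ..)
    have hkP : P (e k) := hP k (List.mem_cons_self ..)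
    have hKP : ∀ k' ∈ K, P (e k') := fun k' hk' => hP k' (List.mem_cons_of_mem _ hk')
    have hBK : ∀ k' ∈ K, e k' ∉ B := fun k' hk' => hB k' (List.mem_cons_of_mem _ hk')
    have hBK' : ∀ k' ∈ K, e k' ∉ insert (e k) B := by
      intro k' hk' hh
      rcases Finset.mem_insert.1 hh with h1 | h1
      · exact hK.1 (List.mem_map.2 ⟨k', hk', h1⟩)
      · exact hBK k' hk' h1
    have hBP' : ∀ e' ∈ insert (e k) B, P e' := by
      intro e' he'
      rcases Finset.mem_insert.1 he' with h1 | h1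
      · rw [h1]; exact hkP
      · exact hBP e' h1
    have e1 : ∀ s : ℤ × ℤ → Bool,
        (∏ e ∈ B, eps s e) * ((k :: K).map fun k => eps s (e k) - c k).prod =
        (∏ e ∈ insert (e k) B, eps s e) * (K.map fun k => eps s (e k) - c k).prod -
        c k * ((∏ e ∈ B, eps s e) * (K.map fun k => eps s (e k) - c k).prod) := by
      intro s
      rw [List.map_cons, List.prod_cons, Finset.prod_insert hk]
      ring
    simp only [e1]
    rw [Nsum_sub, ih hK.2 hKP B hBP hBK, ih hK.2 hKP (insert (e k) B) hBP' hBK']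
    have e2 : bpr (fun k i => (Finsupp.single (hb (e k).1 (e k).2 i) 1 : Fld ℤ))
            (fun k => w (e k).1 (e k).2) c (k :: K) =
        (((1 - (2 * w (e k).1 (e k).2) • bb (e k) : Ge (VI (HE ℤ))) : Gr (VI (HE ℤ))) -
          algebraMap ℝ _ (c k)) *
        bpr (fun k i => (Finsupp.single (hb (e k).1 (e k).2 i) 1 : Fld ℤ))
            (fun k => w (e k).1 (e k).2) c K := by
      simp only [bpr, List.map_cons, List.prod_cons]
      congr 2
      rw [Ge.coe_sub, Ge.coe_one, Ge.coe_smul, coe_bb, pe_eq, qe_eq]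
      rfl
    rw [e2, Finset.prod_insert hk]
    set P : Ge (VI (HE ℤ)) := ∏ e ∈ B, (1 - (2 * w e.1 e.2) • bb e) with hP
    set A : Ge (VI (HE ℤ)) := 1 - (2 * w (e k).1 (e k).2) • bb (e k) with hA
    set Q : Gr (VI (HE ℤ)) := bpr (fun k i => (Finsupp.single (hb (e k).1 (e k).2 i) 1 : Fld ℤ))
            (fun k => w (e k).1 (e k).2) c K with hQ
    have e3 : (P : Gr (VI (HE ℤ))) * (((A : Gr (VI (HE ℤ))) - algebraMap ℝ _ (c k)) * Q) =
        ((A * P : Ge (VI (HE ℤ))) : Gr (VI (HE ℤ))) * Q - c k • ((P : Gr (VI (HE ℤ))) * Q) := by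
      rw [mul_comm A P, Ge.coe_mul, sub_mul, mul_sub, mul_assoc, ← Algebra.smul_def, mul_smul_comm]
    rw [e3, map_sub, map_smul, smul_eq_mul]
    ring

/-- admissible bonds of a background: all (plus), inside `T` (free) -/
def Pb (fr : Bool) (T : Finset (ℤ × ℤ)) (e : EG ℤ) : Prop :=
  fr = true → e.1 ∈ T ∧ e.1 + unitVec e.2 ∈ T

/-! ### free boundary conditions -/

theorem freew_eq (T : Finset (ℤ × ℤ)) :
    J2ex606.freew T (fun _ => Latx683.xc) = fun e => wDom (T : Set (ℤ × ℤ)) true e.1 e.2 := by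
  funext e
  unfold J2ex606.freew wDom
  simp only [if_true, Finset.mem_coe]
  rfl

theorem exists_finv_dom (T : Finset (ℤ × ℤ)) {n : ℕ} (hn : Even n) (X : Fin n → ℤ × ℤ)
    (hX : ∀ i, X i ∈ T)
    (hZ : 0 < Nsum T (wDom (T : Set (ℤ × ℤ)) true) (fun s => ∏ i, spinSign (s (X i)))) :
    ∃ S, FInv (fun e => wDom (T : Set (ℤ × ℤ)) true e.1 e.2 * cut X e) S := by
  have h := J2fx606.exists_finv_free T (fun _ => Latx683.xc) hn X hX (by
    rw [freew_eq, zs_empty']
    exact hZ.ne')
  rw [freew_eq] at h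
  exact h

/-- **existence of the covariance, free boundary conditions** -/
theorem exCov_free (T : Finset (ℤ × ℤ)) {n : ℕ} (hn : Even n) (X : Fin n → ℤ × ℤ)
    (hX : ∀ i, X i ∈ T)
    (hZ : 0 < Nsum T (wDom (T : Set (ℤ × ℤ)) true) (fun s => ∏ i, spinSign (s (X i)))) :
    ∃ S, IsCov (wX (wDom (T : Set (ℤ × ℤ)) true) X) S := by
  obtain ⟨S, hS⟩ := exists_finv_dom T hn X hX hZ
  rw [wX_eq] at hS
  exact ⟨S, isCov_of_fInv hS⟩

/-- **bond identities, free boundary conditions** -/
theorem j2On_free (T : Finset (ℤ × ℤ)) {n : ℕ} (hn : Even n) (X : Fin n → ℤ × ℤ)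
    (hX : ∀ i, X i ∈ T)
    (hZ : 0 < Nsum T (wDom (T : Set (ℤ × ℤ)) true) (fun s => ∏ i, spinSign (s (X i)))) :
    J2SetOn T (wX (wDom (T : Set (ℤ × ℤ)) true) X) (Cof (wX (wDom (T : Set (ℤ × ℤ)) true) X))
      (Pb true T) := by
  obtain ⟨S, hS⟩ := exists_finv_dom T hn X hX hZ
  have hE : ∃ S, IsCov (wX (wDom (T : Set (ℤ × ℤ)) true) X) S := exCov_free T hn X hX hZ
  have h0 : IsInv (fun e => wDom (T : Set (ℤ × ℤ)) true e.1 e.2 * cut X e)
      (Sof (wX (wDom (T : Set (ℤ × ℤ)) true) X)) := by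
    rw [wX_eq]; exact isInv_of_isCov (Sof_spec hE)
  have h1 : Sof (wX (wDom (T : Set (ℤ × ℤ)) true) X) = S := hS.unique_inv h0
  subst h1
  intro A hA
  have h3 : ∀ w' : EG ℤ → ℝ, w' = J2ex606.freew T (fun _ => Latx683.xc) →
      ∀ hS' : FInv (fun e => w' e * cut X e) (Sof (wX (wDom (T : Set (ℤ × ℤ)) true) X)),
      Zs T w' X A = Zs T w' X ∅ * EE (covOf _ hS'.anti)
        ((BB (fun e => w' e * cut X e) A : Ge (VI (HE ℤ))) : Gr (VI (HE ℤ))) := by
    rintro _ rfl hS'
    exact J2ex606.J2_free hX hS' A (fun e he => hA e he rfl)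
  have h2 := h3 _ (freew_eq T).symm hS
  rw [zs_eq_nsum, zs_empty] at h2
  rw [h2, Cof, covS_eq _ _ h0.anti]
  congr 2
  unfold BB
  rw [wX_eq]

/-! ### the leaves -/

/-- **existence of the covariances** -/
theorem exCov : ExCov := by
  intro b n hR D hD x hx _
  have hm : ∀ i, ∀ᶠ a in 𝓝[>] (0 : ℝ), meshIndex a (x i) ∈ domainSites D a := by
    intro i
    simpa using UKerx420.eventually_mem (isOpen_of_C2 hD) (hx i) 0
  filter_upwards [NoHolex65.eventually_noHole_toFinset hD, ev_pos b n hR hD x hx,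
    eventually_all.2 hm, self_mem_nhdsWithin] with a h1 h2 hm ha
  have hfin : (domainSites D a).Finite := domainSites_finite (bounded_of_C2 hD) ha
  have e := hfin.coe_toFinset
  unfold wD
  rcases hR with rfl | ⟨rfl, hn⟩
  · have h3 := exCov_plus hfin.toFinset (h1 hfin) (fun i => meshIndex a (x i))
    rw [e] at h3
    exact h3
  · have h3 := exCov_free hfin.toFinset hn (fun i => meshIndex a (x i))
      (fun i => hfin.mem_toFinset.2 (hm i)) (by rw [e]; exact h2 hfin)
    rw [e] at h3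
    exact h3

/-- the finite-set identities of block J for all relevant backgrounds -/
theorem j2SetOn (b : BoundaryCondition) (n : ℕ) (hR : Rel b n) {D : Set ℂ}
    (hD : IsC2JordanDomain D) (x : Fin n → ℂ) (hx : ∀ i, x i ∈ D) :
    ∀ᶠ a in 𝓝[>] (0 : ℝ), ∀ h : (domainSites D a).Finite, J2SetOn h.toFinset
      (wD (isF b) D a (fun i => meshIndex a (x i)))
      (Cof (wD (isF b) D a (fun i => meshIndex a (x i)))) (Pb (isF b) h.toFinset) := by
  have hm : ∀ i, ∀ᶠ a in 𝓝[>] (0 : ℝ), meshIndex a (x i) ∈ domainSites D a := by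
    intro i
    simpa using UKerx420.eventually_mem (isOpen_of_C2 hD) (hx i) 0
  filter_upwards [NoHolex65.eventually_noHole_toFinset hD, ev_pos b n hR hD x hx,
    eventually_all.2 hm] with a h1 h2 hm hfin
  have e := hfin.coe_toFinset
  unfold wD
  rcases hR with rfl | ⟨rfl, hn⟩
  · have h3 := j2set_plus hfin.toFinset (h1 hfin) (fun i => meshIndex a (x i))
      (exCov_plus hfin.toFinset (h1 hfin) (fun i => meshIndex a (x i)))
    rw [e] at h3
    exact fun A _ => h3 A
  · have h3 := j2On_free hfin.toFinset hn (fun i => meshIndex a (x i))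
      (fun i => hfin.mem_toFinset.2 (hm i)) (by rw [e]; exact h2 hfin)
    rw [e] at h3
    exact h3

/-- **bonds as Grassmann bilinears** -/
theorem j2Leaf : J2Leaf := by
  intro b n hR D hD m x y j hx hy hinj
  obtain ⟨hix, hiy, -⟩ := inj_split hinj
  have hm : ∀ k, ∀ᶠ a in 𝓝[>] (0 : ℝ), meshIndex a (y k) ∈ domainSites D a := by
    intro k
    simpa using UKerx420.eventually_mem (isOpen_of_C2 hD) (hy k) 0
  have hm' : ∀ k, ∀ᶠ a in 𝓝[>] (0 : ℝ), meshIndex a (y k) + unitVec (j k) ∈ domainSites D a :=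
    fun k => UKerx420.eventually_mem (isOpen_of_C2 hD) (hy k) _
  filter_upwards [j2SetOn b n hR hD x hx, eventually_distinct y hiy, self_mem_nhdsWithin,
    eventually_all.2 hm, eventually_all.2 hm'] with a h1 h2 ha hm hm' hS
  have hfin : (domainSites D a).Finite := domainSites_finite (bounded_of_C2 hD) ha
  have hJ := h1 hfin
  set X : Fin n → ℤ × ℤ := fun i => meshIndex a (x i) with hX
  set T := hfin.toFinset with hT
  set w := wD (isF b) D a X with hw
  have hmin := rel_ne_minus hR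
  have hwX : ∀ f, Nsum T (wDom (domainSites D a) (isF b)) (fun s => (∏ i, spinSign (s (X i))) * f s) =
      Nsum T w f := fun f => Nsum_ray T _ X f
  have hF : decide (b = BoundaryCondition.free) = isF b := rfl
  -- the general correlation
  have key : ∀ {m' : ℕ} (y' : Fin m' → ℂ) (j' : Fin m' → Fin 2),
      D0c D a b x y' j' = Nsum T w (fun s =>
        ∏ k, (spinSign (s (meshIndex a (y' k))) *
          spinSign (s (meshIndex a (y' k) + unitVec (j' k))) - e0)) /
        Nsum T (wDom (domainSites D a) (isF b)) (fun _ => 1) := by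
    intro m' y' j'
    unfold D0c domMom
    rw [domainExpect_N D a hfin b hmin, hF, ← hT, ← hwX]
    rfl
  rw [key y j, key (![] : Fin 0 → ℂ) ![]]
  have e1 : ∀ s : ℤ × ℤ → Bool, (∏ k, (spinSign (s (meshIndex a (y k))) *
          spinSign (s (meshIndex a (y k) + unitVec (j k))) - e0)) =
        (∏ e ∈ (∅ : Finset (EG ℤ)), eps s e) *
          ((List.finRange m).map fun k => eps s (meshIndex a (y k), j k) - e0).prod := by
    intro s
    rw [Finset.prod_empty, one_mul, ← List.ofFn_eq_map, List.prod_ofFn]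
    rfl
  have hnd : ((List.finRange m).map fun k => ((meshIndex a (y k), j k) : EG ℤ)).Nodup := by
    refine (List.nodup_finRange m).map fun k l hkl => ?_
    exact h2 (Prod.mk.inj hkl).1
  have hc := centredOn hJ (fun k => ((meshIndex a (y k), j k) : EG ℤ)) (fun _ => e0)
    (List.finRange m) hnd
    (fun k _ _ => ⟨hfin.mem_toFinset.2 (hm k), hfin.mem_toFinset.2 (hm' k)⟩) ∅
    (fun _ h => absurd h (Finset.notMem_empty _)) (fun _ _ => Finset.notMem_empty _)
  simp only [e1]
  rw [hc, Finset.prod_empty, Ge.coe_one, one_mul]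
  simp only [Finset.univ_eq_empty, Finset.prod_empty]
  rw [mul_div_right_comm]

/-- **the domain limits of the unperturbed model, from spins and kernels only** -/
theorem UDb_of' (Sp : SpinLeaf) (hK : KerEx) : UDb := UDb_of Sp exCov hK j2Leaf

/-- **conformal covariance of the unperturbed model, from spins and kernels only** -/
theorem UCb_of' (Sp : SpinLeaf) (hK : KerEx) (hC : KerCv) : UCb := UCb_of Sp exCov hK hC j2Leaf

end Crest.Agent.R165.UJ4x420
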