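import Crest.Agent.R165.J2g_606
import Crest.Agent.R165.UJ4_420
import Crest.Agent.R165.SR_541
import Crest.Agent.R165.Nm1_422

/-!
# Row 165 (S0250), block J, JDom part A (helper606): the link for domains and discs, no hypothesis left

`Cof w` = canonical covariance of the background `w` (`UKer_420`).

* `Lk D a b X` : existence of the covariance and `J2On` for the background `wD (isF b) D a X`
* `lk_C2` : `C²` domains, `b` plus, or free with an even number of spins, small mesh
* `lk_plus`, `lk_disc` : plus, no hole; discs at fixed mesh, large radius, ANY spins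
* `E0 D a b J lam R V β` : `EE_0 (TH_0 GT)`, `EX .. X v c` : `EE_X (TH_X (∏(eps_v - c) * GT))`
* `spm_lk`  : `spm * E0 = spm0 * EX`, `domMom_lk` : `domMom * E0 = spm0 * EX (v, c)`
* `E0_pos`, `spm0_pos`
-/

set_option autoImplicit false

noncomputable section

open Filter Topology Finset
open Crest.ProbabilityR.IsingModel

namespace Crest.Agent.R165.JDomAx606

open Crest.Agent.R165.Gr0x606 Crest.Agent.R165.Gr1x606 Crest.Agent.R165.J1ax606
  Crest.Agent.R165.J1bx606 Crest.Agent.R165.J1cx606
open Crest.Agent.R165.Topx683 Crest.Agent.R165.Redx541 Crest.Agent.R165.Red2x541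
  Crest.Agent.R165.Centx541 Crest.Agent.R165.Symx541 Crest.Agent.R165.SRx541
open Crest.Agent.R165.Latx683 (BW wDom ray wX IsCov covS formS Fld)
open Crest.Agent.R165.UDomCx420 (Nsum conf Nsum_ray)
open Crest.Agent.R165.UKerx420 (wD Cof Sof Sof_spec Sof_skew)
open Crest.Agent.R165.UFinx420 (isF)
open Crest.Agent.R165.J4Defx653 Crest.Agent.R165.J4RRx653 Crest.Agent.R165.J4Lnkx653
open Crest.Agent.R165.J2gx606

/-- the background has a covariance, and (J2) holds for the canonical one -/
structure Lk (D : Set ℂ) (a : ℝ) (b : BoundaryCondition) {n : ℕ} (X : Fin n → ℤ × ℤ) : Prop where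
  ex : ∃ S, IsCov (wD (isF b) D a X) S
  on : ∀ (h : (domainSites D a).Finite) (F : RR (EG ℤ)),
    (b = BoundaryCondition.free → DepOn h.toFinset F) →
      J2On h.toFinset (wD (isF b) D a X) (Cof (wD (isF b) D a X)) F

theorem isF_plus : isF BoundaryCondition.plus = false := rfl

theorem isF_free : isF BoundaryCondition.free = true := rfl

/-- plus boundary conditions, no hole -/
theorem lk_plus {D : Set ℂ} {a : ℝ} (h : (domainSites D a).Finite) (hT : NoHole h.toFinset) {n : ℕ}
    (X : Fin n → ℤ × ℤ) : Lk D a BoundaryCondition.plus X := by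
  have hex : ∃ S, IsCov (wD (isF BoundaryCondition.plus) D a X) S := by
    have h3 := UJ3x420.exCov_plus h.toFinset hT X
    rw [h.coe_toFinset] at h3
    exact h3
  refine ⟨hex, fun h' F _ => ?_⟩
  exact j2on_plus_D D a h' hT (Sof_spec hex) F

/-- free boundary conditions -/
theorem lk_free {D : Set ℂ} {a : ℝ} (h : (domainSites D a).Finite) {n : ℕ} (hn : Even n)
    {X : Fin n → ℤ × ℤ} (hX : ∀ i, X i ∈ domainSites D a)
    (hpos : 0 < Nsum h.toFinset (wDom (domainSites D a) true) (fun s => ∏ i, spinSign (s (X i)))) :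
    Lk D a BoundaryCondition.free X := by
  have hex : ∃ S, IsCov (wD (isF BoundaryCondition.free) D a X) S := by
    have h3 := UJ4x420.exCov_free h.toFinset hn X (fun i => h.mem_toFinset.2 (hX i))
      (by rw [h.coe_toFinset]; exact hpos)
    rw [h.coe_toFinset] at h3
    exact h3
  refine ⟨hex, fun h' F hF => ?_⟩
  exact j2on_free_D D a h' hn hX hpos.ne' (Sof_spec hex) F (hF rfl)

/-- `C²` domains, small mesh -/
theorem lk_C2 (b : BoundaryCondition) (n : ℕ) (hR : Rel b n) {D : Set ℂ} (hD : IsC2JordanDomain D)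
    (x : Fin n → ℂ) (hx : ∀ i, x i ∈ D) :
    ∀ᶠ a in 𝓝[>] (0 : ℝ), Lk D a b (fun i => meshIndex a (x i)) := by
  have hm : ∀ i, ∀ᶠ a in 𝓝[>] (0 : ℝ), meshIndex a (x i) ∈ domainSites D a := by
    intro i
    simpa using UKerx420.eventually_mem (isOpen_of_C2 hD) (hx i) 0
  filter_upwards [NoHolex65.eventually_noHole_toFinset hD, UZsx420.ev_pos b n hR hD x hx,
    eventually_all.2 hm, self_mem_nhdsWithin] with a h1 h2 hm ha
  have hfin : (domainSites D a).Finite := domainSites_finite (bounded_of_C2 hD) ha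
  rcases hR with rfl | ⟨rfl, hn⟩
  · exact lk_plus hfin (h1 hfin) _
  · exact lk_free hfin hn hm (h2 hfin)

/-- discs at fixed mesh, plus, no hole for large radius -/
theorem noHole_disc {a : ℝ} (ha : 0 < a) : ∀ᶠ B : ℝ in atTop,
    ∀ h : (domainSites (Metric.ball (0 : ℂ) B) a).Finite, NoHole h.toFinset := by
  have h1 := NoHolex65.eventually_noHole_toFinset (Nm1x422.isC2_ball 0 one_pos)
  have h2 : Tendsto (fun B : ℝ => a / B) atTop (𝓝[>] 0) := by
    refine tendsto_nhdsWithin_iff.2 ⟨tendsto_const_nhds.div_atTop tendsto_id, ?_⟩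
    filter_upwards [eventually_gt_atTop (0 : ℝ)] with B hB
    exact div_pos ha hB
  filter_upwards [h2.eventually h1, eventually_gt_atTop (0 : ℝ)] with B h3 hB h
  have e : domainSites (Metric.ball (0 : ℂ) B) a = domainSites (Metric.ball (0 : ℂ) 1) (a / B) := by
    rw [Mastx541.domainSites_ball B a ha, Mastx541.domainSites_ball 1 (a / B) (div_pos ha hB)]
    congr 2
    field_simp
  have h' : (domainSites (Metric.ball (0 : ℂ) 1) (a / B)).Finite := by rw [← e]; exact h
  have e' : h.toFinset = h'.toFinset := by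
    ext z
    rw [h.mem_toFinset, h'.mem_toFinset, e]
  rw [e']
  exact h3 h'

/-- discs -/
theorem lk_disc {a : ℝ} (ha : 0 < a) : ∀ᶠ B : ℝ in atTop, ∀ (n : ℕ) (X : Fin n → ℤ × ℤ),
    Lk (Metric.ball (0 : ℂ) B) a BoundaryCondition.plus X := by
  filter_upwards [noHole_disc ha] with B hB n X
  have hfin : (domainSites (Metric.ball (0 : ℂ) B) a).Finite :=
    domainSites_finite Metric.isBounded_ball ha
  exact lk_plus hfin (hB hfin) X

/-! ### the expectations -/

section

variable (D : Set ℂ) (a : ℝ) (b : BoundaryCondition) (J lam : ℝ) (R : ℕ)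
  (V : Finset (ℤ × ℤ) → ℝ) (β : ℝ)

/-- the perturbation of the domain as an element of the eps-algebra (`1` for infinite volume) -/
def GD (h : (domainSites D a).Finite) : RR (EG ℤ) :=
  GT h.toFinset b (max R 1) (tpot J lam β V)

/-- the expectation in the background with the spins `X` -/
def EXf (h : (domainSites D a).Finite) {n : ℕ} (X : Fin n → ℤ × ℤ) (F : RR (EG ℤ)) : ℝ :=
  EG' (Cof (wD (isF b) D a X)) (TH (gw (wD (isF b) D a X)) (F * GD D a b J lam R V β h))

/-- the expectation without spins -/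
def E0f (h : (domainSites D a).Finite) : ℝ :=
  EG' (Cof (wDom (domainSites D a) (isF b))) (TH (gw (wDom (domainSites D a) (isF b)))
    (GD D a b J lam R V β h))

end

variable {D : Set ℂ} {a : ℝ} {b : BoundaryCondition} {J lam : ℝ} {R : ℕ}
  {V : Finset (ℤ × ℤ) → ℝ} {β : ℝ}

theorem GD_dep (h : (domainSites D a).Finite) (hb : b = BoundaryCondition.free)
    (hV : ∀ A, V A ≠ 0 → Even A.card) : DepOn h.toFinset (GD D a b J lam R V β h) := by
  subst hb
  exact GT_dep _ _ _ (tpot_even hV)

/-- **the link** -/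
theorem domMom_lk (hb : b ≠ BoundaryCondition.minus) (h : (domainSites D a).Finite) (hJ : J ≠ 0)
    (hV : TrInv V) (hr : Rng R V) (hev : ∀ A, V A ≠ 0 → Even A.card) {n m : ℕ} (x : Fin n → ℂ)
    (y : Fin m → ℂ) (j : Fin m → Fin 2) (c : Fin m → ℝ)
    (hx : Lk D a b (fun i => meshIndex a (x i))) (h0 : Lk D a b (fun i : Fin 0 => i.elim0))
    (hy : b = BoundaryCondition.free → ∀ k, meshIndex a (y k) ∈ domainSites D a ∧
      meshIndex a (y k) + unitVec (j k) ∈ domainSites D a) :
    domMom D a b J lam R V β x y j c * E0f D a b J lam R V β h =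
      spm0 D a b x * EXf D a b J lam R V β h (fun i => meshIndex a (x i))
        (obR (fun k => (meshIndex a (y k), j k)) c) := by
  rw [← spm0_eq]
  refine domMom_link D a b hb h hJ lam β R V hV hr hev x y j c _ _ ?_ ?_
  · refine hx.on h _ fun hbf => ?_
    refine DepOn.mul (obR_dep _ _ fun k => ?_) (GD_dep h hbf hev)
    exact ⟨h.mem_toFinset.2 (hy hbf k).1, h.mem_toFinset.2 (hy hbf k).2⟩
  · have h1 := h0.on h (GD D a b J lam R V β h) fun hbf => GD_dep h hbf hev
    rw [wD_nil] at h1
    exact h1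

theorem obR_nil (v : Fin 0 → EG ℤ) (c : Fin 0 → ℝ) : obR v c = 1 := by
  unfold obR
  simp

theorem spm_lk (hb : b ≠ BoundaryCondition.minus) (h : (domainSites D a).Finite) (hJ : J ≠ 0)
    (hV : TrInv V) (hr : Rng R V) (hev : ∀ A, V A ≠ 0 → Even A.card) {n : ℕ} (x : Fin n → ℂ)
    (hx : Lk D a b (fun i => meshIndex a (x i))) (h0 : Lk D a b (fun i : Fin 0 => i.elim0)) :
    spm D a b J lam R V β x * E0f D a b J lam R V β h =
      spm0 D a b x * EXf D a b J lam R V β h (fun i => meshIndex a (x i)) 1 := by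
  have h1 := domMom_lk (β := β) (lam := lam) hb h hJ hV hr hev x (![] : Fin 0 → ℂ) ![] ![] hx h0
    (fun _ k => k.elim0)
  rw [obR_nil] at h1
  exact h1

/-- positivity of the partition function -/
theorem E0_pos (h : (domainSites D a).Finite) (hev : ∀ A, V A ≠ 0 → Even A.card)
    (h0 : Lk D a b (fun i : Fin 0 => i.elim0)) : 0 < E0f D a b J lam R V β h := by
  have h1 := h0.on h (GD D a b J lam R V β h) fun hbf => GD_dep h hbf hev
  rw [wD_nil] at h1
  have hp0 : 0 < Nsum h.toFinset (wDom (domainSites D a) (isF b)) (fun _ => 1) := by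
    have := Nsum_pos D a b h (1 : RR (EG ℤ)) (fun s => by simp)
    simpa using this
  have hpG : 0 < Nsum h.toFinset (wDom (domainSites D a) (isF b))
      (fun s => TH (epsE s) (GD D a b J lam R V β h)) := by
    refine Nsum_pos D a b h _ fun s => ?_
    rw [GD, GT_eval h.toFinset b (max R 1) _ (tpot_even hev)]
    exact Real.exp_pos _
  rw [h1] at hpG
  exact (pos_iff_pos_of_mul_pos hpG).1 hp0

/-- positivity of the critical spin correlation -/
theorem spm0_pos (hb : b ≠ BoundaryCondition.minus) (h : (domainSites D a).Finite) {n : ℕ}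
    (x : Fin n → ℂ) (hpos : 0 < Nsum h.toFinset (wDom (domainSites D a) (isF b))
      (fun s => ∏ i, spinSign (s (meshIndex a (x i))))) : 0 < spm0 D a b x := by
  rw [← spm0_eq]
  have e2 : D0c D a b x (![] : Fin 0 → ℂ) ![] =
      Nsum h.toFinset (wDom (domainSites D a) (isF b))
        (fun s => ∏ i, spinSign (s (meshIndex a (x i)))) /
      Nsum h.toFinset (wDom (domainSites D a) (isF b)) (fun _ => 1) := by
    unfold D0c domMom
    rw [UDomCx420.domainExpect_N D a h b hb]
    congr 2
    funext s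
    simp [obs]
  have hp0 : 0 < Nsum h.toFinset (wDom (domainSites D a) (isF b)) (fun _ => 1) := by
    have := Nsum_pos D a b h (1 : RR (EG ℤ)) (fun s => by simp)
    simpa using this
  rw [e2]
  exact div_pos hpos hp0

theorem spm0_pos_plus (h : (domainSites D a).Finite) {n : ℕ} (x : Fin n → ℂ) :
    0 < spm0 D a BoundaryCondition.plus x := by
  refine spm0_pos (by simp) h x ?_
  have := UZsx420.pos_plus h.toFinset (fun i => meshIndex a (x i))
  rwa [h.coe_toFinset] at this

/-- the ratio -/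
theorem spm_ratio (hb : b ≠ BoundaryCondition.minus) (h : (domainSites D a).Finite) (hJ : J ≠ 0)
    (hV : TrInv V) (hr : Rng R V) (hev : ∀ A, V A ≠ 0 → Even A.card) {n : ℕ} (x : Fin n → ℂ)
    (hx : Lk D a b (fun i => meshIndex a (x i))) (h0 : Lk D a b (fun i : Fin 0 => i.elim0))
    (hp : spm0 D a b x ≠ 0) :
    spm D a b J lam R V β x / spm0 D a b x =
      EXf D a b J lam R V β h (fun i => meshIndex a (x i)) 1 / E0f D a b J lam R V β h := by
  have h1 := spm_lk (β := β) (lam := lam) hb h hJ hV hr hev x hx h0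
  have h2 := (E0_pos (J := J) (lam := lam) (R := R) (β := β) h hev h0).ne'
  rw [div_eq_div_iff hp h2, h1, mul_comm]

/-- the conditional ratio -/
theorem domMom_ratio (hb : b ≠ BoundaryCondition.minus) (h : (domainSites D a).Finite) (hJ : J ≠ 0)
    (hV : TrInv V) (hr : Rng R V) (hev : ∀ A, V A ≠ 0 → Even A.card) {n m : ℕ} (x : Fin n → ℂ)
    (y : Fin m → ℂ) (j : Fin m → Fin 2) (c : Fin m → ℝ)
    (hx : Lk D a b (fun i => meshIndex a (x i))) (h0 : Lk D a b (fun i : Fin 0 => i.elim0))
    (hy : b = BoundaryCondition.free → ∀ k, meshIndex a (y k) ∈ domainSites D a ∧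
      meshIndex a (y k) + unitVec (j k) ∈ domainSites D a)
    (hp : spm0 D a b x ≠ 0) :
    domMom D a b J lam R V β x y j c / spm D a b J lam R V β x =
      EXf D a b J lam R V β h (fun i => meshIndex a (x i))
        (obR (fun k => (meshIndex a (y k), j k)) c) /
      EXf D a b J lam R V β h (fun i => meshIndex a (x i)) 1 := by
  have h1 := spm_lk (β := β) (lam := lam) hb h hJ hV hr hev x hx h0
  have h2 := domMom_lk (β := β) (lam := lam) hb h hJ hV hr hev x y j c hx h0 hy
  have h3 := (E0_pos (J := J) (lam := lam) (R := R) (β := β) h hev h0).ne'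
  rw [← mul_div_mul_right _ _ h3, h1, h2, mul_div_mul_left _ _ hp]

/-! ### eventual forms -/

/-- everything for `C²` domains, small mesh -/
theorem ev_C2 (b : BoundaryCondition) {n m : ℕ} (hR : Rel b n) {D : Set ℂ}
    (hD : IsC2JordanDomain D) (x : Fin n → ℂ) (hx : ∀ i, x i ∈ D) (y : Fin m → ℂ)
    (j : Fin m → Fin 2) (hy : ∀ k, y k ∈ D) :
    ∀ᶠ a in 𝓝[>] (0 : ℝ), (domainSites D a).Finite ∧ Lk D a b (fun i => meshIndex a (x i)) ∧
      Lk D a b (fun i : Fin 0 => i.elim0) ∧ 0 < spm0 D a b x ∧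
      ∀ k, meshIndex a (y k) ∈ domainSites D a ∧
        meshIndex a (y k) + unitVec (j k) ∈ domainSites D a := by
  have hR0 : Rel b 0 := by
    rcases hR with rfl | ⟨rfl, -⟩
    · exact Or.inl rfl
    · exact Or.inr ⟨rfl, Even.zero⟩
  have h0 := lk_C2 b 0 hR0 hD (fun i : Fin 0 => i.elim0) (fun i => i.elim0)
  have hm : ∀ k, ∀ᶠ a in 𝓝[>] (0 : ℝ), meshIndex a (y k) ∈ domainSites D a := by
    intro k
    simpa using UKerx420.eventually_mem (isOpen_of_C2 hD) (hy k) 0
  have hm' : ∀ k, ∀ᶠ a in 𝓝[>] (0 : ℝ), meshIndex a (y k) + unitVec (j k) ∈ domainSites D a :=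
    fun k => UKerx420.eventually_mem (isOpen_of_C2 hD) (hy k) _
  filter_upwards [lk_C2 b n hR hD x hx, h0, UZsx420.ev_pos b n hR hD x hx, eventually_all.2 hm,
    eventually_all.2 hm', self_mem_nhdsWithin] with a h1 h2 h3 h4 h5 ha
  have hfin : (domainSites D a).Finite := domainSites_finite (bounded_of_C2 hD) ha
  have e : (fun i : Fin 0 => meshIndex a (i.elim0 : ℂ)) = (fun i : Fin 0 => i.elim0) := by
    funext i; exact i.elim0
  refine ⟨hfin, h1, e ▸ h2, ?_, fun k => ⟨h4 k, h5 k⟩⟩
  exact spm0_pos (UFinx420.rel_ne_minus hR) hfin x (h3 hfin)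

/-- everything for large discs, plus -/
theorem ev_disc {a : ℝ} (ha : 0 < a) : ∀ᶠ B : ℝ in atTop,
    (domainSites (Metric.ball (0 : ℂ) B) a).Finite ∧
    ∀ (n : ℕ) (x : Fin n → ℂ), Lk (Metric.ball (0 : ℂ) B) a .plus (fun i => meshIndex a (x i)) ∧
      Lk (Metric.ball (0 : ℂ) B) a .plus (fun i : Fin 0 => i.elim0) ∧
      0 < spm0 (Metric.ball (0 : ℂ) B) a .plus x := by
  filter_upwards [lk_disc ha] with B hB
  have hfin : (domainSites (Metric.ball (0 : ℂ) B) a).Finite :=
    domainSites_finite Metric.isBounded_ball ha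
  exact ⟨hfin, fun n x => ⟨hB _ _, hB _ _, spm0_pos_plus hfin x⟩⟩

end Crest.Agent.R165.JDomAx606
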