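import Crest.Agent.R165.Fin2_315
import Crest.Agent.R165.FrDom_887
import Crest.Agent.R165.JDomA_606
import Crest.Agent.R165.CovT_359
import Crest.Agent.R165.Cov2_359
import Crest.Agent.R165.TorGapB_63
import Crest.Agent.R165.TorChart_723

/-!
# Row 165 (S0250): covariance packages of the concrete backgrounds (helper359)

`Pkg w m` = everything that `GSysOK_439.total_sys`, `FRDRest_439.restC_gram`, `gr_step_le_wU`,
`Fin2_315` (`runOf`, `fin_bound_sys`) use of a finite-volume background `w` with gap `m`: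
existence and uniqueness of the covariance, finite columns, `|w| ≤ 1`, gap.

* `pkg_plus`, `pkg_plus_dom`, `pkg_plus_bdd` : plus boundary condition, any insertions: gap
  `c a / B` for the sites of `D ⊆ ball 0 B` at mesh `a ≤ B`, `c` absolute (domains and discs)
* `pkg_free0_dom` : free, no insertion; `pkg_free_dom` : free with `n` (even) insertions
* `pkg_tor` : torus sectors `wTor M ε₁ ε₂`, `(ε₁, ε₂) ≠ (1, 1)`
-/

set_option autoImplicit false
set_option linter.unusedSectionVars false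

noncomputable section

open Filter Topology Finset
open Crest.ProbabilityR.IsingModel

namespace Crest.Agent.R165.CovPkgx359

open Crest.Agent.R165.Gr0x606 Crest.Agent.R165.PNormx417 Crest.Agent.R165.Covx359
  Crest.Agent.R165.FRDAbsx439
  Crest.Agent.R165.FRDPolyx439 Crest.Agent.R165.FRDInfx439 Crest.Agent.R165.FRDLatx439
  Crest.Agent.R165.FRDRestx439 Crest.Agent.R165.Fin1x315 Crest.Agent.R165.Fin2x315
open Crest.Agent.R165.Latx683 (BW HE Aop IsCov Fld covS wX wDom)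
open Crest.Agent.R165.GDefx387 (l2)
open Crest.Agent.R165.J2bx606 (FInv)
open Crest.Agent.R165.U5Px422 (TT mem_TT LApp Conf SpinOut)
open Crest.Agent.R165.FrFinx887 (CG CF FSH)
open Crest.Agent.R165.UKerx420 (wD Sof Sof_spec Sof_skew)

section gen

variable {G : Type} [CommRing G] [GDefx387.CN G] [DecidableEq G]

/-- covariance package of a finite-volume background -/
structure Pkg (w : BW G) (m : ℝ) : Prop where
  ex : ∃ S, IsCov w S
  finv : ∀ S, IsCov w S → FInv (un w) S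
  bdd : ∀ z j, |w z j| ≤ 1
  mpos : 0 < m
  l2le : ∀ f : Fld G, l2 (f : HE G → ℝ) ≤ m⁻¹ * l2 (Aop w (f : HE G → ℝ))

theorem Pkg.of_finv {w : BW G} {m : ℝ} {S : HE G → HE G → ℝ} (hS : FInv (un w) S)
    (hb : ∀ z j, |w z j| ≤ 1) (hm : 0 < m)
    (hg : ∀ f : Fld G, l2 (f : HE G → ℝ) ≤ m⁻¹ * l2 (Aop w (f : HE G → ℝ))) : Pkg w m :=
  ⟨⟨S, isCov_of_finv hS⟩, fun _ h => finv_of_isCov hS h, hb, hm, hg⟩

variable {w : BW G} {m : ℝ} (P : Pkg w m)

include P

theorem Pkg.mono {m' : ℝ} (hm : 0 < m') (h : m' ≤ m) : Pkg w m' :=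
  ⟨P.ex, P.finv, P.bdd, hm, fun f => (P.l2le f).trans
    (mul_le_mul_of_nonneg_right (inv_anti₀ hm h) (Real.sqrt_nonneg _))⟩

/-- the covariance is unique -/
theorem Pkg.uniq {S S' : HE G → HE G → ℝ} (h : IsCov w S) (h' : IsCov w S') : S = S' :=
  isCov_eq_of_finv (P.finv S' h') h

/-- finite columns -/
theorem Pkg.fin {S : HE G → HE G → ℝ} (h : IsCov w S) (k : HE G) : {i | S i k ≠ 0}.Finite :=
  (P.finv S h).fin k

/-- the data of `Fin2_315` (`runOf`, `fin_bound_sys`, ..) -/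
theorem Pkg.inv [BgIsox432.CNZ G] {S : HE G → HE G → ℝ} (h : IsCov w S) : Inv w S :=
  Inv.of_isCov h (P.fin h)

/-- the gap in the form of `restC_gram`, `gr_step_le_wU` -/
theorem Pkg.gap : ABtw (preF (HE G)) (AopF w) (m ^ 2) 16 := by
  have h := abtw_of_gap P.bdd (inv_pos.2 P.mpos) P.l2le
  rwa [inv_inv] at h

theorem Pkg.gap0 : ABtw (preF (HE G)) (AopF w) 0 16 := AopF_bdd w P.bdd

/-- the gap with an external length `R`: `|f| ≤ Cg R |A f|` -/
theorem Pkg.gapR {Cg R : ℝ} (h : m⁻¹ ≤ Cg * R) (f : Fld G) :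
    l2 (f : HE G → ℝ) ≤ Cg * R * l2 (Aop w (f : HE G → ℝ)) :=
  (P.l2le f).trans (mul_le_mul_of_nonneg_right h (Real.sqrt_nonneg _))

/-- Gram bound of the last covariance -/
theorem Pkg.rest_gram {S : HE G → HE G → ℝ} (h : IsCov w S) {M K : ℕ} (D : FRD 16 M K) (J : ℕ) :
    Gram (restC D h.skew h.inv (P.fin h) J) (gr D w m J) :=
  restC_gram D h.skew h.inv (P.fin h) P.mpos P.gap J

end gen

/-- the canonical covariance of `UKer_420` -/
theorem Pkg.sof {w : BW ℤ} {m : ℝ} (P : Pkg w m) : Inv w (Sof w) := P.inv (Sof_spec P.ex)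

theorem Pkg.sof_eq {w : BW ℤ} {m : ℝ} (P : Pkg w m) {S : HE ℤ → HE ℤ → ℝ} (h : IsCov w S) :
    Sof w = S := P.uniq (Sof_spec P.ex) h

theorem Pkg.cof_eq {w : BW ℤ} {m : ℝ} (P : Pkg w m) {S : HE ℤ → HE ℤ → ℝ} (h : IsCov w S) :
    UKerx420.Cof w = covS S h.skew := by
  have h1 := P.sof_eq h
  unfold UKerx420.Cof
  congr 1

/-! ### plus boundary condition -/

theorem fsh (f : Fld ℤ) : FSH (f : HE ℤ → ℝ) := f.hasFiniteSupport

theorem CG_pos {r : ℝ} (hr : 0 ≤ r) : 0 < CG r := by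
  have : (0 : ℝ) ≤ PlGapx887.CQ := by unfold PlGapx887.CQ; norm_num
  unfold CG; positivity

theorem exists_finv_plus' {n : ℕ} (T : Finset (ℤ × ℤ)) (X : Fin n → ℤ × ℤ) :
    ∃ S, FInv (un (wX (wDom (T : Set (ℤ × ℤ)) false) X)) S := by
  obtain ⟨S, -, h, -⟩ := exists_isCov_plus T X
  exact ⟨S, h⟩

theorem bdd_plus {n : ℕ} (T : Finset (ℤ × ℤ)) (X : Fin n → ℤ × ℤ) (z : ℤ × ℤ) (j : Fin 2) :
    |wX (wDom (T : Set (ℤ × ℤ)) false) X z j| ≤ 1 := (abs_wX_plus_lt T X (z, j)).le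

/-- **plus**, sites in a box of radius `r`, any insertions -/
theorem pkg_plus {n : ℕ} (T : Finset (ℤ × ℤ)) (X : Fin n → ℤ × ℤ) {c : ℤ × ℤ} {r : ℝ} (hr : 0 ≤ r)
    (hE : ∀ f ∈ T, |((f.1 : ℝ) - (c.1 : ℝ))| ≤ r ∧ |((f.2 : ℝ) - (c.2 : ℝ))| ≤ r) :
    Pkg (wX (wDom (T : Set (ℤ × ℤ)) false) X) (CG (r + 1))⁻¹ := by
  obtain ⟨S, hS⟩ := exists_finv_plus' T X
  refine Pkg.of_finv hS (bdd_plus T X) (inv_pos.2 (CG_pos (by linarith))) fun f => ?_
  rw [inv_inv]
  exact FrFinx887.plus_gap_box X hr hE (fsh f)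

/-- absolute constant of the plus gap -/
def cPl : ℝ := (PlGapx887.CQ * 25 + 3)⁻¹

theorem cPl_pos : 0 < cPl := by
  have : (0 : ℝ) ≤ PlGapx887.CQ := by unfold PlGapx887.CQ; norm_num
  unfold cPl; positivity

theorem CG_le {r : ℝ} (hr : 1 ≤ r) : CG (r + 1) ≤ r / cPl := by
  have : (0 : ℝ) ≤ PlGapx887.CQ := by unfold PlGapx887.CQ; norm_num
  unfold CG cPl
  rw [div_inv_eq_mul]
  nlinarith [mul_nonneg this (show (0 : ℝ) ≤ r - 1 by linarith)]

/-- **plus**, the sites of `D` at mesh `a`: `D ⊆ closedBall 0 B`, `a ≤ B`, any insertions; absolute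
constant (domains and discs) -/
theorem pkg_plus_D {D : Set ℂ} {B a : ℝ} (hD : ∀ z ∈ D, ‖z‖ ≤ B) (ha : 0 < a) (haB : a ≤ B)
    {n : ℕ} (X : Fin n → ℤ × ℤ) : Pkg (wD false D a X) (cPl * a / B) := by
  have hfin : (domainSites D a).Finite := by
    refine Redx541.domainSites_finite ?_ ha
    exact (Metric.isBounded_closedBall (x := (0 : ℂ)) (r := B)).subset fun z hz => by
      rw [mem_closedBall_zero_iff]; exact hD z hz
  have hB : 0 < B := ha.trans_le haB
  have h1 : (1 : ℝ) ≤ B / a := by rw [le_div_iff₀ ha]; linarith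
  have hE : ∀ f ∈ hfin.toFinset, |((f.1 : ℝ) - (((0, 0) : ℤ × ℤ).1 : ℝ))| ≤ B / a ∧
      |((f.2 : ℝ) - (((0, 0) : ℤ × ℤ).2 : ℝ))| ≤ B / a := fun f hf =>
    GapFinx40.sites_le hD ha f (hfin.mem_toFinset.1 hf)
  have h2 := pkg_plus hfin.toFinset X (by positivity) hE
  rw [hfin.coe_toFinset] at h2
  refine h2.mono (by have := cPl_pos; positivity) ?_
  have h3 := CG_le h1
  have h4 := CG_pos (r := B / a + 1) (by positivity)
  rw [le_inv_comm₀ (by have := cPl_pos; positivity) h4, inv_div]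
  calc CG (B / a + 1) ≤ B / a / cPl := h3
    _ = B / (cPl * a) := by rw [div_div, mul_comm]

/-- **plus**, bounded domains, uniform in the mesh -/
theorem pkg_plus_dom {D : Set ℂ} (hD : Bornology.IsBounded D) : ∃ c : ℝ, 0 < c ∧
    ∀ a : ℝ, 0 < a → a ≤ 1 → ∀ {n : ℕ} (X : Fin n → ℤ × ℤ), Pkg (wD false D a X) (c * a) := by
  obtain ⟨M, hM⟩ := hD.exists_norm_le
  have hB : ∀ z ∈ D, ‖z‖ ≤ |M| + 1 := fun z hz => (hM z hz).trans
    ((le_abs_self M).trans (by linarith))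
  refine ⟨cPl / (|M| + 1), div_pos cPl_pos (by positivity), fun a ha ha1 n X => ?_⟩
  have := pkg_plus_D hB ha (ha1.trans (by linarith [abs_nonneg M])) X
  rwa [mul_div_right_comm] at this

/-- **plus discs** -/
theorem pkg_disc {B a : ℝ} (ha : 0 < a) (haB : a ≤ B) {n : ℕ} (X : Fin n → ℤ × ℤ) :
    Pkg (wD false (Metric.ball (0 : ℂ) B) a X) (cPl * a / B) :=
  pkg_plus_D (fun z hz => by rw [mem_ball_zero_iff] at hz; exact hz.le) ha haB X

/-! ### free boundary condition -/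

theorem bdd_free {n : ℕ} (T : Set (ℤ × ℤ)) (X : Fin n → ℤ × ℤ) (z : ℤ × ℤ) (j : Fin 2) :
    |wX (wDom T true) X z j| ≤ 1 := by
  have h1 : |Latx683.ray X z j| = 1 := by
    rw [ray_eq]; exact abs_cut X (z, j)
  have h2 : |wDom T true z j| ≤ 1 := by
    classical
    unfold wDom
    simp only [if_true]
    split_ifs
    · rw [abs_of_pos Covx359.xc_pos]; exact Covx359.xc_lt_one.le
    · simp
  unfold wX
  rw [abs_mul, h1, one_mul]
  exact h2

open Crest.Agent.R165.UDomCx420 (Nsum) in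
/-- positivity of the free spin sums, all insertions, small mesh -/
theorem ev_pos_free {D : Set ℂ} (hD : IsC2JordanDomain D) :
    ∀ᶠ a in 𝓝[>] (0 : ℝ), ∀ h : (domainSites D a).Finite, ∀ {n : ℕ}, Even n →
      ∀ X : Fin n → ℤ × ℤ, (∀ i, X i ∈ domainSites D a) →
      0 < Nsum h.toFinset (wDom (domainSites D a) true) (fun s => ∏ i, spinSign (s (X i))) := by
  rcases D.eq_empty_or_nonempty with he | hne
  · refine Eventually.of_forall fun a h n hn X hX => ?_
    have := UZsx420.pos_free h.toFinset (fun u hu v hv => ?_) hn X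
      (fun i => h.mem_toFinset.2 (hX i))
    · rwa [h.coe_toFinset] at this
    · rw [Set.Finite.mem_toFinset, he] at hu
      exact absurd hu (by simp [domainSites])
  · obtain ⟨r, M, hCD⟩ := Crest.Agent.R165.GeoCx65.exists_CD hD hne
    obtain ⟨C, hC⟩ := hCD.join
    filter_upwards [hC] with a ha h n hn X hX
    have := UZsx420.pos_free h.toFinset (fun u hu v hv => ?_) hn X
      (fun i => h.mem_toFinset.2 (hX i))
    · rwa [h.coe_toFinset] at this
    · obtain ⟨k, -, hk⟩ := ha u (h.mem_toFinset.1 hu) v (h.mem_toFinset.1 hv)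
      rw [h.coe_toFinset]
      exact hk.joinIn

open Crest.Agent.R165.UDomCx420 (Nsum) in
/-- free package from a gap -/
theorem pkg_free_of {T : Finset (ℤ × ℤ)} {n : ℕ} (hn : Even n) {X : Fin n → ℤ × ℤ}
    (hX : ∀ i, X i ∈ T)
    (hpos : 0 < Nsum T (wDom (T : Set (ℤ × ℤ)) true) (fun s => ∏ i, spinSign (s (X i))))
    {m : ℝ} (hm : 0 < m) (hg : ∀ φ : HE ℤ → ℝ, FSH φ →
      l2 φ ≤ m⁻¹ * l2 (Aop (wX (wDom (T : Set (ℤ × ℤ)) true) X) φ)) :
    Pkg (wX (wDom (T : Set (ℤ × ℤ)) true) X) m := by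
  obtain ⟨S, hS⟩ := J2gx606.exists_finv_wfree T hn X hX hpos.ne'
  exact Pkg.of_finv (S := S) hS (bdd_free _ X) hm fun f => hg _ (fsh f)

theorem TT_coe {D : Set ℂ} (hD : Bornology.IsBounded D) {a : ℝ} (ha : 0 < a) :
    ((TT D a : Finset (ℤ × ℤ)) : Set (ℤ × ℤ)) = domainSites D a := by
  ext z
  rw [Finset.mem_coe, mem_TT hD ha]
  rfl

/-- **free, `n` (even) insertions**, `C²` domains, small mesh -/
theorem pkg_free_dom {n : ℕ} (hn : Even n) (hP : SpinOut .plus 1) (hF : SpinOut .free n)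
    {D : Set ℂ} (hD : IsC2JordanDomain D) {x : Fin n → ℂ} (hx : x ∈ Conf D n)
    {u : ℝ → Fin n → ℤ × ℤ} (hu : LApp u x) :
    ∃ c : ℝ, 0 < c ∧ ∀ᶠ a in 𝓝[>] (0 : ℝ), Pkg (wD true D a (u a)) (c * a) := by
  have hb : Bornology.IsBounded D := Redx541.bounded_of_C2 hD
  have hO : IsOpen D := Crest.Agent.R165.Red2x541.isOpen_of_C2 hD
  obtain ⟨C, hC, h⟩ := FrDomx887.gap_free hP hF hD hx hu
  refine ⟨C⁻¹, inv_pos.2 hC, ?_⟩
  filter_upwards [h, ev_pos_free hD, hu.mem hb hO hx.1, self_mem_nhdsWithin] with a h1 h2 h3 ha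
  have ha : 0 < a := ha
  have hfin : (domainSites D a).Finite := Redx541.domainSites_finite hb ha
  have e := TT_coe hb ha
  have e2 : TT D a = hfin.toFinset := by
    ext z; rw [hfin.mem_toFinset, ← e, Finset.mem_coe]
  have h4 := h2 hfin hn (u a) (fun i => by rw [← e]; exact h3 i)
  rw [← e2, ← e] at h4
  have h5 := pkg_free_of hn h3 h4 (m := C⁻¹ * a) (by positivity) (fun φ hφ => by
    have := h1 φ hφ
    rwa [mul_inv, inv_inv, ← div_eq_mul_inv])
  rw [e] at h5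
  exact h5

/-- **free without insertion**, bounded domains, all meshes -/
theorem pkg_free0_dom {D : Set ℂ} (hD : Bornology.IsBounded D) : ∃ c : ℝ, 0 < c ∧
    ∀ a : ℝ, 0 < a → a ≤ 1 → ∀ X : Fin 0 → ℤ × ℤ, Pkg (wD true D a X) (c * a) := by
  obtain ⟨R, hR0, hR⟩ := FrDomx887.TT_box hD
  refine ⟨(|CF 0 R 1 1| + 1)⁻¹, by positivity, fun a ha ha1 X => ?_⟩
  have hfin : (domainSites D a).Finite := Redx541.domainSites_finite hD ha
  have e := TT_coe hD ha
  have hpos : 0 < UDomCx420.Nsum (TT D a) (wDom ((TT D a : Finset (ℤ × ℤ)) : Set (ℤ × ℤ)) true)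
      (fun s => ∏ i, spinSign (s (X i))) := by
    have e2 : TT D a = hfin.toFinset := by
      ext z; rw [hfin.mem_toFinset, ← e, Finset.mem_coe]
    have h1 := J4Lnkx653.Nsum_pos D a BoundaryCondition.free hfin
      (1 : J4RRx653.RR (J1ax606.EG ℤ)) (fun s => by simp)
    rw [← e2, ← e] at h1
    simpa [UFinx420.isF] using h1
  have h5 := pkg_free_of (X := X) Even.zero (fun i => i.elim0) hpos
    (m := (|CF 0 R 1 1| + 1)⁻¹ * a) (by positivity) (fun φ hφ => by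
      obtain ⟨S, hS⟩ := FrDomx887.exists_star (TT D a) X
      have h6 := FrFinx887.free_gap_box (n := 0) (X := X) (fun i => i.elim0)
        (fun i => i.elim0) (c := (0, 0)) (r := R / a) (by positivity) (hR a ha)
        (ρ := 1 / a) (by positivity) (fun i => i.elim0) one_pos S hS.inv (by simp) hφ
      refine h6.trans (mul_le_mul_of_nonneg_right ?_ (Real.sqrt_nonneg _))
      refine (FrDomx887.CF_scale hR0.le ha ha1 one_pos one_pos).trans ?_
      rw [mul_inv, inv_inv, ← div_eq_mul_inv]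
      refine div_le_div_of_nonneg_right ?_ ha.le
      have := le_abs_self (CF 0 R 1 1)
      linarith)
  rw [e] at h5
  exact h5

/-! ### torus sectors -/

section torus

variable (M : ℕ) [NeZero M]

/-- sector weights in the notations of 599 and 723 -/
theorem wTor_eq_wS (ε₁ ε₂ : ℝ) :
    TorChartx723.wTor M ε₁ ε₂ = TorDetx599.wS M Latx683.xc ε₁ ε₂ := by
  funext z j
  unfold TorChartx723.wTor TorDetx599.wS
  rw [mul_comm]

/-- sector weights in the notations of 723 and `CovT_359` -/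
theorem wTor_eq_wT (s : Fin 2 × Fin 2) :
    TorChartx723.wTor M (if s.2 = 0 then 1 else -1) (if s.1 = 0 then 1 else -1) = wT M s := by
  rw [wTor_eq_wS, ← TorBrx599.sec_eq]
  rfl

theorem sign_cases {ε : ℝ} (h : ε * ε = 1) : ∃ i : Fin 2, ε = if i = 0 then 1 else -1 := by
  rcases mul_self_eq_one_iff.1 h with h | h
  · exact ⟨0, by simp [h]⟩
  · exact ⟨1, by simp [h]⟩

theorem l2_fin (φ : HE (ZMod M) → ℝ) : l2 φ = Real.sqrt (TorGapBx63.n2 φ) := by
  unfold l2 TorGapBx63.n2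
  rw [tsum_fintype]

theorem Kg_pos : 0 < TorGapBx63.Kg := TorGapBx63.Kg_pos

/-- **the torus sectors `AA`, `AP`, `PA`** -/
theorem pkg_tor {ε₁ ε₂ : ℝ} (h₁ : ε₁ * ε₁ = 1) (h₂ : ε₂ * ε₂ = 1) (h : ε₁ = -1 ∨ ε₂ = -1) :
    Pkg (TorChartx723.wTor M ε₁ ε₂) (TorGapBx63.Kg * M)⁻¹ := by
  have hM : (0 : ℝ) < M := by exact_mod_cast Nat.pos_of_ne_zero (NeZero.ne M)
  obtain ⟨i, hi⟩ := sign_cases h₁
  obtain ⟨j, hj⟩ := sign_cases h₂
  have hs : ((j, i) : Fin 2 × Fin 2) ≠ (0, 0) := by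
    intro hc
    have h3 : j = 0 := congrArg Prod.fst hc
    have h4 : i = 0 := congrArg Prod.snd hc
    subst h3 h4
    simp only [if_true] at hi hj
    rcases h with h | h <;> linarith
  have e : TorChartx723.wTor M ε₁ ε₂ = wT M (j, i) := by
    rw [← wTor_eq_wT, hi, hj]
  obtain ⟨S, -, hS, -⟩ := exists_isCov_torus M (j, i) hs
  rw [← e] at hS
  refine Pkg.of_finv hS ?_ (inv_pos.2 (mul_pos Kg_pos hM)) fun f => ?_
  · intro z k
    have hx : |Latx683.xc| ≤ 1 := by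
      rw [abs_of_pos Covx359.xc_pos]; exact Covx359.xc_lt_one.le
    have a1 : |ε₁| = 1 := by
      rcases mul_self_eq_one_iff.1 h₁ with h | h <;> simp [h]
    have a2 : |ε₂| = 1 := by
      rcases mul_self_eq_one_iff.1 h₂ with h | h <;> simp [h]
    unfold TorChartx723.wTor
    rw [abs_mul]
    split_ifs <;> simp [a1, a2, hx]
  · rw [inv_inv, l2_fin, l2_fin]
    have h5 := TorGapBx63.gap_anti (M := M) (a := ε₁) (b := ε₂) (by rw [sq]; exact h₁)
      (by rw [sq]; exact h₂) h (f : HE (ZMod M) → ℝ)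
    have e2 : TorGapBx63.wT M ε₁ ε₂ = TorChartx723.wTor M ε₁ ε₂ := by
      rw [wTor_eq_wS]; rfl
    rw [e2] at h5
    have h6 := Real.sqrt_le_sqrt h5
    rwa [Real.sqrt_mul (sq_nonneg _), Real.sqrt_sq (mul_pos Kg_pos hM).le] at h6

end torus

end Crest.Agent.R165.CovPkgx359
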