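import Crest.Agent.R165.XBd2_915
import Crest.Agent.R165.StrS_897
import Crest.Agent.R165.Out_683
import Crest.Agent.R165.Const_891
import Crest.Agent.R165.DiscK_892

/-!
# Row 165, discs (D5): `StepOK` for the crude steps (helper915)

At a crude step the amplitude drops by the factor `2 √(2^p)`; no geometry is used.

* `StepOK.mono_ac`
* `CrOK c` : the numerical conditions on the constants, `ev_crOK : EvC CrOK`
* `CFcr c` : the constant (depends on `p` only), `CFcr_ne_top`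
* `stepOK_cr` : `StepOK` for every background with `|w| ≤ 1`, every marks, every initial activities
* `stepOK_aD` : the crude steps of the amplitudes `aD` of 892 (`q = 2 √(2^p)`)
-/

set_option autoImplicit false
set_option linter.unusedSectionVars false

noncomputable section

open scoped ENNReal
open Filter Topology
open Crest.Agent.R165.Gr0x606 Crest.Agent.R165.Gr1x606 Crest.Agent.R165.GeOpsx337
  Crest.Agent.R165.KFlowx337 Crest.Agent.R165.GrLocx337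
open Crest.Agent.R165.Latx683 Crest.Agent.R165.PNormx417 Crest.Agent.R165.GDefx387
open Crest.Agent.R165.FRDPolyx439 Crest.Agent.R165.FRDLatx439
open Crest.Agent.R165.BgIsox432 Crest.Agent.R165.Bridgex915 Crest.Agent.R165.DefRecx915
  Crest.Agent.R165.GSysx387 Crest.Agent.R165.GSysOKx439
open Crest.Agent.R165.Compx889 Crest.Agent.R165.W0Sx897 Crest.Agent.R165.StepGluex897
open Crest.Agent.R165.StrSx897 Crest.Agent.R165.PEndx683 Crest.Agent.R165.Outx683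
open Crest.Agent.R165.Constx891 Crest.Agent.R165.XBdx915 Crest.Agent.R165.DiscPhx892

namespace Crest.Agent.R165.CrudeDx915

section mono

variable {G : Type} [CommRing G] [CN G] [DecidableEq G]

/-- fewer active polymers -/
theorem StepOK.mono_ac {D : Sys (G × G) (Fld G)} {w : BW G} {Γ : ℝ≥0∞} {k : ℕ} {a a' : ℝ}
    {r r' : ℕ} {ac ac' em : Finset (G × G) → Prop} {κ₀ CF : ℝ≥0∞}
    (h : StepOK D w Γ k a a' r r' ac em κ₀ CF) (hac : ∀ U, ac' U → ac U) :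
    StepOK D w Γ k a a' r r' ac' em κ₀ CF := by
  obtain ⟨κ, hκ, A, m, N, q, qL, qT, CX, H, hX, h1, h2⟩ := h
  refine ⟨κ, hκ, A, m, N, q, qL, qT, CX, ?_, fun U hU => hX U (hac U hU), h1, h2⟩
  exact
    { count := H.count
      q_ne := H.q_ne
      qL_ne := H.qL_ne
      qT_ne := H.qT_ne
      large := fun U hU => H.large U (hac U hU)
      small := fun U hU => H.small U (hac U hU)
      any := fun U hU => H.any U (hac U hU) }

/-- larger constants -/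
theorem StepOK.mono_CF {D : Sys (G × G) (Fld G)} {w : BW G} {Γ : ℝ≥0∞} {k : ℕ} {a a' : ℝ}
    {r r' : ℕ} {ac em : Finset (G × G) → Prop} {κ₀ κ₁ CF CF' : ℝ≥0∞}
    (h : StepOK D w Γ k a a' r r' ac em κ₀ CF) (hκ : κ₀ ≤ κ₁) (hCF : CF ≤ CF') :
    StepOK D w Γ k a a' r r' ac em κ₁ CF' := by
  obtain ⟨κ, hκ', A, m, N, q, qL, qT, CX, H, hX, h1, h2⟩ := h
  exact ⟨κ, hκ', A, m, N, q, qL, qT, CX, H, hX, h1.trans hκ, h2.trans hCF⟩

end mono

/-- the numerical conditions of the crude steps -/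
structure CrOK (c : Cst) : Prop where
  h10 : 10 ≤ 2 ^ c.p
  hΓ : 3 ≤ c.Γ
  hr : 2 ≤ rr c.p c.k0 0
  hA : ∀ n, cW0 DD c.p c.k0 n ≤ c.A0
  hA2 : 2 * c0 DD.C c.p c.k0 ≤ c.A0

theorem ev_crOK : EvC CrOK := by
  have h1 := ev_p_ge 4
  have h2 := ev_Γ_ge 3
  have h3 := ev_k0_ge fun _ _ => 1
  have h4 := ev_A0_ge fun p _ k0 => cW0 DD p k0 0
  have h5 := ev_A0_ge fun p _ k0 => cW0 DD p k0 1
  have h6 := ev_A0_ge fun p _ k0 => 2 * c0 DD.C p k0
  refine (((((h1.and h2).and h3).and h4).and h5).and h6).mono fun c hc => ?_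
  obtain ⟨⟨⟨⟨⟨e1, e2⟩, e3⟩, e4⟩, e5⟩, e6⟩ := hc
  refine ⟨?_, e2, ?_, fun n => ?_, e6⟩
  · calc 10 ≤ 2 ^ 4 := by norm_num
      _ ≤ 2 ^ c.p := Nat.pow_le_pow_right (by norm_num) e1
  · unfold rr
    calc 2 = 2 ^ 1 := rfl
      _ ≤ 2 ^ (c.p * (c.k0 + 0)) := Nat.pow_le_pow_right (by norm_num) (by
          rw [add_zero]
          exact Nat.one_le_iff_ne_zero.2 (Nat.mul_ne_zero (by omega) (by omega)))
  · rcases Nat.eq_zero_or_pos n with hn | hn
    · rw [hn]; exact e4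
    · refine le_trans (le_of_eq ?_) e5
      unfold cW0
      rw [if_neg (by omega), if_neg (by omega)]

/-- the absolute constant of the extraction maps -/
def CXabs : ℝ≥0∞ := exists_xbd.choose

theorem CXabs_ne_top : CXabs ≠ ∞ := exists_xbd.choose_spec.1

theorem xbd_abs {G : Type} [CommRing G] [CN G] [CNZ G] [GoodG G]
    [DecidableEq G] {w : BW G} (hw : ∀ z j, |w z j| ≤ 1) {M K : ℕ} (D : FRD 16 M K)
    (hM : MM + 1 ≤ M) {mk : Finset (G × G)} {l k0 : ℕ} {K0 : Finset (G × G) → Ge (Fld G)}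
    (hOK : (sys D w mk l k0 K0).OK ⊥) (n : ℕ) {a a' : ℝ} (ha : 2 * c0 D.C l k0 ≤ a) (ha' : 0 < a')
    (haa : a' ≤ 2 * a) (ac : Finset (G × G) → Prop) :
    XBd w a a' (rr l k0 n) (rr l k0 (n + 1)) ac (sys D w mk l k0 K0) n CXabs :=
  exists_xbd.choose_spec.2 G w hw M K D hM mk l k0 K0 hOK n a a' ha ha' haa ac

/-- the constant of the crude steps -/
def CFcr (c : Cst) : ℝ≥0∞ := CS c.p CXabs

theorem CFcr_ne_top (c : Cst) : CFcr c ≠ ∞ := CS_ne_top c.p CXabs_ne_top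

theorem DD_M : MM + 1 ≤ 8 := by unfold MM; norm_num

section crude

variable {G : Type} [CommRing G] [CN G] [CNZ G] [GoodG G] [DecidableEq G] {w : BW G} {c : Cst}
  {mk : Finset (G × G)} {K0 : Finset (G × G) → Ge (Fld G)}

/-- **`StepOK` for a crude step**, every background with `|w| ≤ 1` -/
theorem stepOK_cr (hc : CrOK c) (hw : ∀ z j, |w z j| ≤ 1) (hOK : (sys DD w mk c.p c.k0 K0).OK ⊥)
    (n : ℕ) {a a' : ℝ} (ha' : c.A0 ≤ a')
    (hdrop : 2 * (a' * Real.sqrt (rr c.p c.k0 (n + 1))) ≤ a * Real.sqrt (rr c.p c.k0 n))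
    {ac : Finset (G × G) → Prop} (hne : ∀ U, ac U → U.Nonempty)
    (hcn : ∀ U, ac U → Packx915.Conn fd (nearR c.p c.k0 n) U) (em : Finset (G × G) → Prop) :
    StepOK (sys DD w mk c.p c.k0 K0) w (ENNReal.ofReal c.Γ) n a a' (rr c.p c.k0 n)
      (rr c.p c.k0 (n + 1)) ac em (CFcr c) (CFcr c) := by
  have hA0 : 0 < c.A0 := (by have := c0_pos DD.C_pos c.p c.k0; linarith [hc.hA2])
  have ha'0 : 0 < a' := hA0.trans_le ha'
  have hr1 : (0 : ℝ) < Real.sqrt (rr c.p c.k0 n) :=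
    Real.sqrt_pos.2 (by exact_mod_cast rr_pos c.p c.k0 n)
  have hr2 : Real.sqrt (rr c.p c.k0 n) ≤ Real.sqrt (rr c.p c.k0 (n + 1)) :=
    Real.sqrt_le_sqrt (by exact_mod_cast rr_mono c.p c.k0 (Nat.le_succ n))
  have haa : 2 * a' ≤ a := by
    have h1 : 2 * (a' * Real.sqrt (rr c.p c.k0 n)) ≤ a * Real.sqrt (rr c.p c.k0 n) :=
      le_trans (by gcongr) hdrop
    have h2 : (2 * a') * Real.sqrt (rr c.p c.k0 n) ≤ a * Real.sqrt (rr c.p c.k0 n) := by
      linarith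
    exact le_of_mul_le_mul_right h2 hr1
  have ha : c.A0 ≤ a := by linarith
  have hn : 2 ≤ rr c.p c.k0 n := hc.hr.trans (rr_mono c.p c.k0 (Nat.zero_le n))
  have h := stepOK_crude (F := DD) (l := c.p) (k0 := c.k0) (n := n) (mk := mk) (K0 := K0)
    (Ac := Set.univ) (CX := CXabs) (Γ := ENNReal.ofReal c.Γ) DD_M hw hc.h10 hn
    (by linarith) ha'0.le hdrop ((hc.hA n).trans ha') (by
      have h3 : (3 : ℝ≥0∞) = ENNReal.ofReal 3 := by norm_num
      rw [h3]; exact ENNReal.ofReal_le_ofReal hc.hΓ)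
    (xbd_abs hw DD DD_M hOK n (hc.hA2.trans ha) ha'0 (by linarith) _) em
  exact StepOK.mono_ac h fun U hU => ⟨hne U hU, hcn U hU, fun x _ => Set.mem_univ x⟩

/-- the drop of the amplitudes `aD` at the crude steps -/
theorem aD_drop {A₀ δ : ℝ} {K₁ K₂ k p k0 : ℕ} (hk : K₁ ≤ k) (hk2 : k < K₂) :
    2 * (aD A₀ δ (2 * Real.sqrt (2 ^ p)) K₁ K₂ (k + 1) * Real.sqrt (rr p k0 (k + 1))) =
      aD A₀ δ (2 * Real.sqrt (2 ^ p)) K₁ K₂ k * Real.sqrt (rr p k0 k) := by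
  have hs : (0 : ℝ) < Real.sqrt (2 ^ p) := Real.sqrt_pos.2 (by positivity)
  rw [aD_crude (by positivity) hk hk2, rr_succ]
  push_cast
  rw [Real.sqrt_mul (by positivity)]
  field_simp

/-- **(D5)**: the crude steps of a large disc -/
theorem stepOK_aD (hc : CrOK c) (hδ : 0 ≤ c.δ) (hw : ∀ z j, |w z j| ≤ 1)
    (hOK : (sys DD w mk c.p c.k0 K0).OK ⊥) {K₁ K₂ k : ℕ} (h12 : K₁ ≤ K₂)
    (hJ : (2 * Real.sqrt (2 ^ c.p)) ^ (K₂ - K₁) ≤ 1 + c.δ * K₁) (hk : K₁ ≤ k) (hk2 : k < K₂)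
    {ac : Finset (G × G) → Prop} (hne : ∀ U, ac U → U.Nonempty)
    (hcn : ∀ U, ac U → Packx915.Conn fd (nearR c.p c.k0 k) U) (em : Finset (G × G) → Prop) :
    StepOK (sys DD w mk c.p c.k0 K0) w (ENNReal.ofReal c.Γ) k
      (aD c.A0 c.δ (2 * Real.sqrt (2 ^ c.p)) K₁ K₂ k)
      (aD c.A0 c.δ (2 * Real.sqrt (2 ^ c.p)) K₁ K₂ (k + 1)) (rr c.p c.k0 k)
      (rr c.p c.k0 (k + 1)) ac em (CFcr c) (CFcr c) := by
  have hA0 : 0 < c.A0 := (by have := c0_pos DD.C_pos c.p c.k0; linarith [hc.hA2])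
  have hq : 1 ≤ 2 * Real.sqrt (2 ^ c.p) := by
    have : (1 : ℝ) ≤ Real.sqrt (2 ^ c.p) := by
      rw [← Real.sqrt_one]
      exact Real.sqrt_le_sqrt (one_le_pow₀ (by norm_num))
    linarith
  exact stepOK_cr hc hw hOK k (aD_ge h12 hA0.le hδ hq hJ (k + 1)) (aD_drop hk hk2).le hne hcn em

end crude

end Crest.Agent.R165.CrudeDx915
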