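import Crest.Agent.R165.DisL3_892
import Crest.Agent.R165.C0G_583

/-!
# Row 165 (S0250): the leaf `DisL3` as a theorem (helper892)

* `c0R`   : the initial activities with a real source are small (from helper583's `c0G`)
* `dis`   : **the leaf `DisL3`**, no hypothesis left
-/

set_option autoImplicit false

noncomputable section

open Crest.Agent.R165.Topx683 (VHyp)

namespace Crest.Agent.R165.DisLx892

theorem c0R (J : ℝ) (R : ℕ) (V : Finset (ℤ × ℤ) → ℝ) : DisGx892.C0R J R V := by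
  refine (C0Gx583.c0G J R V).mono fun c h C η hη => ?_
  obtain ⟨ε, hε, H⟩ := h C η hη
  refine ⟨ε, hε, fun lam β z hl hn Y hY S => ?_⟩
  obtain ⟨t0, ht0, H1⟩ := H Y.card S.card
  exact ⟨t0, ht0, fun t ht B hB src hs =>
    H1 lam β z t hl hn ht ℤ B hB Y S src hs hY le_rfl le_rfl B.w _⟩

/-- **the leaf `DisL3`** -/
theorem dis (J : ℝ) (hJ : 0 < J) (R : ℕ) (V : Finset (ℤ × ℤ) → ℝ) (hV : VHyp R V) :
    PTop4x683.DisL3 J R V := disL3 hJ hV (c0R J R V)

end Crest.Agent.R165.DisLx892
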