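import Crest.Agent.R165.FrDom_887
import Crest.Agent.R165.UJ4_420

/-!
# Row 165 (S0250): everything for the free backgrounds of a domain (helper887)

The free companion of `GapFin_40.dom_all`.

* `all_of_gap` : ANY background with `|w| ≤ 1`, a gap and an inverse with finite columns:
  uniqueness, two-sided bound of `A`, inverse on finitely supported fields, identification of the
  covariance of `FRDInf_439`, bound of the covariance
* `nsum_pos`   : the sum of `exists_finv_dom` is positive if `GB .free T X` is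
* `dom_all_free` : all this for the free background of a domain with `n` even insertions, for every
  lattice approximation, with gap constant `C / a`
* `dom_all_plus` : the same for plus
-/

set_option autoImplicit false
set_option linter.unusedSimpArgs false
set_option linter.unusedSectionVars false

noncomputable section

open Filter Topology Finset
open Crest.ProbabilityR.IsingModel

namespace Crest.Agent.R165.FrAllx887

open Crest.Agent.R165.FrFinx887 (FSH wSt)
open Crest.Agent.R165.FrDomx887 Crest.Agent.R165.GapFinx40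
open Crest.Agent.R165.U5Px422
open Crest.Agent.R165.Latx683 Crest.Agent.R165.GDefx387 Crest.Agent.R165.FRDAbsx439
  Crest.Agent.R165.FRDInfx439 Crest.Agent.R165.FRDLatx439 Crest.Agent.R165.Gr0x606
open Crest.Agent.R165.UDomCx420 (Nsum conf)

theorem fsh_coe (l : Latx683.Fld ℤ) : FSH (l : HE ℤ → ℝ) := l.finite_support

/-- the gap on finitely supported fields in the form of `FRDLat_439` -/
theorem gap_dot {w : BW ℤ} {m : ℝ} (hm : 0 ≤ m)
    (hgap : ∀ φ : HE ℤ → ℝ, FSH φ → l2 φ ≤ m * l2 (Aop w φ)) (l : Latx683.Fld ℤ) :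
    dotF (HE ℤ) l l ≤ m ^ 2 * dotF (HE ℤ) (AopF w l) (AopF w l) := by
  have h := hgap l (fsh_coe l)
  rw [← AopF_coe, l2_eq, l2_eq] at h
  have h2 := pow_le_pow_left₀ (Real.sqrt_nonneg _) h 2
  have e1 : 0 ≤ dotF (HE ℤ) l l := by
    have := (preF (HE ℤ)).nonneg l
    rwa [preF_ip] at this
  have e2 : 0 ≤ dotF (HE ℤ) (AopF w l) (AopF w l) := by
    have := (preF (HE ℤ)).nonneg (AopF w l)
    rwa [preF_ip] at this
  rw [mul_pow, Real.sq_sqrt e1, Real.sq_sqrt e2] at h2
  exact h2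

/-- **everything from a gap** -/
theorem all_of_gap {w : BW ℤ} (hw : ∀ z j, |w z j| ≤ 1) {m : ℝ} (hm : 0 < m)
    (hgap : ∀ φ : HE ℤ → ℝ, FSH φ → l2 φ ≤ m * l2 (Aop w φ))
    {S : HE ℤ → HE ℤ → ℝ} (hF : J2bx606.FInv (Covx359.un w) S) :
    ∃ (hS : IsCov w S) (hf : ∀ k, (Function.support fun h => S h k).Finite)
      (hN : IsNegInv (AopF w) (SF S hf)),
      (∀ S', IsCov w S' → S' = S) ∧
      ABtw (preF (HE ℤ)) (AopF w) ((m⁻¹) ^ 2) 16 ∧
      restS (AopF_asy w) hN 1 = covS S hS.skew ∧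
      ∀ l k, |formS S l k| ≤
        m * (Real.sqrt (dotF (HE ℤ) l l) * Real.sqrt (dotF (HE ℤ) k k)) := by
  have hS := Covx359.isCov_of_finv hF
  have hf : ∀ k, (Function.support fun h => S h k).Finite := hF.fin
  have hd := gap_dot hm.le hgap
  have hinj : ∀ l : Latx683.Fld ℤ, AopF w l = 0 → l = 0 := by
    intro l hl
    have h1 := hd l
    rw [hl] at h1
    by_contra hne
    have h2 := (preF (HE ℤ)).pos l hne
    rw [preF_ip] at h2
    simp only [map_zero, mul_zero] at h1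
    linarith
  have hN := isNegInv hS hf hinj
  refine ⟨hS, hf, hN, fun S' hS' => Covx359.isCov_eq_of_finv hF hS', fun l => ?_,
    restS_one_eq hS hf hN, fun l k => ?_⟩
  · refine ⟨?_, (AopF_bdd w hw l).2⟩
    rw [preF_ip, preF_ip, inv_pow, inv_mul_le_iff₀ (by positivity)]
    exact hd l
  · have h1 := hd (SF S hf k)
    rw [hN.right] at h1
    simp only [map_neg, LinearMap.neg_apply, neg_neg] at h1
    have h2 := ip_abs_le (preF (HE ℤ)) l (SF S hf k)
    rw [preF_ip, preF_ip, preF_ip, dot_SF] at h2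
    have h3 : Real.sqrt (dotF (HE ℤ) (SF S hf k) (SF S hf k))
        ≤ m * Real.sqrt (dotF (HE ℤ) k k) := by
      rw [← Real.sqrt_sq hm.le, ← Real.sqrt_mul (by positivity)]
      exact Real.sqrt_le_sqrt h1
    calc |formS S l k| ≤ Real.sqrt (dotF (HE ℤ) l l) *
          Real.sqrt (dotF (HE ℤ) (SF S hf k) (SF S hf k)) := h2
      _ ≤ Real.sqrt (dotF (HE ℤ) l l) * (m * Real.sqrt (dotF (HE ℤ) k k)) :=
          mul_le_mul_of_nonneg_left h3 (Real.sqrt_nonneg _)
      _ = _ := by ring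

/-! ### the free background -/

theorem wDom_pos (T : Set (ℤ × ℤ)) (z : ℤ × ℤ) (j : Fin 2) : 0 < wDom T true z j := by
  unfold wDom
  simp only [if_true]
  split_ifs
  · exact Covx359.xc_pos
  · exact one_pos

theorem abs_wX_le {n : ℕ} (T : Set (ℤ × ℤ)) (fr : Bool) (X : Fin n → ℤ × ℤ) (z : ℤ × ℤ) (j : Fin 2) :
    |wX (wDom T fr) X z j| ≤ 1 := by
  have h1 : |ray X z j| = 1 := by
    rw [← sq_eq_sq₀ (abs_nonneg _) zero_le_one, sq_abs, ray_sq, one_pow]
  rw [wX, abs_mul, h1, one_mul]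
  unfold wDom
  have h2 := Covx359.xc_pos
  have h3 := Covx359.xc_lt_one
  split_ifs
  · rw [abs_of_pos h2]; exact h3.le
  · simp
  · rw [abs_of_pos h2]; exact h3.le
  · simp

/-- positivity of the spin sum from positivity of the spin correlation -/
theorem nsum_pos {D : Set ℂ} (hD : Bornology.IsBounded D) {a : ℝ} (ha : 0 < a) {n : ℕ}
    {u : Fin n → ℤ × ℤ} (h : 0 < GB .free (TT D a) u) :
    0 < Nsum (TT D a) (wDom ((TT D a : Finset (ℤ × ℤ)) : Set (ℤ × ℤ)) true)
      (fun s => ∏ i, spinSign (s (u i))) := by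
  have hf := Redx541.domainSites_finite hD ha
  have hT : TT D a = hf.toFinset := by unfold TT; rw [dif_pos hf]
  have hc : ((TT D a : Finset (ℤ × ℤ)) : Set (ℤ × ℤ)) = domainSites D a := by
    rw [hT]; exact hf.coe_toFinset
  rw [← domainExpect_GB D hD ha .free (by decide) u,
    UDomCx420.domainExpect_N D a hf .free (by decide)] at h
  simp only [decide_true] at h
  rw [hc, hT]
  have h1 : 0 < Nsum hf.toFinset (wDom (domainSites D a) true) (fun _ => 1) := by
    unfold UDomCx420.Nsum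
    refine sum_pos (fun N _ => ?_) ⟨∅, by simp⟩
    rw [one_mul]
    exact prod_pos fun e _ => wDom_pos _ _ _
  exact (div_pos_iff_of_pos_right h1).1 h

/-- the spin correlation is eventually positive -/
theorem GB_free_pos {n : ℕ} (hF : SpinOut .free n) {D : Set ℂ} (hD : IsC2JordanDomain D)
    {x : Fin n → ℂ} (hx : x ∈ Conf D n) {u : ℝ → Fin n → ℤ × ℤ} (hu : LApp u x) :
    ∀ᶠ a in 𝓝[>] (0 : ℝ), 0 < GB .free (TT D a) (u a) := by
  obtain ⟨F, hF1, -⟩ := hF
  obtain ⟨h0, h1⟩ := hF1 D hD x hx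
  filter_upwards [(h1 u hu).eventually (lt_mem_nhds h0), self_mem_nhdsWithin] with a h2 ha
  have ha : 0 < a := ha
  have h3 : 0 < a ^ (-((n : ℝ) / 8)) := Real.rpow_pos_of_pos ha _
  exact (mul_pos_iff_of_pos_left h3).1 h2

/-- **everything for the free background of a domain** -/
theorem dom_all_free {n : ℕ} (hn : Even n) (hP : SpinOut .plus 1) (hF : SpinOut .free n)
    {D : Set ℂ} (hD : IsC2JordanDomain D) {x : Fin n → ℂ} (hx : x ∈ Conf D n)
    {u : ℝ → Fin n → ℤ × ℤ} (hu : LApp u x) :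
    ∃ C : ℝ, 0 < C ∧ ∀ᶠ a in 𝓝[>] (0 : ℝ), ∃ (S : HE ℤ → HE ℤ → ℝ)
      (hS : IsCov (wX (wDom (domainSites D a) true) (u a)) S)
      (hf : ∀ k, (Function.support fun h => S h k).Finite)
      (hN : IsNegInv (AopF (wX (wDom (domainSites D a) true) (u a))) (SF S hf)),
      (∀ S', IsCov (wX (wDom (domainSites D a) true) (u a)) S' → S' = S) ∧
      (∀ φ : HE ℤ → ℝ, FSH φ → l2 φ ≤ C / a * l2 (Aop (wX (wDom (domainSites D a) true) (u a)) φ)) ∧
      ABtw (preF (HE ℤ)) (AopF (wX (wDom (domainSites D a) true) (u a))) (((C / a)⁻¹) ^ 2) 16 ∧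
      restS (AopF_asy _) hN 1 = covS S hS.skew ∧
      ∀ l k, |formS S l k| ≤
        C / a * (Real.sqrt (dotF (HE ℤ) l l) * Real.sqrt (dotF (HE ℤ) k k)) := by
  have hb : Bornology.IsBounded D := Redx541.bounded_of_C2 hD
  have hO : IsOpen D := Crest.Agent.R165.Red2x541.isOpen_of_C2 hD
  obtain ⟨C, hC, hgap⟩ := gap_free hP hF hD hx hu
  refine ⟨C, hC, ?_⟩
  filter_upwards [hgap, GB_free_pos hF hD hx hu, hu.mem hb hO hx.1, self_mem_nhdsWithin] with
    a h1 h2 h3 ha
  have ha : 0 < a := ha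
  have hf := Redx541.domainSites_finite hb ha
  have hT : TT D a = hf.toFinset := by unfold TT; rw [dif_pos hf]
  have hc : ((TT D a : Finset (ℤ × ℤ)) : Set (ℤ × ℤ)) = domainSites D a := by
    rw [hT]; exact hf.coe_toFinset
  obtain ⟨S, hS⟩ := UJ4x420.exists_finv_dom (TT D a) hn (u a) h3 (nsum_pos hb ha h2)
  rw [UJ3x420.wX_eq] at hS
  rw [hc] at hS h1
  obtain ⟨h4, h5, h6, h7, h8, h9, h10⟩ := all_of_gap (abs_wX_le (domainSites D a) true (u a))
    (by positivity : 0 < C / a) h1 hS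
  exact ⟨S, h4, h5, h6, h7, h1, h8, h9, h10⟩

/-- **everything for the plus background of a domain** -/
theorem dom_all_plus {D : Set ℂ} (hb : Bornology.IsBounded D) {n : ℕ} :
    ∃ C : ℝ, 0 < C ∧ ∀ᶠ a in 𝓝[>] (0 : ℝ), ∀ X : Fin n → ℤ × ℤ, ∃ (S : HE ℤ → HE ℤ → ℝ)
      (hS : IsCov (wX (wDom (domainSites D a) false) X) S)
      (hf : ∀ k, (Function.support fun h => S h k).Finite)
      (hN : IsNegInv (AopF (wX (wDom (domainSites D a) false) X)) (SF S hf)),
      (∀ S', IsCov (wX (wDom (domainSites D a) false) X) S' → S' = S) ∧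
      (∀ φ : HE ℤ → ℝ, FSH φ → l2 φ ≤ C / a * l2 (Aop (wX (wDom (domainSites D a) false) X) φ)) ∧
      ABtw (preF (HE ℤ)) (AopF (wX (wDom (domainSites D a) false) X)) (((C / a)⁻¹) ^ 2) 16 ∧
      restS (AopF_asy _) hN 1 = covS S hS.skew ∧
      ∀ l k, |formS S l k| ≤
        C / a * (Real.sqrt (dotF (HE ℤ) l l) * Real.sqrt (dotF (HE ℤ) k k)) := by
  obtain ⟨C, hC, hgap⟩ := gap_plus (n := n) hb
  refine ⟨C, hC, ?_⟩
  filter_upwards [hgap, self_mem_nhdsWithin] with a h1 ha X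
  have ha : 0 < a := ha
  have hc : ((TT D a : Finset (ℤ × ℤ)) : Set (ℤ × ℤ)) = domainSites D a :=
    Kw9x871.coe_TT hb ha
  obtain ⟨S, -, hS, -⟩ := Covx359.exists_isCov_plus (TT D a) X
  have h2 := h1 X
  rw [hc] at hS h2
  obtain ⟨h4, h5, h6, h7, h8, h9, h10⟩ := all_of_gap (abs_wX_le (domainSites D a) false X)
    (by positivity : 0 < C / a) h2 hS
  exact ⟨S, h4, h5, h6, h7, h2, h8, h9, h10⟩

end Crest.Agent.R165.FrAllx887
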