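import Crest.Agent.R165.Fin3_315
import Crest.Agent.R165.Tel_337
import Crest.Agent.R165.GSysOK_439
import Crest.Agent.R165.FrAll_887

/-!
# Row 165 (S0250), P9: the final factor in the form `Telx337.Zf` (helper315)

The last step `n` is only required to satisfy `κ R ≤ rr p k0 n` (`R` = radius of the background,
the gap is `1 / (Cg R)`), the amplitude `A` is any function which tends to infinity.

* `fl_sys` : the data `Telx337.Fl` of the concrete system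
* `zf_bound` : quantitative; `zf_tendsto` : along any filter
* `zf_plus` : plus backgrounds in boxes of radii `R → ∞` (domains and discs), any insertions
* `zf_plus_dom`, `zf_free_dom` : domains, meshes `a → 0`
* `inv_dom_plus`, `inv_dom_free` : covariances of domains have finite columns
-/

set_option autoImplicit false
set_option linter.unusedSectionVars false

noncomputable section

namespace Crest.Agent.R165.Fin4x315

open scoped ENNReal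
open Filter Topology
open Crest.ProbabilityR.IsingModel
open Crest.Agent.R165.Gr0x606 Crest.Agent.R165.Gr1x606 Crest.Agent.R165.Latx683
  Crest.Agent.R165.PNormx417 Crest.Agent.R165.GDefx387 Crest.Agent.R165.FRDPolyx439
  Crest.Agent.R165.FRDLatx439 Crest.Agent.R165.FRDRestx439 Crest.Agent.R165.GeOpsx337
  Crest.Agent.R165.FRDAbsx439 Crest.Agent.R165.BgIsox432
  Crest.Agent.R165.KFlowx337 Crest.Agent.R165.Telx337 Crest.Agent.R165.GrLocx337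
  Crest.Agent.R165.NSumx915 Crest.Agent.R165.Bridgex915 Crest.Agent.R165.KStepx892
  Crest.Agent.R165.Fin0x315 Crest.Agent.R165.Fin1x315 Crest.Agent.R165.Fin2x315
  Crest.Agent.R165.Fin3x315 Crest.Agent.R165.PStepx417
  Crest.Agent.R165.Scalex900 Crest.Agent.R165.GSysx387

/-! ### the data of the concrete system -/

section fl

variable {G : Type} [CommRing G] [CN G] [CNZ G] [DecidableEq G] {M K : ℕ} (D : FRD 16 M K)

/-- the flow data of the concrete system -/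
theorem fl_sys (hK : 16 ≤ K) {w : BW G} {S : HE G → HE G → ℝ} (h : Inv w S) (mk : Finset (G × G))
    {l k0 : ℕ} (hl : 5 ≤ l * (k0 + 1)) {K0 : Finset (G × G) → Ge (Fld G)}
    (hK0 : ∀ U, K0 U ∈ grG (fldU U)) {Λ : Finset (G × G)} (supp : ∀ U, ¬ U ⊆ Λ → K0 U = 0)
    (emp : K0 ∅ = 0) (n : ℕ) :
    Fl (sys D w mk l k0 K0) Λ n h.full (h.last D l k0 n) where
  ok := ⟨⊥, GSysOKx439.sys_OK D hK w mk hl hK0, fun x hx y => by
    rw [(Submodule.mem_bot ℝ).1 hx, map_zero, LinearMap.zero_apply]⟩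
  supp := supp
  emp := emp
  vac a := by
    show ctG (vac0 (Fld G) a) = ctG a
    rw [vac0_apply, AlgHom.commutes]
    rfl
  cov := h.full_eq D l k0 n

end fl

/-! ### general form -/

section gen

variable {G : Type} [CommRing G] [CN G] [CNZ G] [DecidableEq G] {M K : ℕ} (D : FRD 16 M K)

/-- number of balls at the last scale -/
def cntK (κ Cv : ℝ) : ℕ := (2 * ⌊Cv / κ⌋₊ + 3) ^ 2

/-- size of the final weight at the last scale -/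
def ampK (C κ Cg : ℝ) : ℝ := 7 * √(C * Cg / κ)

theorem net_lower [GoodG G] {κ R Cv : ℝ} (hκ : 0 < κ) (hR : 0 < R) (hCv : 0 ≤ Cv) {r : ℕ}
    (hr : κ * R ≤ r) (x : G × G) :
    ∃ net : Finset (G × G), net.card ≤ cntK κ Cv ∧
      ∀ V : Finset (G × G), (∀ f ∈ V, (fd x f : ℝ) ≤ Cv * R) →
        ∀ f ∈ V, ∃ q ∈ net, fd q f ≤ r := by
  have hr1 : (0 : ℝ) < r := lt_of_lt_of_le (by positivity) hr
  have hr0 : 0 < r := by exact_mod_cast hr1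
  obtain ⟨net, hn, hc⟩ := exists_net (G := G) hr0 ⌊Cv * R⌋₊ x
  refine ⟨net, hn.trans ?_, fun V hV => hc V fun f hf => Nat.le_floor (hV f hf)⟩
  unfold cntK
  have h1 : ⌊Cv * R⌋₊ / r ≤ ⌊Cv / κ⌋₊ := by
    apply Nat.le_floor
    refine (Nat.cast_div_le).trans ?_
    have h2 : ((⌊Cv * R⌋₊ : ℕ) : ℝ) ≤ Cv * R := Nat.floor_le (by positivity)
    calc ((⌊Cv * R⌋₊ : ℕ) : ℝ) / r ≤ Cv * R / r := by gcongr
      _ ≤ Cv / κ := by
        rw [div_le_div_iff₀ hr1 hκ]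
        have := mul_le_mul_of_nonneg_left hr hCv
        nlinarith
  gcongr

theorem amp_lower {C κ R Cg : ℝ} (hC : 0 ≤ C) (hκ : 0 < κ) (hR : 0 < R) (hCg : 0 < Cg) {r : ℕ}
    (hr : κ * R ≤ r) : 7 * √(C / ((Cg * R)⁻¹ * r)) ≤ ampK C κ Cg := by
  have hr1 : (0 : ℝ) < r := lt_of_lt_of_le (by positivity) hr
  refine mul_le_mul_of_nonneg_left (Real.sqrt_le_sqrt ?_) (by norm_num)
  have e1 : C / ((Cg * R)⁻¹ * r) = C * Cg * (R / r) := by field_simp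
  have e2 : C * Cg / κ = C * Cg * (1 / κ) := by ring
  rw [e1, e2]
  refine mul_le_mul_of_nonneg_left ?_ (by positivity)
  rw [div_le_div_iff₀ hr1 hκ]
  nlinarith

/-- final weight against the weights of the flow -/
theorem gr_lower (hM : MM ≤ M) {w : BW G} (hw : ∀ z j, |w z j| ≤ 1) {p k0 n : ℕ} (hn : 1 ≤ n)
    {κ R Cg : ℝ} (hκ : 0 < κ) (hR : 0 < R) (hCg : 0 < Cg) (hr : κ * R ≤ rr p k0 n)
    {A : ℝ} (hA : ampK D.C κ Cg ≤ A) (U : Finset (G × G)) (l : Fld G) :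
    gr D w (Cg * R)⁻¹ (lo p k0 n) l ≤ wU w A (rr p k0 n) U l := by
  have hC := D.C_pos
  have hA0 : 0 < A := lt_of_lt_of_le (by unfold ampK; positivity) hA
  rw [lo_pos hn]
  exact gr_le_wU D hM w (by positivity) (AopF_bdd w hw) _ _ (rr_pos p k0 n) le_rfl hA0
    ((amp_lower hC.le hκ hR hCg hr).trans hA) U l

/-- **the final factor**, quantitative -/
theorem zf_bound [GoodG G] (hM : MM ≤ M) {w : BW G} {S : HE G → HE G → ℝ} (h : Inv w S)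
    (hw : ∀ z j, |w z j| ≤ 1) {p k0 n : ℕ} (hn : 1 ≤ n)
    {κ R Cg Cv : ℝ} (hκ : 0 < κ) (hR : 0 < R) (hCg : 0 < Cg) (hCv : 0 ≤ Cv)
    (hr : κ * R ≤ rr p k0 n)
    (hgap : ∀ f : Fld G, l2 (f : HE G → ℝ) ≤ Cg * R * l2 (Aop w (f : HE G → ℝ))) {A : ℝ}
    (hA : ampK D.C κ Cg ≤ A) {Γ : ℝ≥0∞} (hΓ : 1 ≤ Γ) (nr : G × G → G × G → Prop) (x : G × G)
    (Λ : Finset (G × G)) (hV : ∀ f ∈ Λ, (fd x f : ℝ) ≤ Cv * R) (F : Finset (G × G) → Ge (Fld G))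
    {η : ℝ} (hη0 : 0 ≤ η) (hη1 : η ≤ 1)
    (hF : cntK κ Cv * NK w A (rr p k0 n) Γ (fun _ => True)
        (fun U => (F U : Gr (Fld G))) ≤ ENNReal.ofReal η) :
    |EEG (h.last D p k0 n) (ZZ nr Λ F) - 1| ≤ 2 * η := by
  have h1 := h.last_gram D hw (by positivity) hgap p k0 n
  rw [EEG_apply]
  refine FinBx900.EE_zz_sub_one_le h1 _ Λ F hη0 hη1 ?_
  obtain ⟨net, hc, hnt⟩ := net_lower hκ hR hCv hr x
  refine le_trans ?_ hF
  refine (Finset.sum_le_sum fun U _ => ?_).trans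
    ((sum_nes_le_NK hΓ w A _ (fun U => (F U : Gr (Fld G))) Λ net (hnt Λ hV)).trans ?_)
  · exact pnorm_le_pnorm (fun l => gr_lower D hM hw hn hκ hR hCg hr hA U l) _
  · gcongr

/-- **the norms at the last scale, with sources** -/
theorem src_bound [GoodG G] (hM : MM ≤ M) {w : BW G} (hw : ∀ z j, |w z j| ≤ 1) {p k0 n : ℕ}
    (hn : 1 ≤ n) {κ R Cg Cv : ℝ} (hκ : 0 < κ) (hR : 0 < R) (hCg : 0 < Cg) (hCv : 0 ≤ Cv)
    (hr : κ * R ≤ rr p k0 n) {A : ℝ} (hA : ampK D.C κ Cg ≤ A) {Γ : ℝ≥0∞} (hΓ : 1 ≤ Γ)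
    (x : G × G) (Λ : Finset (G × G))
    (hV : ∀ f ∈ Λ, (fd x f : ℝ) ≤ Cv * R) {m : ℕ} (v : Fin m → ℝ≥0∞)
    (F : Finset (G × G) → Gr (SrcDefx991.VS (Fld G) m)) :
    ∑ U ∈ nes Λ, pnorm (SrcDefx991.wS (gr D w (Cg * R)⁻¹ (lo p k0 n)) v) (F U) ≤
      cntK κ Cv * NN fd (rr p k0 n) Γ fun U =>
        pnorm (SrcDefx991.wS (wU w A (rr p k0 n) U) v) (F U) := by
  obtain ⟨net, hc, hnt⟩ := net_lower hκ hR hCv hr x
  refine (sum_pnorm_le hΓ _ (fun U => SrcDefx991.wS (wU w A (rr p k0 n) U) v) Λ net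
    (hnt Λ hV) (fun U _ => wS_mono (fun l => gr_lower D hM hw hn hκ hR hCg hr hA U l)
      fun _ => le_rfl) F).trans ?_
  gcongr

theorem rr_lower {p k0 : ℕ} (hp : 1 ≤ p) {δ R : ℝ} {n : ℕ} (hn : n = lastK p k0 (δ * R)) :
    δ / 2 ^ p * R ≤ rr p k0 n := by
  have h := last_lower (k0 := k0) (δ := δ) (R := R) hp
  subst hn
  have e : ((rr p k0 (lastK p k0 (δ * R)) : ℕ) : ℝ) =
      (2 : ℝ) ^ (p * (k0 + lastK p k0 (δ * R))) := by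
    unfold rr; push_cast; rfl
  rw [e, div_mul_eq_mul_div, div_le_iff₀ (by positivity)]
  exact h.le

/-- the last scale tends to infinity -/
theorem n_pos_of_lower {α : Type*} {l : Filter α} {p k0 : ℕ} {κ : ℝ} (hκ : 0 < κ)
    {R : α → ℝ} (hR : Tendsto R l atTop) {n : α → ℕ} (hr : ∀ᶠ a in l, κ * R a ≤ rr p k0 (n a)) :
    ∀ᶠ a in l, 1 ≤ n a := by
  filter_upwards [hr, (hR.const_mul_atTop hκ).eventually_gt_atTop (rr p k0 0 : ℝ)] with a h1 h2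
  by_contra hcon
  have h3 : n a = 0 := by omega
  rw [h3] at h1
  linarith

/-- **the final factor tends to one** -/
theorem zf_tendsto [GoodG G] (hM : MM ≤ M) {α : Type*} {l : Filter α} {p k0 : ℕ}
    {κ Cg Cv : ℝ} (hκ : 0 < κ) (hCg : 0 < Cg) (hCv : 0 ≤ Cv) {Γ : ℝ≥0∞} (hΓ : 1 ≤ Γ)
    {R : α → ℝ} (hR : Tendsto R l atTop) {w : α → BW G} (hw : ∀ᶠ a in l, ∀ z j, |w a z j| ≤ 1)
    (hgap : ∀ᶠ a in l, ∀ f : Fld G,
      l2 (f : HE G → ℝ) ≤ Cg * R a * l2 (Aop (w a) (f : HE G → ℝ)))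
    {A : α → ℝ} (hA : Tendsto A l atTop) {Q : α → Sys (G × G) (Fld G)} {Λ : α → Finset (G × G)}
    {n : α → ℕ} {Sf : α → Cov (Fld G)}
    (hr : ∀ᶠ a in l, κ * R a ≤ rr p k0 (n a))
    (hSf : ∀ᶠ a in l, ∃ (S : HE G → HE G → ℝ) (h : Inv (w a) S), Sf a = h.last D p k0 (n a))
    {x : α → G × G} (hV : ∀ᶠ a in l, ∀ f ∈ Λ a, (fd (x a) f : ℝ) ≤ Cv * R a)
    (hK : Tendsto (fun a => NK (w a) (A a) (rr p k0 (n a)) Γ (fun _ => True)
      (fun U => ((Q a).K (n a) U : Gr (Fld G)))) l (𝓝 0)) :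
    Tendsto (fun a => Zf (Q a) (Λ a) (n a) (Sf a)) l (𝓝 1) := by
  have hA1 : ∀ᶠ a in l, ampK D.C κ Cg ≤ A a := hA.eventually_ge_atTop _
  have hn1 := n_pos_of_lower (p := p) (k0 := k0) hκ hR hr
  have hR0 : ∀ᶠ a in l, 0 < R a := hR.eventually_gt_atTop 0
  set N : α → ℝ≥0∞ := fun a => NK (w a) (A a) (rr p k0 (n a)) Γ (fun _ => True)
      (fun U => ((Q a).K (n a) U : Gr (Fld G))) with hN
  have hNr : Tendsto (fun a => (cntK κ Cv : ℝ) * (N a).toReal) l (𝓝 0) := by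
    have h1 := (ENNReal.tendsto_toReal ENNReal.zero_ne_top).comp hK
    have h2 := h1.const_mul (cntK κ Cv : ℝ)
    simpa using h2
  have hN1 : ∀ᶠ a in l, N a < 1 := hK.eventually_lt_const one_pos
  have hN2 : ∀ᶠ a in l, (cntK κ Cv : ℝ) * (N a).toReal ≤ 1 := by
    filter_upwards [hNr.eventually_lt_const one_pos] with a ha using ha.le
  rw [tendsto_iff_norm_sub_tendsto_zero]
  refine squeeze_zero' (g := fun a => 2 * ((cntK κ Cv : ℝ) * (N a).toReal))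
    (Eventually.of_forall fun a => norm_nonneg _) ?_ (by simpa using hNr.const_mul 2)
  filter_upwards [hgap, hR0, hA1, hr, hn1, hV, hN1, hN2, hSf, hw] with a h1 h2 h3 h4 h5 h6 h7 h8 h9 h10
  obtain ⟨S, h, hh⟩ := h9
  rw [Real.norm_eq_abs, Zf, hh]
  refine zf_bound D hM h h10 h5 hκ h2 hCg hCv h4 h1 h3 hΓ _ (x a) (Λ a) h6 _ (by positivity) h8 ?_
  rw [ENNReal.ofReal_mul (by positivity), ENNReal.ofReal_toReal h7.ne_top, ENNReal.ofReal_natCast]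

end gen

/-! ### lattice domains -/

section dom

variable {M K : ℕ} (D : FRD 16 M K)

/-- **plus backgrounds** (domains, discs), any insertions -/
theorem zf_plus (hM : MM ≤ M) {α : Type*} {l : Filter α} {p k0 : ℕ}
    {κ : ℝ} (hκ : 0 < κ) {Γ : ℝ≥0∞} (hΓ : 1 ≤ Γ)
    {R : α → ℝ} (hR : Tendsto R l atTop) {T : α → Finset (ℤ × ℤ)} {c : α → ℤ × ℤ}
    (hT : ∀ᶠ a in l, ∀ f ∈ T a,
      |((f.1 : ℝ) - ((c a).1 : ℝ))| ≤ R a ∧ |((f.2 : ℝ) - ((c a).2 : ℝ))| ≤ R a)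
    {m : ℕ} {X : α → Fin m → ℤ × ℤ} {A : α → ℝ} (hA : Tendsto A l atTop)
    {Q : α → Sys (ℤ × ℤ) (Fld ℤ)} {Λ : α → Finset (ℤ × ℤ)} {n : α → ℕ} {Sf : α → Cov (Fld ℤ)}
    (hr : ∀ᶠ a in l, κ * R a ≤ rr p k0 (n a))
    (hSf : ∀ᶠ a in l, ∃ (S : HE ℤ → HE ℤ → ℝ)
      (h : Inv (wX (wDom (T a : Set (ℤ × ℤ)) false) (X a)) S), Sf a = h.last D p k0 (n a))
    {c0 : ℕ} (hΛ : ∀ᶠ a in l, ∀ f ∈ Λ a, ∃ z ∈ T a, fd z f ≤ c0)
    (hK : Tendsto (fun a => NK (wX (wDom (T a : Set (ℤ × ℤ)) false) (X a)) (A a)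
      (rr p k0 (n a)) Γ (fun _ => True) (fun U => ((Q a).K (n a) U : Gr (Fld ℤ)))) l (𝓝 0)) :
    Tendsto (fun a => Zf (Q a) (Λ a) (n a) (Sf a)) l (𝓝 1) := by
  have hR1 : ∀ᶠ a in l, 1 ≤ R a := hR.eventually_ge_atTop 1
  refine zf_tendsto D hM hκ CPl_pos (Cv := 1 + (c0 : ℝ)) (by positivity) hΓ hR
    (w := fun a => wX (wDom (T a : Set (ℤ × ℤ)) false) (X a))
    (Eventually.of_forall fun a => abs_wX_le _ _ _) ?_ hA hr hSf (x := c) ?_ hK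
  · filter_upwards [hT, hR1] with a h1 h2 f
    exact gap_plus (X a) h2 h1 f
  · filter_upwards [hT, hR1, hΛ] with a h1 h2 h3 f hf
    exact vol_near h2 h1 c0 (h3 f hf)

/-- **meshes `a → 0`**: background `w a` with gap `Cg / a` -/
theorem zf_mesh (hM : MM ≤ M) {p k0 : ℕ} (hp : 1 ≤ p) {δ Cg : ℝ} (hδ : 0 < δ) (hCg : 0 < Cg)
    {Γ : ℝ≥0∞} (hΓ : 1 ≤ Γ) {Dm : Set ℂ} (hb : Bornology.IsBounded Dm)
    {w : ℝ → BW ℤ} (hw : ∀ᶠ a : ℝ in 𝓝[>] 0, ∀ z j, |w a z j| ≤ 1)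
    (hgap : ∀ᶠ a : ℝ in 𝓝[>] 0, ∀ f : Fld ℤ,
      l2 (f : HE ℤ → ℝ) ≤ Cg / a * l2 (Aop (w a) (f : HE ℤ → ℝ)))
    {A : ℝ → ℝ} (hA : Tendsto A (𝓝[>] 0) atTop)
    {Q : ℝ → Sys (ℤ × ℤ) (Fld ℤ)} {Λ : ℝ → Finset (ℤ × ℤ)} {n : ℝ → ℕ} {Sf : ℝ → Cov (Fld ℤ)}
    (hn : ∀ᶠ a : ℝ in 𝓝[>] 0, n a = lastK p k0 (δ / a))
    (hSf : ∀ᶠ a : ℝ in 𝓝[>] 0, ∃ (S : HE ℤ → HE ℤ → ℝ) (h : Inv (w a) S),
      Sf a = h.last D p k0 (n a))
    {c0 : ℕ} (hΛ : ∀ᶠ a : ℝ in 𝓝[>] 0, ∀ f ∈ Λ a, ∃ z ∈ domainSites Dm a, fd z f ≤ c0)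
    (hK : Tendsto (fun a => NK (w a) (A a) (rr p k0 (n a)) Γ (fun _ => True)
      (fun U => ((Q a).K (n a) U : Gr (Fld ℤ)))) (𝓝[>] 0) (𝓝 0)) :
    Tendsto (fun a => Zf (Q a) (Λ a) (n a) (Sf a)) (𝓝[>] 0) (𝓝 1) := by
  obtain ⟨B, hB⟩ := hb.exists_norm_le
  have hB' : ∀ z ∈ Dm, ‖z‖ ≤ |B| := fun z hz => (hB z hz).trans (le_abs_self B)
  refine zf_tendsto D hM (κ := δ / 2 ^ p) (by positivity) hCg (Cv := |B| + c0) (by positivity) hΓ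
    (R := fun a => a⁻¹) tendsto_inv_nhdsGT_zero hw ?_ hA ?_ hSf (x := fun _ => (0, 0)) ?_ hK
  · filter_upwards [hgap] with a h f
    have := h f
    rwa [div_eq_mul_inv] at this
  · filter_upwards [hn] with a h
    refine rr_lower hp ?_
    rw [h, div_eq_mul_inv]
  · have hlt : ∀ᶠ a in 𝓝[>] (0 : ℝ), a < 1 := by
      have : ∀ᶠ a in 𝓝 (0 : ℝ), a < 1 := gt_mem_nhds one_pos
      exact this.filter_mono nhdsWithin_le_nhds
    filter_upwards [hΛ, hlt, self_mem_nhdsWithin] with a h h1 h2 f hf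
    have := vol_dom (abs_nonneg B) hB' c0 (show 0 < a from h2) h1.le (h f hf)
    rwa [div_eq_mul_inv] at this

/-- **plus domains**, `domainSites` form -/
theorem zf_plus_dom (hM : MM ≤ M) {p k0 : ℕ} (hp : 1 ≤ p) {δ : ℝ} (hδ : 0 < δ)
    {Γ : ℝ≥0∞} (hΓ : 1 ≤ Γ) {Dm : Set ℂ} (hb : Bornology.IsBounded Dm) {m : ℕ}
    {X : ℝ → Fin m → ℤ × ℤ} {A : ℝ → ℝ} (hA : Tendsto A (𝓝[>] 0) atTop)
    {Q : ℝ → Sys (ℤ × ℤ) (Fld ℤ)} {Λ : ℝ → Finset (ℤ × ℤ)} {n : ℝ → ℕ} {Sf : ℝ → Cov (Fld ℤ)}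
    (hn : ∀ᶠ a : ℝ in 𝓝[>] 0, n a = lastK p k0 (δ / a))
    (hSf : ∀ᶠ a : ℝ in 𝓝[>] 0, ∃ (S : HE ℤ → HE ℤ → ℝ)
      (h : Inv (wX (wDom (domainSites Dm a) false) (X a)) S), Sf a = h.last D p k0 (n a))
    {c0 : ℕ} (hΛ : ∀ᶠ a : ℝ in 𝓝[>] 0, ∀ f ∈ Λ a, ∃ z ∈ domainSites Dm a, fd z f ≤ c0)
    (hK : Tendsto (fun a => NK (wX (wDom (domainSites Dm a) false) (X a)) (A a) (rr p k0 (n a)) Γ
      (fun _ => True) (fun U => ((Q a).K (n a) U : Gr (Fld ℤ)))) (𝓝[>] 0) (𝓝 0)) :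
    Tendsto (fun a => Zf (Q a) (Λ a) (n a) (Sf a)) (𝓝[>] 0) (𝓝 1) := by
  obtain ⟨C, hC, hall⟩ := FrAllx887.dom_all_plus (n := m) hb
  refine zf_mesh D hM hp hδ hC hΓ hb
    (w := fun a => wX (wDom (domainSites Dm a) false) (X a))
    (Eventually.of_forall fun a => abs_wX_le _ _ _) ?_ hA hn hSf hΛ hK
  filter_upwards [hall] with a h f
  obtain ⟨_, _, _, _, _, h1, _⟩ := h (X a)
  exact h1 _ f.finite_support

/-- **free domains**, an even number of insertions -/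
theorem zf_free_dom (hM : MM ≤ M) {p k0 : ℕ} (hp : 1 ≤ p) {δ : ℝ} (hδ : 0 < δ)
    {Γ : ℝ≥0∞} (hΓ : 1 ≤ Γ) {m : ℕ} (hm : Even m) (hP : U5Px422.SpinOut .plus 1)
    (hF : U5Px422.SpinOut .free m) {Dm : Set ℂ} (hD : IsC2JordanDomain Dm) {x : Fin m → ℂ}
    (hx : x ∈ U5Px422.Conf Dm m) {X : ℝ → Fin m → ℤ × ℤ} (hX : U5Px422.LApp X x)
    {A : ℝ → ℝ} (hA : Tendsto A (𝓝[>] 0) atTop)
    {Q : ℝ → Sys (ℤ × ℤ) (Fld ℤ)} {Λ : ℝ → Finset (ℤ × ℤ)} {n : ℝ → ℕ} {Sf : ℝ → Cov (Fld ℤ)}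
    (hn : ∀ᶠ a : ℝ in 𝓝[>] 0, n a = lastK p k0 (δ / a))
    (hSf : ∀ᶠ a : ℝ in 𝓝[>] 0, ∃ (S : HE ℤ → HE ℤ → ℝ)
      (h : Inv (wX (wDom (domainSites Dm a) true) (X a)) S), Sf a = h.last D p k0 (n a))
    {c0 : ℕ} (hΛ : ∀ᶠ a : ℝ in 𝓝[>] 0, ∀ f ∈ Λ a, ∃ z ∈ domainSites Dm a, fd z f ≤ c0)
    (hK : Tendsto (fun a => NK (wX (wDom (domainSites Dm a) true) (X a)) (A a) (rr p k0 (n a)) Γ
      (fun _ => True) (fun U => ((Q a).K (n a) U : Gr (Fld ℤ)))) (𝓝[>] 0) (𝓝 0)) :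
    Tendsto (fun a => Zf (Q a) (Λ a) (n a) (Sf a)) (𝓝[>] 0) (𝓝 1) := by
  have hb : Bornology.IsBounded Dm := Redx541.bounded_of_C2 hD
  obtain ⟨C, hC, hall⟩ := FrAllx887.dom_all_free hm hP hF hD hx hX
  refine zf_mesh D hM hp hδ hC hΓ hb
    (w := fun a => wX (wDom (domainSites Dm a) true) (X a))
    (Eventually.of_forall fun a => abs_wX_le _ _ _) ?_ hA hn hSf hΛ hK
  filter_upwards [hall] with a h f
  obtain ⟨_, _, _, _, _, h1, _⟩ := h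
  exact h1 _ f.finite_support

/-- every covariance of a plus domain has finite columns -/
theorem inv_dom_plus {Dm : Set ℂ} (hb : Bornology.IsBounded Dm) {a : ℝ} (ha : 0 < a) {m : ℕ}
    {X : Fin m → ℤ × ℤ} {S : HE ℤ → HE ℤ → ℝ}
    (hS : IsCov (wX (wDom (domainSites Dm a) false) X) S) :
    Inv (wX (wDom (domainSites Dm a) false) X) S := by
  have hc := Kw9x871.coe_TT hb ha
  rw [← hc] at hS ⊢
  exact inv_of_isCov_plus hS

/-- every covariance of a free domain has finite columns, small meshes -/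
theorem inv_dom_free {m : ℕ} (hm : Even m) (hP : U5Px422.SpinOut .plus 1)
    (hF : U5Px422.SpinOut .free m) {Dm : Set ℂ} (hD : IsC2JordanDomain Dm) {x : Fin m → ℂ}
    (hx : x ∈ U5Px422.Conf Dm m) {X : ℝ → Fin m → ℤ × ℤ} (hX : U5Px422.LApp X x) :
    ∀ᶠ a : ℝ in 𝓝[>] 0, (∃ S, Inv (wX (wDom (domainSites Dm a) true) (X a)) S) ∧
      ∀ S, IsCov (wX (wDom (domainSites Dm a) true) (X a)) S →
        Inv (wX (wDom (domainSites Dm a) true) (X a)) S := by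
  obtain ⟨C, _, hall⟩ := FrAllx887.dom_all_free hm hP hF hD hx hX
  filter_upwards [hall] with a h
  obtain ⟨S, hS, hf, _, hu, _⟩ := h
  have h1 : Inv (wX (wDom (domainSites Dm a) true) (X a)) S := Inv.of_isCov hS hf
  exact ⟨⟨S, h1⟩, fun S' hS' => by rw [hu S' hS']; exact h1⟩

end dom

end Crest.Agent.R165.Fin4x315
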