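import Crest.Agent.R165.K0Src_722
import Crest.Agent.R165.TorIso_723
import Crest.Agent.R165.JVol_950

/-!
# Row 165 (S0250): real sources, instances for the torus and the discs (helper722)

`src` is any source record with `IsReal src Y S t` (support `Y`, bonds `S`, constant `t`).

* `K0_real_mem`, `K0_src_empty` : locality, empty set
* `K0_iso_off`  : correspondence away from the sources
* `K0_iso_img`  : correspondence, `Y' = τ(Y)`, `S' = τ(S)`, `Y ⊆ Z`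
* `hK0_torB`    : plane / torus (chart `torB` of 723), hypothesis `hK0` of `cc_tor`
* `hK0_secB`    : two sectors of the torus (chart `secB`), hypothesis `hK0` of `cc_sec`
-/

set_option autoImplicit false
set_option linter.unusedSectionVars false

noncomputable section

open Crest.ProbabilityR.IsingModel
open Crest.Agent.R165.Gr0x606 Crest.Agent.R165.Gr1x606 Crest.Agent.R165.Latx683
open Crest.Agent.R165.GDefx387 Crest.Agent.R165.GeOpsx337 Crest.Agent.R165.BgIsox432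
open Crest.Agent.R165.J4K0x126 Crest.Agent.R165.J4K0Mapx126 Crest.Agent.R165.J4Geox126
open Crest.Agent.R165.J4Lnkx653 Crest.Agent.R165.J4Defx653 Crest.Agent.R165.J4RRx653
open Crest.Agent.R165.KInitx892 Crest.Agent.R165.KMapx892 Crest.Agent.R165.GSysx387
open Crest.Agent.R165.Bkgx683 (Bg MPar noSrc frG cor Srcs realSrc)
open Crest.Agent.R165.K0Isox900 Crest.Agent.R165.DomGeox900 Crest.Agent.R165.K0IsoBx900
open Crest.Agent.R165.J1ax606 (EG pe qe pe_zero pe_one qe_zero qe_one)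
open Crest.Agent.R165.TorIsox723 Crest.Agent.R165.MetGx723 Crest.Agent.R165.TorChartx723

namespace Crest.Agent.R165.K0Srcx722

variable {G G' : Type} [CommRing G] [CN G] [DecidableEq G] [CommRing G'] [CN G'] [DecidableEq G']

theorem K0_src_empty {κ : Type} [DecidableEq κ] [Fintype κ] (B : Bg G) (P : MPar)
    (src : Srcs κ G (Ge (Fld G))) (l k0 : ℕ) : B.K0 P LinearMap.id src l k0 ∅ = 0 :=
  JVolx950.K0_empty B P _ src l k0

/-- **locality** with a real source -/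
theorem K0_real_mem (B : Bg G) (P : MPar) {src : Srcs (Fin 1) G (Ge (Fld G))}
    {Y : Finset (G × G)} {S : Finset (EG G)} {t : ℝ} (hs : IsReal src Y S t) (l k0 : ℕ)
    (U : Finset (G × G)) : B.K0 P LinearMap.id src l k0 U ∈ grG (fldU U) := by
  refine JVolx950.K0_fldU B P _ (fun k _ => ?_) l k0 U
  obtain rfl : k = 0 := Subsingleton.elim _ _
  rw [hs.as]
  exact Subalgebra.algebraMap_mem _ _

/-- **correspondence away from the sources** -/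
theorem K0_iso_off {κ κ' : Type} [DecidableEq κ] [Fintype κ] [DecidableEq κ'] [Fintype κ']
    {B : Bg G} {B' : Bg G'} {Z : Set (G × G)} (b : BgIso B.w B'.w Z) (P : MPar)
    (l k0 : ℕ) {U : Finset (G × G)} (hU : ∀ f ∈ U, ball f 1 ⊆ Z)
    (htch : ∀ f ∈ U, (B.tch f ↔ B'.tch (b.τ f)))
    (hok : ∀ u ∈ U, ∀ S ∈ Can P.R, Even S.card → (Yf S).image (fz u) ⊆ U →
      (B.ok P.R u S ↔ B'.ok P.R (b.τ u) S))
    (src : Srcs κ G (Ge (Fld G))) (src' : Srcs κ' G' (Ge (Fld G')))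
    (h : ∀ k, ¬ src.Ys k ⊆ U) (h' : ∀ k, ¬ src'.Ys k ⊆ U.image b.τ) :
    mpG b.push (B.K0 P LinearMap.id src l k0 U) =
      B'.K0 P LinearMap.id src' l k0 (U.image b.τ) := by
  rw [K0_far B P LinearMap.id src (noSrc G (Ge (Fld G))) l k0 h fun k => k.elim0,
    K0_far B' P LinearMap.id src' (noSrc G' (Ge (Fld G'))) l k0 h' fun k => k.elim0]
  exact K0_bg b P l k0 hU htch hok

/-- **correspondence when the source is transported and lies in the chart** -/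
theorem K0_iso_img {B : Bg G} {B' : Bg G'} {Z : Set (G × G)} (b : BgIso B.w B'.w Z) (P : MPar)
    (l k0 : ℕ) {U : Finset (G × G)} (hU : ∀ f ∈ U, ball f 1 ⊆ Z)
    (htch : ∀ f ∈ U, (B.tch f ↔ B'.tch (b.τ f)))
    (hok : ∀ u ∈ U, ∀ S ∈ Can P.R, Even S.card → (Yf S).image (fz u) ⊆ U →
      (B.ok P.R u S ↔ B'.ok P.R (b.τ u) S))
    {src : Srcs (Fin 1) G (Ge (Fld G))} {src' : Srcs (Fin 1) G' (Ge (Fld G'))}
    {Y : Finset (G × G)} {S : Finset (EG G)} {t : ℝ}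
    (hs : IsReal src Y S t) (hs' : IsReal src' (Y.image b.τ) (S.image (ebm b.τ)) t)
    (hSY : ∀ e ∈ S, faE e ⊆ Y) (hYZ : ∀ f ∈ Y, f ∈ Z) :
    mpG b.push (B.K0 P LinearMap.id src l k0 U) =
      B'.K0 P LinearMap.id src' l k0 (U.image b.τ) := by
  have hUZ : ∀ f ∈ U, f ∈ Z := fun f hf => hU f hf (mem_ball_self f 1)
  refine K0_iso_src b P l k0 hU htch hok hs hs' hSY (fun _ => ⟨rfl, rfl⟩) fun h f hf => ?_
  obtain ⟨g, hg, hgf⟩ := Finset.mem_image.1 (h (Finset.mem_image_of_mem _ hf))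
  rw [← b.injOn (hUZ g hg) (hYZ f hf) hgf]
  exact hg

/-- all shapes allowed, all fields rescaled, transported source -/
theorem hK0_top_img {B : Bg G} {B' : Bg G'} {Z : Set (G × G)} (b : BgIso B.w B'.w Z) (P : MPar)
    (l k0 : ℕ) (a1 : ∀ f, B.tch f) (a2 : ∀ f, B'.tch f) (a3 : ∀ u S, B.ok P.R u S)
    (a4 : ∀ u S, B'.ok P.R u S)
    {src : Srcs (Fin 1) G (Ge (Fld G))} {src' : Srcs (Fin 1) G' (Ge (Fld G'))}
    {Y : Finset (G × G)} {S : Finset (EG G)} {t : ℝ}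
    (hs : IsReal src Y S t) (hs' : IsReal src' (Y.image b.τ) (S.image (ebm b.τ)) t)
    (hSY : ∀ e ∈ S, faE e ⊆ Y) (hYZ : ∀ f ∈ Y, f ∈ Z)
    (U : Finset (G × G)) (_ : U.Nonempty) (hU : nbhd (s2 * rr l k0 0) U ⊆ Z) :
    mpG b.push (B.K0 P LinearMap.id src l k0 U) =
      B'.K0 P LinearMap.id src' l k0 (U.image b.τ) :=
  K0_iso_img b P l k0 (fun _ hf => ball_of_nbhd hU hf) (fun _ _ => ⟨fun _ => a2 _, fun _ => a1 _⟩)
    (fun _ _ _ _ _ _ => ⟨fun _ => a4 _ _, fun _ => a3 _ _⟩) hs hs' hSY hYZ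

section tor

variable {M : ℕ} [NeZero M] {ε₁ ε₂ ε₁' ε₂' : ℝ}

/-- **plane / torus**: the hypothesis `hK0` of `TorIsox723.cc_tor` -/
theorem hK0_torB (h₁ : ε₁ * ε₁ = 1) (h₂ : ε₂ * ε₂ = 1) (f₀ : ℤ × ℤ) {R : ℕ}
    (hR : 4 * (R + 1) ≤ M) (P : MPar) (l k0 : ℕ)
    {src : Srcs (Fin 1) ℤ (Ge (Fld ℤ))} {src' : Srcs (Fin 1) (ZMod M) (Ge (Fld (ZMod M)))}
    {Y : Finset (ℤ × ℤ)} {S : Finset (EG ℤ)} {t : ℝ}
    (hs : IsReal src Y S t) (hs' : IsReal src' (Y.image (pr M)) (S.image (ebm (pr M))) t)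
    (hSY : ∀ e ∈ S, faE e ⊆ Y) (hYZ : ∀ f ∈ Y, f ∈ ball f₀ R)
    (U : Finset (ℤ × ℤ)) (hne : U.Nonempty) (hU : nbhd (s2 * rr l k0 0) U ⊆ ball f₀ R) :
    mpG (torB h₁ h₂ f₀ hR).push (Bg.pl.K0 P LinearMap.id src l k0 U) =
      (Bg.tor M ε₁ ε₂).K0 P LinearMap.id src' l k0 (U.image (pr M)) :=
  hK0_top_img (B := Bg.pl) (B' := Bg.tor M ε₁ ε₂) (torB h₁ h₂ f₀ hR) P l k0 (fun _ => trivial)
    (fun _ => trivial) (fun _ _ => trivial) (fun _ _ => trivial) hs hs' hSY hYZ U hne hU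

/-- **plane / torus without source**: the hypothesis `hK0` of `TorIsox723.cc_tor` -/
theorem hK0_torB_no (h₁ : ε₁ * ε₁ = 1) (h₂ : ε₂ * ε₂ = 1) (f₀ : ℤ × ℤ) {R : ℕ}
    (hR : 4 * (R + 1) ≤ M) (P : MPar) (l k0 : ℕ)
    (U : Finset (ℤ × ℤ)) (hne : U.Nonempty) (hU : nbhd (s2 * rr l k0 0) U ⊆ ball f₀ R) :
    mpG (torB h₁ h₂ f₀ hR).push (Bg.pl.K0 P LinearMap.id (noSrc ℤ (Ge (Fld ℤ))) l k0 U) =
      (Bg.tor M ε₁ ε₂).K0 P LinearMap.id (noSrc (ZMod M) (Ge (Fld (ZMod M)))) l k0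
        (U.image (pr M)) :=
  hK0_top (B := Bg.pl) (B' := Bg.tor M ε₁ ε₂) (torB h₁ h₂ f₀ hR) P l k0 (fun _ => trivial)
    (fun _ => trivial) (fun _ _ => trivial) (fun _ _ => trivial) U hne hU

/-- **two sectors of the torus**, same real source: the hypothesis `hK0` of
`TorIsox723.cc_sec` -/
theorem hK0_secB (h₁ : ε₁ * ε₁ = 1) (h₂ : ε₂ * ε₂ = 1) (h₁' : ε₁' * ε₁' = 1)
    (h₂' : ε₂' * ε₂' = 1) (x₀ : ZMod M × ZMod M) {R : ℕ} (hR : 4 * (R + 1) ≤ M) (P : MPar)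
    (l k0 : ℕ) {src src' : Srcs (Fin 1) (ZMod M) (Ge (Fld (ZMod M)))}
    {Y : Finset (ZMod M × ZMod M)} {S : Finset (EG (ZMod M))} {t : ℝ}
    (hs : IsReal src Y S t) (hs' : IsReal src' Y S t) (hSY : ∀ e ∈ S, faE e ⊆ Y)
    (U : Finset (ZMod M × ZMod M)) (_ : U.Nonempty) (hU : nbhd (s2 * rr l k0 0) U ⊆ ball x₀ R) :
    mpG (secB h₁ h₂ h₁' h₂' x₀ hR).push ((Bg.tor M ε₁ ε₂).K0 P LinearMap.id src l k0 U) =
      (Bg.tor M ε₁' ε₂').K0 P LinearMap.id src' l k0 U := by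
  have hid : (secB h₁ h₂ h₁' h₂' x₀ hR).τ = id := rfl
  have key := K0_iso_src (B := Bg.tor M ε₁ ε₂) (B' := Bg.tor M ε₁' ε₂')
    (secB h₁ h₂ h₁' h₂' x₀ hR) P l k0 (U := U) (fun _ hf => ball_of_nbhd hU hf)
    (fun _ _ => ⟨fun _ => trivial, fun _ => trivial⟩)
    (fun _ _ _ _ _ _ => ⟨fun _ => trivial, fun _ => trivial⟩) hs hs' hSY
    (fun _ => by
      have he : (ebm (id : ZMod M × ZMod M → ZMod M × ZMod M)) = id := rfl
      rw [hid, he, Finset.image_id, Finset.image_id]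
      exact ⟨rfl, rfl⟩)
    (fun h => by rw [hid, Finset.image_id] at h; exact h)
  rw [hid, Finset.image_id] at key
  exact key

/-- **two sectors of the torus**, no source -/
theorem hK0_secB_no (h₁ : ε₁ * ε₁ = 1) (h₂ : ε₂ * ε₂ = 1) (h₁' : ε₁' * ε₁' = 1)
    (h₂' : ε₂' * ε₂' = 1) (x₀ : ZMod M × ZMod M) {R : ℕ} (hR : 4 * (R + 1) ≤ M) (P : MPar)
    (l k0 : ℕ)
    (U : Finset (ZMod M × ZMod M)) (hne : U.Nonempty)
    (hU : nbhd (s2 * rr l k0 0) U ⊆ ball x₀ R) :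
    mpG (secB h₁ h₂ h₁' h₂' x₀ hR).push
      ((Bg.tor M ε₁ ε₂).K0 P LinearMap.id (noSrc (ZMod M) (Ge (Fld (ZMod M)))) l k0 U) =
      (Bg.tor M ε₁' ε₂').K0 P LinearMap.id (noSrc (ZMod M) (Ge (Fld (ZMod M)))) l k0 U := by
  have hid : (secB h₁ h₂ h₁' h₂' x₀ hR).τ = id := rfl
  have key := hK0_top (B := Bg.tor M ε₁ ε₂) (B' := Bg.tor M ε₁' ε₂')
    (secB h₁ h₂ h₁' h₂' x₀ hR) P l k0 (fun _ => trivial)
    (fun _ => trivial) (fun _ _ => trivial) (fun _ _ => trivial) U hne hU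
  rw [hid, Finset.image_id] at key
  exact key

end tor

end Crest.Agent.R165.K0Srcx722
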