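import Crest.Agent.R165.JRunR_445
import Crest.Agent.R165.Fin4_315
import Crest.Agent.R165.PinLim_723
import Crest.Agent.R165.K0SrcT_722

/-!
# Row 165 (S0250): the last step in growing discs and the limit of `1 + t * discBonds` (helper892)

Mesh one, discs `ball 0 B`, `B → ∞`, any source record, any marks.

* `TB B`, `dB B` : sites of the disc and its background (plus, no insertions)
* `fin_disc`  : the last factor of a run tends to one, uniformly in the volume (box), from the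
  bound `NK → 0` of the activities at the last scale
* `ratio_disc`: `1 + t * discBonds B → exp (expo P1 P2)` from `PinData`
-/

set_option autoImplicit false
set_option linter.unusedSectionVars false

noncomputable section

open Finset Filter Topology
open scoped ENNReal
open Crest.ProbabilityR.IsingModel

namespace Crest.Agent.R165.DisFinx892

open Crest.Agent.R165.Gr0x606 Crest.Agent.R165.Gr1x606 Crest.Agent.R165.GeOpsx337
  Crest.Agent.R165.ExpGx337 Crest.Agent.R165.KStepx892 Crest.Agent.R165.KFlowx337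
  Crest.Agent.R165.SRabsx900 Crest.Agent.R165.KInitx892
open Crest.Agent.R165.Latx683
open Crest.Agent.R165.GDefx387 Crest.Agent.R165.GSysx387 Crest.Agent.R165.GSysOKx439
  Crest.Agent.R165.FRDPolyx439 Crest.Agent.R165.BgIsox432
open Crest.Agent.R165.Bkgx683 Crest.Agent.R165.Outx683
open Crest.Agent.R165.PEndx683 (Cst)
open Crest.Agent.R165.Topx683 Crest.Agent.R165.Fin2x315 Crest.Agent.R165.Fin3x315
  Crest.Agent.R165.Fin4x315 Crest.Agent.R165.JVolx950 Crest.Agent.R165.JRunx445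
open Crest.Agent.R165.U5Px422 (TT mem_TT)
open Crest.Agent.R165.Telx337 (cc)
open Crest.Agent.R165.Bridgex915 Crest.Agent.R165.PinSysx723 Crest.Agent.R165.K0Srcx722

/-- the sites of the disc of radius `B` at mesh one -/
abbrev TB (B : ℝ) : Finset (ℤ × ℤ) := TT (Metric.ball (0 : ℂ) B) 1

/-- the background of the disc of radius `B` at mesh one -/
abbrev dB (B : ℝ) : Bg ℤ := Bg.dom (TB B) .plus (fun i : Fin 0 => i.elim0)

theorem dB_w (B : ℝ) : (dB B).w = wX (wDom (TB B : Set (ℤ × ℤ)) false) (fun i : Fin 0 => i.elim0) :=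
  rfl

theorem TB_box {B : ℝ} {z : ℤ × ℤ} (hz : z ∈ TB B) :
    |((z.1 : ℝ) - ((0, 0) : ℤ × ℤ).1)| ≤ B ∧ |((z.2 : ℝ) - ((0, 0) : ℤ × ℤ).2)| ≤ B := by
  have h0 : z ∈ domainSites (Metric.ball (0 : ℂ) B) 1 := by
    have h1 : z ∈ TT (Metric.ball (0 : ℂ) B) 1 := hz
    unfold TT at h1
    split_ifs at h1 with h
    · exact h.mem_toFinset.1 h1
    · exact absurd h1 (notMem_empty _)
  have h := GapFinx40.sites_le (D := Metric.ball (0 : ℂ) B) (B := B) (a := 1)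
    (fun z hz => (mem_ball_zero_iff.1 hz).le) one_pos z h0
  rwa [div_one] at h

/-- **the last factor in growing discs**, any record of sources, any marks -/
theorem fin_disc {κ : Type} [DecidableEq κ] [Fintype κ] (c : Cst) (P : MPar)
    (mk : Finset (ℤ × ℤ)) (src : Srcs κ ℤ (Ge (Fld ℤ))) (hΓ : 1 ≤ c.Γ)
    {Kf : ℝ → ℕ} {κ' : ℝ} (hκ : 0 < κ') (hKf : ∀ᶠ B in atTop, κ' * B ≤ rr c.p c.k0 (Kf B))
    {A : ℝ → ℝ} (hA : Tendsto A atTop atTop)
    (hN : Tendsto (fun B => NK (dB B).w (A B) (rr c.p c.k0 (Kf B)) (ENNReal.ofReal c.Γ)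
      (fun _ => True) (fun U => ((((dB B).flow P DD mk src c.p c.k0).K (Kf B) U : Ge (Fld ℤ)) :
        Gr (Fld ℤ)))) atTop (𝓝 0)) (Cv : ℝ) (hCv : 0 ≤ Cv) :
    ∃ η : ℝ → ℝ, Tendsto η atTop (𝓝 0) ∧ ∀ᶠ B in atTop,
      ∀ (S : HE ℤ → HE ℤ → ℝ) (hS : Inv (dB B).w S) (h5 : 5 ≤ c.p * (c.k0 + 1))
        (hmem : ∀ k, (src.Ys k).Nonempty → src.as k ∈ grG (fldU (src.Ys k)))
        (Λ : Finset (ℤ × ℤ)) (v : Vol (TB B) .plus P.R src.Ys Λ)
        (_ : ∀ f ∈ Λ, (fd ((0, 0) : ℤ × ℤ) f : ℝ) ≤ Cv * B),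
        |(runM hS c P h5 mk src hmem v (Kf B)).fin - 1| ≤ η B := by
  set N : ℝ → ℝ≥0∞ := fun B => NK (dB B).w (A B) (rr c.p c.k0 (Kf B)) (ENNReal.ofReal c.Γ)
      (fun _ => True) (fun U => ((((dB B).flow P DD mk src c.p c.k0).K (Kf B) U : Ge (Fld ℤ)) :
        Gr (Fld ℤ))) with hNdef
  have hA1 : ∀ᶠ B in atTop, ampK DD.C κ' CPl ≤ A B := hA.eventually_ge_atTop _
  have hn1 := n_pos_of_lower (p := c.p) (k0 := c.k0) hκ (R := fun B : ℝ => B) tendsto_id hKf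
  have hNr : Tendsto (fun B => (cntK κ' Cv : ℝ) * (N B).toReal) atTop (𝓝 0) := by
    have h1 := (ENNReal.tendsto_toReal ENNReal.zero_ne_top).comp hN
    have h2 := h1.const_mul (cntK κ' Cv : ℝ)
    simpa using h2
  have hN1 : ∀ᶠ B in atTop, N B < 1 := hN.eventually_lt_const one_pos
  have hN2 : ∀ᶠ B in atTop, (cntK κ' Cv : ℝ) * (N B).toReal ≤ 1 := by
    filter_upwards [hNr.eventually_lt_const one_pos] with a ha using ha.le
  refine ⟨fun B => 2 * ((cntK κ' Cv : ℝ) * (N B).toReal), by simpa using hNr.const_mul 2, ?_⟩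
  filter_upwards [hA1, hKf, hn1, hN1, hN2, eventually_ge_atTop (1 : ℝ)] with B h3 h4 h5' h7 h8 hB
  intro S hS h5 hmem Λ v hΛ
  rw [runM_fin]
  refine zf_bound DD (by norm_num [MM]) hS (abs_wX_le _ _ _) h5' hκ (R := B) (Cg := CPl)
    (Cv := Cv) (by linarith) CPl_pos hCv h4 (fun f => ?_) h3
    (Γ := ENNReal.ofReal c.Γ) (by rw [← ENNReal.ofReal_one]; exact ENNReal.ofReal_le_ofReal hΓ)
    (near c.p c.k0 (Kf B)) (0, 0) Λ hΛ _ (by positivity) h8 ?_
  · exact gap_plus (fun i : Fin 0 => i.elim0) hB (fun f hf => TB_box hf) f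
  · rw [ENNReal.ofReal_mul (by positivity), ENNReal.ofReal_toReal h7.ne_top, ENNReal.ofReal_natCast]

/-- **the limit of `1 + t * discBonds`** -/
theorem ratio_disc {J : ℝ} (hJ : J ≠ 0) {R : ℕ} {V : Finset (ℤ × ℤ) → ℝ} (hV : VHyp R V)
    (c : Cst) (h5 : 5 ≤ c.p * (c.k0 + 1)) (hΓ : 1 ≤ c.Γ) {lam β z : ℝ} (hz : 0 < 1 + z)
    (mk : Finset (ℤ × ℤ)) {Y : Finset (ℤ × ℤ)} (hY : Y.Nonempty) {S : Finset (Bkgx683.EG ℤ)}
    {t : ℝ} {src src' : Srcs (Fin 1) ℤ (Ge (Fld ℤ))} (h1 : IsReal src Y S t)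
    (h0 : IsReal src' Y S 0)
    {Kf : ℝ → ℕ} {κ' : ℝ} (hκ : 0 < κ') (hKf : ∀ᶠ B in atTop, κ' * B ≤ rr c.p c.k0 (Kf B))
    {A : ℝ → ℝ} (hA : Tendsto A atTop atTop)
    (hN1 : Tendsto (fun B => NK (dB B).w (A B) (rr c.p c.k0 (Kf B)) (ENNReal.ofReal c.Γ)
      (fun _ => True) (fun U => ((((dB B).flow (mpar J lam R V β z) DD mk src c.p c.k0).K (Kf B) U :
        Ge (Fld ℤ)) : Gr (Fld ℤ)))) atTop (𝓝 0))
    (hN0 : Tendsto (fun B => NK (dB B).w (A B) (rr c.p c.k0 (Kf B)) (ENNReal.ofReal c.Γ)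
      (fun _ => True) (fun U => ((((dB B).flow (mpar J lam R V β z) DD mk src' c.p c.k0).K (Kf B) U :
        Ge (Fld ℤ)) : Gr (Fld ℤ)))) atTop (𝓝 0))
    {e : ℝ} (he : Tendsto (fun B => ∑ k ∈ range (Kf B), ∑' U,
      (cc ((dB B).flow (mpar J lam R V β z) DD mk src c.p c.k0) k U -
        cc ((dB B).flow (mpar J lam R V β z) DD mk src' c.p c.k0) k U)) atTop (𝓝 e)) :
    Tendsto (fun B : ℝ => 1 + t * Mastx541.discBonds B J lam R V β S) atTop (𝓝 (Real.exp e)) := by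
  classical
  have hne1 : ∀ k, (src.Ys k).Nonempty := fun k => by
    rw [Subsingleton.elim k 0, h1.Ys]; exact hY
  have hne0 : ∀ k, (src'.Ys k).Nonempty := fun k => by
    rw [Subsingleton.elim k 0, h0.Ys]; exact hY
  have hm1 : ∀ k, (src.Ys k).Nonempty → src.as k ∈ grG (fldU (src.Ys k)) := fun k _ => by
    rw [Subsingleton.elim k 0, h1.as]; exact Subalgebra.algebraMap_mem _ _
  have hm0 : ∀ k, (src'.Ys k).Nonempty → src'.as k ∈ grG (fldU (src'.Ys k)) := fun k _ => by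
    rw [Subsingleton.elim k 0, h0.as]; exact Subalgebra.algebraMap_mem _ _
  -- the volume
  set P := mpar J lam R V β z with hP
  obtain ⟨m0, hm0'⟩ : ∃ m0 : ℕ, ∀ f ∈ Y, fd ((0, 0) : ℤ × ℤ) f ≤ m0 :=
    ⟨Y.sup fun f => fd ((0, 0) : ℤ × ℤ) f, fun f hf => Finset.le_sup (f := fun f =>
      fd ((0, 0) : ℤ × ℤ) f) hf⟩
  set Λ : ℝ → Finset (ℤ × ℤ) := fun B => boxV (0, 0) (⌊B⌋₊ + P.R + 2 + m0) with hΛ
  have hvol : ∀ (B : ℝ) (Ys : Fin 1 → Finset (ℤ × ℤ)) (_ : Ys 0 = Y),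
      Vol (TB B) .plus P.R Ys (Λ B) := by
    intro B Ys hYs
    refine vol_boxV (m₀ := ⌊B⌋₊) (fun z hz => ?_) (by omega) fun k f hf => ?_
    · obtain ⟨a1, a2⟩ := TB_box hz
      exact Nat.le_floor (fd_le_real a1 a2)
    · rw [Subsingleton.elim k 0, hYs] at hf
      exact mem_boxV.2 ((hm0' f hf).trans (by omega))
  have v1 : ∀ B, Vol (TB B) .plus P.R src.Ys (Λ B) := fun B => hvol B _ h1.Ys
  have v0 : ∀ B, Vol (TB B) .plus P.R src'.Ys (Λ B) := fun B => hvol B _ h0.Ys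
  have hΛf : ∀ᶠ B : ℝ in atTop, ∀ f ∈ Λ B, (fd ((0, 0) : ℤ × ℤ) f : ℝ) ≤
      (1 + ((P.R : ℝ) + 2 + m0)) * B := by
    filter_upwards [eventually_ge_atTop (1 : ℝ)] with B hB f hf
    have a1 := mem_boxV.1 hf
    have a2 : (fd ((0, 0) : ℤ × ℤ) f : ℝ) ≤ (⌊B⌋₊ : ℝ) + P.R + 2 + m0 := by exact_mod_cast a1
    have a3 : (⌊B⌋₊ : ℝ) ≤ B := Nat.floor_le (by linarith)
    have a4 : ((P.R : ℝ) + 2 + m0) ≤ ((P.R : ℝ) + 2 + m0) * B :=
      le_mul_of_one_le_right (by positivity) hB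
    linarith
  obtain ⟨η1, hη1, hf1⟩ := fin_disc c P mk src hΓ hκ hKf hA hN1 (1 + ((P.R : ℝ) + 2 + m0))
    (by positivity)
  obtain ⟨η0, hη0, hf0⟩ := fin_disc c P mk src' hΓ hκ hKf hA hN0 (1 + ((P.R : ℝ) + 2 + m0))
    (by positivity)
  -- the last factors as functions
  have key : ∀ᶠ B : ℝ in atTop, ∃ z1 z0 : ℝ, |z1 - 1| ≤ η1 B ∧ |z0 - 1| ≤ η0 B ∧
      1 + t * Mastx541.discBonds B J lam R V β S =
        Real.exp (∑ k ∈ range (Kf B), ∑' U,
          (cc ((dB B).flow P DD mk src c.p c.k0) k U -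
            cc ((dB B).flow P DD mk src' c.p c.k0) k U)) * (z1 / z0) := by
    filter_upwards [disc_run, hf1, hf0, hΛf] with B hB hB1 hB0 hL
    obtain ⟨hX, hB⟩ := hB
    have hrun := hB J hJ R V hV c h5 lam β z hz mk mk src src' t S
      (fun k => by rw [Subsingleton.elim k 0, h1.as]) (fun k => by rw [Subsingleton.elim k 0, h0.as])
      (fun k => by rw [Subsingleton.elim k 0, h1.Fs]) hne1 hne0 hm1 hm0 (Λ B) (v1 B) (v0 B) (Kf B)
    refine ⟨_, _, hB1 _ hX.invB h5 hm1 (Λ B) (v1 B) hL, hB0 _ hX.invB h5 hm0 (Λ B) (v0 B) hL, ?_⟩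
    rw [hrun, ratio_totalM]
  have hex := (Real.continuous_exp.tendsto _).comp he
  choose! z1 z0 hz1 hz0 hzz using fun B (h : ∃ z1 z0 : ℝ, |z1 - 1| ≤ η1 B ∧ |z0 - 1| ≤ η0 B ∧
      1 + t * Mastx541.discBonds B J lam R V β S =
        Real.exp (∑ k ∈ range (Kf B), ∑' U,
          (cc ((dB B).flow P DD mk src c.p c.k0) k U -
            cc ((dB B).flow P DD mk src' c.p c.k0) k U)) * (z1 / z0)) => h
  have t1 : Tendsto z1 atTop (𝓝 1) := by
    rw [tendsto_iff_norm_sub_tendsto_zero]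
    refine squeeze_zero' (Eventually.of_forall fun a => norm_nonneg _) ?_ hη1
    filter_upwards [key] with B hB
    rw [Real.norm_eq_abs]
    exact hz1 B hB
  have t0 : Tendsto z0 atTop (𝓝 1) := by
    rw [tendsto_iff_norm_sub_tendsto_zero]
    refine squeeze_zero' (Eventually.of_forall fun a => norm_nonneg _) ?_ hη0
    filter_upwards [key] with B hB
    rw [Real.norm_eq_abs]
    exact hz0 B hB
  have h2 := hex.mul (t1.div t0 one_ne_zero)
  rw [div_one, mul_one] at h2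
  refine h2.congr' ?_
  filter_upwards [key] with B hB
  exact (hzz B hB).symm

end Crest.Agent.R165.DisFinx892
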