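import Crest.Agent.R165.DiscMk_117
import Crest.Agent.R165.DeepBg_898
import Crest.Agent.R165.TorNorm2_583

/-!
# Row 165 (S0250), block F: the flows in discs at fixed mesh, in terms of the constants (helper117)

* `disc_flow` : from `PlB` (plane flow with growing amplitudes, helper889's `plane_P8`) and the
  bound of the initial activities: all norm bounds of the flow in the disc of radius `B` at mesh
  `1` with the mark `0` and any local source, and `Bd`, up to the step `KB c δ B`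
* `plane_flow` : the same for the plane with one mark
* `disc_last` : the norm at the last step tends to zero, the amplitude to infinity,
  `δ / 2^p B ≤ rr (KB c δ B)`
-/

set_option autoImplicit false
set_option linter.unusedSectionVars false

noncomputable section

open Filter Topology
open scoped ENNReal
open Crest.ProbabilityR.IsingModel
open Crest.Agent.R165.Geo (LatReg bdS)
open Crest.Agent.R165.Gr0x606 Crest.Agent.R165.Gr1x606 Crest.Agent.R165.GeOpsx337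
open Crest.Agent.R165.Latx683 (BW wDom wX wPl Fld)
open Crest.Agent.R165.GDefx387 Crest.Agent.R165.GSysx387 Crest.Agent.R165.KFlowx337
open Crest.Agent.R165.DefRecx915 Crest.Agent.R165.Compx889 Crest.Agent.R165.NKDefx915
open Crest.Agent.R165.Bkgx683 Crest.Agent.R165.Outx683 Crest.Agent.R165.PEndx683
open Crest.Agent.R165.Constx891 Crest.Agent.R165.StepOKx838 Crest.Agent.R165.DomAcx117
open Crest.Agent.R165.BgIsox432 Crest.Agent.R165.Bridgex915 Crest.Agent.R165.Scalex900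
open Crest.Agent.R165.DeepBgx898 (Away SrcLoc plOK_dom plOK_pl noIso_ball deep_Z)
open Crest.Agent.R165.TorNorm2x583 (PlB)
open Crest.Agent.R165.SpinSysx892

namespace Crest.Agent.R165.DiscMkx117

/-- sources of `TorNorm2_583` -/
theorem SrcOK.of_583 {G : Type} [CommRing G] [DecidableEq G] [CN G] {κ : Type}
    [DecidableEq κ] [Fintype κ] {src : Srcs κ G (Ge (Fld G))} {mk : Finset (G × G)}
    (h : TorNorm2x583.SrcOK src mk) : SrcOK src :=
  ⟨fun k _ => by obtain ⟨t, ht⟩ := h.real k; rw [ht]; exact Subalgebra.algebraMap_mem _ _, h.conn⟩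

theorem away_of_583 {G : Type} [CommRing G] [DecidableEq G] [CN G] {κ : Type}
    [DecidableEq κ] [Fintype κ] {src : Srcs κ G (Ge (Fld G))} {mk : Finset (G × G)}
    (h : TorNorm2x583.SrcOK src mk) : Away src mk := fun k hk => by
  obtain ⟨x, hx, hxk⟩ := h.mark k hk
  exact ⟨x, hxk, hx⟩

theorem amp_zero (c : Cst) : Outx683.amp c 0 = c.A0 := by unfold Outx683.amp; simp

theorem amp_lin {c : Cst} (hc : Std c) : Constx891.Amp c (Outx683.amp c) := Constx891.Amp.lin hc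

/-- the hypotheses of (P8) from the plane and the initial activities, backgrounds on `ℤ` -/
theorem p8_inputs {c : Cst} {P : MPar} {B : Bg ℤ} (hB : DeepBgx898.PlOK B)
    (h5 : 5 ≤ c.p * (c.k0 + 1)) {κ : Type} [DecidableEq κ] [Fintype κ]
    {src : Srcs κ ℤ (Ge (Fld ℤ))} (hs : SrcOK src) {mk : Finset (ℤ × ℤ)} (ha : Away src mk)
    {θ : ℝ} {K : ℕ}
    (hpl : ∀ n, n ≤ K → NK (wPl ℤ) (Outx683.amp c n) (rr c.p c.k0 n) (ENNReal.ofReal c.Γ)
      (fun _ => True) (fun U => (((plF c P).K n U : Ge (Fld ℤ)) : Gr (Fld ℤ))) ≤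
        ENNReal.ofReal (θ * (1 / 2) ^ n))
    (h0 : NK B.w (Outx683.amp c 0) (rr c.p c.k0 0) (ENNReal.ofReal c.Γ) (fun _ => True)
      (fun U => ((B.K0 P LinearMap.id src c.p c.k0 U : Ge (Fld ℤ)) : Gr (Fld ℤ))) ≤
        ENNReal.ofReal θ) :
    (∀ k, k ≤ K → NPc c (B.flow P DD mk src c.p c.k0) B.w (Outx683.amp c)
      (emM B.w (mk : Set (ℤ × ℤ)) (rr c.p c.k0 k)) k ≤ ENNReal.ofReal (1 * θ * (1 / 2) ^ k)) ∧
    NPc c (B.flow P DD mk src c.p c.k0) B.w (Outx683.amp c)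
      (fun U => ¬ emM B.w (mk : Set (ℤ × ℤ)) (rr c.p c.k0 0) U) 0 ≤ ENNReal.ofReal (1 * θ) := by
  refine ⟨fun k hk => ?_, ?_⟩
  · rw [one_mul]
    exact (deep_Z hB h5 ha hs.loc k le_rfl (ENNReal.ofReal c.Γ)
      (em := emM B.w (mk : Set (ℤ × ℤ)) (rr c.p c.k0 k)) fun _ h => h).trans (hpl k hk)
  · rw [one_mul]
    exact (NK_mono fun U _ => ⟨trivial, le_rfl⟩).trans h0

/-- the conclusion in terms of `|lam| + s` -/
theorem out_le {M C₁ l s : ℝ} (hM : 0 ≤ M) (hC : 0 ≤ C₁) (hl : 0 ≤ l) (hs : 0 ≤ s) (k : ℕ) :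
    M * (C₁ * l + s) * (1 / 2) ^ k ≤ M * (C₁ + 1) * (l + s) * (1 / 2 : ℝ) ^ k := by
  refine mul_le_mul_of_nonneg_right ?_ (by positivity)
  rw [mul_assoc M]
  exact mul_le_mul_of_nonneg_left (by nlinarith [mul_nonneg hC hs]) hM

/-- **the flows in discs at mesh `1`** with the mark `0` and any local source whose initial
activities are at most `s` -/
theorem disc_flow {J : ℝ} {R : ℕ} {V : Finset (ℤ × ℤ) → ℝ} (hpl : PlB J R V) :
    EvC fun c => ∃ δ0 > 0, ∀ C : ℝ, ∃ ε > 0, ∃ η > 0, ∃ C' ≥ 0, ∀ lam β z : ℝ, |lam| < ε →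
      NearP J C lam β z → PF J R V C c lam β z → ∀ s : ℝ, 0 ≤ s → s ≤ η →
      ∀ δ : ℝ, 0 < δ → δ ≤ δ0 → ∀ Y : Finset (ℤ × ℤ), ∀ᶠ B : ℝ in atTop,
      ∀ (T : Finset (ℤ × ℤ)), (T : Set (ℤ × ℤ)) = domainSites (Metric.ball (0 : ℂ) B) 1 →
      ∀ (b : BoundaryCondition) (X : Fin 0 → ℤ × ℤ) (κ : Type) [DecidableEq κ] [Fintype κ]
        (src : Srcs κ ℤ (Ge (Fld ℤ))), SrcOK src → Away src {((0, 0) : ℤ × ℤ)} →
        (∀ k, src.Ys k ⊆ Y) →
      NK (Bg.dom T b X).w c.A0 (rr c.p c.k0 0) (ENNReal.ofReal c.Γ) (fun _ => True)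
        (fun U => (((Bg.dom T b X).K0 (mpar J lam R V β z) LinearMap.id src c.p c.k0 U :
          Ge (Fld ℤ)) : Gr (Fld ℤ))) ≤ ENNReal.ofReal s →
      (∀ k, k ≤ KB c δ B → NK (Bg.dom T b X).w (Outx683.amp c k) (rr c.p c.k0 k)
        (ENNReal.ofReal c.Γ) (fun _ => True)
        (fun U => ((((Bg.dom T b X).flow (mpar J lam R V β z) DD {(0, 0)} src c.p c.k0).K k U :
          Ge (Fld ℤ)) : Gr (Fld ℤ))) ≤ ENNReal.ofReal (C' * (|lam| + s) * (1 / 2) ^ k)) ∧
      Bd ((Bg.dom T b X).flow (mpar J lam R V β z) DD {(0, 0)} src c.p c.k0) fd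
        (fun k => rr c.p c.k0 (k + 1)) (nearR c.p c.k0) (ENNReal.ofReal c.Γ)
        (fun k => C' * (|lam| + s) * (1 / 2) ^ k) (KB c δ B) := by
  refine ev_mono3 (ev_disc_P8 (max R 1)) (ev_dcst (max R 1)) hpl ?_
  rintro c ⟨δ0, hδ0, H⟩ hc hP
  refine ⟨δ0, hδ0, fun C => ?_⟩
  obtain ⟨M, ε₀, hM, hε₀, H⟩ := H 1
  obtain ⟨ε₁, hε₁, C₁, hC₁, hP⟩ := hP C
  have hpos : 0 < C₁ + 1 := by linarith
  refine ⟨min ε₁ (ε₀ / 2 / (C₁ + 1)), lt_min hε₁ (by positivity), ε₀ / 2, by positivity,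
    M * (C₁ + 1), by positivity, ?_⟩
  intro lam β z hlam hn hPF s hs hsη δ hδ hδ1 Y
  have hl1 := hlam.trans_le (min_le_left _ _)
  have hl2 : (C₁ + 1) * |lam| ≤ ε₀ / 2 := by
    have := (hlam.trans_le (min_le_right _ _)).le
    rwa [le_div_iff₀ hpos, mul_comm] at this
  have habs := abs_nonneg lam
  have hθ : 0 ≤ C₁ * |lam| + s := by positivity
  filter_upwards [H δ hδ hδ1 Y] with B hB
  intro T hT b X κ _ _ src hsrc haw hY h0
  have hin := p8_inputs (θ := C₁ * |lam| + s) (K := KB c δ B) (P := mpar J lam R V β z)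
    (plOK_dom (by rw [hT]; exact noIso_ball 1 B) b X) hc.five hsrc haw
    (fun n _ => (hP lam β z hl1 hn hPF n).trans (ENNReal.ofReal_le_ofReal
      (mul_le_mul_of_nonneg_right (by linarith) (by positivity))))
    (by rw [amp_zero]; exact h0.trans (ENNReal.ofReal_le_ofReal (by nlinarith)))
  obtain ⟨k1, k2, k3⟩ := hB T hT b X (mpar J lam R V β z) le_rfl κ src hsrc hY
    (Outx683.amp c) (amp_lin hc.std) (C₁ * |lam| + s) hθ (by nlinarith) hin.1 hin.2
  refine ⟨fun k hk => (k1 k hk).trans (ENNReal.ofReal_le_ofReal (out_le hM.le hC₁ habs hs k)),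
    fun k hk => (k3.nn k hk).trans (ENNReal.ofReal_le_ofReal (out_le hM.le hC₁ habs hs k)),
    k3.conn⟩

/-- **the flow in the plane** with one mark and any local source whose initial activities are at
most `s` -/
theorem plane_flow {J : ℝ} {R : ℕ} {V : Finset (ℤ × ℤ) → ℝ} (hpl : PlB J R V) :
    EvC fun c => ∀ C : ℝ, ∃ ε > 0, ∃ η > 0, ∃ C' ≥ 0, ∀ lam β z : ℝ, |lam| < ε →
      NearP J C lam β z → PF J R V C c lam β z → ∀ s : ℝ, 0 ≤ s → s ≤ η →
      ∀ (f₀ : ℤ × ℤ) (κ : Type) [DecidableEq κ] [Fintype κ] (src : Srcs κ ℤ (Ge (Fld ℤ))),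
        SrcOK src → Away src {f₀} →
      NK (wPl ℤ) c.A0 (rr c.p c.k0 0) (ENNReal.ofReal c.Γ) (fun _ => True)
        (fun U => ((Bg.pl.K0 (mpar J lam R V β z) LinearMap.id src c.p c.k0 U :
          Ge (Fld ℤ)) : Gr (Fld ℤ))) ≤ ENNReal.ofReal s → ∀ K : ℕ,
      (∀ k, k ≤ K → NK (wPl ℤ) (Outx683.amp c k) (rr c.p c.k0 k)
        (ENNReal.ofReal c.Γ) (fun _ => True)
        (fun U => (((Bg.pl.flow (mpar J lam R V β z) DD {f₀} src c.p c.k0).K k U :
          Ge (Fld ℤ)) : Gr (Fld ℤ))) ≤ ENNReal.ofReal (C' * (|lam| + s) * (1 / 2) ^ k)) ∧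
      Bd (Bg.pl.flow (mpar J lam R V β z) DD {f₀} src c.p c.k0) fd
        (fun k => rr c.p c.k0 (k + 1)) (nearR c.p c.k0) (ENNReal.ofReal c.Γ)
        (fun k => C' * (|lam| + s) * (1 / 2) ^ k) K := by
  refine ev_mono3 ev_plane_P8 (ev_dcst (max R 1)) hpl ?_
  rintro c H hc hP C
  obtain ⟨M, ε₀, hM, hε₀, H⟩ := H 1
  obtain ⟨ε₁, hε₁, C₁, hC₁, hP⟩ := hP C
  have hpos : 0 < C₁ + 1 := by linarith
  refine ⟨min ε₁ (ε₀ / 2 / (C₁ + 1)), lt_min hε₁ (by positivity), ε₀ / 2, by positivity,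
    M * (C₁ + 1), by positivity, ?_⟩
  intro lam β z hlam hn hPF s hs hsη f₀ κ _ _ src hsrc haw h0 K
  have hl1 := hlam.trans_le (min_le_left _ _)
  have hl2 : (C₁ + 1) * |lam| ≤ ε₀ / 2 := by
    have := (hlam.trans_le (min_le_right _ _)).le
    rwa [le_div_iff₀ hpos, mul_comm] at this
  have habs := abs_nonneg lam
  have hθ : 0 ≤ C₁ * |lam| + s := by positivity
  have hin := p8_inputs (θ := C₁ * |lam| + s) (K := K) (P := mpar J lam R V β z)
    plOK_pl hc.five hsrc haw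
    (fun n _ => (hP lam β z hl1 hn hPF n).trans (ENNReal.ofReal_le_ofReal
      (mul_le_mul_of_nonneg_right (by linarith) (by positivity))))
    (by rw [amp_zero]; exact h0.trans (ENNReal.ofReal_le_ofReal (by nlinarith)))
  obtain ⟨k1, k2, k3⟩ := H (mpar J lam R V β z) κ src hsrc f₀
    (Outx683.amp c) (amp_lin hc.std) (C₁ * |lam| + s) hθ (by nlinarith) K hin.1 hin.2
  refine ⟨fun k hk => (k1 k hk).trans (ENNReal.ofReal_le_ofReal (out_le hM.le hC₁ habs hs k)),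
    fun k hk => (k3.nn k hk).trans (ENNReal.ofReal_le_ofReal (out_le hM.le hC₁ habs hs k)),
    k3.conn⟩

/-! ### the last step -/

/-- the amplitude at the last step tends to infinity -/
theorem amp_KB_tendsto {c : Cst} (hc : Std c) {δ : ℝ} (hδ : 0 < δ) :
    Tendsto (fun B : ℝ => Outx683.amp c (KB c δ B)) atTop atTop := by
  have h1 : Tendsto (fun B : ℝ => (KB c δ B : ℝ)) atTop atTop :=
    tendsto_natCast_atTop_atTop.comp (KB_tendsto (by have := hc.p_pos; omega) hδ)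
  have hA : 0 < c.A0 := one_pos.trans_le hc.A0_ge
  have h2 : Tendsto (fun B : ℝ => c.A0 * (c.δ * (KB c δ B : ℝ))) atTop atTop :=
    Tendsto.const_mul_atTop hA (Tendsto.const_mul_atTop hc.δ_pos h1)
  refine tendsto_atTop_mono (fun B => ?_) h2
  unfold Outx683.amp
  nlinarith

/-- a bound `C 2^-k` at the last step tends to zero -/
theorem last_tendsto {c : Cst} (hp : 1 ≤ c.p) {δ : ℝ} (hδ : 0 < δ) (C : ℝ) :
    Tendsto (fun B : ℝ => ENNReal.ofReal (C * (1 / 2) ^ KB c δ B)) atTop (𝓝 0) := by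
  have h1 : Tendsto (fun B : ℝ => C * (1 / 2 : ℝ) ^ KB c δ B) atTop (𝓝 0) := by
    have h2 := (tendsto_pow_atTop_nhds_zero_of_lt_one (r := (1 / 2 : ℝ)) (by norm_num)
      (by norm_num)).comp (KB_tendsto hp hδ)
    simpa using h2.const_mul C
  have := (ENNReal.continuous_ofReal.tendsto 0).comp h1
  rwa [ENNReal.ofReal_zero] at this

/-- the last scale is comparable to the radius -/
theorem rr_KB_ge {c : Cst} (hp : 1 ≤ c.p) (δ B : ℝ) :
    δ / 2 ^ c.p * B ≤ rr c.p c.k0 (KB c δ B) := by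
  have h := (lt_rr_KB hp δ B).le
  rw [div_mul_eq_mul_div, div_le_iff₀ (by positivity)]
  linarith

end Crest.Agent.R165.DiscMkx117
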