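import Crest.Agent.R165.TorNorm3_583
import Crest.Agent.R165.K0Src_722
import Crest.Agent.R165.TorTan_723

/-!
# Row 165 (S0250): real sources on the torus (helper583)

* `conn_image` : connectedness of the image under a map which does not increase distances
* `conn_rect`, `conn_boxG` : rectangles and boxes are connected by unit steps
* `srcOK_of_isReal`, `srcOK_pr` : `SrcOK` for the real sources of the plane and of the torus
-/

set_option autoImplicit false
set_option linter.unusedSectionVars false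

noncomputable section

open Crest.Agent.R165.Gr0x606 Crest.Agent.R165.Gr1x606 Crest.Agent.R165.GeOpsx337
open Crest.Agent.R165.Latx683 Crest.Agent.R165.GDefx387 Crest.Agent.R165.TorTanx723
open Crest.Agent.R165.Bkgx683 Crest.Agent.R165.TorNorm2x583 Crest.Agent.R165.K0Srcx722
  Crest.Agent.R165.MetGx723

namespace Crest.Agent.R165.SrcRealx583

theorem conn_image {X X' : Type*} [DecidableEq X'] {d : X → X → ℕ} {d' : X' → X' → ℕ} {f : X → X'}
    (hf : ∀ x y, d' (f x) (f y) ≤ d x y) {R : ℕ} {U : Finset X} (h : Packx915.Conn d R U) :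
    Packx915.Conn d' R (U.image f) := by
  classical
  intro A hA hne hneU
  obtain ⟨a, ha, b, hb, hbA, hab⟩ := h (U.filter fun x => f x ∈ A) (Finset.filter_subset _ _)
    (by
      obtain ⟨y, hy⟩ := hne
      obtain ⟨x, hx, rfl⟩ := Finset.mem_image.1 (hA hy)
      exact ⟨x, Finset.mem_filter.2 ⟨hx, hy⟩⟩)
    (by
      intro heq
      apply hneU
      refine Finset.Subset.antisymm hA fun y hy => ?_
      obtain ⟨x, hx, rfl⟩ := Finset.mem_image.1 hy
      rw [← heq] at hx
      exact (Finset.mem_filter.1 hx).2)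
  refine ⟨f a, (Finset.mem_filter.1 ha).2, f b, Finset.mem_image_of_mem _ hb, fun hfb =>
    hbA (Finset.mem_filter.2 ⟨hb, hfb⟩), (hf a b).trans hab⟩

/-- rectangles are connected -/
theorem conn_rect (a b c e : ℤ) :
    Packx915.Conn fd 1 (Finset.Icc a b ×ˢ Finset.Icc c e : Finset (ℤ × ℤ)) := by
  classical
  set U := (Finset.Icc a b ×ˢ Finset.Icc c e : Finset (ℤ × ℤ)) with hU
  have hm : ∀ p : ℤ × ℤ, p ∈ U ↔ (a ≤ p.1 ∧ p.1 ≤ b) ∧ (c ≤ p.2 ∧ p.2 ≤ e) := by
    intro p
    rw [hU, Finset.mem_product, Finset.mem_Icc, Finset.mem_Icc]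
  intro A hA hne hneU
  by_contra hcon
  push Not at hcon
  have hstep : ∀ p q : ℤ × ℤ, p ∈ U → q ∈ U → fd p q ≤ 1 → (p ∈ A ↔ q ∈ A) := by
    intro p q hp hq hpq
    constructor
    · intro h
      by_contra h'
      have := hcon p h q hq h'
      omega
    · intro h
      by_contra h'
      have := hcon q h p hp h'
      rw [fd_comm] at this
      omega
  have key : ∀ n : ℕ, ∀ p ∈ U, (p.1 - a) + (p.2 - c) = n → (p ∈ A ↔ (a, c) ∈ A) := by
    intro n
    induction n with
    | zero =>
      intro p hp h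
      have h1 := (hm p).1 hp
      have : p = (a, c) := Prod.ext (by simp only [Nat.cast_zero] at h; omega)
        (by simp only [Nat.cast_zero] at h; omega)
      rw [this]
    | succ n ih =>
      intro p hp h
      have h1 := (hm p).1 hp
      push_cast at h
      by_cases h2 : a < p.1
      · have hq : (p.1 - 1, p.2) ∈ U := (hm _).2 ⟨⟨by dsimp only; omega, by dsimp only; omega⟩, h1.2⟩
        rw [← ih _ hq (by dsimp only; omega)]
        refine hstep _ _ hp hq ?_
        have := J4K0Lx126.fd_e1 (p.1 - 1, p.2)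
        rw [fd_comm]
        convert this using 2
        ext <;> simp
      · have h3 : c < p.2 := by omega
        have hq : (p.1, p.2 - 1) ∈ U := (hm _).2 ⟨h1.1, ⟨by dsimp only; omega, by dsimp only; omega⟩⟩
        rw [← ih _ hq (by dsimp only; omega)]
        refine hstep _ _ hp hq ?_
        have := J4K0Lx126.fd_e2 (p.1, p.2 - 1)
        rw [fd_comm]
        convert this using 2
        ext <;> simp
  have hall : ∀ p ∈ U, (p ∈ A ↔ (a, c) ∈ A) := by
    intro p hp
    have h1 := (hm p).1 hp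
    refine key ((p.1 - a) + (p.2 - c)).toNat p hp ?_
    rw [Int.toNat_of_nonneg]
    omega
  obtain ⟨p, hp⟩ := hne
  have h0 := (hall p (hA hp)).1 hp
  exact hneU (Finset.Subset.antisymm hA fun q hq => (hall q hq).2 h0)

/-- boxes are connected -/
theorem conn_boxG (f : ℤ × ℤ) (s : ℕ) : Packx915.Conn fd 1 (boxG f s) := by
  unfold boxG
  refine conn_image (fun x y => le_of_eq ?_) (conn_rect (-(s : ℤ)) s (-(s : ℤ)) s)
  unfold fd
  congr 2 <;> push_cast <;> ring_nf <;> simp

section real

variable {G : Type} [CommRing G] [CN G] [DecidableEq G]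

theorem srcOK_of_isReal {src : Srcs (Fin 1) G (Ge (Fld G))} {Y : Finset (G × G)}
    {S : Finset (EG G)} {t : ℝ} (h : IsReal src Y S t) (hY : Packx915.Conn fd 1 Y) {f₀ : G × G}
    (hf : f₀ ∈ Y) : SrcOK src {f₀} where
  real k := ⟨t, by rw [Subsingleton.elim k 0]; exact h.as⟩
  conn k := by rw [Subsingleton.elim k 0, h.Ys]; exact hY
  mark k _ := ⟨f₀, Finset.mem_singleton_self _, by rw [Subsingleton.elim k 0, h.Ys]; exact hf⟩

/-- the torus -/
theorem srcOK_pr {M : ℕ} [NeZero M] {src : Srcs (Fin 1) (ZMod M) (Ge (Fld (ZMod M)))}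
    {Y : Finset (ℤ × ℤ)} {S : Finset (EG (ZMod M))} {t : ℝ} (h : IsReal src (Y.image (pr M)) S t)
    (hY : Packx915.Conn fd 1 Y) {f₀ : ℤ × ℤ} (hf : f₀ ∈ Y) : SrcOK src {pr M f₀} :=
  srcOK_of_isReal h (conn_image (fun x y => fd_pr_le x y) hY) (Finset.mem_image_of_mem _ hf)

end real

end Crest.Agent.R165.SrcRealx583
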