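import Crest.Agent.R165.DisFin_892
import Crest.Agent.R165.DiscMk2_117
import Crest.Agent.R165.SrcReal_583

/-!
# Row 165 (S0250): the disc half of the limit of bond expectations, generic real source (helper892)

* `C0R J R V` : the initial activities with a real source are small (all backgrounds on `ℤ`)
* `disc_bounds` : for almost all constants: bounds `Bd` (sources `t` and `0`) and the bound of the
  last activities, up to the step `KB c δ B`
* `disc_lim` : `1 + t * discBonds B → exp (expo ..)`, from the bounds and the local equalities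
-/

set_option autoImplicit false
set_option linter.unusedSectionVars false

noncomputable section

open Finset Filter Topology
open scoped ENNReal
open Crest.ProbabilityR.IsingModel

namespace Crest.Agent.R165.DisGx892

open Crest.Agent.R165.Gr0x606 Crest.Agent.R165.Gr1x606 Crest.Agent.R165.GeOpsx337
  Crest.Agent.R165.KStepx892 Crest.Agent.R165.KFlowx337
open Crest.Agent.R165.Latx683
open Crest.Agent.R165.GDefx387 Crest.Agent.R165.GSysx387 Crest.Agent.R165.BgIsox432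
open Crest.Agent.R165.Bkgx683 Crest.Agent.R165.Outx683
open Crest.Agent.R165.PEndx683 Crest.Agent.R165.Topx683 Crest.Agent.R165.Constx891
open Crest.Agent.R165.U5Px422 (TT mem_TT)
open Crest.Agent.R165.Telx337 (cc)
open Crest.Agent.R165.SpinSysx892 Crest.Agent.R165.TorTanx723
open Crest.Agent.R165.Bridgex915 Crest.Agent.R165.PinSysx723 Crest.Agent.R165.K0Srcx722
open Crest.Agent.R165.DisFinx892 Crest.Agent.R165.DiscMkx117 Crest.Agent.R165.Fin3x315
open Crest.Agent.R165.TorNorm2x583 (PlB)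

/-- **the initial activities with a real source are small**, all backgrounds on `ℤ`, connected
supports -/
def C0R (J : ℝ) (R : ℕ) (V : Finset (ℤ × ℤ) → ℝ) : Prop :=
  EvC fun c => ∀ C η : ℝ, 0 < η → ∃ ε > 0, ∀ lam β z : ℝ, |lam| < ε → NearP J C lam β z →
    ∀ (Y : Finset (ℤ × ℤ)), Packx915.Conn fd 1 Y → ∀ (S : Finset (Bkgx683.EG ℤ)),
      ∃ t0 > 0, ∀ t : ℝ, |t| < t0 → ∀ B : Bg ℤ, (∀ z j, |B.w z j| ≤ 1) →
      ∀ src : Srcs (Fin 1) ℤ (Ge (Fld ℤ)), IsReal src Y S t →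
        NK B.w c.A0 (rr c.p c.k0 0) (ENNReal.ofReal c.Γ) (fun _ => True)
          (fun U => ((B.K0 (mpar J lam R V β z) LinearMap.id src c.p c.k0 U : Ge (Fld ℤ)) :
            Gr (Fld ℤ))) ≤ ENNReal.ofReal η

/-- the flow of the disc of radius `B` at mesh one with the mark `0` -/
abbrev fB (c : Cst) (P : MPar) (src : Srcs (Fin 1) ℤ (Ge (Fld ℤ))) (B : ℝ) :
    Sys (ℤ × ℤ) (Fld ℤ) := (dB B).flow P DD {(0, 0)} src c.p c.k0

/-- the flow of the plane with the mark `0` -/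
abbrev fP (c : Cst) (P : MPar) (src : Srcs (Fin 1) ℤ (Ge (Fld ℤ))) :
    Sys (ℤ × ℤ) (Fld ℤ) := Bg.pl.flow P DD {(0, 0)} src c.p c.k0

/-- the bounds which are used -/
structure DBd (c : Cst) (P : MPar) (src : Srcs (Fin 1) ℤ (Ge (Fld ℤ))) (δ : ℝ) (E : ℕ → ℝ) :
    Prop where
  bd : ∀ᶠ B : ℝ in atTop, Bd (fB c P src B) fd (fun k => rr c.p c.k0 (k + 1)) (nearR c.p c.k0)
    (ENNReal.ofReal c.Γ) E (KB c δ B)
  nk : Tendsto (fun B => NK (dB B).w (Outx683.amp c (KB c δ B)) (rr c.p c.k0 (KB c δ B))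
    (ENNReal.ofReal c.Γ) (fun _ => True) (fun U => (((fB c P src B).K (KB c δ B) U : Ge (Fld ℤ)) :
      Gr (Fld ℤ)))) atTop (𝓝 0)

/-- `1 + z` is positive -/
theorem one_add_z_pos {J C lam β z : ℝ} (hn : NearP J C lam β z)
    (hl : |lam| < 1 / (2 * (|C| + 1))) : 0 < 1 + z := by
  have h1 : |z| ≤ C * |lam| := by
    unfold NearP at hn
    linarith [abs_nonneg (β - criticalBeta J)]
  have h2 : C * |lam| ≤ (|C| + 1) * |lam| :=
    mul_le_mul_of_nonneg_right (by linarith [le_abs_self C]) (abs_nonneg _)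
  have h3 : (|C| + 1) * |lam| < 1 / 2 := by
    have hC : 0 < |C| + 1 := by positivity
    rw [lt_div_iff₀ (by positivity)] at hl
    linarith
  have h4 := neg_abs_le z
  linarith

/-- **the bounds in growing discs**, real sources -/
theorem disc_bounds {J : ℝ} {R : ℕ} {V : Finset (ℤ × ℤ) → ℝ} (hpl : PlB J R V)
    (hc0 : C0R J R V) :
    EvC fun c => Std c ∧ 5 ≤ c.p * (c.k0 + 1) ∧ ∃ δ0 > 0, ∀ C : ℝ, ∃ ε > 0, ∀ lam β z : ℝ,
      |lam| < ε → NearP J C lam β z → PF J R V C c lam β z →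
      0 < 1 + z ∧ ∃ E : ℕ → ℝ, (∀ k, 0 ≤ E k) ∧ Summable E ∧
      ∀ (Y : Finset (ℤ × ℤ)), Packx915.Conn fd 1 Y → ((0, 0) : ℤ × ℤ) ∈ Y →
      ∀ S : Finset (Bkgx683.EG ℤ), ∃ t0 > 0, ∀ t : ℝ, |t| < t0 →
        ∀ src : Srcs (Fin 1) ℤ (Ge (Fld ℤ)), IsReal src Y S t →
          DBd c (mpar J lam R V β z) src δ0 E := by
  refine ev_mono3 (disc_flow hpl) (ev_dcst (max R 1)) hc0 ?_
  rintro c ⟨δ0, hδ0, H⟩ hc H0
  refine ⟨hc.std, hc.five, δ0, hδ0, fun C => ?_⟩
  obtain ⟨ε, hε, η, hη, C', hC', H⟩ := H C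
  obtain ⟨ε', hε', H0⟩ := H0 C η hη
  refine ⟨min (min ε ε') (1 / (2 * (|C| + 1))), lt_min (lt_min hε hε') (by positivity), ?_⟩
  intro lam β z hl hn hPF
  have hl1 : |lam| < ε := hl.trans_le ((min_le_left _ _).trans (min_le_left _ _))
  have hl2 : |lam| < ε' := hl.trans_le ((min_le_left _ _).trans (min_le_right _ _))
  have hl3 : |lam| < 1 / (2 * (|C| + 1)) := hl.trans_le (min_le_right _ _)
  have hB : 0 ≤ C' * (|lam| + η) := by positivity
  refine ⟨one_add_z_pos hn hl3, fun k => C' * (|lam| + η) * (1 / 2) ^ k, fun k => by positivity,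
    (summable_geometric_of_lt_one (by norm_num) (by norm_num)).mul_left _, ?_⟩
  intro Y hY h0Y S
  obtain ⟨t0, ht0, H1⟩ := H0 lam β z hl2 hn Y hY S
  refine ⟨t0, ht0, fun t ht src hs => ?_⟩
  have hok := SrcRealx583.srcOK_of_isReal hs hY h0Y
  have hp : 1 ≤ c.p := by have := hc.std.p_pos; omega
  have key := H lam β z hl1 hn hPF η hη.le le_rfl δ0 hδ0 le_rfl Y
  have key2 : ∀ᶠ B : ℝ in atTop,
      (∀ k, k ≤ KB c δ0 B → NK (dB B).w (Outx683.amp c k) (rr c.p c.k0 k)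
        (ENNReal.ofReal c.Γ) (fun _ => True)
        (fun U => (((fB c (mpar J lam R V β z) src B).K k U : Ge (Fld ℤ)) : Gr (Fld ℤ))) ≤
          ENNReal.ofReal (C' * (|lam| + η) * (1 / 2) ^ k)) ∧
      Bd (fB c (mpar J lam R V β z) src B) fd
        (fun k => rr c.p c.k0 (k + 1)) (nearR c.p c.k0) (ENNReal.ofReal c.Γ)
        (fun k => C' * (|lam| + η) * (1 / 2) ^ k) (KB c δ0 B) := by
    filter_upwards [key] with B hB
    exact hB (TB B) (Kw9x871.coe_TT Metric.isBounded_ball one_pos) .plus (fun i => i.elim0)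
      (Fin 1) src (SrcOK.of_583 hok) (away_of_583 hok)
      (fun k => by rw [Subsingleton.elim k 0, hs.Ys])
      (H1 t ht (dB B) (abs_wX_le _ _ _) src hs)
  refine ⟨key2.mono fun B h => h.2, ?_⟩
  refine tendsto_of_tendsto_of_tendsto_of_le_of_le' tendsto_const_nhds
    (last_tendsto (c := c) hp hδ0 (C' * (|lam| + η))) (Eventually.of_forall fun _ => zero_le) ?_
  filter_upwards [key2] with B hB
  exact hB.1 _ le_rfl

/-- **the limit**, from the bounds and the pinned data -/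
theorem disc_lim {J : ℝ} (hJ : J ≠ 0) {R : ℕ} {V : Finset (ℤ × ℤ) → ℝ} (hV : VHyp R V)
    {c : Cst} (hc : Std c) (h5 : 5 ≤ c.p * (c.k0 + 1)) {lam β z : ℝ} (hz : 0 < 1 + z)
    {δ : ℝ} (hδ : 0 < δ) {E : ℕ → ℝ}
    {Y : Finset (ℤ × ℤ)} (h0Y : ((0, 0) : ℤ × ℤ) ∈ Y) {S : Finset (Bkgx683.EG ℤ)}
    {t : ℝ} {src src' : Srcs (Fin 1) ℤ (Ge (Fld ℤ))} (h1 : IsReal src Y S t)
    (h0 : IsReal src' Y S 0) (b1 : DBd c (mpar J lam R V β z) src δ E)
    (b0 : DBd c (mpar J lam R V β z) src' δ E)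
    (pin : PinData (atTop : Filter ℝ) (fun _ => fd) fd (fun _ => ((0, 0) : ℤ × ℤ)) (0, 0)
      (fun _ => id) (fun D => MetGx723.boxG (0, 0) D) (fun k => rr c.p c.k0 (k + 1))
      (nearR c.p c.k0) c.Γ E (KB c δ) (fB c (mpar J lam R V β z) src)
      (fB c (mpar J lam R V β z) src') (fP c (mpar J lam R V β z) src)
      (fP c (mpar J lam R V β z) src')) :
    Tendsto (fun B : ℝ => 1 + t * Mastx541.discBonds B J lam R V β S) atTop
      (𝓝 (Real.exp (expo (fP c (mpar J lam R V β z) src) (fP c (mpar J lam R V β z) src')))) := by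
  have hp : 1 ≤ c.p := by have := hc.p_pos; omega
  exact ratio_disc hJ hV c h5 (by linarith [hc.Γ_ge]) hz {(0, 0)} ⟨_, h0Y⟩ h1 h0
    (κ' := δ / 2 ^ c.p) (by positivity) (Eventually.of_forall fun B => rr_KB_ge hp δ B)
    (amp_KB_tendsto hc hδ) b1.nk b0.nk pin.expo_tendsto

end Crest.Agent.R165.DisGx892
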