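import Crest.Agent.R165.FarB_900
import Crest.Agent.R165.MarkEq_723
import Crest.Agent.R165.PinLim_723
import Crest.Agent.R165.K0Src_722
import Crest.Agent.R165.U5Props_422

/-!
# Row 165 (S0250): the local source in growing discs at fixed mesh (helper65)

The flows with the mark `f₀` and an arbitrary source record `src` (no source generators):
`flm c P B mk src = B.flow P DD mk src c.p c.k0`.

* `flm_OK`, `cc_flm_iso`, `cc_flm_pin`, `cc_flm_empty`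
* `isoD` : in the interior the domain without insertion is the plane
* `cc_dom_pl` : the constants of the domain are those of the plane for sets inside
* `ev_corners` : exhaustion of the plane by the discs `TT (ball 0 B) 1`
* `disPin` : **`PinData` for the discs** from the bounds and the correspondence of the initial
  activities
* `disPin_real` : **`PinData` for the discs, real sources** (`IsReal src Y S t`), only the bounds
  `bd1`, `bd2` of the discs are needed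
-/

set_option autoImplicit false
set_option linter.unusedSectionVars false

noncomputable section

open Filter Topology
open scoped ENNReal
open Crest.ProbabilityR.IsingModel
open Crest.Agent.R165.Gr0x606 Crest.Agent.R165.Gr1x606 Crest.Agent.R165.GeOpsx337
open Crest.Agent.R165.Latx683 Crest.Agent.R165.GDefx387 Crest.Agent.R165.GSysx387
open Crest.Agent.R165.KFlowx337 Crest.Agent.R165.Telx337 Crest.Agent.R165.FRDPolyx439
open Crest.Agent.R165.BgIsox432 Crest.Agent.R165.CmpBgx432 Crest.Agent.R165.GSysOKx439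
open Crest.Agent.R165.Bkgx683 Crest.Agent.R165.PEndx683 Crest.Agent.R165.Outx683
open Crest.Agent.R165.SpinSysx892 Crest.Agent.R165.DomGeox900
open Crest.Agent.R165.Pinx723 Crest.Agent.R165.PinSysx723 Crest.Agent.R165.MetGx723
open Crest.Agent.R165.TorTanx723 (mem_box_iff)
open Crest.Agent.R165.U5Px422 (TT mem_TT)
open Crest.Agent.R165.K0Srcx722 Crest.Agent.R165.PinLimx723
open Crest.Agent.R165.J4Geox126 (faE)

namespace Crest.Agent.R165.DisPinx65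

section gen

variable {G G' : Type} [CommRing G] [CN G] [CNZ G] [DecidableEq G] [CommRing G'] [CN G'] [CNZ G']
  [DecidableEq G'] {κ κ' : Type} [DecidableEq κ] [Fintype κ] [DecidableEq κ'] [Fintype κ']

/-- the flow with marks and an arbitrary source record -/
abbrev flm (c : Cst) (P : MPar) (B : Bg G) (mk : Finset (G × G)) (src : Srcs κ G (Ge (Fld G))) :
    Sys (G × G) (Fld G) := B.flow P DD mk src c.p c.k0

/-- the constants of the sources are local -/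
def SrcLoc (src : Srcs κ G (Ge (Fld G))) : Prop :=
  ∀ k, (src.Ys k).Nonempty → src.as k ∈ grG (fldU (src.Ys k))

theorem flm_OK {c : Cst} (h5 : 5 ≤ c.p * (c.k0 + 1)) (P : MPar) (B : Bg G) (mk : Finset (G × G))
    {src : Srcs κ G (Ge (Fld G))} (hs : SrcLoc src) : (flm c P B mk src).OK ⊥ :=
  sys_OK DD (by norm_num) B.w mk h5 (JVolx950.K0_fldU B P src hs c.p c.k0)

theorem flm_emp (c : Cst) (P : MPar) (B : Bg G) (mk : Finset (G × G))
    (src : Srcs κ G (Ge (Fld G))) : (flm c P B mk src).K0 ∅ = 0 :=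
  JVolx950.K0_empty B P LinearMap.id src c.p c.k0

theorem cc_flm_empty (c : Cst) (P : MPar) (B : Bg G) (mk : Finset (G × G))
    (src : Srcs κ G (Ge (Fld G))) (k : ℕ) : cc (flm c P B mk src) k ∅ = 0 := by
  rw [cc, H_empty (flm_emp c P B mk src), map_zero]

/-- **constants correspond along an isomorphism of backgrounds** (marks and sources) -/
theorem cc_flm_iso {c : Cst} (h5 : 5 ≤ c.p * (c.k0 + 1)) (hp : 1 ≤ c.p) (P : MPar) {B : Bg G}
    {B' : Bg G'} {Z : Set (G × G)} (b : BgIso B.w B'.w Z) (h2 : (2 : G') ≠ 0)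
    {mk : Finset (G × G)} {mk' : Finset (G' × G')} (hmk : ∀ f ∈ Z, (f ∈ mk ↔ b.τ f ∈ mk'))
    {src : Srcs κ G (Ge (Fld G))} {src' : Srcs κ' G' (Ge (Fld G'))} (hs : SrcLoc src)
    (hK0 : ∀ U : Finset (G × G), U.Nonempty → nbhd (s2 * rr c.p c.k0 0) U ⊆ Z →
      mpG b.push (B.K0 P LinearMap.id src c.p c.k0 U) =
        B'.K0 P LinearMap.id src' c.p c.k0 (U.image b.τ))
    (k : ℕ) {U : Finset (G × G)} (hU : nbhd (rhoH c.p c.k0 k) U ⊆ Z) :
    cc (flm c P B mk src) k U = cc (flm c P B' mk' src') k (U.image b.τ) := by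
  rcases U.eq_empty_or_nonempty with rfl | hne
  · rw [Finset.image_empty, cc_flm_empty, cc_flm_empty]
  · exact ct_eq DD b hmk h2 hp (by norm_num) hK0 (src := ⊥) (flm_OK h5 P B mk hs) k hne hU

/-- **pinning**: initial activities which agree off the mark give the same constants off the mark -/
theorem cc_flm_pin (c : Cst) (P : MPar) (B : Bg G) {mk : Finset (G × G)} {f₀ : G × G}
    (hf : f₀ ∈ mk) {src : Srcs κ G (Ge (Fld G))} {src' : Srcs κ' G (Ge (Fld G))}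
    (h0 : ∀ U, f₀ ∉ U → B.K0 P LinearMap.id src c.p c.k0 U = B.K0 P LinearMap.id src' c.p c.k0 U)
    (n : ℕ) {U : Finset (G × G)} (hU : f₀ ∉ U) :
    cc (flm c P B mk src) n U = cc (flm c P B mk src') n U :=
  MarkEqx723.cc_eq DD B.w mk c.p c.k0 hf h0 n hU

end gen

/-! ### domains and the plane -/

theorem ray_fin0 (X : Fin 0 → ℤ × ℤ) (z : ℤ × ℤ) (j : Fin 2) : ray X z j = 1 := by
  simp [ray]

/-- in the interior the domain without insertion is the plane -/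
def isoD (T : Finset (ℤ × ℤ)) (bc : BoundaryCondition) (X : Fin 0 → ℤ × ℤ) {Z : Set (ℤ × ℤ)}
    (hZ : ∀ f ∈ Z, cornersIn (T : Set (ℤ × ℤ)) f) : BgIso (Bg.dom T bc X).w Bg.pl.w Z :=
  sameIso
    (fun f hf hf' => by
      have h1 := (critOn_dom hZ (isF bc)).1 f hf hf'
      have h1' : wDom (T : Set (ℤ × ℤ)) (isF bc) (f.1 + 1, f.2) 1 = xc := h1
      show yE (wX (wDom (T : Set (ℤ × ℤ)) (isF bc)) X) f = yE (wPl ℤ) f
      simp only [yE, wX, wPl, h1', ray_fin0, one_mul])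
    (fun f hf hf' => by
      have h1 := (critOn_dom hZ (isF bc)).2 f hf hf'
      have h1' : wDom (T : Set (ℤ × ℤ)) (isF bc) (f.1, f.2 + 1) 0 = xc := h1
      show yN (wX (wDom (T : Set (ℤ × ℤ)) (isF bc)) X) f = yN (wPl ℤ) f
      simp only [yN, wX, wPl, h1', ray_fin0, one_mul])

@[simp] theorem isoD_τ (T : Finset (ℤ × ℤ)) (bc : BoundaryCondition) (X : Fin 0 → ℤ × ℤ)
    {Z : Set (ℤ × ℤ)} (hZ : ∀ f ∈ Z, cornersIn (T : Set (ℤ × ℤ)) f) :
    (isoD T bc X hZ).τ = id := rfl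

/-- **correspondence of the initial activities** of the domain and of the plane, in the interior -/
def K0Cor (P : MPar) (l k0 : ℕ) {κ : Type} [DecidableEq κ] [Fintype κ]
    (src : Srcs κ ℤ (Ge (Fld ℤ))) (bc : BoundaryCondition) (X : Fin 0 → ℤ × ℤ) : Prop :=
  ∀ (T : Finset (ℤ × ℤ)) (Z : Set (ℤ × ℤ)) (hZ : ∀ f ∈ Z, cornersIn (T : Set (ℤ × ℤ)) f)
    (U : Finset (ℤ × ℤ)), U.Nonempty → nbhd (s2 * rr l k0 0) U ⊆ Z →
      mpG (isoD T bc X hZ).push ((Bg.dom T bc X).K0 P LinearMap.id src l k0 U) =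
        Bg.pl.K0 P LinearMap.id src l k0 U

section dom

variable {κ : Type} [DecidableEq κ] [Fintype κ]

/-- the constants of the domain are those of the plane for sets in the interior -/
theorem cc_dom_pl {c : Cst} (h5 : 5 ≤ c.p * (c.k0 + 1)) (hp : 1 ≤ c.p) (P : MPar)
    {src : Srcs κ ℤ (Ge (Fld ℤ))} (hs : SrcLoc src) {bc : BoundaryCondition}
    {X : Fin 0 → ℤ × ℤ} (hK : K0Cor P c.p c.k0 src bc X) (mk : Finset (ℤ × ℤ))
    {T : Finset (ℤ × ℤ)} {Z : Set (ℤ × ℤ)} (hZ : ∀ f ∈ Z, cornersIn (T : Set (ℤ × ℤ)) f)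
    (k : ℕ) {U : Finset (ℤ × ℤ)} (hU : nbhd (rhoH c.p c.k0 k) U ⊆ Z) :
    cc (flm c P (Bg.dom T bc X) mk src) k U = cc (flm c P Bg.pl mk src) k U := by
  have h := cc_flm_iso h5 hp P (B := Bg.dom T bc X) (B' := Bg.pl) (isoD T bc X hZ) (by norm_num)
    (mk := mk) (mk' := mk) (fun f _ => Iff.rfl) (src := src) (src' := src) hs
    (fun U hne hU => by
      rw [hK T Z hZ U hne hU, isoD_τ, Finset.image_id]) k hU
  rw [isoD_τ, Finset.image_id] at h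
  exact h

/-! ### the discs -/

/-- the discs at mesh `1` exhaust the plane -/
theorem ev_corners (f₀ : ℤ × ℤ) (R : ℕ) : ∀ᶠ B : ℝ in atTop,
    ∀ f ∈ ball f₀ R, cornersIn ((TT (Metric.ball (0 : ℂ) B) 1 : Finset (ℤ × ℤ)) : Set (ℤ × ℤ)) f := by
  filter_upwards [eventually_gt_atTop (|(f₀.1 : ℝ)| + |(f₀.2 : ℝ)| + 2 * (R + 1))] with B hB f hf
  have hfd : fd f₀ f ≤ R := mem_ball.1 hf
  have hf1 : |(f₀.1 : ℝ) - f.1| ≤ R := by
    have h1 : (f₀.1 - f.1).natAbs ≤ R := (le_max_left _ _).trans hfd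
    rw [← Int.cast_sub, ← Int.cast_abs, Int.abs_eq_natAbs]
    exact_mod_cast h1
  have hf2 : |(f₀.2 : ℝ) - f.2| ≤ R := by
    have h1 : (f₀.2 - f.2).natAbs ≤ R := (le_max_right _ _).trans hfd
    rw [← Int.cast_sub, ← Int.cast_abs, Int.abs_eq_natAbs]
    exact_mod_cast h1
  have key : ∀ z : ℤ × ℤ, |(z.1 : ℝ) - f.1| ≤ 1 → |(z.2 : ℝ) - f.2| ≤ 1 →
      z ∈ ((TT (Metric.ball (0 : ℂ) B) 1 : Finset (ℤ × ℤ)) : Set (ℤ × ℤ)) := by
    intro z h1 h2
    rw [Finset.mem_coe, mem_TT Metric.isBounded_ball one_pos, mem_ball_zero_iff]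
    refine lt_of_le_of_lt (Complex.norm_le_abs_re_add_abs_im _) ?_
    simp only [meshPoint, one_mul]
    have a1 := abs_sub_abs_le_abs_sub (z.1 : ℝ) (f.1 : ℝ)
    have a2 := abs_sub_abs_le_abs_sub (z.2 : ℝ) (f.2 : ℝ)
    have a3 := abs_sub_abs_le_abs_sub (f.1 : ℝ) (f₀.1 : ℝ)
    have a4 := abs_sub_abs_le_abs_sub (f.2 : ℝ) (f₀.2 : ℝ)
    rw [abs_sub_comm] at hf1 hf2
    linarith
  refine ⟨key f (by simp) (by simp), key _ ?_ ?_, key _ ?_ ?_, key _ ?_ ?_⟩ <;> simp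

/-- the local constants of the discs are those of the plane -/
theorem ev_loc {c : Cst} (h5 : 5 ≤ c.p * (c.k0 + 1)) (hp : 1 ≤ c.p) (P : MPar)
    {src : Srcs κ ℤ (Ge (Fld ℤ))} (hs : SrcLoc src) {bc : BoundaryCondition}
    {X : Fin 0 → ℤ × ℤ} (hK : K0Cor P c.p c.k0 src bc X) (mk : Finset (ℤ × ℤ)) (f₀ : ℤ × ℤ)
    (k D : ℕ) : ∀ᶠ B : ℝ in atTop, ∀ U ⊆ boxG f₀ D,
      cc (flm c P (Bg.dom (TT (Metric.ball (0 : ℂ) B) 1) bc X) mk src) k (U.image id) =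
        cc (flm c P Bg.pl mk src) k U := by
  filter_upwards [ev_corners f₀ (D + rhoH c.p c.k0 k)] with B hB U hU
  rw [Finset.image_id]
  exact cc_dom_pl h5 hp P hs hK mk hB k (nbhd_subset_ball fun u hu => mem_box_iff.1 (hU hu))

/-- **`PinData` for the discs** -/
theorem disPin {c : Cst} (h5 : 5 ≤ c.p * (c.k0 + 1)) (hp : 1 ≤ c.p) (P : MPar) (f₀ : ℤ × ℤ)
    {src src' : Srcs κ ℤ (Ge (Fld ℤ))} (hs : SrcLoc src) (hs' : SrcLoc src')
    {bc : BoundaryCondition} {X : Fin 0 → ℤ × ℤ} (hK : K0Cor P c.p c.k0 src bc X)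
    (hK' : K0Cor P c.p c.k0 src' bc X)
    (hpin : ∀ B' : Bg ℤ, ∀ U', f₀ ∉ U' → B'.K0 P LinearMap.id src c.p c.k0 U' =
      B'.K0 P LinearMap.id src' c.p c.k0 U')
    {r R : ℕ → ℕ} {Γ : ℝ} {E : ℕ → ℝ} {Kf : ℝ → ℕ} (hΓ : 1 < Γ) (hE : ∀ k, 0 ≤ E k)
    (hsum : Summable E) (hKf : Tendsto Kf atTop atTop)
    (bd1 : ∀ᶠ B : ℝ in atTop, Bd (flm c P (Bg.dom (TT (Metric.ball (0 : ℂ) B) 1) bc X) {f₀} src)
      fd r R (ENNReal.ofReal Γ) E (Kf B))
    (bd2 : ∀ᶠ B : ℝ in atTop, Bd (flm c P (Bg.dom (TT (Metric.ball (0 : ℂ) B) 1) bc X) {f₀} src')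
      fd r R (ENNReal.ofReal Γ) E (Kf B))
    (bdP1 : ∀ n, Bd (flm c P Bg.pl {f₀} src) fd r R (ENNReal.ofReal Γ) E n)
    (bdP2 : ∀ n, Bd (flm c P Bg.pl {f₀} src') fd r R (ENNReal.ofReal Γ) E n) :
    PinData (atTop : Filter ℝ) (fun _ => fd) (fd : ℤ × ℤ → ℤ × ℤ → ℕ) (fun _ => f₀) f₀
      (fun _ => id) (fun D => boxG f₀ D) r R Γ E Kf
      (fun B => flm c P (Bg.dom (TT (Metric.ball (0 : ℂ) B) 1) bc X) {f₀} src)
      (fun B => flm c P (Bg.dom (TT (Metric.ball (0 : ℂ) B) 1) bc X) {f₀} src')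
      (flm c P Bg.pl {f₀} src) (flm c P Bg.pl {f₀} src') where
  exh := exh_id atTop f₀
  Γ1 := hΓ
  E0 := hE
  sum := hsum
  Kf_top := hKf
  bd1 := bd1
  bd2 := bd2
  bdP1 := bdP1
  bdP2 := bdP2
  pin := Eventually.of_forall fun B k U hU =>
    cc_flm_pin c P _ (Finset.mem_singleton_self f₀) (hpin _) k hU
  pinP k U hU := cc_flm_pin c P _ (Finset.mem_singleton_self f₀) (hpin _) k hU
  loc1 k D := ev_loc h5 hp P hs hK {f₀} f₀ k D
  loc2 k D := ev_loc h5 hp P hs' hK' {f₀} f₀ k D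

/-- **`PinData` for the discs**, bounds of the discs only -/
theorem disPin' {c : Cst} (h5 : 5 ≤ c.p * (c.k0 + 1)) (hp : 1 ≤ c.p) (P : MPar) (f₀ : ℤ × ℤ)
    {src src' : Srcs κ ℤ (Ge (Fld ℤ))} (hs : SrcLoc src) (hs' : SrcLoc src')
    {bc : BoundaryCondition} {X : Fin 0 → ℤ × ℤ} (hK : K0Cor P c.p c.k0 src bc X)
    (hK' : K0Cor P c.p c.k0 src' bc X)
    (hpin : ∀ B' : Bg ℤ, ∀ U', f₀ ∉ U' → B'.K0 P LinearMap.id src c.p c.k0 U' =
      B'.K0 P LinearMap.id src' c.p c.k0 U')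
    {r R : ℕ → ℕ} {Γ : ℝ} {E : ℕ → ℝ} {Kf : ℝ → ℕ} (hΓ : 1 < Γ) (hE : ∀ k, 0 ≤ E k)
    (hsum : Summable E) (hKf : Tendsto Kf atTop atTop)
    (bd1 : ∀ᶠ B : ℝ in atTop, Bd (flm c P (Bg.dom (TT (Metric.ball (0 : ℂ) B) 1) bc X) {f₀} src)
      fd r R (ENNReal.ofReal Γ) E (Kf B))
    (bd2 : ∀ᶠ B : ℝ in atTop, Bd (flm c P (Bg.dom (TT (Metric.ball (0 : ℂ) B) 1) bc X) {f₀} src')
      fd r R (ENNReal.ofReal Γ) E (Kf B)) :
    PinData (atTop : Filter ℝ) (fun _ => fd) (fd : ℤ × ℤ → ℤ × ℤ → ℕ) (fun _ => f₀) f₀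
      (fun _ => id) (fun D => boxG f₀ D) r R Γ E Kf
      (fun B => flm c P (Bg.dom (TT (Metric.ball (0 : ℂ) B) 1) bc X) {f₀} src)
      (fun B => flm c P (Bg.dom (TT (Metric.ball (0 : ℂ) B) 1) bc X) {f₀} src')
      (flm c P Bg.pl {f₀} src) (flm c P Bg.pl {f₀} src') :=
  PinData.of_growing (exh_id atTop f₀) (iso_id atTop f₀) hΓ hE hsum hKf bd1 bd2
    (Eventually.of_forall fun _ k _ hU =>
      cc_flm_pin c P _ (Finset.mem_singleton_self f₀) (hpin _) k hU)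
    (fun k _ hU => cc_flm_pin c P _ (Finset.mem_singleton_self f₀) (hpin _) k hU)
    (fun k D => ev_loc h5 hp P hs hK {f₀} f₀ k D) (fun k D => ev_loc h5 hp P hs' hK' {f₀} f₀ k D)

end dom

/-! ### real sources -/

section real

variable {G : Type} [CommRing G] [CN G] [CNZ G] [DecidableEq G]

theorem srcLoc_real {src : Srcs (Fin 1) G (Ge (Fld G))} {Y : Finset (G × G)} {S : Finset (EG G)}
    {t : ℝ} (hs : IsReal src Y S t) : SrcLoc src := by
  intro k _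
  obtain rfl : k = 0 := Subsingleton.elim _ _
  rw [hs.as]
  exact Subalgebra.algebraMap_mem _ _

theorem k0cor_real (P : MPar) (l k0 : ℕ) {src : Srcs (Fin 1) ℤ (Ge (Fld ℤ))}
    {Y : Finset (ℤ × ℤ)} {S : Finset (EG ℤ)} {t : ℝ} (hs : IsReal src Y S t)
    (hSY : ∀ e ∈ S, faE e ⊆ Y) (bc : BoundaryCondition) (X : Fin 0 → ℤ × ℤ) :
    K0Cor P l k0 src bc X := by
  intro T Z hZ U hne hU
  have h := hK0_dom_pl_src (B' := Bg.pl) (isoD T bc X hZ) (fun _ => rfl) hZ P l k0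
    (fun _ => trivial) (fun _ _ => trivial) hs hs hSY U hne hU
  rwa [isoD_τ, Finset.image_id] at h

theorem pin_real (P : MPar) (l k0 : ℕ) {src src' : Srcs (Fin 1) ℤ (Ge (Fld ℤ))}
    {Y Y' : Finset (ℤ × ℤ)} {S S' : Finset (EG ℤ)} {t t' : ℝ} (hs : IsReal src Y S t)
    (hs' : IsReal src' Y' S' t') {f₀ : ℤ × ℤ} (h1 : f₀ ∈ Y) (h1' : f₀ ∈ Y') (B : Bg ℤ)
    (U : Finset (ℤ × ℤ)) (hU : f₀ ∉ U) :
    B.K0 P LinearMap.id src l k0 U = B.K0 P LinearMap.id src' l k0 U :=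
  K0_t B P LinearMap.id hs hs' l k0 h1 h1' hU

/-- **`PinData` for the discs with real sources**: only the bounds of the discs are needed -/
theorem disPin_real {c : Cst} (h5 : 5 ≤ c.p * (c.k0 + 1)) (hp : 1 ≤ c.p) (P : MPar)
    {f₀ : ℤ × ℤ} {src src' : Srcs (Fin 1) ℤ (Ge (Fld ℤ))} {Y Y' : Finset (ℤ × ℤ)}
    {S S' : Finset (EG ℤ)} {t t' : ℝ} (hs : IsReal src Y S t) (hs' : IsReal src' Y' S' t')
    (hSY : ∀ e ∈ S, faE e ⊆ Y) (hSY' : ∀ e ∈ S', faE e ⊆ Y') (h1 : f₀ ∈ Y) (h1' : f₀ ∈ Y')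
    (bc : BoundaryCondition) (X : Fin 0 → ℤ × ℤ)
    {r R : ℕ → ℕ} {Γ : ℝ} {E : ℕ → ℝ} {Kf : ℝ → ℕ} (hΓ : 1 < Γ) (hE : ∀ k, 0 ≤ E k)
    (hsum : Summable E) (hKf : Tendsto Kf atTop atTop)
    (bd1 : ∀ᶠ B : ℝ in atTop, Bd (flm c P (Bg.dom (TT (Metric.ball (0 : ℂ) B) 1) bc X) {f₀} src)
      fd r R (ENNReal.ofReal Γ) E (Kf B))
    (bd2 : ∀ᶠ B : ℝ in atTop, Bd (flm c P (Bg.dom (TT (Metric.ball (0 : ℂ) B) 1) bc X) {f₀} src')
      fd r R (ENNReal.ofReal Γ) E (Kf B)) :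
    PinData (atTop : Filter ℝ) (fun _ => fd) (fd : ℤ × ℤ → ℤ × ℤ → ℕ) (fun _ => f₀) f₀
      (fun _ => id) (fun D => boxG f₀ D) r R Γ E Kf
      (fun B => flm c P (Bg.dom (TT (Metric.ball (0 : ℂ) B) 1) bc X) {f₀} src)
      (fun B => flm c P (Bg.dom (TT (Metric.ball (0 : ℂ) B) 1) bc X) {f₀} src')
      (flm c P Bg.pl {f₀} src) (flm c P Bg.pl {f₀} src') :=
  disPin' h5 hp P f₀ (srcLoc_real hs) (srcLoc_real hs') (k0cor_real P c.p c.k0 hs hSY bc X)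
    (k0cor_real P c.p c.k0 hs' hSY' bc X) (pin_real P c.p c.k0 hs hs' h1 h1') hΓ hE hsum hKf bd1 bd2

end real

end Crest.Agent.R165.DisPinx65
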