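import Crest.Agent.R165.DisG_892
import Crest.Agent.R165.DisPin_65
import Crest.Agent.R165.PlB_117
import Crest.Agent.R165.Bkg3_683

/-!
# Row 165 (S0250): the disc half of the limit of the bond expectations (helper892)

* `disL_gen` : any connected support `Y` containing `0` and the faces of `S`
* `disL_box` : the canonical box `boxS S` of helper683: literally the leaf, from the smallness of the
  initial activities `C0R`
-/

set_option autoImplicit false
set_option linter.unusedSectionVars false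

noncomputable section

open Finset Filter Topology
open scoped ENNReal
open Crest.ProbabilityR.IsingModel

namespace Crest.Agent.R165.DisLx892

open Crest.Agent.R165.Gr0x606 Crest.Agent.R165.Gr1x606 Crest.Agent.R165.GeOpsx337
open Crest.Agent.R165.Latx683 Crest.Agent.R165.GDefx387 Crest.Agent.R165.BgIsox432
open Crest.Agent.R165.Bkgx683 Crest.Agent.R165.Outx683 Crest.Agent.R165.Bkg3x683
open Crest.Agent.R165.PEndx683 Crest.Agent.R165.Topx683 Crest.Agent.R165.Constx891
open Crest.Agent.R165.J4Geox126 (faE)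
open Crest.Agent.R165.PinSysx723 Crest.Agent.R165.K0Srcx722
open Crest.Agent.R165.DisGx892

/-- **the limit in growing discs**, any connected support -/
theorem disL_gen {J : ℝ} (hJ : J ≠ 0) {R : ℕ} {V : Finset (ℤ × ℤ) → ℝ} (hV : VHyp R V)
    (hc0 : C0R J R V) : ForP J (PF J R V) fun c lam β z =>
      ∀ (Y : Finset (ℤ × ℤ)), Packx915.Conn fd 1 Y → ((0, 0) : ℤ × ℤ) ∈ Y →
      ∀ S : Finset (Bkgx683.EG ℤ), (∀ e ∈ S, faE e ⊆ Y) → ∃ t0 > 0, ∀ t : ℝ, |t| < t0 →
      ∀ src src' : Srcs (Fin 1) ℤ (Ge (Fld ℤ)), IsReal src Y S t → IsReal src' Y S 0 →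
        Tendsto (fun B : ℝ => 1 + t * Mastx541.discBonds B J lam R V β S) atTop
          (𝓝 (Real.exp (expo (fP c (mpar J lam R V β z) src)
            (fP c (mpar J lam R V β z) src')))) := by
  refine (disc_bounds (PlBx117.plB hV) hc0).mono ?_
  rintro c ⟨hstd, h5, δ0, hδ0, H⟩ C
  obtain ⟨ε, hε, H⟩ := H C
  refine ⟨ε, hε, fun lam β z hl hn hPF Y hY h0Y S hSY => ?_⟩
  obtain ⟨hz, E, hE, hsum, H⟩ := H lam β z hl hn hPF
  obtain ⟨t0, ht0, H⟩ := H Y hY h0Y S
  refine ⟨t0, ht0, fun t ht src src' hs hs' => ?_⟩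
  have b1 := H t ht src hs
  have b0 := H 0 (by rw [abs_zero]; exact ht0) src' hs'
  have hp : 1 ≤ c.p := by have := hstd.p_pos; omega
  refine disc_lim hJ hV hstd h5 hz hδ0 (E := E) h0Y hs hs' b1 b0 ?_
  exact DisPinx65.disPin_real h5 hp (mpar J lam R V β z) hs hs' hSY hSY h0Y h0Y .plus
    (fun i : Fin 0 => i.elim0) (by linarith [hstd.Γ_ge]) hE hsum
    (DiscMkx117.KB_tendsto hp hδ0) b1.bd b0.bd

/-- **the leaf**, canonical boxes, from the smallness of the initial activities -/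
theorem disL_box {J : ℝ} (hJ : J ≠ 0) {R : ℕ} {V : Finset (ℤ × ℤ) → ℝ} (hV : VHyp R V)
    (hc0 : C0R J R V) : ForP J (PF J R V) fun c lam β z =>
      ∀ S : Finset ((ℤ × ℤ) × Fin 2), ∃ t0 > 0, ∀ t : ℝ, 0 < t → t < t0 →
        Tendsto (fun B : ℝ => 1 + t * Mastx541.discBonds B J lam R V β S) atTop
          (𝓝 (Real.exp (expo (fltY c (mpar J lam R V β z) Bg.pl 0 (boxS S) S t)
            (fltY c (mpar J lam R V β z) Bg.pl 0 (boxS S) S 0)))) := by
  refine (disL_gen hJ hV hc0).mono fun c H C => ?_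
  obtain ⟨ε, hε, H⟩ := H C
  refine ⟨ε, hε, fun lam β z hl hn hPF S => ?_⟩
  obtain ⟨t0, ht0, H⟩ := H lam β z hl hn hPF (boxS S) (boxS_conn S) (zero_mem_boxS S) S
    (faE_boxS S)
  exact ⟨t0, ht0, fun t ht ht' => H t (by rw [abs_of_pos ht]; exact ht') _ _ (isReal_box _ S t)
    (isReal_box _ S 0)⟩

end Crest.Agent.R165.DisLx892
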