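import Crest.Agent.R165.J4Lnk2_653
import Crest.Agent.R165.J4K0_126
import Crest.Agent.R165.SrcDef_991

/-!
# Row 165 (S0250), block J4: sources (helper653)

* `coP_tauP`, `coP_sum` : coefficients of `∑_J tauP J * inG (c J)`
* `THA_src` : `THA` of `P * ∏_k (1 + tau_k F_k)`
* `frV` : the frame of the fields, `frS` : the frame with `m` sources
* `K0_plain` : `ZZ (=) Λ K0 = TH g PΛ * M` without sources
* `K0_src`   : `ZZ (=) Λ K0 = ∑_I tauP I * inG (TH g (PΛ * ∏_I F) * M)` with sources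
-/

set_option autoImplicit false

noncomputable section

open Finset
open Crest.ProbabilityR.IsingModel

namespace Crest.Agent.R165.J4Lnkx653

open Crest.Agent.R165.J4Defx653 Crest.Agent.R165.J4RRx653 Crest.Agent.R165.J4RRAx653
  Crest.Agent.R165.J4Pathx653
open Crest.Agent.R165.Gr0x606 Crest.Agent.R165.Gr1x606 Crest.Agent.R165.J1ax606
open Crest.Agent.R165.GeOpsx337 Crest.Agent.R165.SrcDefx991
open Crest.Agent.R165.J4K0x126 Crest.Agent.R165.J4Geox126
open Crest.Agent.R165.KStepx892 (ZZ)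

/-! ### coefficients of the sources -/

section src

variable {V : Type*} [AddCommGroup V] [Module ℝ V] {m : ℕ}

theorem dd_tauP (l : Module.Dual ℝ (VS V m)) (J : Finset (Fin m))
    (h : ∀ j ∈ J, l (th j) = 0 ∧ l (th' j) = 0) :
    dd l ((tauP J : Ge (VS V m)) : Gr (VS V m)) = 0 := by
  induction J using Finset.induction_on with
  | empty => simp
  | insert j J hj ih =>
    rw [tauP_insert hj, Ge.coe_mul, dd_mul, dd_tau,
      ih fun k hk => h k (Finset.mem_insert_of_mem hk)]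
    obtain ⟨h1, h2⟩ := h j (Finset.mem_insert_self _ _)
    rw [h1, h2]
    simp

theorem dth_out {i : Fin m} {J : Finset (Fin m)} (hi : i ∉ J) :
    ∀ j ∈ J, dth (V := V) i (th j) = 0 ∧ dth (V := V) i (th' j) = 0 := by
  intro j hj
  have hne : j ≠ i := fun h => hi (h ▸ hj)
  simp [hne]

theorem dth'_out {i : Fin m} {J : Finset (Fin m)} (hi : i ∉ J) :
    ∀ j ∈ J, dth' (V := V) i (th j) = 0 ∧ dth' (V := V) i (th' j) = 0 := by
  intro j hj
  have hne : j ≠ i := fun h => hi (h ▸ hj)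
  simp [hne]

theorem dd_tauP_inG (l : Module.Dual ℝ (VS V m)) (hl : ∀ x : V, l (x, 0) = 0)
    (J : Finset (Fin m)) (h : ∀ j ∈ J, l (th j) = 0 ∧ l (th' j) = 0) (c : Ge V) :
    dd l ((tauP J * inG m c : Ge (VS V m)) : Gr (VS V m)) = 0 := by
  rw [Ge.coe_mul, dd_mul, dd_tauP l J h, dd_inG l hl c, zero_mul, mul_zero, add_zero]

theorem cpair_tauP (i : Fin m) (J : Finset (Fin m)) (c : Ge V) :
    cpair i (tauP J * inG m c) = if i ∈ J then tauP (J.erase i) * inG m c else 0 := by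
  split_ifs with hi
  · have h1 : (tauP J : Ge (VS V m)) = tau i * tauP (J.erase i) := by
      rw [← tauP_insert (Finset.notMem_erase i J), Finset.insert_erase hi]
    rw [h1, mul_assoc]
    exact cpair_tau_mul_self
      (dd_tauP_inG _ (dth_inl i) _ (dth_out (Finset.notMem_erase i J)) c)
      (dd_tauP_inG _ (dth'_inl i) _ (dth'_out (Finset.notMem_erase i J)) c)
  · apply ge_ext
    rw [coe_cpair, dd_tauP_inG _ (dth_inl i) _ (dth_out hi) c, map_zero]
    rfl

theorem list_cpair (l : List (Fin m)) (hl : l.Nodup) (J : Finset (Fin m)) (c : Ge V) :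
    ((l.map cpair).prod : Module.End ℝ (Ge (VS V m))) (tauP J * inG m c) =
      if l.toFinset ⊆ J then tauP (J \ l.toFinset) * inG m c else 0 := by
  classical
  induction l with
  | nil => simp
  | cons i l ih =>
    rw [List.nodup_cons] at hl
    rw [List.map_cons, List.prod_cons, Module.End.mul_apply, ih hl.2, List.toFinset_cons]
    have hil : i ∉ l.toFinset := by rw [List.mem_toFinset]; exact hl.1
    by_cases h : l.toFinset ⊆ J
    · rw [if_pos h, cpair_tauP]
      by_cases hi : i ∈ J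
      · rw [if_pos (Finset.mem_sdiff.2 ⟨hi, hil⟩), if_pos (Finset.insert_subset_iff.2 ⟨hi, h⟩)]
        congr 2
        ext j
        simp only [Finset.mem_erase, Finset.mem_sdiff, Finset.mem_insert]
        tauto
      · rw [if_neg (fun hh => hi (Finset.mem_sdiff.1 hh).1),
          if_neg (fun hh => hi (Finset.insert_subset_iff.1 hh).1)]
    · rw [if_neg h, map_zero, if_neg (fun hh => h (Finset.insert_subset_iff.1 hh).2)]

theorem noS_tauP (K : Finset (Fin m)) (c : Ge V) :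
    noS (tauP K * inG m c) = if K = ∅ then c else 0 := by
  classical
  split_ifs with h
  · rw [h, tauP_empty, one_mul, noS_inG]
  · obtain ⟨i, hi⟩ := Finset.nonempty_iff_ne_empty.2 h
    rw [map_mul, tauP, map_prod, Finset.prod_eq_zero hi (noS_tau i), zero_mul]

/-- **coefficients** -/
theorem coP_tauP (I J : Finset (Fin m)) (c : Ge V) :
    coP I (tauP J * inG m c) = if I = J then c else 0 := by
  classical
  have h1 : coP I (tauP J * inG m c) = noS ((((I.sort (· ≤ ·)).map cpair).prod :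
      Module.End ℝ (Ge (VS V m))) (tauP J * inG m c)) := rfl
  rw [h1, list_cpair _ (Finset.sort_nodup _ _), Finset.sort_toFinset]
  by_cases h : I ⊆ J
  · rw [if_pos h, noS_tauP]
    by_cases h2 : I = J
    · rw [if_pos h2, if_pos (by rw [h2, Finset.sdiff_self])]
    · rw [if_neg h2, if_neg (fun hh => h2 (Finset.Subset.antisymm h (Finset.sdiff_eq_empty_iff_subset.1 hh)))]
  · rw [if_neg h, map_zero, if_neg (fun hh : I = J => h hh.le)]

theorem coP_sum (I : Finset (Fin m)) (K : Finset (Finset (Fin m))) (c : Finset (Fin m) → Ge V) :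
    coP I (∑ J ∈ K, tauP J * inG m (c J)) = if I ∈ K then c I else 0 := by
  classical
  rw [map_sum]
  simp only [coP_tauP]
  rw [Finset.sum_ite_eq]

/-! ### `THA` with sources -/

variable {E : Type*}

theorem THA_src (g : E → Ge V) (P : RR E) (F : Fin m → RR E) (K : Finset (Fin m)) :
    THA (fun e => inG m (g e)) (ofR (Ge (VS V m)) P *
        ∏ k ∈ K, (1 + CA (tau k) * ofR (Ge (VS V m)) (F k))) =
      ∑ I ∈ K.powerset, tauP I * inG m (TH g (P * ∏ k ∈ I, F k)) := by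
  rw [Finset.prod_one_add, Finset.mul_sum, map_sum]
  refine Finset.sum_congr rfl fun I _ => ?_
  have h1 : (∏ k ∈ I, (CA (tau k) * ofR (Ge (VS V m)) (F k)) : RA (Ge (VS V m)) E) =
      CA (tauP I) * ofR (Ge (VS V m)) (∏ k ∈ I, F k) := by
    rw [Finset.prod_mul_distrib, map_prod, tauP]
    congr 1
    exact (map_prod (algebraMap (Ge (VS V m)) (RA (Ge (VS V m)) E)) _ _).symm
  have h2 : ofR (Ge (VS V m)) P * (CA (tauP I) * ofR (Ge (VS V m)) (∏ k ∈ I, F k)) =
      (CA (tauP I) * ofR (Ge (VS V m)) (P * ∏ k ∈ I, F k) : RA (Ge (VS V m)) E) := by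
    rw [map_mul]; ring
  rw [h1, h2, THA_CA_mul, THA_ofR, TH_algHom (inG m)]

end src

/-! ### frames and backgrounds -/

section K0

variable {G : Type} [CommRing G] [DecidableEq G] {m : ℕ}

/-- the intra-face form `∑_{a<b} φ_a φ_b = ½ φ A₀ φ` -/
def I4 (f : G × G) : Ge (VI (HE G)) :=
  ∑ p ∈ (univ : Finset (Fin 4 × Fin 4)).filter (fun p => p.1 < p.2),
    bi (Finsupp.single (f, p.1) 1) (Finsupp.single (f, p.2) 1)

/-- the frame of the fields -/
def frV (G : Type) [CommRing G] [DecidableEq G] : Fr G (Ge (VI (HE G))) := ⟨bb, I4⟩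

/-- the frame with sources -/
def frS (G : Type) [CommRing G] [DecidableEq G] (m : ℕ) : Fr G (Ge (VS (VI (HE G)) m)) :=
  ⟨fun e => inG m (bb e), fun f => inG m (I4 f)⟩

/-- the rescaled image of a bond variable -/
def gs (y : EG G → ℝ) (s : G × G → ℝ) (e : EG G) : Ge (VI (HE G)) :=
  1 - (2 * (y e * (s (pe e).1 * s (qe e).1))) • bb e

/-- the factor of the faces in `Λ` and of the bonds inside `Λ` -/
def Ms (y : EG G → ℝ) (s : G × G → ℝ) (Λ : Finset (G × G)) : Ge (VI (HE G)) :=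
  (∏ f ∈ Λ, (1 + ((s f * s f - 1) • I4 f + ((s f * s f - 1) ^ 2 / 2) • (I4 f * I4 f)))) *
    ∏ e ∈ Bk.edg Λ, (1 + (y e * (s (pe e).1 * s (qe e).1 - 1)) • bb e)

/-- the product of the shapes inside `Λ` -/
def PL {κ : Type*} {A : Type*} [CommRing A] [Algebra ℝ A] (B : Bk G κ A) (Λ : Finset (G × G)) :
    RR (EG G) := ∏ p ∈ B.shp Λ, (1 + em (ez p.1) (kB (B.t p.2) p.2))

/-- **no sources** -/
theorem K0_plain {κ : Type*} [DecidableEq κ] [Fintype κ] [IsEmpty κ] (B : Bk G κ (Ge (VI (HE G))))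
    (Λ : Finset (G × G)) :
    ZZ (fun a b : G × G => a = b) Λ (B.K0 (frV G)) = TH (gs B.y B.s) (PL B Λ) * Ms B.y B.s Λ := by
  rw [← B.K0_ZZ (frV G) Λ]
  have h1 : B.srcs Λ = ∅ := by
    ext k; exact isEmptyElim k
  rw [h1, Finset.prod_empty, mul_one, Ms, mul_assoc]
  congr 1
  have h2 : (∏ p ∈ B.shp Λ, (1 + ofR (Ge (VI (HE G))) (em (ez p.1) (kB (B.t p.2) p.2))) :
      RA (Ge (VI (HE G))) (EG G)) = ofR (Ge (VI (HE G))) (PL B Λ) := by
    rw [PL, map_prod]
    refine Finset.prod_congr rfl fun p _ => ?_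
    rw [map_add, map_one]
  rw [h2, THA_ofR]
  rfl

/-- **with sources** -/
theorem K0_src (B : Bk G (Fin m) (Ge (VS (VI (HE G)) m))) (hB : B.as = tau) (Λ : Finset (G × G)) :
    ZZ (fun a b : G × G => a = b) Λ (B.K0 (frS G m)) =
      ∑ I ∈ (B.srcs Λ).powerset, tauP I *
        inG m (TH (gs B.y B.s) (PL B Λ * ∏ k ∈ I, B.Fs k) * Ms B.y B.s Λ) := by
  rw [← B.K0_ZZ (frS G m) Λ, hB]
  have h2 : (∏ p ∈ B.shp Λ, (1 + ofR (Ge (VS (VI (HE G)) m)) (em (ez p.1) (kB (B.t p.2) p.2))) :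
      RA (Ge (VS (VI (HE G)) m)) (EG G)) = ofR (Ge (VS (VI (HE G)) m)) (PL B Λ) := by
    rw [PL, map_prod]
    refine Finset.prod_congr rfl fun p _ => ?_
    rw [map_add, map_one]
  have hg : B.g (frS G m) = fun e => inG m (gs B.y B.s e) := by
    funext e
    unfold Bk.g gs frS
    rw [map_sub, map_one, map_smul]
  have hM : (∏ f ∈ Λ, (1 + (B.cI f • (frS G m).I4 f + (B.cI f ^ 2 / 2) •
        ((frS G m).I4 f * (frS G m).I4 f)))) *
      (∏ e ∈ Bk.edg Λ, (1 + (B.y e * (B.s (pe e).1 * B.s (qe e).1 - 1)) • (frS G m).b e)) =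
      inG m (Ms B.y B.s Λ) := by
    unfold Ms frS
    simp only [map_mul, map_prod, map_add, map_one, map_smul]
    rfl
  rw [h2, hg, THA_src, mul_assoc, hM, Finset.sum_mul]
  refine Finset.sum_congr rfl fun I _ => ?_
  rw [map_mul (inG m), mul_assoc]

/-- the coefficient of all sources -/
theorem K0_coP (B : Bk G (Fin m) (Ge (VS (VI (HE G)) m))) (hB : B.as = tau) (Λ : Finset (G × G))
    (I : Finset (Fin m)) (hI : I ⊆ B.srcs Λ) :
    coP I (ZZ (fun a b : G × G => a = b) Λ (B.K0 (frS G m))) =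
      TH (gs B.y B.s) (PL B Λ * ∏ k ∈ I, B.Fs k) * Ms B.y B.s Λ := by
  rw [K0_src B hB, coP_sum, if_pos (Finset.mem_powerset.2 hI)]

end K0

/-! ### domains: the product of the shapes is the perturbation -/

theorem ez_eq_trEd (u : ℤ × ℤ) : (ez u : Ed → EG ℤ) = trEd u := by
  funext e
  unfold ez fz cz trEd
  rw [Prod.mk.injEq]
  refine ⟨?_, rfl⟩
  rw [add_comm]
  simp

open Classical in
theorem PL_dom {κ : Type*} {A : Type*} [CommRing A] [Algebra ℝ A] (B : Bk ℤ κ A)
    (T : Finset (ℤ × ℤ)) (b : BoundaryCondition) (hok : ∀ u S, B.ok u S ↔ tr S u ∈ BB T b B.R)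
    (ht : TrInv B.t) (hr : Rng B.R B.t) (hev : ∀ S, B.t S ≠ 0 → Even S.card)
    (Λ : Finset (ℤ × ℤ)) (hΛ : ∀ S ∈ BB T b B.R, Yf S ⊆ Λ) :
    PL B Λ = GT T b B.R B.t := by
  rw [GT_prod T b B.R B.t ht hr, Finset.prod_sigma', PL]
  symm
  refine Finset.prod_bij_ne_one (fun p _ _ => (p.1, p.2)) ?_ ?_ ?_ ?_
  · rintro ⟨u, S⟩ h hne
    simp only [mem_sigma, mem_filter] at h
    rw [Bk.mem_shp]
    refine ⟨⟨⟨h.2.1, ?_⟩, (hok u S).2 h.2.2⟩, ?_⟩
    · by_contra hodd
      apply hne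
      dsimp only
      have : B.t S = 0 := by
        by_contra h0
        exact hodd (hev S h0)
      rw [this, kB_zero, map_zero, add_zero]
    · have h1 := hΛ _ h.2.2
      rw [Yf_tr] at h1
      have h2 : (fun f : ℤ × ℤ => f + u) = fz u := by
        funext f; unfold fz cz; rw [add_comm]; simp
      rwa [h2] at h1
  · rintro ⟨u, S⟩ _ _ ⟨u', S'⟩ _ _ heq
    simp only [Prod.mk.injEq] at heq
    obtain ⟨rfl, rfl⟩ := heq
    rfl
  · rintro ⟨u, S⟩ h _
    rw [Bk.mem_shp] at h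
    refine ⟨⟨u, S⟩, ?_, ?_, rfl⟩
    · simp only [mem_sigma, mem_filter]
      have h1 := (hok u S).1 h.1.2
      refine ⟨?_, h.1.1.1, h1⟩
      refine (mem_BB.1 h1).1 ?_
      rw [mem_tr]
      simpa using (mem_Can.1 h.1.1.1).2.1
    · rwa [← ez_eq_trEd]
  · rintro ⟨u, S⟩ _ _
    dsimp only
    rw [ez_eq_trEd]

end Crest.Agent.R165.J4Lnkx653
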