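import Crest.Agent.R165.JRunD_445
import Crest.Agent.R165.TorRep_599

/-!
# Row 165 (S0250), disc half of the limit of the bond expectations: the representation (helper892)

`D` a domain at mesh `1`, plus boundary condition, no spins.

* `K00_real` : `EEG (covS S) (ZZ (=) Λ (K00 real source))` in terms of the eps-algebra, any domain
* `discBonds_ratio` : `discBonds = EXf (∏ ep) / EXf 1`
* `disc_rep` : `1 + t discBonds = EEG ZZ(K00, t) / EEG ZZ(K00, 0)`
-/

set_option autoImplicit false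
set_option linter.unusedSectionVars false

noncomputable section

open Finset Filter Topology
open Crest.ProbabilityR.IsingModel

namespace Crest.Agent.R165.DisRepx892

open Crest.Agent.R165.Gr0x606 Crest.Agent.R165.Gr1x606 Crest.Agent.R165.GeOpsx337
  Crest.Agent.R165.KStepx892 Crest.Agent.R165.JRunx445
open Crest.Agent.R165.Latx683 (BW wDom wX IsCov covS Fld HE)
open Crest.Agent.R165.Bkgx683
open Crest.Agent.R165.J4Defx653 (tpot tr TrInv Rng BB)
open Crest.Agent.R165.J4RRx653 (RR RIn TH)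
open Crest.Agent.R165.J4K0x126 (Bk)
open Crest.Agent.R165.J4Geox126 (faE Yf)
open Crest.Agent.R165.J4Lnkx653 (frV gw EG' PL GT obR PL_dom wD_nil tpot_even tpot_rng)
open Crest.Agent.R165.Redx541 Crest.Agent.R165.Red2x541 Crest.Agent.R165.Mastx541
  Crest.Agent.R165.Centx541 Crest.Agent.R165.SRx541
open Crest.Agent.R165.UKerx420 (wD Cof Sof Sof_spec Sof_skew)
open Crest.Agent.R165.JDomAx606

/-- a record of one real source `1 + t F` -/
structure RealSrc (src : Srcs (Fin 1) ℤ (Ge (Fld ℤ))) (F : RR (Bkgx683.EG ℤ)) (t : ℝ)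
    (Λ : Finset (ℤ × ℤ)) : Prop where
  as : ∀ k, src.as k = algebraMap ℝ _ t
  Fs : ∀ k, src.Fs k = F
  ne : ∀ k, (src.Ys k).Nonempty
  sub : ∀ k, src.Ys k ⊆ Λ

section dom

variable {T : Finset (ℤ × ℤ)} {b : BoundaryCondition} {n : ℕ} {X : Fin n → ℤ × ℤ}

/-- **one real source** -/
theorem K00_real {S : HE ℤ → HE ℤ → ℝ} (hS : IsCov (Bg.dom T b X).w S) (P : MPar)
    (ht : TrInv P.t) (hr : Rng P.R P.t) (hev : ∀ S, P.t S ≠ 0 → Even S.card)
    {Λ : Finset (ℤ × ℤ)} (hΛ : VolD T b P.R Λ) {src : Srcs (Fin 1) ℤ (Ge (Fld ℤ))}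
    {F : RR (Bkgx683.EG ℤ)} {t : ℝ} (h : RealSrc src F t Λ) :
    EEG (covS S hS.skew) (ZZ (fun f g : ℤ × ℤ => f = g) Λ
      ((Bg.dom T b X).K00 P LinearMap.id src)) =
      csD T P.z Λ * EG' (covS S hS.skew)
        (TH (gw (Bg.dom T b X).w) ((1 + t • F) * GT T b P.R P.t)) := by
  classical
  have h1 : ZZ (fun f g : ℤ × ℤ => f = g) Λ ((Bg.dom T b X).K00 P LinearMap.id src) =
      TH (J4Lnkx653.gs ((Bg.dom T b X).bk P src).y ((Bg.dom T b X).bk P src).s)
        ((1 + t • F) * GT T b P.R P.t) *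
        J4Lnkx653.Ms ((Bg.dom T b X).bk P src).y ((Bg.dom T b X).bk P src).s Λ := by
    have h2 := TorRepx599.K0_real ((Bg.dom T b X).bk P src) (fun _ => t) h.as Λ
    rw [PL_dom ((Bg.dom T b X).bk P src) T b (fun _ _ => Iff.rfl) ht hr hev Λ hΛ.shp] at h2
    have h3 : ((Bg.dom T b X).bk P src).srcs Λ = univ := by
      unfold Bk.srcs
      rw [Finset.filter_true_of_mem]
      exact fun k _ => ⟨h.ne k, h.sub k⟩
    rw [h3, Fin.prod_univ_one] at h2
    have h4 : ((Bg.dom T b X).bk P src).Fs 0 = F := h.Fs 0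
    rw [h4] at h2
    refine h2.trans ?_
    rw [mul_comm]
    congr 2
    exact mul_comm _ _
  rw [h1]
  have h5 := eeg_resc hS Λ (Λ.filter fun f => cor T f) (filter_subset _ _)
    (fun h hh => hΛ.nb h (mem_filter.1 hh).2) ((Bg.dom T b X).sc P)
    (fun f hf => sc_off P fun hc => hf (mem_filter.2 ⟨hΛ.cor f hc, hc⟩))
    ((1 + t • F) * GT T b P.R P.t)
  rw [prod_sc P Λ] at h5
  exact h5

end dom

/-! ### the bond expectation of a disc -/

variable {J lam : ℝ} {R : ℕ} {V : Finset (ℤ × ℤ) → ℝ} {β z : ℝ}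

theorem meshIndex_meshPoint (z : ℤ × ℤ) : meshIndex 1 (meshPoint 1 z) = z := by
  unfold meshIndex meshPoint
  ext <;> simp

/-- the product of the bonds of `S` -/
def prodEp (S : Finset ((ℤ × ℤ) × Fin 2)) : RR (Bkgx683.EG ℤ) :=
  ∏ e ∈ S, J4RRx653.ep (Finsupp.single e 1)

/-- **the bond expectation of a domain at mesh one** -/
theorem bonds_ratio {D : Set ℂ} (h : (domainSites D 1).Finite) (hJ : J ≠ 0) (hV : TrInv V)
    (hr : Rng R V) (hev : ∀ A, V A ≠ 0 → Even A.card)
    (h0 : Lk D 1 BoundaryCondition.plus (fun i : Fin 0 => i.elim0))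
    (S : Finset ((ℤ × ℤ) × Fin 2)) :
    domainExpect D 1 BoundaryCondition.plus J lam R V β (fun s => ∏ e ∈ S, Symx541.ep e s) =
      EXf D 1 BoundaryCondition.plus J lam R V β h (fun i : Fin 0 => i.elim0) (prodEp S) /
      EXf D 1 BoundaryCondition.plus J lam R V β h (fun i : Fin 0 => i.elim0) 1 := by
  classical
  have key := domMom_ratio (J := J) (lam := lam) (R := R) (V := V) (β := β)
    (b := BoundaryCondition.plus) (by simp) h hJ hV hr hev
    (fun i : Fin 0 => (i.elim0 : ℂ)) (fun k => meshPoint 1 (S.equivFin.symm k).1.1)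
    (fun k => (S.equivFin.symm k).1.2) 0
    (by
      have e : (fun i : Fin 0 => meshIndex 1 (i.elim0 : ℂ)) = (fun i : Fin 0 => i.elim0) := by
        funext i; exact i.elim0
      rw [e]; exact h0) h0 (by simp) (spm0_pos_plus h _).ne'
  have e0 : (fun i : Fin 0 => meshIndex 1 (i.elim0 : ℂ)) = (fun i : Fin 0 => i.elim0) := by
    funext i; exact i.elim0
  rw [e0] at key
  have e1 : obR (fun k => (meshIndex 1 (meshPoint 1 (S.equivFin.symm k).1.1),
      (S.equivFin.symm k).1.2)) (0 : Fin S.card → ℝ) = prodEp S := by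
    unfold obR prodEp
    rw [← Finset.prod_coe_sort S, ← S.equivFin.symm.prod_comp]
    refine Finset.prod_congr rfl fun k _ => ?_
    rw [Pi.zero_apply, map_zero, sub_zero]
    simp only [meshIndex_meshPoint]
  rw [e1] at key
  rw [← key]
  have e2 : spm D 1 BoundaryCondition.plus J lam R V β (fun i : Fin 0 => (i.elim0 : ℂ)) = 1 := by
    exact domMom_zero_zero D 1 _ J lam R V β h _ _ _ _
  rw [e2, div_one]
  unfold domMom
  congr 1
  funext s
  unfold obs
  rw [Finset.univ_eq_empty, Finset.prod_empty, one_mul, ← Finset.prod_coe_sort S,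
    ← S.equivFin.symm.prod_comp]
  refine Finset.prod_congr rfl fun k _ => ?_
  simp only [meshIndex_meshPoint]
  rw [Pi.zero_apply, sub_zero]
  rfl

/-- **the representation** -/
theorem rep {D : Set ℂ} (h : (domainSites D 1).Finite) (hJ : J ≠ 0) (hV : TrInv V)
    (hr : Rng R V) (hev : ∀ A, V A ≠ 0 → Even A.card)
    (h0 : Lk D 1 BoundaryCondition.plus (fun i : Fin 0 => i.elim0))
    (S : Finset ((ℤ × ℤ) × Fin 2)) (hz : 0 < 1 + z) {Λ : Finset (ℤ × ℤ)}
    (hΛ : VolD h.toFinset BoundaryCondition.plus (max R 1) Λ) (t : ℝ)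
    {src src0 : Srcs (Fin 1) ℤ (Ge (Fld ℤ))} (hs : RealSrc src (prodEp S) t Λ)
    (hs0 : RealSrc src0 (prodEp S) 0 Λ) :
    1 + t * domainExpect D 1 BoundaryCondition.plus J lam R V β
        (fun s => ∏ e ∈ S, Symx541.ep e s) =
      EEG (Cof (Bg.dom h.toFinset BoundaryCondition.plus (fun i : Fin 0 => i.elim0)).w)
        (ZZ (fun f g : ℤ × ℤ => f = g) Λ
          ((Bg.dom h.toFinset BoundaryCondition.plus (fun i : Fin 0 => i.elim0)).K00
            (mpar J lam R V β z) LinearMap.id src)) /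
      EEG (Cof (Bg.dom h.toFinset BoundaryCondition.plus (fun i : Fin 0 => i.elim0)).w)
        (ZZ (fun f g : ℤ × ℤ => f = g) Λ
          ((Bg.dom h.toFinset BoundaryCondition.plus (fun i : Fin 0 => i.elim0)).K00
            (mpar J lam R V β z) LinearMap.id src0)) := by
  have hex : ∃ S, IsCov (Bg.dom h.toFinset BoundaryCondition.plus (fun i : Fin 0 => i.elim0)).w S := by
    rw [dom_w]; exact h0.ex
  have e2 : covS (Sof (Bg.dom h.toFinset BoundaryCondition.plus (fun i : Fin 0 => i.elim0)).w)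
      (Sof_spec hex).skew =
      Cof (Bg.dom h.toFinset BoundaryCondition.plus (fun i : Fin 0 => i.elim0)).w := rfl
  have k1 := K00_real (Sof_spec hex) (mpar J lam R V β z) hV.tpot (tpot_rng hr) (tpot_even hev) hΛ hs
  have k0 := K00_real (Sof_spec hex) (mpar J lam R V β z) hV.tpot (tpot_rng hr) (tpot_even hev) hΛ
    hs0
  rw [e2] at k1 k0
  have hz' : csD h.toFinset (mpar J lam R V β z).z Λ ≠ 0 := csD_ne _ hz _
  rw [k1, k0, mul_div_mul_left _ _ hz', bonds_ratio h hJ hV hr hev h0 S]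
  have e3 : ∀ u : ℝ, EG' (Cof (Bg.dom h.toFinset BoundaryCondition.plus
      (fun i : Fin 0 => i.elim0)).w) (TH (gw (Bg.dom h.toFinset BoundaryCondition.plus
      (fun i : Fin 0 => i.elim0)).w) ((1 + u • prodEp S) * GT h.toFinset BoundaryCondition.plus
        (mpar J lam R V β z).R (mpar J lam R V β z).t)) =
      EXf D 1 BoundaryCondition.plus J lam R V β h (fun i : Fin 0 => i.elim0) 1 +
        u * EXf D 1 BoundaryCondition.plus J lam R V β h (fun i : Fin 0 => i.elim0) (prodEp S) := by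
    intro u
    unfold EXf
    rw [add_mul, smul_mul_assoc, map_add, map_smul, J4Lnkx653.EG'_add, J4Lnkx653.EG'_smul, dom_w]
    rfl
  rw [e3 t, e3 0, zero_mul, add_zero]
  have hp : EXf D 1 BoundaryCondition.plus J lam R V β h (fun i : Fin 0 => i.elim0) 1 ≠ 0 := by
    have h4 := (E0_pos (J := J) (lam := lam) (R := R) (β := β) h hev h0).ne'
    have e4 : EXf D 1 BoundaryCondition.plus J lam R V β h (fun i : Fin 0 => i.elim0) 1 =
        E0f D 1 BoundaryCondition.plus J lam R V β h := by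
      rw [EXf, E0f, one_mul, wD_nil]
    rwa [e4]
  field_simp

end Crest.Agent.R165.DisRepx892

end
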