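import Crest.Agent.R165.DiscComp_722

/-!
# Row 165 (S0250), large discs: the controlled flows and their bounds, full output (helper722)

* `Run3 c CF C1 J q D w T K1 K2 K M0 M t` : the flow is controlled (`CtlJ`) and bounded (`Out3`)
* `Run0` : the same without insertions (`Ctl`)
* `ev_disc3c` : `DiscCompx722.ev_disc3` with the structures `CtlJ`, `Ctl` in the output
-/

set_option autoImplicit false
set_option linter.unusedSectionVars false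

noncomputable section

open Filter Topology
open scoped ENNReal
open Crest.ProbabilityR.IsingModel
open Crest.Agent.R165.Geo (LatReg bdS)
open Crest.Agent.R165.Gr0x606 Crest.Agent.R165.Gr1x606 Crest.Agent.R165.GeOpsx337
open Crest.Agent.R165.Latx683 (BW wDom wX wPl Fld)
open Crest.Agent.R165.GDefx387 Crest.Agent.R165.GSysx387 Crest.Agent.R165.KFlowx337
open Crest.Agent.R165.DefRecx915 Crest.Agent.R165.Compx889 Crest.Agent.R165.NKDefx915
open Crest.Agent.R165.Bkgx683 Crest.Agent.R165.Outx683 Crest.Agent.R165.PEndx683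
open Crest.Agent.R165.Constx891 Crest.Agent.R165.StepOKx838 Crest.Agent.R165.DomAcx117
open Crest.Agent.R165.BgIsox432 Crest.Agent.R165.Bridgex915 Crest.Agent.R165.Scalex900
open Crest.Agent.R165.StepGluex897 (acS)
open Crest.Agent.R165.DiscMkx117 Crest.Agent.R165.DiscPhx892 Crest.Agent.R165.DiscKx892
open Crest.Agent.R165.CrudeDx915 Crest.Agent.R165.GeoScx420 Crest.Agent.R165.DeepBgx898
open Crest.Agent.R165.TorNorm2x583 (PlB)

namespace Crest.Agent.R165.DiscCompx722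

/-- **the flow of a large disc**: controlled with crude steps, and bounded -/
structure Run3 (c : Cst) (CF : ℝ≥0∞) (J q : ℕ) (D : Sys (ℤ × ℤ) (Fld ℤ)) (w : BW ℤ)
    (T : Finset (ℤ × ℤ)) (K1 K2 K : ℕ) (M0 M t : ℝ) : Prop where
  ctl : CtlJ c CF (CFcr c) J (Ph K1 K2) (aC c K1 K2) D w (fun n => acS c.p c.k0 n (nbT T q))
    (fun n => emM w ((∅ : Finset (ℤ × ℤ)) : Set (ℤ × ℤ)) (rr c.p c.k0 n)) K
  out : Out3 c D w K1 K2 K M0 M t

/-- **the flow of a large disc without insertions**: controlled and bounded -/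
structure Run0 (c : Cst) (CF : ℝ≥0∞) (q : ℕ) (D : Sys (ℤ × ℤ) (Fld ℤ)) (w : BW ℤ)
    (T : Finset (ℤ × ℤ)) (K1 K2 K : ℕ) (M0 t : ℝ) : Prop where
  ctl : Ctl c CF (aC c K1 K2) D w (fun n => acS c.p c.k0 n (nbT T q))
    (fun n => emM w ((∅ : Finset (ℤ × ℤ)) : Set (ℤ × ℤ)) (rr c.p c.k0 n)) K
  out : Out3 c D w K1 K2 K M0 M0 t

/-- **the flows in the large discs**: controlled and bounded, three phases, with the insertions `x`
and without insertions, for any boundary condition -/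
theorem ev_disc3c {J : ℝ} {R : ℕ} {V : Finset (ℤ × ℤ) → ℝ} (hpl : PlB J R V) :
    EvC fun c => Std c ∧ CrOK c ∧ 5 ≤ c.p * (c.k0 + 1) ∧ ∃ CF : ℝ≥0∞, CF ≠ ∞ ∧
      ∃ C1 : ℕ, Good c CF C1 ∧ ∃ c1 : ℝ, 0 < c1 ∧
      ∀ C : ℝ, ∃ ε > 0, ∃ M0 : ℝ, 0 < M0 ∧
      ∀ n : ℕ, Even n → ∀ x : Fin n → ℂ, Function.Injective x → ∃ u0 v0 : ℝ, 0 < u0 ∧ u0 ≤ v0 ∧
      ∀ u v cc : ℝ, 0 < u → u ≤ u0 → v0 ≤ v → 0 < cc → cc ≤ c1 →
      ∃ (Jn : ℕ) (M : ℝ), M0 ≤ M ∧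
      ∀ᶠ P in dl, DiscG c.p c.k0 C1 u v cc x (Fin.elim0 : Fin 0 → ℂ) P ∧
        k1 c.p c.k0 u P.1 ≤ k2 c.p c.k0 v P.1 ∧
        k2 c.p c.k0 v P.1 - k1 c.p c.k0 u P.1 ≤ Jn ∧
        qD c ^ (k2 c.p c.k0 v P.1 - k1 c.p c.k0 u P.1) ≤ 1 + c.δ * k1 c.p c.k0 u P.1 ∧
        ∀ lam β z : ℝ, |lam| < ε → NearP J C lam β z → PF J R V C c lam β z →
        ∀ T : Finset (ℤ × ℤ), (T : Set (ℤ × ℤ)) = domainSites (Metric.ball (0 : ℂ) P.2) P.1 →
        ∀ b : BoundaryCondition,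
          Run3 c CF Jn (2 * max R 1 + 2)
            (domF c (mpar J lam R V β z) T b fun i => meshIndex P.1 (x i))
            (Bg.dom T b fun i => meshIndex P.1 (x i)).w T (k1 c.p c.k0 u P.1)
            (k2 c.p c.k0 v P.1) (kf c.p c.k0 cc P) M0 M |lam| ∧
          ∀ X0 : Fin 0 → ℤ × ℤ, Run0 c CF (2 * max R 1 + 2)
            (domF c (mpar J lam R V β z) T b X0) (Bg.dom T b X0).w T
            (k1 c.p c.k0 u P.1) (k2 c.p c.k0 v P.1) (kf c.p c.k0 cc P) M0 |lam| := by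
  refine ev_mono3 (stepOK_ev.and hpl) ((ev_dcst (max R 1)).and ev_crOK) (C0x950.c0_ev J R V) ?_
  rintro c ⟨⟨CF, hCF, C1, H⟩, hpl⟩ ⟨hc, hcr⟩ hc0
  obtain ⟨c1, hc1, hgeo⟩ := disc_good0 C1
  have hp : 1 ≤ c.p := by have := hc.std.p_pos; omega
  refine ⟨hc.std, hcr, hc.five, CF, hCF, C1, H, c1, hc1, fun C => ?_⟩
  obtain ⟨ε1, hε1, m1, hm1, hpl⟩ := hpl C
  obtain ⟨ε2, hε2, m2, hm2, hc0⟩ := hc0 C
  obtain ⟨Ma, εa, hMa, hεa, ha⟩ := Ctl.bound c hCF (m1 + m2)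
  obtain ⟨Mb, εb, hMb, hεb, hb⟩ := CtlJ.bound c hCF (m1 + m2)
  refine ⟨min (min ε1 ε2) (min εa εb), by positivity, max Ma Mb, by positivity, ?_⟩
  intro n hn x hx
  obtain ⟨u0, v0, hu0, hv0, hgeo⟩ := hgeo n x hx
  refine ⟨u0, max v0 u0, hu0, le_max_right _ _, ?_⟩
  intro u v cc hu huu hvv hcc hcc1
  have huv : u ≤ v := huu.trans ((le_max_right _ _).trans hvv)
  have hv : 0 < v := hu.trans_le huv
  obtain ⟨Jn, hJn⟩ := exists_J (v := v) hu
  obtain ⟨MJ, eJ, hMJ, heJ, hbJ⟩ := hb (CFcr c) Jn (CFcr_ne_top c)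
  refine ⟨Jn, max (max Ma Mb) MJ, le_max_left _ _, ?_⟩
  filter_upwards [hgeo u v cc hu huu ((le_max_left _ _).trans hvv) hcc hcc1 c.p c.k0 hp,
    ev_a (ev_hJ hp c.k0 hu hv hc.std.δ_pos (one_le_qD c)),
    ev_a (ev_div (M := (2 : ℝ) ^ (c.p * c.k0)) hv),
    ev_a (small_real hp c.k0 hu (le_min (le_min hε1.le hε2.le) (le_min hεa.le hεb.le)) heJ)]
    with P hG hJ hv2 hsm
  have h12 : k1 c.p c.k0 u P.1 ≤ k2 c.p c.k0 v P.1 := k1_le_k2 hG.pos huv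
  refine ⟨hG, h12, hJn c.p c.k0 hp P.1 hG.pos hv2, hJ, ?_⟩
  intro lam β z hlam hnear hPF T hT b
  obtain ⟨⟨hl1, hl2⟩, hla, hlb⟩ : (|lam| < ε1 ∧ |lam| < ε2) ∧ |lam| < εa ∧ |lam| < εb := by
    rw [lt_min_iff, lt_min_iff, lt_min_iff] at hlam
    exact hlam
  have hNI : DeepBgx898.NoIso (T : Set (ℤ × ℤ)) := by rw [hT]; exact noIso_ball P.1 P.2
  have habs := abs_nonneg lam
  have hpl' : ∀ n, n ≤ kf c.p c.k0 cc P → NK (wPl ℤ) (Outx683.amp c n) (rr c.p c.k0 n)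
      (ENNReal.ofReal c.Γ) (fun _ => True)
      (fun U => (((plF c (mpar J lam R V β z)).K n U : Ge (Fld ℤ)) : Gr (Fld ℤ))) ≤
        ENNReal.ofReal ((m1 + m2) * |lam| * (1 / 2) ^ n) := fun n _ =>
    (hpl lam β z hl1 hnear hPF n).trans (ENNReal.ofReal_le_ofReal (by
      refine mul_le_mul_of_nonneg_right ?_ (by positivity)
      exact mul_le_mul_of_nonneg_right (by linarith) habs))
  have h0' : ∀ {m : ℕ} (X : Fin m → ℤ × ℤ), NK (Bg.dom T b X).w c.A0 (rr c.p c.k0 0)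
      (ENNReal.ofReal c.Γ) (fun _ => True)
      (fun U => (((fl c (mpar J lam R V β z) (Bg.dom T b X)).K 0 U : Ge (Fld ℤ)) :
        Gr (Fld ℤ))) ≤ ENNReal.ofReal ((m1 + m2) * |lam|) := fun X =>
    (hc0 lam β z hl2 hnear ℤ (Bg.dom T b X) (abs_wX_dom T (isF b) X) _ _).trans
      (ENNReal.ofReal_le_ofReal (mul_le_mul_of_nonneg_right (by linarith) habs))
  refine ⟨?_, fun X0 => ?_⟩
  · have hctl := ctlJ3 (b := b) (P := mpar J lam R V β z) H hc.std hcr hc.five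
      (q := 2 * max R 1 + 2) (by change 2 * max R 1 + 1 ≤ _; omega) (by omega) hc.q_le
      (SrcOK.no ℤ) (fun k => k.elim0) h12 hJ (geo3_of hG hn hT)
    have hctl' : CtlJ c CF (CFcr c) Jn (Ph (k1 c.p c.k0 u P.1) (k2 c.p c.k0 v P.1)) _ _ _ _ _ _ :=
      ⟨hctl.str, hctl.step, hctl.crude, hctl.count.trans (hJn c.p c.k0 hp P.1 hG.pos hv2)⟩
    obtain ⟨i1, i2⟩ := inputs3 (b := b) (X := fun i => meshIndex P.1 (x i)) hc.std hc.five
      (plOK_dom hNI b _) h12 hpl' (h0' _)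
    refine ⟨hctl', (out3_of hctl' (hbJ ℤ _ _ _ _ _ _ _ |lam| hctl' habs hlb.le ?_ i1 i2)).mono
      habs (le_max_right _ _) (le_max_right _ _)⟩
    intro k _ hk
    rw [not_Ph] at hk
    refine le_trans ?_ (hsm k hk.1)
    exact mul_le_mul_of_nonneg_right hlam.le (by positivity)
  · have hctl := ctl_free (b := b) (P := mpar J lam R V β z) H hc.std hc.five
      (q := 2 * max R 1 + 2) (by change 2 * max R 1 + 1 ≤ _; omega) (by omega) hc.q_le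
      (SrcOK.no ℤ) (fun k => k.elim0) h12 hJ X0 (geo3_of hG hn hT).reg
    obtain ⟨i1, i2⟩ := inputs3 (b := b) (X := X0) hc.std hc.five
      (plOK_dom hNI b _) h12 hpl' (h0' _)
    exact ⟨hctl, (out3_ctl hctl (ha ℤ _ _ _ _ _ _ |lam| hctl habs hla.le i1 i2)).mono habs
      (le_max_left _ _) (le_max_left _ _)⟩

end Crest.Agent.R165.DiscCompx722
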