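import Crest.Agent.R165.GeoRL_838
import Crest.Agent.R165.GeoDiscA_65
import Crest.Agent.R165.GeoC_65
import Crest.Agent.R165.Nm1_422

/-!
# Row 165 (S0250): the discs `ball 0 L` at mesh `a`, uniformly in `L` (helper65)

* `disc_latReg`: lattice regularity with an absolute constant
* `disc_cfg`: position of the insertions with respect to each other and to the boundary
* `geo_disc`: regularity classes of the faces, fine scales `a R0 ≤ δ(x)`
* `nsteps`: number of scales between `δ / a` and `C / a`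
-/

set_option autoImplicit false

noncomputable section

open Crest.ProbabilityR.IsingModel
open Crest.Agent.R165.Geo
open Crest.Agent.R165.Latx683 (BW wDom wX)
open Crest.Agent.R165.GDefx387 (fd fd_comm fd_triangle)
open Crest.Agent.R165.RIfx891 (GapU EXb EXbr)
open Crest.Agent.R165.RegGx893 (RB RD RX)
open Crest.Agent.R165.RFlatx65

namespace Crest.Agent.R165.GeoDiscx65

/-- **lattice regularity of the discs**, absolute constant -/
theorem disc_latReg : ∃ c0 : ℝ, 0 < c0 ∧ c0 ≤ 1 ∧ ∀ L a : ℝ, 0 < L → 0 < a → ∃ κ : ℝ,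
    LatReg (domainSites (Metric.ball (0 : ℂ) L) a) (c0 * L / a) κ ∧ κ * (c0 * L / a) ≤ 1 := by
  obtain ⟨r, M, h⟩ := GeoCx65.exists_CD (Nm1x422.isC2_ball 0 one_pos) ⟨0, by simp⟩
  have hr := h.r_pos
  have hM := h.M_nonneg
  have hc1 : 0 < min (r / 2) (min 1 (1 / (M + 1))) := by positivity
  refine ⟨min (r / 2) (min 1 (1 / (M + 1))), hc1,
    (min_le_right _ _).trans (min_le_left _ _), fun L a hL ha => ⟨M * (a / L), ?_, ?_⟩⟩
  · rw [domainSites_ball hL]
    have h1 := latReg_domainSites h hc1 (by linarith [min_le_left (r / 2) (min 1 (1 / (M + 1)))])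
      (div_pos ha hL)
    rwa [div_div_eq_mul_div] at h1
  · have e : M * (a / L) * (min (r / 2) (min 1 (1 / (M + 1))) * L / a) =
        M * min (r / 2) (min 1 (1 / (M + 1))) := by
      field_simp
    rw [e]
    calc M * min (r / 2) (min 1 (1 / (M + 1))) ≤ M * (1 / (M + 1)) :=
          mul_le_mul_of_nonneg_left ((min_le_right _ _).trans (min_le_right _ _)) hM
      _ ≤ 1 := by rw [mul_one_div, div_le_one (by linarith)]; linarith

/-- the mesh distance is at most twice the scaled `fd` -/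
theorem norm_mesh_le {a : ℝ} (ha : 0 ≤ a) (u v : ℤ × ℤ) :
    ‖meshPoint a u - meshPoint a v‖ ≤ 2 * (a * fd u v) := by
  refine norm_meshPoint_sub_le ha ?_ ?_
  · have h1 : (u.1 - v.1).natAbs ≤ fd u v := by rw [fd_int]; exact le_max_left _ _
    rw [← Int.cast_sub, ← Int.cast_abs, Int.abs_eq_natAbs]
    exact_mod_cast h1
  · have h1 : (u.2 - v.2).natAbs ≤ fd u v := by rw [fd_int]; exact le_max_right _ _
    rw [← Int.cast_sub, ← Int.cast_abs, Int.abs_eq_natAbs]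
    exact_mod_cast h1

/-- the scaled `fd` is at most the mesh distance -/
theorem fd_le_norm {a : ℝ} (ha : 0 ≤ a) (u v : ℤ × ℤ) :
    a * fd u v ≤ ‖meshPoint a u - meshPoint a v‖ := by
  have h1 : a * ((u.1 - v.1).natAbs : ℝ) ≤ ‖meshPoint a u - meshPoint a v‖ := by
    refine le_trans (le_of_eq ?_) (Complex.abs_re_le_norm _)
    have e : (meshPoint a u - meshPoint a v).re = a * ((u.1 - v.1 : ℤ) : ℝ) := by
      simp only [meshPoint, Complex.sub_re]; push_cast; ring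
    rw [e, abs_mul, abs_of_nonneg ha, ← Int.cast_abs, Int.abs_eq_natAbs, Int.cast_natCast]
  have h2 : a * ((u.2 - v.2).natAbs : ℝ) ≤ ‖meshPoint a u - meshPoint a v‖ := by
    refine le_trans (le_of_eq ?_) (Complex.abs_im_le_norm _)
    have e : (meshPoint a u - meshPoint a v).im = a * ((u.2 - v.2 : ℤ) : ℝ) := by
      simp only [meshPoint, Complex.sub_im]; push_cast; ring
    rw [e, abs_mul, abs_of_nonneg ha, ← Int.cast_abs, Int.abs_eq_natAbs, Int.cast_natCast]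
  rw [fd_int, Nat.cast_max]
  rcases max_cases ((u.1 - v.1).natAbs : ℝ) ((u.2 - v.2).natAbs : ℝ) with ⟨e, -⟩ | ⟨e, -⟩ <;>
    rw [e] <;> assumption

/-- boundary sites of the disc are near the circle -/
theorem norm_bdS_disc {L a : ℝ} (ha : 0 < a) {z : ℤ × ℤ}
    (hz : z ∈ bdS (domainSites (Metric.ball (0 : ℂ) L) a)) : L - 2 * a ≤ ‖meshPoint a z‖ := by
  obtain ⟨u, hzu, hu⟩ := hz
  have h1 : ‖meshPoint a z - meshPoint a u‖ ≤ 2 * (a * 1) := by
    refine norm_meshPoint_sub_le ha.le ?_ ?_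
    · rcases hzu with ⟨e1, e2⟩ | ⟨e1, e2⟩
      · rw [← Int.cast_sub, ← Int.cast_abs, e2]; norm_num
      · rw [e1]; simp
    · rcases hzu with ⟨e1, e2⟩ | ⟨e1, e2⟩
      · rw [e1]; simp
      · rw [← Int.cast_sub, ← Int.cast_abs, e2]; norm_num
  rcases hu with ⟨-, h2⟩ | ⟨h2, -⟩
  · have h3 : L ≤ ‖meshPoint a u‖ := by
      by_contra hc
      exact h2 (by simpa [domainSites] using hc)
    have h4 := norm_sub_norm_le (meshPoint a u) (meshPoint a z)
    rw [norm_sub_rev] at h4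
    linarith
  · have h3 : L ≤ ‖meshPoint a z‖ := by
      by_contra hc
      exact h2 (by simpa [domainSites] using hc)
    linarith

/-- a site of the half disc is far from the boundary -/
theorem disc_far {L a : ℝ} (ha : 0 < a) (haL : 8 * a ≤ L) {v z : ℤ × ℤ}
    (hv : ‖meshPoint a v‖ ≤ L / 2) (hz : z ∈ bdS (domainSites (Metric.ball (0 : ℂ) L) a)) :
    L ≤ 8 * (a * fd v z) := by
  have h1 := norm_bdS_disc ha hz
  have h2 := norm_mesh_le ha.le v z
  have h3 := norm_sub_norm_le (meshPoint a z) (meshPoint a v)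
  rw [norm_sub_rev] at h3
  linarith

theorem meshPoint_zero (a : ℝ) : meshPoint a (0, 0) = 0 := by
  apply Complex.ext <;> simp [meshPoint]

/-- **position of the insertions in a large disc** -/
theorem disc_cfg {m : ℕ} {x : Fin m → ℂ} (hx : Function.Injective x) :
    ∃ δ C L0 : ℝ, 0 < δ ∧ 0 < C ∧ 0 < L0 ∧ ∀ a L : ℝ, 0 < a → a ≤ δ → L0 ≤ L →
      ∀ X : Fin m → ℤ × ℤ, (∀ i, ‖meshPoint a (X i) - x i‖ ≤ 2 * δ) →
      (∀ i, X i ∈ domainSites (Metric.ball (0 : ℂ) L) a) ∧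
      (∀ i j, i ≠ j → δ < a * fd (X i) (X j)) ∧
      (∀ i, ∀ z ∈ bdS (domainSites (Metric.ball (0 : ℂ) L) a), L ≤ 8 * (a * fd (X i) z)) ∧
      (∀ i, a * fd (0, 0) (X i) ≤ C) ∧ (∀ i, ‖meshPoint a (X i)‖ ≤ C) ∧ 8 * a ≤ L ∧
      (∀ z ∈ bdS (domainSites (Metric.ball (0 : ℂ) L) a), L ≤ 8 * (a * fd (0, 0) z)) := by
  obtain ⟨K, hK0, hK⟩ : ∃ K : ℝ, 0 ≤ K ∧ ∀ i, ‖x i‖ ≤ K := by
    obtain ⟨K, hK⟩ := (Set.finite_range x).isBounded.exists_norm_le
    exact ⟨max K 0, le_max_right _ _, fun i => (hK _ ⟨i, rfl⟩).trans (le_max_left _ _)⟩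
  have h2 : ∀ᶠ δ in nhdsWithin (0 : ℝ) (Set.Ioi 0), ∀ i j, i ≠ j → 6 * δ < ‖x i - x j‖ := by
    rw [Filter.eventually_all]
    intro i
    rw [Filter.eventually_all]
    intro j
    by_cases hij : i = j
    · filter_upwards with δ h
      exact absurd hij h
    · have h0 : 0 < ‖x i - x j‖ := norm_pos_iff.2 (sub_ne_zero.2 fun h => hij (hx h))
      filter_upwards [Ioo_mem_nhdsGT (show (0 : ℝ) < ‖x i - x j‖ / 6 by positivity)] with δ hδ _
      linarith [hδ.2]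
  obtain ⟨δ, hs, hδ⟩ := (h2.and self_mem_nhdsWithin).exists
  have hδ0 : (0 : ℝ) < δ := hδ
  refine ⟨δ, K + 2 * δ, 2 * (K + 2 * δ) + 8 * δ, hδ0, by linarith, by linarith, ?_⟩
  intro a L ha haδ hL X hX
  have hn : ∀ i, ‖meshPoint a (X i)‖ ≤ K + 2 * δ := by
    intro i
    have h3 := norm_sub_norm_le (meshPoint a (X i)) (x i)
    have h4 := hX i
    have h5 := hK i
    linarith
  refine ⟨fun i => ?_, fun i j hij => ?_, fun i z hz => ?_, fun i => ?_, hn, by linarith,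
    fun z hz => ?_⟩
  · have := hn i
    simp only [domainSites, Set.mem_ofPred_eq, mem_ball_zero_iff]
    linarith
  · have h3 := norm_mesh_le ha.le (X i) (X j)
    have h4 : ‖x i - x j‖ ≤ ‖meshPoint a (X i) - x i‖ + ‖meshPoint a (X j) - x j‖ +
        ‖meshPoint a (X i) - meshPoint a (X j)‖ := by
      have : x i - x j = -(meshPoint a (X i) - x i) + (meshPoint a (X j) - x j) +
          (meshPoint a (X i) - meshPoint a (X j)) := by ring
      rw [this]
      refine (norm_add_le _ _).trans ?_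
      gcongr
      refine (norm_add_le _ _).trans ?_
      rw [norm_neg]
    have h5 := hs i j hij
    have h6 := hX i
    have h7 := hX j
    linarith
  · exact disc_far ha (by linarith) ((hn i).trans (by linarith)) hz
  · have h3 := fd_le_norm ha.le (0, 0) (X i)
    rw [meshPoint_zero, zero_sub, norm_neg] at h3
    exact h3.trans (hn i)
  · exact disc_far ha (by linarith) (by rw [meshPoint_zero, norm_zero]; linarith) hz

/-- **the classes of the faces of a disc**, fine scales, uniformly in the radius `L` -/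
theorem geo_disc {C C' Cs : ℝ} (hC : 0 ≤ C) (hC' : 0 ≤ C') (hCs : 0 ≤ Cs) (hG : GapU Cs)
    (hE : EXb C) (hE' : EXbr C') (Λ B : ℕ) :
    ∃ r0 : ℕ, 2 ≤ r0 ∧ ∀ (m : ℕ) (x : Fin m → ℂ), Function.Injective x →
    ∃ δ L0 : ℝ, 0 < δ ∧ 0 < L0 ∧ ∀ a L : ℝ, 0 < a → a ≤ δ → L0 ≤ L →
      ∀ X : Fin m → ℤ × ℤ, (∀ i, ‖meshPoint a (X i) - x i‖ ≤ 2 * δ) →
      ∀ (b : Bool) (R0 : ℕ), a * R0 ≤ δ →
      (∀ y z, z ∈ bdS (domainSites (Metric.ball (0 : ℂ) L) a) → fd y z ≤ B →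
        RD (wX (wDom (domainSites (Metric.ball (0 : ℂ) L) a) b) X) y
          (GeoRDx838.KG C C' Cs) Λ r0 R0) ∧
      (∀ i, RX (wX (wDom (domainSites (Metric.ball (0 : ℂ) L) a) b) X) (X i)
        (GeoRDx838.KG C C' Cs) Λ r0 R0) ∧
      (∀ f, RB (wX (wDom (domainSites (Metric.ball (0 : ℂ) L) a) b) X) f
          (GeoRDx838.KG C C' Cs) Λ r0 R0 ∨
        ∃ y, (y ∈ bdS (domainSites (Metric.ball (0 : ℂ) L) a) ∨ ∃ i, y = X i) ∧ fd y f ≤ R0 + 1 ∧
          RB (wX (wDom (domainSites (Metric.ball (0 : ℂ) L) a) b) X) f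
            (GeoRDx838.KG C C' Cs) Λ r0 (fd y f / 2)) := by
  obtain ⟨c0, hc0, -, hreg⟩ := disc_latReg
  obtain ⟨r0, C0, hr0, hC0, H⟩ := GeoRLx838.geo_lat hC hC' hCs hG hE hE' Λ B
  refine ⟨r0, hr0, fun m x hx => ?_⟩
  obtain ⟨δ, K, L0, hδ, hK, hL0, Hc⟩ := disc_cfg hx
  refine ⟨δ, max L0 (max (C0 * δ / c0) (8 * (δ * (B + 3)))), hδ, lt_max_of_lt_left hL0, ?_⟩
  intro a L ha haδ hL X hX b R0 hR0
  have hL1 : L0 ≤ L := (le_max_left _ _).trans hL
  have hL2 : C0 * δ / c0 ≤ L := ((le_max_left _ _).trans (le_max_right _ _)).trans hL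
  have hL3 : 8 * (δ * (B + 3)) ≤ L := ((le_max_right _ _).trans (le_max_right _ _)).trans hL
  have hLp : 0 < L := hL0.trans_le hL1
  obtain ⟨h1, h2, h3, -, -, -, -⟩ := Hc a L ha haδ hL1 X hX
  obtain ⟨κ, hκ1, hκ2⟩ := hreg L a hLp ha
  have hρ : (C0 : ℝ) * R0 ≤ c0 * L / a := by
    rw [le_div_iff₀ ha]
    rw [div_le_iff₀ hc0] at hL2
    have : (C0 : ℝ) * (a * R0) ≤ C0 * δ := mul_le_mul_of_nonneg_left hR0 (Nat.cast_nonneg _)
    nlinarith
  obtain ⟨H1, H2, H3⟩ := H _ _ _ hκ1 hκ2 m X b R0 hρ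
  -- the insertions are far from the boundary
  have hfar : ∀ i, ∀ z ∈ bdS (domainSites (Metric.ball (0 : ℂ) L) a),
      (R0 : ℝ) + B + 1 < fd (X i) z := by
    intro i z hz
    have h4 := h3 i z hz
    have hB : (0 : ℝ) ≤ B := Nat.cast_nonneg B
    have h5 : a * (R0 + B + 1) < a * fd (X i) z := by
      have h6 : a * B ≤ δ * B := mul_le_mul_of_nonneg_right haδ hB
      nlinarith
    exact lt_of_mul_lt_mul_left h5 ha.le
  refine ⟨fun y z hz hyz => H1 y z hz hyz fun i => ?_, fun i => H2 i (h1 i) (fun z hz => ?_)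
    fun j hj => ?_, H3⟩
  · have h4 := hfar i z hz
    have h5 : R0 + B + 1 < fd (X i) z := by exact_mod_cast h4
    have h6 := fd_triangle (X i) y z
    rw [fd_comm (X i) y] at h6
    omega
  · have h4 := hfar i z hz
    have h5 : R0 + B + 1 < fd (X i) z := by exact_mod_cast h4
    omega
  · have h4 := h2 i j hj.symm
    have h5 : a * (R0 : ℝ) < a * fd (X i) (X j) := hR0.trans_lt h4
    exact_mod_cast lt_of_mul_lt_mul_left h5 ha.le

/-- **number of scales** between `δ / a` and `C / a` -/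
theorem nsteps {δ : ℝ} (hδ : 0 < δ) (C : ℝ) : ∃ J : ℕ, ∀ (a : ℝ), 0 < a → ∀ r : ℕ → ℕ,
    (∀ k, 2 * r k ≤ r (k + 1)) → ∀ k0 k1 : ℕ, δ ≤ a * r k0 → a * r k1 ≤ C → k1 ≤ k0 + J := by
  obtain ⟨J, hJ⟩ := pow_unbounded_of_one_lt (C / δ) (by norm_num : (1 : ℝ) < 2)
  refine ⟨J, fun a ha r hr k0 k1 h0 h1 => ?_⟩
  by_contra hc
  rw [not_le] at hc
  have key : ∀ n, 2 ^ n * r k0 ≤ r (k0 + n) := by
    intro n
    induction n with
    | zero => simp
    | succ n ih =>
      calc 2 ^ (n + 1) * r k0 = 2 * (2 ^ n * r k0) := by ring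
        _ ≤ 2 * r (k0 + n) := by omega
        _ ≤ r (k0 + (n + 1)) := hr _
  obtain ⟨d, rfl⟩ : ∃ d, k1 = k0 + J + d := ⟨k1 - (k0 + J), by omega⟩
  have h2 := key (J + d)
  rw [← add_assoc] at h2
  have h3 : 2 ^ J * r k0 ≤ r (k0 + J + d) := by
    refine le_trans (Nat.mul_le_mul_right _ ?_) h2
    exact Nat.pow_le_pow_right (by norm_num) (by omega)
  have h4 : (2 : ℝ) ^ J * r k0 ≤ r (k0 + J + d) := by exact_mod_cast h3
  rw [div_lt_iff₀ hδ] at hJ
  have h5 : (2 : ℝ) ^ J * δ ≤ 2 ^ J * (a * r k0) := mul_le_mul_of_nonneg_left h0 (by positivity)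
  have h6 : a * ((2 : ℝ) ^ J * r k0) ≤ a * r (k0 + J + d) := mul_le_mul_of_nonneg_left h4 ha.le
  nlinarith

end Crest.Agent.R165.GeoDiscx65
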