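import Crest.Agent.R165.DiscMk2_117
import Crest.Agent.R165.K0Src_722
import Crest.Agent.R165.U5Props_422
import Crest.Agent.R165.DiscK_892

/-!
# Row 165 (S0250), block F: discs at mesh `1`, real sources, literal form for `DisL` (helper117)

* `dB B` : the background of the disc of radius `B` at mesh `1`, plus boundary condition
* `srcOK_isReal`, `away_isReal` : the sources `IsReal src Y S t` of helper722
* `disc_real` : for the flow with the real source: `Bd` up to `KB c δ B` with a summable bound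
  independent of `B`, and the norm at the last step tends to zero
* `kf_eq` : `KB` is `kf` of `DiscK_892`
-/

set_option autoImplicit false
set_option linter.unusedSectionVars false

noncomputable section

open Filter Topology
open scoped ENNReal
open Crest.ProbabilityR.IsingModel
open Crest.Agent.R165.Gr0x606 Crest.Agent.R165.Gr1x606 Crest.Agent.R165.GeOpsx337
open Crest.Agent.R165.Latx683 (BW wDom wX wPl Fld)
open Crest.Agent.R165.GDefx387 Crest.Agent.R165.GSysx387 Crest.Agent.R165.KFlowx337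
open Crest.Agent.R165.Bkgx683 Crest.Agent.R165.Outx683 Crest.Agent.R165.PEndx683
open Crest.Agent.R165.Constx891 Crest.Agent.R165.BgIsox432 Crest.Agent.R165.Bridgex915
open Crest.Agent.R165.DeepBgx898 (Away)
open Crest.Agent.R165.TorNorm2x583 (PlB)
open Crest.Agent.R165.SpinSysx892
open Crest.Agent.R165.K0Srcx722 (IsReal)
open Crest.Agent.R165.U5Px422 (TT mem_TT)

namespace Crest.Agent.R165.DiscMkx117

/-! ### the background -/

theorem coe_TT {D : Set ℂ} (hD : Bornology.IsBounded D) {a : ℝ} (ha : 0 < a) :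
    (TT D a : Set (ℤ × ℤ)) = domainSites D a := by
  ext z
  exact mem_TT hD ha

theorem coe_TT_ball (B : ℝ) : (TT (Metric.ball (0 : ℂ) B) 1 : Set (ℤ × ℤ)) =
    domainSites (Metric.ball (0 : ℂ) B) 1 := coe_TT Metric.isBounded_ball one_pos

/-- the disc of radius `B` at mesh `1`, plus boundary condition, no insertions -/
abbrev dB (B : ℝ) : Bg ℤ :=
  Bg.dom (TT (Metric.ball (0 : ℂ) B) 1) BoundaryCondition.plus (fun i : Fin 0 => i.elim0)

/-- `KB` in the notation of `DiscK_892` -/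
theorem kf_eq (c : Cst) (δ B : ℝ) : DiscKx892.kf c.p c.k0 δ (1, B) = KB c δ B := by
  unfold DiscKx892.kf KB
  rw [div_one]

/-! ### the sources -/

section src

variable {G : Type} [CommRing G] [DecidableEq G] [CN G] {src : Srcs (Fin 1) G (Ge (Fld G))}
  {Y : Finset (G × G)} {S : Finset (EG G)} {t : ℝ}

theorem srcOK_isReal (h : IsReal src Y S t) (hY : Packx915.Conn fd 1 Y) : SrcOK src where
  loc k _ := by
    have hk : k = 0 := Subsingleton.elim _ _
    rw [hk, h.as]
    exact Subalgebra.algebraMap_mem _ _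
  con k := by
    have hk : k = 0 := Subsingleton.elim _ _
    rw [hk, h.Ys]
    exact hY

theorem away_isReal (h : IsReal src Y S t) {f₀ : G × G} (hf : f₀ ∈ Y) : Away src {f₀} := by
  intro k _
  have hk : k = 0 := Subsingleton.elim _ _
  rw [hk, h.Ys]
  exact ⟨f₀, hf, Finset.mem_singleton_self _⟩

theorem ys_isReal (h : IsReal src Y S t) (k : Fin 1) : src.Ys k ⊆ Y := by
  have hk : k = 0 := Subsingleton.elim _ _
  rw [hk, h.Ys]

end src

/-! ### the bounds -/

theorem E_nonneg {C' l s : ℝ} (hC : 0 ≤ C') (hl : 0 ≤ l) (hs : 0 ≤ s) (k : ℕ) :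
    0 ≤ C' * (l + s) * (1 / 2 : ℝ) ^ k := by positivity

theorem E_summable (C : ℝ) : Summable fun k : ℕ => C * (1 / 2 : ℝ) ^ k :=
  (summable_geometric_of_lt_one (by norm_num) (by norm_num)).mul_left C

/-- **the disc flows with a real source**: literal inputs of `DisL`.  `δ0` depends on the constants
only; `ε`, `η` on the constants and `C`; everything else after. -/
theorem disc_real {J : ℝ} {R : ℕ} {V : Finset (ℤ × ℤ) → ℝ} (hpl : PlB J R V) :
    EvC fun c => ∃ δ0 > 0, ∀ C : ℝ, ∃ ε > 0, ∃ η > 0, ∀ lam β z : ℝ, |lam| < ε →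
      NearP J C lam β z → PF J R V C c lam β z → ∀ δ : ℝ, 0 < δ → δ ≤ δ0 →
      ∀ (Y : Finset (ℤ × ℤ)) (S : Finset (EG ℤ)) (t : ℝ) (src : Srcs (Fin 1) ℤ (Ge (Fld ℤ))),
      IsReal src Y S t → ((0, 0) : ℤ × ℤ) ∈ Y → Packx915.Conn fd 1 Y →
      ∀ s : ℝ, 0 ≤ s → s ≤ η →
      (∀ᶠ B : ℝ in atTop,
        NK (dB B).w c.A0 (rr c.p c.k0 0) (ENNReal.ofReal c.Γ) (fun _ => True)
          (fun U => (((dB B).K0 (mpar J lam R V β z) LinearMap.id src c.p c.k0 U :
            Ge (Fld ℤ)) : Gr (Fld ℤ))) ≤ ENNReal.ofReal s) →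
      ∃ E : ℕ → ℝ, (∀ k, 0 ≤ E k) ∧ Summable E ∧
        (∀ᶠ B : ℝ in atTop, Bd ((dB B).flow (mpar J lam R V β z) DD {(0, 0)} src c.p c.k0) fd
          (fun k => rr c.p c.k0 (k + 1)) (nearR c.p c.k0) (ENNReal.ofReal c.Γ) E (KB c δ B)) ∧
        Tendsto (fun B : ℝ => NK (dB B).w (Outx683.amp c (KB c δ B)) (rr c.p c.k0 (KB c δ B))
          (ENNReal.ofReal c.Γ) (fun _ => True)
          (fun U => ((((dB B).flow (mpar J lam R V β z) DD {(0, 0)} src c.p c.k0).K (KB c δ B) U :
            Ge (Fld ℤ)) : Gr (Fld ℤ)))) atTop (𝓝 0) := by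
  refine ev_mono2 (disc_flow hpl) ev_std ?_
  rintro c ⟨δ0, hδ0, H⟩ hc
  refine ⟨δ0, hδ0, fun C => ?_⟩
  obtain ⟨ε, hε, η, hη, C', hC', H⟩ := H C
  refine ⟨ε, hε, η, hη, ?_⟩
  intro lam β z hlam hn hPF δ hδ hδ1 Y S t src hr h0Y hY s hs hsη hK0
  have H1 := H lam β z hlam hn hPF s hs hsη δ hδ hδ1 Y
  refine ⟨fun k => C' * (|lam| + s) * (1 / 2) ^ k, E_nonneg hC' (abs_nonneg _) hs,
    E_summable _, ?_, ?_⟩
  · filter_upwards [H1, hK0] with B hB hB0
    exact (hB _ (coe_TT_ball B) _ _ _ src (srcOK_isReal hr hY) (away_isReal hr h0Y)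
      (ys_isReal hr) hB0).2
  · have h1 := last_tendsto (c := c) (by have := hc.p_pos; omega) hδ (C' * (|lam| + s))
    refine tendsto_of_tendsto_of_tendsto_of_le_of_le' tendsto_const_nhds h1
      (Eventually.of_forall fun _ => zero_le) ?_
    filter_upwards [H1, hK0] with B hB hB0
    exact (hB _ (coe_TT_ball B) _ _ _ src (srcOK_isReal hr hY) (away_isReal hr h0Y)
      (ys_isReal hr) hB0).1 _ le_rfl

/-- the side conditions of the last step: number of steps, amplitude, last scale -/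
theorem disc_side {c : Cst} (hc : Std c) {δ : ℝ} (hδ : 0 < δ) :
    Tendsto (KB c δ) atTop atTop ∧
    Tendsto (fun B : ℝ => Outx683.amp c (KB c δ B)) atTop atTop ∧
    0 < δ / 2 ^ c.p ∧ ∀ B : ℝ, δ / 2 ^ c.p * B ≤ rr c.p c.k0 (KB c δ B) := by
  have hp : 1 ≤ c.p := by have := hc.p_pos; omega
  exact ⟨KB_tendsto hp hδ, amp_KB_tendsto hc hδ, by positivity, rr_KB_ge hp δ⟩

end Crest.Agent.R165.DiscMkx117
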