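import Crest.Agent.R165.StepOK_838
import Crest.Agent.R165.StrS_897
import Crest.Agent.R165.Comp4_889
import Crest.Agent.R165.GeoDiscB_65
import Crest.Agent.R165.Scale_900
import Crest.Agent.R165.DomAc_117

/-!
# Row 165 (S0250), block F: controlled flows in discs at fixed mesh, with a mark (helper117)

* `ctl_dom` : `Compx889.Ctl` for the flow of a domain (any insertions, marks, local sources), from
  `StepOKx838.Good`
* `disc_geo`, `DGeo` : the disc of radius `B` at mesh `1` around the origin, lattice regularity and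
  distance to the boundary
* `SrcOK` : admissible local sources
* `ctl_disc` : the disc of radius `B` with the mark `0` is controlled up to the step `K`, as soon as
  `C1 rr_K ≤ c1 B`
* `KB c δ B` : number of steps, `rr (KB) ≤ δ B < 2^p rr (KB)`, `KB → ∞`
* `ev_disc` : for almost all constants, all large `B`: the flows are controlled up to `KB c δ B`
* `disc_bound` : norm bounds at all scales and `Bd`, uniform in `B` and in the source
-/

set_option autoImplicit false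
set_option linter.unusedSectionVars false

noncomputable section

open Filter Topology
open scoped ENNReal
open Crest.ProbabilityR.IsingModel
open Crest.Agent.R165.Geo (LatReg bdS)
open Crest.Agent.R165.Gr0x606 Crest.Agent.R165.Gr1x606 Crest.Agent.R165.GeOpsx337
open Crest.Agent.R165.Latx683 (BW wDom wX wPl Fld)
open Crest.Agent.R165.GDefx387 Crest.Agent.R165.GSysx387 Crest.Agent.R165.KFlowx337
open Crest.Agent.R165.DefRecx915 Crest.Agent.R165.Compx889 Crest.Agent.R165.NKDefx915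
open Crest.Agent.R165.Bkgx683 Crest.Agent.R165.Outx683 Crest.Agent.R165.PEndx683
open Crest.Agent.R165.Constx891 Crest.Agent.R165.StepOKx838 Crest.Agent.R165.DomAcx117
open Crest.Agent.R165.BgIsox432 Crest.Agent.R165.Bridgex915 Crest.Agent.R165.Scalex900
open Crest.Agent.R165.GeoIx838 (Sep SepP)
open Crest.Agent.R165.StepGluex897 (acS)

namespace Crest.Agent.R165.DiscMkx117

/-! ### admissible sources -/

/-- admissible local sources: the constants are local, the supports are connected -/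
structure SrcOK {G : Type} [CommRing G] [DecidableEq G] [CN G] {κ : Type}
    (src : Srcs κ G (Ge (Fld G))) : Prop where
  loc : ∀ k, (src.Ys k).Nonempty → src.as k ∈ grG (fldU (src.Ys k))
  con : ∀ k, Packx915.Conn fd 1 (src.Ys k)

theorem SrcOK.no (G : Type) [CommRing G] [DecidableEq G] [CN G] :
    SrcOK (noSrc G (Ge (Fld G))) := ⟨fun k => k.elim0, fun k => k.elim0⟩

/-- real sources -/
theorem SrcOK.of_real {G : Type} [CommRing G] [DecidableEq G] [CN G] {κ : Type}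
    {src : Srcs κ G (Ge (Fld G))} {t : κ → ℝ} (h : ∀ k, src.as k = algebraMap ℝ _ (t k))
    (hc : ∀ k, Packx915.Conn fd 1 (src.Ys k)) : SrcOK src :=
  ⟨fun k _ => by rw [h]; exact Subalgebra.algebraMap_mem _ _, hc⟩

section gen

variable {T : Finset (ℤ × ℤ)} {b : BoundaryCondition} {m : ℕ} {X : Fin m → ℤ × ℤ} {P : MPar}
variable {κ : Type} [DecidableEq κ] [Fintype κ]

/-- the flows satisfy `OK` -/
theorem ok_flow {G : Type} [CommRing G] [CN G] [CNZ G] [DecidableEq G] {c : Cst}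
    (h5 : 5 ≤ c.p * (c.k0 + 1)) (B : Bg G) (P : MPar) (mk : Finset (G × G))
    {src : Srcs κ G (Ge (Fld G))} (hs : SrcOK src) : (B.flow P DD mk src c.p c.k0).OK ⊥ :=
  GSysOKx439.sys_OK DD (by norm_num) B.w mk h5 fun U =>
    JVolx950.K0_fldU B P src hs.loc c.p c.k0 U

/-- **controlled flow of a domain**: any insertions, marks, local sources -/
theorem ctl_dom {c : Cst} {CF : ℝ≥0∞} {C1 : ℕ} (H : Good c CF C1) (h5 : 5 ≤ c.p * (c.k0 + 1))
    (hΓ : 1 ≤ c.Γ) {q : ℕ} (hq : 2 * P.R + 1 ≤ q) (hq2 : 2 ≤ q) (hqr : q ≤ s2 * rr c.p c.k0 0)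
    {src : Srcs κ ℤ (Ge (Fld ℤ))} (hs : SrcOK src) (hsT : ∀ k, src.Ys k ⊆ nbF T q)
    {mk : Finset (ℤ × ℤ)} {ρ κ' : ℝ} (hT : LatReg (T : Set (ℤ × ℤ)) ρ κ') (hκ : κ' * ρ ≤ 1)
    {K : ℕ} (hK : ∀ n, n < K → (C1 : ℝ) * rr c.p c.k0 (n + 1) ≤ ρ)
    (hS : ∀ n, n < K → Sep (T : Set (ℤ × ℤ)) X mk (32 * rr c.p c.k0 (n + 1)))
    (hmk : ∀ n, n < K → MkOK mk (rr c.p c.k0 n) (10 * rr c.p c.k0 (n + 1)))
    {a : ℕ → ℝ} (ha : ∀ n, c.A0 ≤ a n) (ha2 : ∀ n, a (n + 1) ≤ 2 * a n) :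
    Ctl c CF a ((Bg.dom T b X).flow P DD mk src c.p c.k0) (Bg.dom T b X).w
      (fun n => acS c.p c.k0 n (nbT T q))
      (fun n => emM (Bg.dom T b X).w (mk : Set (ℤ × ℤ)) (rr c.p c.k0 n)) K where
  str := StrSx897.str_flow (Bg.dom T b X) P DD mk src hs.con (by omega)
    (fun U hU x hx => by
      rw [← coe_nbF]
      by_contra hcon
      exact hU (K00_near hq hq2 hsT _ U fun h => hcon (h hx)))
    (by rw [← ENNReal.ofReal_one]; exact ENNReal.ofReal_le_ofReal hΓ) K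
  step n hn := H.dom T ρ κ' hT hκ m X mk (isF b) _ (ok_flow h5 (Bg.dom T b X) P mk hs) n q (a n)
    (a (n + 1)) _ (hK n hn) (hS n hn) (hmk n hn)
    (hqr.trans (Nat.mul_le_mul_left _ (rr_mono _ _ (Nat.zero_le n)))) (fun U hU => hU.2.1)
    (fun U hU => by
      obtain ⟨u, hu⟩ := hU.1
      exact ⟨u, hu, hU.2.2 u hu⟩) (ha n) (ha (n + 1)) (ha2 n)

end gen

/-! ### the discs -/

/-- the geometry of the disc of radius `B` at mesh `1` -/
structure DGeo (T : Set (ℤ × ℤ)) (c0 B : ℝ) : Prop where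
  B0 : 0 < B
  reg : ∃ κ : ℝ, LatReg T (c0 * B) κ ∧ κ * (c0 * B) ≤ 1
  far : ∀ z ∈ bdS T, B ≤ 8 * fd (0, 0) z
  box : ∀ z : ℤ × ℤ, (4 * fd (0, 0) z : ℝ) < B → z ∈ T

/-- **the discs at mesh `1`** -/
theorem disc_geo : ∃ c0 : ℝ, 0 < c0 ∧ c0 ≤ 1 ∧ ∀ B : ℝ, 8 ≤ B →
    DGeo (domainSites (Metric.ball (0 : ℂ) B) 1) c0 B := by
  obtain ⟨c0, h0, h1, H⟩ := GeoDiscx65.disc_latReg
  refine ⟨c0, h0, h1, fun B hB => ⟨by linarith, ?_, fun z hz => ?_, fun z hz => ?_⟩⟩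
  · obtain ⟨κ, hκ, hκ'⟩ := H B 1 (by linarith) one_pos
    rw [div_one] at hκ hκ'
    exact ⟨κ, hκ, hκ'⟩
  · have h2 := GeoDiscx65.disc_far (L := B) (a := 1) one_pos (by linarith)
      (v := (0, 0)) (z := z) (by rw [GeoDiscx65.meshPoint_zero, norm_zero]; linarith) hz
    rwa [one_mul] at h2
  · show meshPoint 1 z ∈ Metric.ball 0 B
    rw [mem_ball_zero_iff]
    have h2 := GeoDiscx65.norm_mesh_le (a := 1) zero_le_one z (0, 0)
    rw [GeoDiscx65.meshPoint_zero, sub_zero, one_mul, fd_comm] at h2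
    have h3 : (0 : ℝ) ≤ fd ((0, 0) : ℤ × ℤ) z := Nat.cast_nonneg _
    linarith

/-- the mark `0` is far from the boundary -/
theorem DGeo.sep {T : Set (ℤ × ℤ)} {c0 B : ℝ} (h : DGeo T c0 B) {X : Fin 0 → ℤ × ℤ} {R0 : ℕ}
    (hR : 8 * ((R0 : ℝ) + 1) < B) : Sep T X {((0, 0) : ℤ × ℤ)} R0 where
  mem i := i.elim0
  bd i := i.elim0
  sep i := i.elim0
  mbd u hu z hz := by
    rw [Set.mem_singleton_iff.1 hu]
    have h1 := h.far z hz
    have h2 : ((R0 + 1 : ℕ) : ℝ) < (fd ((0, 0) : ℤ × ℤ) z : ℝ) := by push_cast; linarith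
    exact_mod_cast h2
  msep u hu i := i.elim0

section disc

variable {T : Finset (ℤ × ℤ)} {b : BoundaryCondition} {X : Fin 0 → ℤ × ℤ} {P : MPar}
variable {κ : Type} [DecidableEq κ] [Fintype κ]

/-- **the disc of radius `B` with the mark `0`** is controlled up to the step `K` -/
theorem ctl_disc {c : Cst} {CF : ℝ≥0∞} {C1 : ℕ} (H : Good c CF C1) (h5 : 5 ≤ c.p * (c.k0 + 1))
    (hΓ : 1 ≤ c.Γ) {q : ℕ} (hq : 2 * P.R + 1 ≤ q) (hq2 : 2 ≤ q) (hqr : q ≤ s2 * rr c.p c.k0 0)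
    {src : Srcs κ ℤ (Ge (Fld ℤ))} (hs : SrcOK src) (hsT : ∀ k, src.Ys k ⊆ nbF T q)
    {c0 B : ℝ} (hT : DGeo (T : Set (ℤ × ℤ)) c0 B) {K : ℕ}
    (hK : (C1 : ℝ) * rr c.p c.k0 K ≤ min c0 (1 / 9) * B)
    {a : ℕ → ℝ} (ha : ∀ n, c.A0 ≤ a n) (ha2 : ∀ n, a (n + 1) ≤ 2 * a n) :
    Ctl c CF a ((Bg.dom T b X).flow P DD {(0, 0)} src c.p c.k0) (Bg.dom T b X).w
      (fun n => acS c.p c.k0 n (nbT T q))
      (fun n => emM (Bg.dom T b X).w (({(0, 0)} : Finset (ℤ × ℤ)) : Set (ℤ × ℤ))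
        (rr c.p c.k0 n)) K := by
  obtain ⟨κ', h1, h2⟩ := hT.reg
  have hrr : ∀ n, n < K → (C1 : ℝ) * rr c.p c.k0 (n + 1) ≤ min c0 (1 / 9) * B := fun n hn => by
    refine le_trans (mul_le_mul_of_nonneg_left ?_ (Nat.cast_nonneg _)) hK
    exact_mod_cast rr_mono c.p c.k0 hn
  have hC1 : (32 : ℝ) ≤ C1 := by exact_mod_cast H.one_le
  refine ctl_dom H h5 hΓ hq hq2 hqr hs hsT h1 h2 (fun n hn => (hrr n hn).trans ?_)
    (fun n hn => ?_) (fun n hn => ?_) ha ha2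
  · exact mul_le_mul_of_nonneg_right (min_le_left _ _) hT.B0.le
  · rw [Finset.coe_singleton]
    refine hT.sep ?_
    have h3 := hrr n hn
    have h4 : (1 : ℝ) ≤ rr c.p c.k0 (n + 1) := by exact_mod_cast rr_pos c.p c.k0 (n + 1)
    have h5 : min c0 (1 / 9) * B ≤ 1 / 9 * B :=
      mul_le_mul_of_nonneg_right (min_le_right _ _) hT.B0.le
    have h6 : (32 : ℝ) * rr c.p c.k0 (n + 1) ≤ C1 * rr c.p c.k0 (n + 1) :=
      mul_le_mul_of_nonneg_right hC1 (by linarith)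
    push_cast
    linarith
  · rw [Finset.coe_singleton]
    exact MkOK.single _ _ _

/-- finite supports are inside the disc -/
theorem DGeo.sub {c0 B : ℝ} (hT : DGeo (T : Set (ℤ × ℤ)) c0 B) {Y : Finset (ℤ × ℤ)} {q : ℕ}
    (hY : ∀ y ∈ Y, (4 * fd (0, 0) y : ℝ) < B) : Y ⊆ nbF T q := fun y hy =>
  mem_nbF.2 ⟨y, by exact_mod_cast hT.box y (hY y hy), by rw [fd_self]; exact Nat.zero_le _⟩

end disc

/-! ### the number of steps -/

/-- number of steps in the disc of radius `B` at mesh `1`, last scale `≈ δ B` -/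
def KB (c : Cst) (δ B : ℝ) : ℕ := lastK c.p c.k0 (δ * B)

theorem KB_tendsto {c : Cst} (hp : 1 ≤ c.p) {δ : ℝ} (hδ : 0 < δ) :
    Tendsto (KB c δ) atTop atTop :=
  lastK_tendsto c.k0 hp (Tendsto.const_mul_atTop hδ tendsto_id)

theorem rr_KB_le {c : Cst} {δ B : ℝ} (h : (2 : ℝ) ^ (c.p * c.k0) ≤ δ * B) :
    (rr c.p c.k0 (KB c δ B) : ℝ) ≤ δ * B := by
  have h1 := lastK_le h
  unfold rr KB
  push_cast
  exact h1

theorem lt_rr_KB {c : Cst} (hp : 1 ≤ c.p) (δ B : ℝ) :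
    δ * B < 2 ^ c.p * (rr c.p c.k0 (KB c δ B) : ℝ) := by
  refine (lt_lastK (k0 := c.k0) hp (δ * B)).trans_le (le_of_eq ?_)
  unfold rr KB
  push_cast
  rw [← pow_add]
  congr 1
  ring

/-! ### almost all constants -/

/-- what the constants have to satisfy for the discs, with potentials of range at most `Rm` -/
structure DCst (Rm : ℕ) (c : Cst) : Prop where
  std : Std c
  five : 5 ≤ c.p * (c.k0 + 1)
  q_le : 2 * Rm + 2 ≤ s2 * rr c.p c.k0 0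

theorem ev_dcst (Rm : ℕ) : EvC (DCst Rm) := by
  refine ev_mono3 ev_std (ev_k0_ge fun _ _ => 4) (ev_k0_ge fun _ _ => 2 * Rm + 2) ?_
  intro c h1 h2 h3
  refine ⟨h1, ?_, ?_⟩
  · have h4 : 1 ≤ c.p := by have := h1.p_pos; omega
    calc 5 ≤ 1 * (c.k0 + 1) := by omega
      _ ≤ c.p * (c.k0 + 1) := Nat.mul_le_mul_right _ h4
  · have h4 : 1 ≤ c.p := by have := h1.p_pos; omega
    have h5 : c.k0 ≤ rr c.p c.k0 0 := by
      unfold rr
      refine Nat.lt_two_pow_self.le.trans (Nat.pow_le_pow_right (by norm_num) ?_)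
      calc c.k0 ≤ 1 * (c.k0 + 0) := by omega
        _ ≤ c.p * (c.k0 + 0) := Nat.mul_le_mul_right _ h4
    have h6 : rr c.p c.k0 0 ≤ s2 * rr c.p c.k0 0 := Nat.le_mul_of_pos_left _ (by decide)
    omega

/-- the active polymers of the disc flows -/
abbrev acD (c : Cst) (T : Finset (ℤ × ℤ)) (q : ℕ) (n : ℕ) : Finset (ℤ × ℤ) → Prop :=
  acS c.p c.k0 n (nbT T q)

/-- the deep polymers of the disc flows with the mark `0` -/
abbrev emD (c : Cst) (w : BW ℤ) (n : ℕ) : Finset (ℤ × ℤ) → Prop :=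
  emM w (({(0, 0)} : Finset (ℤ × ℤ)) : Set (ℤ × ℤ)) (rr c.p c.k0 n)

/-- **the discs at fixed mesh are controlled**: for almost all constants there are `CF`, `δ0`
such that for `δ ≤ δ0` and every finite set `Y`, for all large `B`, for every potential of range
at most `Rm` and every local source supported in `Y`, the flow with the mark `0` is controlled up
to the step `KB c δ B` -/
theorem ev_disc (Rm : ℕ) : EvC fun c => ∃ CF : ℝ≥0∞, CF ≠ ∞ ∧ ∃ δ0 : ℝ, 0 < δ0 ∧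
    ∀ δ : ℝ, 0 < δ → δ ≤ δ0 → ∀ Y : Finset (ℤ × ℤ), ∀ᶠ B : ℝ in atTop,
    ∀ (T : Finset (ℤ × ℤ)), (T : Set (ℤ × ℤ)) = domainSites (Metric.ball (0 : ℂ) B) 1 →
    ∀ (b : BoundaryCondition) (X : Fin 0 → ℤ × ℤ) (P : MPar), P.R ≤ Rm →
    ∀ (κ : Type) [DecidableEq κ] [Fintype κ] (src : Srcs κ ℤ (Ge (Fld ℤ))), SrcOK src →
      (∀ k, src.Ys k ⊆ Y) →
    ∀ (a : ℕ → ℝ), (∀ n, c.A0 ≤ a n) → (∀ n, a (n + 1) ≤ 2 * a n) →
    Ctl c CF a ((Bg.dom T b X).flow P DD {(0, 0)} src c.p c.k0) (Bg.dom T b X).w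
      (acD c T (2 * Rm + 2)) (emD c (Bg.dom T b X).w) (KB c δ B) := by
  obtain ⟨c0, h0, h01, hgeo⟩ := disc_geo
  refine ev_mono2 stepOK_ev (ev_dcst Rm) ?_
  rintro c ⟨CF, hCF, C1, H⟩ hc
  have hC1 : (0 : ℝ) < C1 := by
    have := H.one_le
    exact_mod_cast (by omega : 0 < C1)
  refine ⟨CF, hCF, min c0 (1 / 9) / C1, by positivity, fun δ hδ hδ0 Y => ?_⟩
  have hYb : ∃ N : ℝ, ∀ y ∈ Y, (4 * fd (0, 0) y : ℝ) < N := by
    refine ⟨∑ y ∈ Y, (4 * fd (0, 0) y : ℝ) + 1, fun y hy => ?_⟩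
    have := Finset.single_le_sum (f := fun y => (4 * fd ((0, 0) : ℤ × ℤ) y : ℝ))
      (fun _ _ => by positivity) hy
    linarith
  obtain ⟨N, hN⟩ := hYb
  filter_upwards [eventually_ge_atTop 8, eventually_ge_atTop N,
    eventually_ge_atTop ((2 : ℝ) ^ (c.p * c.k0) / δ)] with B hB hBN hB2
  intro T hT b X P hP κ _ _ src hs hsY a ha ha2
  have hG : DGeo (T : Set (ℤ × ℤ)) c0 B := by rw [hT]; exact hgeo B hB
  have hB3 : (2 : ℝ) ^ (c.p * c.k0) ≤ δ * B := by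
    rw [div_le_iff₀ hδ] at hB2
    linarith
  refine ctl_disc H hc.five (by linarith [hc.std.Γ_ge]) (by omega) (by omega) hc.q_le hs
    (fun k => (hsY k).trans (hG.sub fun y hy => (hN y hy).trans_le hBN)) hG ?_ ha ha2
  calc (C1 : ℝ) * rr c.p c.k0 (KB c δ B) ≤ C1 * (δ * B) :=
        mul_le_mul_of_nonneg_left (rr_KB_le hB3) hC1.le
    _ ≤ C1 * (min c0 (1 / 9) / C1 * B) := by
        refine mul_le_mul_of_nonneg_left ?_ hC1.le
        exact mul_le_mul_of_nonneg_right hδ0 hG.B0.le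
    _ = min c0 (1 / 9) * B := by field_simp

/-! ### the plane with the mark -/

/-- **the plane with the mark `f₀`** and any local source, all steps -/
theorem ctl_plane {c : Cst} {CF : ℝ≥0∞} {C1 : ℕ} (H : Good c CF C1) (h5 : 5 ≤ c.p * (c.k0 + 1))
    (hΓ : 1 ≤ c.Γ) {P : MPar} {κ : Type} [DecidableEq κ] [Fintype κ]
    {src : Srcs κ ℤ (Ge (Fld ℤ))} (hs : SrcOK src) (f₀ : ℤ × ℤ)
    {a : ℕ → ℝ} (ha : ∀ n, c.A0 ≤ a n) (ha2 : ∀ n, a (n + 1) ≤ 2 * a n) (K : ℕ) :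
    Ctl c CF a (Bg.pl.flow P DD {f₀} src c.p c.k0) (wPl ℤ) (fun n => acS c.p c.k0 n Set.univ)
      (fun n => emM (wPl ℤ) (({f₀} : Finset (ℤ × ℤ)) : Set (ℤ × ℤ)) (rr c.p c.k0 n)) K where
  str := StrSx897.str_flow Bg.pl P DD {f₀} src hs.con (by omega) (fun _ _ _ _ => Set.mem_univ _)
    (by rw [← ENNReal.ofReal_one]; exact ENNReal.ofReal_le_ofReal hΓ) K
  step n _ := H.plane {f₀} _ (ok_flow h5 Bg.pl P {f₀} hs) n (a n) (a (n + 1)) _
    (by rw [Finset.coe_singleton]; exact MkOK.single _ _ _) (fun U hU => hU.2.1)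
    (fun U hU => hU.1) (ha n) (ha (n + 1)) (ha2 n)

/-! ### the bounds -/

/-- the hypotheses and the conclusion of (P8) for one flow up to the step `K` -/
def P8 (c : Cst) (m M t : ℝ) (a : ℕ → ℝ) (D : Sys (ℤ × ℤ) (Fld ℤ)) (w : BW ℤ)
    (em : ℕ → Finset (ℤ × ℤ) → Prop) (K : ℕ) : Prop :=
  (∀ k, k ≤ K → NPc c D w a (em k) k ≤ ENNReal.ofReal (m * t * (1 / 2) ^ k)) →
  NPc c D w a (fun U => ¬ em 0 U) 0 ≤ ENNReal.ofReal (m * t) →
  (∀ k, k ≤ K → NPc c D w a allP k ≤ ENNReal.ofReal (M * t * (1 / 2) ^ k)) ∧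
  (∀ k, k < K → NCc c D k ≤ ENNReal.ofReal (M * t * (1 / 2) ^ k)) ∧
  SpinSysx892.Bd D fd (fun k => rr c.p c.k0 (k + 1)) (nearR c.p c.k0) (ENNReal.ofReal c.Γ)
    (fun k => M * t * (1 / 2) ^ k) K

theorem p8_of {c : Cst} {m M t : ℝ} {CF : ℝ≥0∞} {a : ℕ → ℝ} {D : Sys (ℤ × ℤ) (Fld ℤ)} {w : BW ℤ}
    {Ac : Set (ℤ × ℤ)} {em : ℕ → Finset (ℤ × ℤ) → Prop} {K : ℕ}
    (h : Ctl c CF a D w (fun n => acS c.p c.k0 n Ac) em K)
    (hb : (∀ k, k ≤ K → NPc c D w a (em k) k ≤ ENNReal.ofReal (m * t * (1 / 2) ^ k)) →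
      NPc c D w a (fun U => ¬ em 0 U) 0 ≤ ENNReal.ofReal (m * t) →
      (∀ k, k ≤ K → NPc c D w a allP k ≤ ENNReal.ofReal (M * t * (1 / 2) ^ k)) ∧
      (∀ k, k < K → NCc c D k ≤ ENNReal.ofReal (M * t * (1 / 2) ^ k))) :
    P8 c m M t a D w em K := fun h1 h2 => by
  obtain ⟨h3, h4⟩ := hb h1 h2
  exact ⟨h3, h4, bd_of_ac h4 fun k hk U hU => by
    have h5 := h.str.hac k hk U hU
    exact ⟨h5.1, h5.2.1⟩⟩

/-- **(P8) for the discs at fixed mesh with the mark `0`**, any local source, any admissible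
amplitudes: `M`, `ε` depend only on the constants and `m`; uniform in `B`, the source, the model -/
theorem ev_disc_P8 (Rm : ℕ) : EvC fun c => ∃ δ0 : ℝ, 0 < δ0 ∧ ∀ m : ℝ, ∃ M ε : ℝ, 0 < M ∧ 0 < ε ∧
    ∀ δ : ℝ, 0 < δ → δ ≤ δ0 → ∀ Y : Finset (ℤ × ℤ), ∀ᶠ B : ℝ in atTop,
    ∀ (T : Finset (ℤ × ℤ)), (T : Set (ℤ × ℤ)) = domainSites (Metric.ball (0 : ℂ) B) 1 →
    ∀ (b : BoundaryCondition) (X : Fin 0 → ℤ × ℤ) (P : MPar), P.R ≤ Rm →
    ∀ (κ : Type) [DecidableEq κ] [Fintype κ] (src : Srcs κ ℤ (Ge (Fld ℤ))), SrcOK src →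
      (∀ k, src.Ys k ⊆ Y) →
    ∀ (a : ℕ → ℝ), Amp c a → ∀ t : ℝ, 0 ≤ t → t ≤ ε →
    P8 c m M t a ((Bg.dom T b X).flow P DD {(0, 0)} src c.p c.k0) (Bg.dom T b X).w
      (emD c (Bg.dom T b X).w) (KB c δ B) := by
  refine ev_mono2 (ev_disc Rm) ev_std ?_
  rintro c ⟨CF, hCF, δ0, hδ0, H⟩ hc
  refine ⟨δ0, hδ0, fun m => ?_⟩
  obtain ⟨M, ε, hM, hε, hb⟩ := Ctl.bound c hCF m
  refine ⟨M, ε, hM, hε, fun δ hδ hδ1 Y => ?_⟩
  filter_upwards [H δ hδ hδ1 Y] with B hB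
  intro T hT b X P hP κ _ _ src hs hsY a ha t ht ht1
  have h1 := hB T hT b X P hP κ src hs hsY a ha.ge (fun n => ha.le_two hc n)
  exact p8_of h1 (hb ℤ _ _ a _ _ _ t h1 ht ht1)

/-- **(P8) for the plane with one mark**, any local source, all steps -/
theorem ev_plane_P8 : EvC fun c => ∀ m : ℝ, ∃ M ε : ℝ, 0 < M ∧ 0 < ε ∧
    ∀ (P : MPar) (κ : Type) [DecidableEq κ] [Fintype κ] (src : Srcs κ ℤ (Ge (Fld ℤ))),
      SrcOK src → ∀ (f₀ : ℤ × ℤ) (a : ℕ → ℝ), Amp c a → ∀ t : ℝ, 0 ≤ t → t ≤ ε → ∀ K : ℕ,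
    P8 c m M t a (Bg.pl.flow P DD {f₀} src c.p c.k0) (wPl ℤ)
      (fun n => emM (wPl ℤ) (({f₀} : Finset (ℤ × ℤ)) : Set (ℤ × ℤ)) (rr c.p c.k0 n)) K := by
  refine ev_mono2 stepOK_ev (ev_dcst 0) ?_
  rintro c ⟨CF, hCF, C1, H⟩ hc m
  obtain ⟨M, ε, hM, hε, hb⟩ := Ctl.bound c hCF m
  refine ⟨M, ε, hM, hε, ?_⟩
  intro P κ _ _ src hs f₀ a ha t ht ht1 K
  have h1 := ctl_plane H hc.five (by linarith [hc.std.Γ_ge]) (P := P) hs f₀ ha.ge
    (fun n => ha.le_two hc.std n) K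
  exact p8_of h1 (hb ℤ _ _ a _ _ _ t h1 ht ht1)

end Crest.Agent.R165.DiscMkx117
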