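import Crest.Agent.R165.GeoScA_485
import Crest.Agent.R165.StepOK_838
import Crest.Agent.R165.DomAc_117

/-!
# Row 165 (S0250): `StepOK` of all steps of a `C²` Jordan domain (helper485)

* `StepAt c CF q T X mk k` : `StepOK` of step `k` for the background `wX (wDom T b) X` with marks `mk`
* `stepAt_of_cfg` : from a configuration `Cfg` (GeoScA_485) and `Good` (StepOK_838)
* `DomOK c CF q K`, `dom_ev` : **all steps `k < KK c.p c.k0 δ a` of a `C²` Jordan domain**; the constant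
  `CF` depends on `c` only
* `StepAt.fl` : the flows of `Bkg_683`
-/

set_option autoImplicit false
set_option linter.unusedSectionVars false

noncomputable section

open scoped ENNReal
open Filter Topology
open Crest.ProbabilityR.IsingModel
open Crest.Agent.R165.Geo (LatReg bdS)
open Crest.Agent.R165.Gr0x606 Crest.Agent.R165.Gr1x606 Crest.Agent.R165.GeOpsx337
open Crest.Agent.R165.Latx683 (BW wDom wX wPl Fld)
open Crest.Agent.R165.GDefx387 Crest.Agent.R165.GSysx387 Crest.Agent.R165.FRDPolyx439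
open Crest.Agent.R165.Packx915 (Conn)
open Crest.Agent.R165.DefRecx915 Crest.Agent.R165.Compx889
open Crest.Agent.R165.KFlowx337
open Crest.Agent.R165.PEndx683 Crest.Agent.R165.Constx891 Crest.Agent.R165.Outx683
open Crest.Agent.R165.Bkgx683
open Crest.Agent.R165.GeoIx838 (Sep)
open Crest.Agent.R165.StepOKx838
open Crest.Agent.R165.GeoScAx485
open Crest.Agent.R165.GeoScx420 (KK)

namespace Crest.Agent.R165.DomStepx485

/-- **`StepOK` of step `k`** for the domain `T` (any boundary condition) with the insertions `X` and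
the marks `mk`; any initial activities, amplitudes and activity predicate -/
def StepAt (c : Cst) (CF : ℝ≥0∞) (q : ℕ) (T : Set (ℤ × ℤ)) {m : ℕ} (X : Fin m → ℤ × ℤ)
    (mk : Finset (ℤ × ℤ)) (k : ℕ) : Prop :=
  ∀ (b : Bool) (K0 : Finset (ℤ × ℤ) → Ge (Fld ℤ)),
    (sys DD (wX (wDom T b) X) mk c.p c.k0 K0).OK ⊥ →
    ∀ (a a' : ℝ) (ac : Finset (ℤ × ℤ) → Prop),
    (∀ U, ac U → Conn fd (nearR c.p c.k0 k) U) →
    (∀ U, ac U → ∃ u ∈ U, ∃ z ∈ T, fd u z ≤ q) →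
    c.A0 ≤ a → c.A0 ≤ a' → a' ≤ 2 * a →
    StepOK (sys DD (wX (wDom T b) X) mk c.p c.k0 K0) (wX (wDom T b) X) (ENNReal.ofReal c.Γ) k a a'
      (rr c.p c.k0 k) (rr c.p c.k0 (k + 1)) ac
      (emM (wX (wDom T b) X) (mk : Set (ℤ × ℤ)) (rr c.p c.k0 k)) (1 / 4) CF

/-- **from a configuration** -/
theorem stepAt_of_cfg {c : Cst} {CF : ℝ≥0∞} {C1 : ℕ} (H : Good c CF C1) {q K : ℕ}
    (hq : q ≤ s2 * rr c.p c.k0 0) (hK : K ≤ rr c.p c.k0 0) {T : Set (ℤ × ℤ)} {m : ℕ}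
    {X : Fin m → ℤ × ℤ} {mk : Finset (ℤ × ℤ)} {k : ℕ}
    (h : Cfg T X (mk : Set (ℤ × ℤ)) K (((C1 + 33 : ℕ) : ℝ) * rr c.p c.k0 (k + 1))) :
    StepAt c CF q T X mk k := by
  intro b K0 hOK a a' ac hcon hact ha ha' h2
  have hmono := rr_mono c.p c.k0 (Nat.zero_le k)
  have hr : (0 : ℝ) < rr c.p c.k0 (k + 1) := by exact_mod_cast rr_pos c.p c.k0 (k + 1)
  have hr1 : (1 : ℝ) ≤ rr c.p c.k0 (k + 1) := by exact_mod_cast rr_pos c.p c.k0 (k + 1)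
  have hC1 : (0 : ℝ) ≤ C1 := Nat.cast_nonneg _
  obtain ⟨ρ, κ, g1, g2, g3⟩ := h.reg
  have e1 : (C1 : ℝ) * rr c.p c.k0 (k + 1) ≤ ((C1 + 33 : ℕ) : ℝ) * rr c.p c.k0 (k + 1) := by
    push_cast; nlinarith
  have e2 : ((32 * rr c.p c.k0 (k + 1) : ℕ) : ℝ) + 1 ≤
      ((C1 + 33 : ℕ) : ℝ) * rr c.p c.k0 (k + 1) := by
    push_cast; nlinarith
  refine H.dom T ρ κ g1 g2 m X mk b K0 hOK k q a a' ac (e1.trans g3) (h.sepI e2) ?_
    (hq.trans (Nat.mul_le_mul_left _ hmono)) hcon hact ha ha' h2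
  intro u hu v hv
  refine (h.mcl u hu v hv).imp (fun h => (h.trans hK).trans hmono) fun h3 => ?_
  have h4 : ((10 * rr c.p c.k0 (k + 1) : ℕ) : ℝ) < (fd u v : ℝ) := by
    refine lt_of_le_of_lt ?_ h3
    push_cast; nlinarith
  exact_mod_cast h4

/-- **all steps of a `C²` Jordan domain**, constant `CF` -/
def DomOK (c : Cst) (CF : ℝ≥0∞) (q K : ℕ) : Prop :=
  ∀ (D : Set ℂ), IsC2JordanDomain D → ∀ (m p : ℕ) (x : Fin m → ℂ), (∀ i, x i ∈ D) →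
    Function.Injective x → ∀ y : Fin p → ℂ, (∀ j, y j ∈ D) → (∀ i j, x i ≠ y j) →
    ∀ K0 : ℝ, ⌈2 * K0⌉₊ ≤ K →
    ∃ δ0 > 0, ∃ δ1 > 0, ∀ δ, 0 < δ → δ ≤ δ1 → ∀ᶠ a : ℝ in 𝓝[>] 0,
      ∀ X : Fin m → ℤ × ℤ, (∀ i, ‖meshPoint a (X i) - x i‖ ≤ δ0) →
      ∀ mk : Finset (ℤ × ℤ), (∀ u ∈ mk, ∃ j, ‖meshPoint a u - y j‖ ≤ K0 * a) →
      ∀ k < KK c.p c.k0 δ a,
        StepAt c CF q (domainSites D a) X mk k ∧
        StepAt c CF q (domainSites D a) X ∅ k ∧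
        (∀ X' : Fin 0 → ℤ × ℤ, StepAt c CF q (domainSites D a) X' mk k) ∧
        (∀ X' : Fin 0 → ℤ × ℤ, StepAt c CF q (domainSites D a) X' ∅ k)

theorem domOK_of_good {c : Cst} {CF : ℝ≥0∞} {C1 : ℕ} (H : Good c CF C1) {q K : ℕ}
    (hq : q ≤ s2 * rr c.p c.k0 0) (hK : K ≤ rr c.p c.k0 0) : DomOK c CF q K := by
  intro D hD m p x hx hinj y hy hxy K0 hK0
  obtain ⟨δ0, hδ0, h⟩ := cfg_steps hD hx hinj hy hxy K0
  obtain ⟨δ1, hδ1, h⟩ := h (C1 + 33)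
  refine ⟨δ0, hδ0, δ1, hδ1, fun δ h1 h2 => ?_⟩
  filter_upwards [h δ h1 h2 c.p c.k0] with a ha X hX mk hmk k hk
  have key := ha X hX (mk : Set (ℤ × ℤ)) (fun u hu => hmk u hu) k hk
  have hE : ((∅ : Finset (ℤ × ℤ)) : Set (ℤ × ℤ)) = ∅ := Finset.coe_empty
  refine ⟨stepAt_of_cfg H hq (hK0.trans hK) key, stepAt_of_cfg H hq (Nat.zero_le _) ?_,
    fun X' => stepAt_of_cfg H hq (hK0.trans hK) (key.noIns X'),
    fun X' => stepAt_of_cfg H hq (Nat.zero_le _) ?_⟩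
  · rw [hE]; exact key.noMarks
  · rw [hE]; exact (key.noIns X').noMarks

/-- **THE THEOREM** for the `C²` domains: no hypotheses, `CF` depends on the constants `c` only -/
theorem dom_ev (q K : ℕ) : EvC fun c => ∃ CF : ℝ≥0∞, CF ≠ ∞ ∧ DomOK c CF q K := by
  refine ev_mono2 stepOK_ev (ev_rr_ge fun _ _ => max q K) fun c hc hr => ?_
  obtain ⟨CF, hCF, C1, H⟩ := hc
  have h0 := hr 0
  refine ⟨CF, hCF, domOK_of_good H ?_ ((le_max_right _ _).trans h0)⟩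
  refine ((le_max_left q K).trans h0).trans ?_
  have : 1 ≤ s2 := by unfold s2; norm_num
  exact Nat.le_mul_of_pos_left _ this

/-! ### the flows of `Bkg_683` -/

/-- the amplitudes `amp c n` -/
theorem amp_ge {c : Cst} (hc : Std c) (n : ℕ) : c.A0 ≤ amp c n := (Amp.lin hc).ge n

theorem amp_succ {c : Cst} (hc : Std c) (n : ℕ) : amp c (n + 1) ≤ 2 * amp c n :=
  (Amp.lin hc).le_two hc n

section fl

variable {c : Cst} {CF : ℝ≥0∞} {q k : ℕ} {T : Finset (ℤ × ℤ)} {m : ℕ} {X : Fin m → ℤ × ℤ}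
  {mk : Finset (ℤ × ℤ)}

/-- **the flow of the domain**, any source record: `ac = acS fd (nearR ..) (nbT T q)` of 117 -/
theorem StepAt.flow (h : StepAt c CF q (T : Set (ℤ × ℤ)) X mk k) (P : MPar)
    (b : BoundaryCondition) {κ : Type} [DecidableEq κ] [Fintype κ]
    (src : Srcs κ ℤ (Ge (Fld ℤ)))
    (hOK : ((Bg.dom T b X).flow P DD mk src c.p c.k0).OK ⊥) {a a' : ℝ}
    (ha : c.A0 ≤ a) (ha' : c.A0 ≤ a') (h2 : a' ≤ 2 * a) :
    StepOK ((Bg.dom T b X).flow P DD mk src c.p c.k0) (Bg.dom T b X).w (ENNReal.ofReal c.Γ) k a a'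
      (rr c.p c.k0 k) (rr c.p c.k0 (k + 1))
      (XBdx915.acS fd (nearR c.p c.k0 k) (DomAcx117.nbT (T : Set (ℤ × ℤ)) q))
      (emM (Bg.dom T b X).w (mk : Set (ℤ × ℤ)) (rr c.p c.k0 k)) (1 / 4) CF :=
  h (isF b) _ hOK a a' _ (fun _ hU => hU.2.1) (fun _ hU => DomAcx117.acS_hit hU) ha ha' h2

/-- the flow `domF`, amplitudes `amp` -/
theorem StepAt.domF (h : StepAt c CF q (T : Set (ℤ × ℤ)) X ∅ k) (hc : Std c)
    (P : MPar) (b : BoundaryCondition) (hOK : (domF c P T b X).OK ⊥) :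
    StepOK (domF c P T b X) (Bg.dom T b X).w (ENNReal.ofReal c.Γ) k (amp c k) (amp c (k + 1))
      (rr c.p c.k0 k) (rr c.p c.k0 (k + 1))
      (XBdx915.acS fd (nearR c.p c.k0 k) (DomAcx117.nbT (T : Set (ℤ × ℤ)) q))
      (emM (Bg.dom T b X).w ((∅ : Finset (ℤ × ℤ)) : Set (ℤ × ℤ)) (rr c.p c.k0 k)) (1 / 4) CF :=
  h.flow P b _ hOK (amp_ge hc k) (amp_ge hc (k + 1)) (amp_succ hc k)

end fl

end Crest.Agent.R165.DomStepx485
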