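import Crest.Agent.R165.UDomC_420
import Crest.Agent.R165.UFin_420

/-!
# Row 165 (S0250), U6-DOM part J2 (helper420): centred bonds from the finite-set identity

`J2Set T w S` : `Σ_N Π_{e∈A} ε_e Π_{walls N} w = (Σ_N Π_{walls N} w) · E_S[Π_{e∈A} (1 - 2 w_e b_e)]` for all
finite sets `A` of bonds (output of block J) gives `J2Leaf`.
-/

set_option autoImplicit false

noncomputable section

open Filter Topology Finset
open Crest.ProbabilityR.IsingModel

namespace Crest.Agent.R165.UJ2x420

open Crest.Agent.R165.Gr0x606 Crest.Agent.R165.Gr1x606 Crest.Agent.R165.Enx599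
open Crest.Agent.R165.J1ax606 Crest.Agent.R165.J1bx606
open Crest.Agent.R165.Topx683 Crest.Agent.R165.Redx541 Crest.Agent.R165.Red2x541
  Crest.Agent.R165.Centx541
open Crest.Agent.R165.Latx683 (BW hp hq wDom ray wX IsCov covS formS Fld)
open Crest.Agent.R165.UDomBx420 Crest.Agent.R165.UKerx420 Crest.Agent.R165.UFinx420
open Crest.Agent.R165.UDomAx420 (eps tip)
open Crest.Agent.R165.UDomCx420

/-- the exact bond identity on finite sets of bonds -/
def J2Set (T : Finset (ℤ × ℤ)) (w : BW ℤ) (S : Cov (Fld ℤ)) : Prop :=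
  ∀ A : Finset (EG ℤ), Nsum T w (fun s => ∏ e ∈ A, eps s e) =
    Nsum T w (fun _ => 1) *
      EE S ((∏ e ∈ A, (1 - (2 * w e.1 e.2) • bb e) : Ge (VI (HE ℤ))) : Gr (VI (HE ℤ)))

theorem pe_eq (e : EG ℤ) : pe e = hp e.1 e.2 := by
  obtain ⟨⟨z1, z2⟩, j⟩ := e
  fin_cases j
  · rfl
  · simp [pe, hp]

theorem qe_eq (e : EG ℤ) : qe e = hq e.1 e.2 := by
  obtain ⟨⟨z1, z2⟩, j⟩ := e
  fin_cases j
  · simp [qe, hq]
  · rfl

theorem Nsum_sub (T : Finset (ℤ × ℤ)) (w : BW ℤ) (f g : (ℤ × ℤ → Bool) → ℝ) (c : ℝ) :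
    Nsum T w (fun s => f s - c * g s) = Nsum T w f - c * Nsum T w g := by
  unfold Nsum
  rw [Finset.mul_sum, ← Finset.sum_sub_distrib]
  refine Finset.sum_congr rfl fun N _ => ?_
  ring

/-- **centred products of distinct bonds** -/
theorem centred {κ : Type*} {T : Finset (ℤ × ℤ)} {w : BW ℤ} {S : Cov (Fld ℤ)} (h : J2Set T w S)
    (e : κ → EG ℤ) (c : κ → ℝ) (K : List κ) (hK : (K.map e).Nodup) (B : Finset (EG ℤ))
    (hB : ∀ k ∈ K, e k ∉ B) :
    Nsum T w (fun s => (∏ e ∈ B, eps s e) * (K.map fun k => eps s (e k) - c k).prod) =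
      Nsum T w (fun _ => 1) *
        EE S (((∏ e ∈ B, (1 - (2 * w e.1 e.2) • bb e) : Ge (VI (HE ℤ))) : Gr (VI (HE ℤ))) *
          bpr (fun k i => (Finsupp.single (hb (e k).1 (e k).2 i) 1 : Fld ℤ))
            (fun k => w (e k).1 (e k).2) c K) := by
  induction K generalizing B with
  | nil => simpa [bpr] using h B
  | cons k K ih =>
    rw [List.map_cons, List.nodup_cons] at hK
    have hk : e k ∉ B := hB k (List.mem_cons_self ..)
    have hBK : ∀ k' ∈ K, e k' ∉ B := fun k' hk' => hB k' (List.mem_cons_of_mem _ hk')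
    have hBK' : ∀ k' ∈ K, e k' ∉ insert (e k) B := by
      intro k' hk' hh
      rcases Finset.mem_insert.1 hh with h1 | h1
      · exact hK.1 (List.mem_map.2 ⟨k', hk', h1⟩)
      · exact hBK k' hk' h1
    have e1 : ∀ s : ℤ × ℤ → Bool,
        (∏ e ∈ B, eps s e) * ((k :: K).map fun k => eps s (e k) - c k).prod =
        (∏ e ∈ insert (e k) B, eps s e) * (K.map fun k => eps s (e k) - c k).prod -
        c k * ((∏ e ∈ B, eps s e) * (K.map fun k => eps s (e k) - c k).prod) := by
      intro s
      rw [List.map_cons, List.prod_cons, Finset.prod_insert hk]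
      ring
    simp only [e1]
    rw [Nsum_sub, ih hK.2 B hBK, ih hK.2 (insert (e k) B) hBK']
    have e2 : bpr (fun k i => (Finsupp.single (hb (e k).1 (e k).2 i) 1 : Fld ℤ))
            (fun k => w (e k).1 (e k).2) c (k :: K) =
        (((1 - (2 * w (e k).1 (e k).2) • bb (e k) : Ge (VI (HE ℤ))) : Gr (VI (HE ℤ))) -
          algebraMap ℝ _ (c k)) *
        bpr (fun k i => (Finsupp.single (hb (e k).1 (e k).2 i) 1 : Fld ℤ))
            (fun k => w (e k).1 (e k).2) c K := by
      simp only [bpr, List.map_cons, List.prod_cons]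
      congr 2
      rw [Ge.coe_sub, Ge.coe_one, Ge.coe_smul, coe_bb, pe_eq, qe_eq]
      rfl
    rw [e2, Finset.prod_insert hk]
    set P : Ge (VI (HE ℤ)) := ∏ e ∈ B, (1 - (2 * w e.1 e.2) • bb e) with hP
    set A : Ge (VI (HE ℤ)) := 1 - (2 * w (e k).1 (e k).2) • bb (e k) with hA
    set Q : Gr (VI (HE ℤ)) := bpr (fun k i => (Finsupp.single (hb (e k).1 (e k).2 i) 1 : Fld ℤ))
            (fun k => w (e k).1 (e k).2) c K with hQ
    have e3 : (P : Gr (VI (HE ℤ))) * (((A : Gr (VI (HE ℤ))) - algebraMap ℝ _ (c k)) * Q) =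
        ((A * P : Ge (VI (HE ℤ))) : Gr (VI (HE ℤ))) * Q - c k • ((P : Gr (VI (HE ℤ))) * Q) := by
      rw [mul_comm A P, Ge.coe_mul, sub_mul, mul_sub, mul_assoc, ← Algebra.smul_def, mul_smul_comm]
    rw [e3, map_sub, map_smul, smul_eq_mul]
    ring

/-- distinct points give distinct bonds for small mesh -/
theorem eventually_distinct {m : ℕ} (y : Fin m → ℂ) (hy : Function.Injective y) :
    ∀ᶠ a in 𝓝[>] (0 : ℝ), Function.Injective (fun k => meshIndex a (y k)) := by
  have key : ∀ k l : Fin m, ∀ᶠ a in 𝓝[>] (0 : ℝ),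
      meshIndex a (y k) = meshIndex a (y l) → k = l := by
    intro k l
    by_cases h : k = l
    · exact Eventually.of_forall fun _ _ => h
    · have hne : y k ≠ y l := fun e => h (hy e)
      have h1 := tendsto_mesh (y k) 0
      have h2 := tendsto_mesh (y l) 0
      have h3 : ∀ᶠ a in 𝓝[>] (0 : ℝ), meshPoint a (meshIndex a (y k) + 0) ≠
          meshPoint a (meshIndex a (y l) + 0) := by
        have := (h1.prodMk_nhds h2).eventually
          ((isOpen_ne_fun continuous_fst continuous_snd).mem_nhds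
            (show (y k, y l) ∈ {p : ℂ × ℂ | p.1 ≠ p.2} from hne))
        exact this
      filter_upwards [h3] with a ha hh
      exact absurd (by rw [hh]) ha
  filter_upwards [eventually_all.2 fun k => eventually_all.2 fun l => key k l] with a ha k l h
  exact ha k l h

/-- the finite-set identities of block J for all relevant backgrounds -/
def J2SetLeaf : Prop :=
  ∀ (b : BoundaryCondition) (n : ℕ), Rel b n → ∀ D : Set ℂ, IsC2JordanDomain D →
    ∀ (x : Fin n → ℂ), (∀ i, x i ∈ D) → Function.Injective x →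
      ∀ᶠ a in 𝓝[>] (0 : ℝ), (∃ S, IsCov (wD (isF b) D a (fun i => meshIndex a (x i))) S) →
        ∀ h : (domainSites D a).Finite, J2Set h.toFinset
          (wD (isF b) D a (fun i => meshIndex a (x i)))
          (Cof (wD (isF b) D a (fun i => meshIndex a (x i))))

/-- **`J2Leaf` from the finite-set identities** -/
theorem J2Leaf_of (H : J2SetLeaf) : J2Leaf := by
  intro b n hR D hD m x y j hx hy hinj
  obtain ⟨hix, hiy, -⟩ := inj_split hinj
  filter_upwards [H b n hR D hD x hx hix, eventually_distinct y hiy, self_mem_nhdsWithin] with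
    a h1 h2 ha hS
  have hfin : (domainSites D a).Finite := domainSites_finite (bounded_of_C2 hD) ha
  have hJ := h1 hS hfin
  set X : Fin n → ℤ × ℤ := fun i => meshIndex a (x i) with hX
  set T := hfin.toFinset with hT
  set w := wD (isF b) D a X with hw
  have hmin := rel_ne_minus hR
  have hwX : ∀ f, Nsum T (wDom (domainSites D a) (isF b)) (fun s => (∏ i, spinSign (s (X i))) * f s) =
      Nsum T w f := fun f => Nsum_ray T _ X f
  have hF : decide (b = BoundaryCondition.free) = isF b := rfl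
  -- the general correlation
  have key : ∀ {m' : ℕ} (y' : Fin m' → ℂ) (j' : Fin m' → Fin 2),
      D0c D a b x y' j' = Nsum T w (fun s =>
        ∏ k, (spinSign (s (meshIndex a (y' k))) *
          spinSign (s (meshIndex a (y' k) + unitVec (j' k))) - e0)) /
        Nsum T (wDom (domainSites D a) (isF b)) (fun _ => 1) := by
    intro m' y' j'
    unfold D0c domMom
    rw [domainExpect_N D a hfin b hmin, hF, ← hT, ← hwX]
    rfl
  rw [key y j, key (![] : Fin 0 → ℂ) ![]]
  have e1 : ∀ s : ℤ × ℤ → Bool, (∏ k, (spinSign (s (meshIndex a (y k))) *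
          spinSign (s (meshIndex a (y k) + unitVec (j k))) - e0)) =
        (∏ e ∈ (∅ : Finset (EG ℤ)), eps s e) *
          ((List.finRange m).map fun k => eps s (meshIndex a (y k), j k) - e0).prod := by
    intro s
    rw [Finset.prod_empty, one_mul, ← List.ofFn_eq_map, List.prod_ofFn]
    rfl
  have hnd : ((List.finRange m).map fun k => ((meshIndex a (y k), j k) : EG ℤ)).Nodup := by
    refine (List.nodup_finRange m).map fun k l hkl => ?_
    exact h2 (Prod.mk.inj hkl).1
  have hc := centred hJ (fun k => ((meshIndex a (y k), j k) : EG ℤ)) (fun _ => e0)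
    (List.finRange m) hnd ∅ (fun _ _ => Finset.notMem_empty _)
  simp only [e1]
  rw [hc, Finset.prod_empty, Ge.coe_one, one_mul]
  simp only [Finset.univ_eq_empty, Finset.prod_empty]
  rw [mul_div_right_comm]

end Crest.Agent.R165.UJ2x420
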