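import Crest.Agent.R165.J4Can_653
import Crest.Agent.R165.J4PB_653
import Crest.Agent.R165.UJ2_420
import Crest.Agent.R165.J1c_606

/-!
# Row 165 (S0250), block J4: the spin side link, domains (helper653)

* `gw w e = 1 - 2 w_e bb_e`, `J2On T w C F` : (J2) for ONE element `F` of the eps-algebra
* `DepOn T F` : the evaluation of `F` depends only on the spins in `T`; `GT_dep`, `obR_dep`
* `GT T b R t = ∏_{B ∈ BB T b R} (1 + kB (t B) B)` : the perturbation as a polynomial in the bonds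
* `obR v c = ∏_k (eps_{v k} - c_k)`
* `sum_spins`    : spin sums with the Boltzmann factor of the PERTURBED model are `Nsum`s
* `domMom_link`  : `⟨σ_X ∏(eps - c)⟩_{lam} * EE_0(TH_0 G) = ⟨σ_X⟩_0 * EE_X(TH_X(∏(eps - c) * G))`
* `D0c_link`     : the same for `lam = 0` (`G = 1`)
-/

set_option autoImplicit false

noncomputable section

open Finset
open Crest.ProbabilityR.IsingModel

namespace Crest.Agent.R165.J4Lnkx653

open Crest.Agent.R165.J4Defx653 Crest.Agent.R165.J4RRx653 Crest.Agent.R165.J4Pathx653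
open Crest.Agent.R165.Gr0x606 Crest.Agent.R165.Gr1x606 Crest.Agent.R165.J1ax606
open Crest.Agent.R165.J1bx606 (walls mem_walls mem_touch)
open Crest.Agent.R165.J1cx606 (walls_subset_touch)
open Crest.Agent.R165.Latx683 (xc wDom wX ray BW Fld)
open Crest.Agent.R165.Centx541 (obs domMom)
open Crest.Agent.R165.Redx541 (D0c e0)
open Crest.Agent.R165.UDomCx420 (Nsum conf Nsum_ray mem_walls_conf uv_eq sum_conf)
open Crest.Agent.R165.UKerx420 (wD)
open Crest.Agent.R165.UFinx420 (isF)
open Crest.Agent.R165.UJ2x420 (J2Set)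

/-- the image of a bond variable -/
def gw {G : Type} [CommRing G] (w : BW G) (e : EG G) : Ge (VI (HE G)) := 1 - (2 * w e.1 e.2) • bb e

/-- the expectation of an even element -/
def EG' {G : Type} (C : Cov (VI (HE G))) (a : Ge (VI (HE G))) : ℝ := EE C (a : Gr (VI (HE G)))

section EG
variable {G : Type}

theorem EG'_add (C : Cov (VI (HE G))) (a b : Ge (VI (HE G))) : EG' C (a + b) = EG' C a + EG' C b := by
  rw [EG', Ge.coe_add, map_add]; rfl

theorem EG'_smul (C : Cov (VI (HE G))) (c : ℝ) (a : Ge (VI (HE G))) : EG' C (c • a) = c * EG' C a := by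
  rw [EG', Ge.coe_smul, map_smul, smul_eq_mul]; rfl

@[simp] theorem EG'_zero (C : Cov (VI (HE G))) : EG' C 0 = 0 := by
  rw [EG', Ge.coe_zero, map_zero]

@[simp] theorem EG'_one (C : Cov (VI (HE G))) : EG' C 1 = 1 := by
  rw [EG', Ge.coe_one, EE_one]

end EG

/-! ### (J2) for the eps-algebra -/

theorem eps_eq (s : ℤ × ℤ → Bool) : UDomAx420.eps s = epsE s := rfl

theorem Nsum_add (T : Finset (ℤ × ℤ)) (w : BW ℤ) (f g : (ℤ × ℤ → Bool) → ℝ) :
    Nsum T w (fun s => f s + g s) = Nsum T w f + Nsum T w g := by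
  unfold Nsum
  rw [← Finset.sum_add_distrib]
  exact Finset.sum_congr rfl fun N _ => by ring

theorem Nsum_smul (T : Finset (ℤ × ℤ)) (w : BW ℤ) (c : ℝ) (f : (ℤ × ℤ → Bool) → ℝ) :
    Nsum T w (fun s => c * f s) = c * Nsum T w f := by
  unfold Nsum
  rw [Finset.mul_sum]
  exact Finset.sum_congr rfl fun N _ => by ring

/-- **(J2)** for one element of the eps-algebra -/
def J2On (T : Finset (ℤ × ℤ)) (w : BW ℤ) (C : Cov (Fld ℤ)) (F : RR (EG ℤ)) : Prop :=
  Nsum T w (fun s => TH (epsE s) F) = Nsum T w (fun _ => 1) * EG' C (TH (gw w) F)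

/-- the evaluation of `F` depends only on the spins in `T` -/
def DepOn (T : Finset (ℤ × ℤ)) (F : RR (EG ℤ)) : Prop :=
  ∀ s s' : ℤ × ℤ → Bool, (∀ z ∈ T, s z = s' z) → TH (epsE s) F = TH (epsE s') F

/-- (J2) for all finite sets of bonds gives (J2) for every element of the eps-algebra (plus
boundary condition; for free b.c. `J2Set` is false when `T` is not everything) -/
theorem Nsum_RR {T : Finset (ℤ × ℤ)} {w : BW ℤ} {C : Cov (Fld ℤ)} (h : J2Set T w C)
    (F : RR (EG ℤ)) :
    Nsum T w (fun s => TH (epsE s) F) = Nsum T w (fun _ => 1) * EG' C (TH (gw w) F) := by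
  induction F using RR.ind with
  | h0 =>
    simp only [map_zero, EG'_zero, mul_zero]
    unfold Nsum; simp
  | hadd F G hF hG => simp only [map_add, mul_add, Nsum_add, EG'_add, hF, hG]
  | hs c S =>
    have h1 := h S.support
    have h2 : Nsum T w (fun s => ∏ e ∈ S.support, epsE s e) =
        Nsum T w (fun _ => 1) * EG' C (∏ e ∈ S.support, gw w e) := h1
    simp only [map_smul, smul_eq_mul, TH_ep, EG'_smul, Nsum_smul]
    rw [h2]; ring

theorem J2On.of_set {T : Finset (ℤ × ℤ)} {w : BW ℤ} {C : Cov (Fld ℤ)} (h : J2Set T w C)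
    (F : RR (EG ℤ)) : J2On T w C F := Nsum_RR h F

theorem Nsum_X {T : Finset (ℤ × ℤ)} {w : BW ℤ} {n : ℕ} (X : Fin n → ℤ × ℤ) {C : Cov (Fld ℤ)}
    (F : RR (EG ℤ)) (h : J2On T (wX w X) C F) :
    Nsum T w (fun s => (∏ i, spinSign (s (X i))) * TH (epsE s) F) =
      Nsum T w (fun s => ∏ i, spinSign (s (X i))) * EG' C (TH (gw (wX w X)) F) := by
  have h1 := Nsum_ray T w X (fun _ => 1)
  simp only [mul_one] at h1
  rw [Nsum_ray, h, h1]

/-! ### Boltzmann factors -/

theorem exp_crit {J : ℝ} (hJ : J ≠ 0) : Real.exp (-(2 * (criticalBeta J * J))) = xc := by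
  have h1 : 2 * (criticalBeta J * J) = Real.log (1 + Real.sqrt 2) := by
    unfold criticalBeta
    field_simp
  have hpos : (0 : ℝ) < 1 + Real.sqrt 2 := by positivity
  rw [h1, Real.exp_neg, Real.exp_log hpos, xc]
  have h2 : Real.sqrt 2 * Real.sqrt 2 = 2 := Real.mul_self_sqrt (by norm_num)
  field_simp
  nlinarith [h2]

theorem prod_wDom (T : Finset (ℤ × ℤ)) (b : BoundaryCondition) (N : Finset (ℤ × ℤ)) (hN : N ⊆ T) :
    ∏ e ∈ walls N, wDom (T : Set (ℤ × ℤ)) (isF b) e.1 e.2 =
      ∏ _e ∈ (walls N).filter (fun e => e ∈ J4Defx653.EE T b), xc := by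
  rw [Finset.prod_filter]
  refine Finset.prod_congr rfl fun e he => ?_
  have ht := mem_touch.1 (walls_subset_touch hN he)
  rw [uv_eq] at ht
  unfold wDom isF
  by_cases hb : b = BoundaryCondition.free
  · by_cases hin : e.1 ∈ T ∧ e.1 + unitVec e.2 ∈ T
    · rw [if_pos (mem_EE.2 ⟨fun _ => hin, ht⟩)]
      simp [hb, hin]
    · rw [if_neg (fun h => hin ((mem_EE.1 h).1 hb))]
      simp only [hb, decide_true, if_true, Finset.mem_coe]
      rw [if_neg hin]
  · rw [if_pos (mem_EE.2 ⟨fun h => absurd h hb, ht⟩)]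
    simp only [hb, decide_false, Finset.mem_coe]
    rw [if_neg (by simp), if_pos ht]

theorem epsE_conf (N : Finset (ℤ × ℤ)) (e : EG ℤ) :
    epsE (conf N) e = if e ∈ walls N then -1 else 1 := by
  rw [← eps_eq, UDomAx420.eps_eq]
  by_cases h : e ∈ walls N
  · rw [if_pos h, if_neg (mem_walls_conf.1 h)]
  · rw [if_neg h, if_pos]
    by_contra hc
    exact h (mem_walls_conf.2 hc)

/-- the Boltzmann factor of the nearest neighbour part -/
theorem exp_pair (T : Finset (ℤ × ℤ)) (b : BoundaryCondition) {J : ℝ} (hJ : J ≠ 0)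
    (N : Finset (ℤ × ℤ)) (hN : N ⊆ T) :
    Real.exp (criticalBeta J * J * ∑ e ∈ J4Defx653.EE T b, epsE (conf N) e) =
      Real.exp (criticalBeta J * J * (J4Defx653.EE T b).card) *
        ∏ e ∈ walls N, wDom (T : Set (ℤ × ℤ)) (isF b) e.1 e.2 := by
  rw [prod_wDom T b N hN, Finset.prod_const, ← exp_crit hJ, ← Real.exp_nat_mul, ← Real.exp_add]
  congr 1
  have h : ∑ e ∈ J4Defx653.EE T b, epsE (conf N) e =
      ((J4Defx653.EE T b).card : ℝ) -
        2 * (((walls N).filter (fun e => e ∈ J4Defx653.EE T b)).card : ℝ) := by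
    have : ∀ e ∈ J4Defx653.EE T b, epsE (conf N) e = 1 - 2 * (if e ∈ walls N then 1 else 0) := by
      intro e _
      rw [epsE_conf]
      split_ifs <;> norm_num
    rw [Finset.sum_congr rfl this, Finset.sum_sub_distrib, Finset.sum_const, nsmul_eq_mul,
      mul_one, ← Finset.mul_sum, Finset.sum_boole]
    congr 4
    ext e
    simp only [Finset.mem_filter]
    tauto
  rw [h]
  ring

/-- the polynomial in the bond variables of the perturbation -/
def GT (T : Finset (ℤ × ℤ)) (b : BoundaryCondition) (R : ℕ) (t : Finset (ℤ × ℤ) → ℝ) : RR (EG ℤ) :=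
  ∏ B ∈ BB T b R, (1 + kB (t B) B)

theorem GT_eval (T : Finset (ℤ × ℤ)) (b : BoundaryCondition) (R : ℕ) (t : Finset (ℤ × ℤ) → ℝ)
    (ht : ∀ B, t B ≠ 0 → Even B.card) (s : ℤ × ℤ → Bool) :
    TH (epsE s) (GT T b R t) = Real.exp (∑ B ∈ BB T b R, t B * sB s B) := by
  rw [GT, TH_prod_sq _ (epsE_sq s), Real.exp_sum]
  refine Finset.prod_congr rfl fun B _ => ?_
  by_cases h : t B = 0
  · simp [h]
  · exact kB_eval _ _ (ht B h) s

/-- the potential is even -/
theorem tpot_even {J lam β : ℝ} {V : Finset (ℤ × ℤ) → ℝ} (hV : ∀ A, V A ≠ 0 → Even A.card)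
    (B : Finset (ℤ × ℤ)) (h : tpot J lam β V B ≠ 0) : Even B.card := by
  classical
  by_cases h1 : V B = 0
  · by_cases h2 : IsNN B
    · obtain ⟨e, rfl⟩ := h2
      rw [pr, Finset.card_pair]
      · decide
      · intro h'
        exact unitVec_ne_zero e.2 (by simpa using h'.symm)
    · exact absurd (by unfold tpot; rw [if_neg h2, h1]; ring) h
  · exact hV B h1

/-- **spin sums of the perturbed model** (plus, free) -/
theorem sum_spins (T : Finset (ℤ × ℤ)) (b : BoundaryCondition) (hb : b ≠ BoundaryCondition.minus)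
    {J : ℝ} (hJ : J ≠ 0) (lam β : ℝ) (R : ℕ) (V : Finset (ℤ × ℤ) → ℝ)
    (hV : TrInv V) (hr : Rng R V) (hev : ∀ A, V A ≠ 0 → Even A.card)
    (f : (ℤ × ℤ → Bool) → ℝ) :
    ∑ σ : T → Bool, f (extendConfig T b σ) *
        Real.exp (-β * domainEnergy T b J lam R V (extendConfig T b σ)) =
      Real.exp (criticalBeta J * J * (J4Defx653.EE T b).card) *
        Nsum T (wDom (T : Set (ℤ × ℤ)) (isF b))
          (fun s => f s * TH (epsE s) (GT T b (max R 1) (tpot J lam β V))) := by
  rw [sum_conf T b hb (fun s => f s * Real.exp (-β * domainEnergy T b J lam R V s)), Nsum,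
    Finset.mul_sum]
  refine Finset.sum_congr rfl fun N hN => ?_
  rw [Finset.mem_powerset] at hN
  rw [neg_beta_energy T b J lam β R V hV hr, Real.exp_add, exp_pair T b hJ N hN,
    ← GT_eval T b (max R 1) (tpot J lam β V) (tpot_even hev) (conf N)]
  ring

/-- the observable of the bonds as a polynomial -/
def obR {E : Type*} {m : ℕ} (v : Fin m → E) (c : Fin m → ℝ) : RR E :=
  ∏ k, (ep (Finsupp.single (v k) 1) - algebraMap ℝ (RR E) (c k))

theorem obR_eval {m : ℕ} (v : Fin m → EG ℤ) (c : Fin m → ℝ) (s : ℤ × ℤ → Bool) :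
    TH (epsE s) (obR v c) = ∏ k, (epsE s (v k) - c k) := by
  rw [obR, TH_prod_sq _ (epsE_sq s)]
  refine Finset.prod_congr rfl fun k _ => ?_
  rw [map_sub, TH_single, Algebra.algebraMap_eq_smul_one, map_smul, TH_one, smul_eq_mul, mul_one]

theorem obs_eq {n m : ℕ} (us : Fin n → ℤ × ℤ) (vs : Fin m → ℤ × ℤ) (js : Fin m → Fin 2)
    (c : Fin m → ℝ) (s : ℤ × ℤ → Bool) :
    obs us vs js c s = (∏ i, spinSign (s (us i))) * TH (epsE s) (obR (fun k => (vs k, js k)) c) := by
  rw [obR_eval]; rfl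

/-! ### dependence on the spins of `T` only -/

theorem DepOn.mul {T : Finset (ℤ × ℤ)} {F F' : RR (EG ℤ)} (h : DepOn T F) (h' : DepOn T F') :
    DepOn T (F * F') := by
  intro s s' hs
  rw [TH_mul_sq _ (epsE_sq s), TH_mul_sq _ (epsE_sq s'), h s s' hs, h' s s' hs]

theorem DepOn.one (T : Finset (ℤ × ℤ)) : DepOn T 1 := by
  intro s s' _; rw [TH_one, TH_one]

theorem sB_congr {T B : Finset (ℤ × ℤ)} (hB : B ⊆ T) {s s' : ℤ × ℤ → Bool}
    (hs : ∀ z ∈ T, s z = s' z) : sB s B = sB s' B :=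
  Finset.prod_congr rfl fun x hx => by rw [hs x (hB hx)]

/-- free boundary condition: the perturbation only depends on the spins in `T` -/
theorem GT_dep (T : Finset (ℤ × ℤ)) (R : ℕ) (t : Finset (ℤ × ℤ) → ℝ)
    (ht : ∀ B, t B ≠ 0 → Even B.card) : DepOn T (GT T BoundaryCondition.free R t) := by
  intro s s' hs
  rw [GT_eval _ _ _ _ ht, GT_eval _ _ _ _ ht]
  congr 1
  refine Finset.sum_congr rfl fun B hB => ?_
  rw [sB_congr ((mem_BB.1 hB).2.1 rfl) hs]

theorem obR_dep {T : Finset (ℤ × ℤ)} {m : ℕ} (v : Fin m → EG ℤ) (c : Fin m → ℝ)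
    (hv : ∀ k, (v k).1 ∈ T ∧ (v k).1 + unitVec (v k).2 ∈ T) : DepOn T (obR v c) := by
  intro s s' hs
  rw [obR_eval, obR_eval]
  refine Finset.prod_congr rfl fun k _ => ?_
  rw [epsE, epsE, hs _ (hv k).1, hs _ (hv k).2]

/-! ### domains -/

theorem wD_nil (fr : Bool) (D : Set ℂ) (a : ℝ) (X : Fin 0 → ℤ × ℤ) :
    wD fr D a X = wDom (domainSites D a) fr := by
  funext z j
  simp [wD, wX, ray]

theorem domE_spins (D : Set ℂ) (a : ℝ) (b : BoundaryCondition) (hb : b ≠ BoundaryCondition.minus)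
    (hfin : (domainSites D a).Finite) {J : ℝ} (hJ : J ≠ 0) (lam β : ℝ) (R : ℕ)
    (V : Finset (ℤ × ℤ) → ℝ) (hV : TrInv V) (hr : Rng R V) (hev : ∀ A, V A ≠ 0 → Even A.card)
    (f : (ℤ × ℤ → Bool) → ℝ) :
    domainExpect D a b J lam R V β f =
      Nsum hfin.toFinset (wDom (domainSites D a) (isF b))
        (fun s => f s * TH (epsE s) (GT hfin.toFinset b (max R 1) (tpot J lam β V))) /
      Nsum hfin.toFinset (wDom (domainSites D a) (isF b))
        (fun s => TH (epsE s) (GT hfin.toFinset b (max R 1) (tpot J lam β V))) := by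
  classical
  have hc : ((hfin.toFinset : Finset (ℤ × ℤ)) : Set (ℤ × ℤ)) = domainSites D a := hfin.coe_toFinset
  unfold domainExpect
  rw [dif_pos hfin, sum_spins hfin.toFinset b hb hJ lam β R V hV hr hev f]
  have h := sum_spins hfin.toFinset b hb hJ lam β R V hV hr hev (fun _ => 1)
  simp only [one_mul] at h
  rw [h, mul_div_mul_left _ _ (Real.exp_pos _).ne', hc]

/-- the partition sum is positive -/
theorem Nsum_pos (D : Set ℂ) (a : ℝ) (b : BoundaryCondition)
    (hfin : (domainSites D a).Finite) (F : RR (EG ℤ))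
    (hF : ∀ s, 0 < TH (epsE s) F) :
    0 < Nsum hfin.toFinset (wDom (domainSites D a) (isF b)) (fun s => TH (epsE s) F) := by
  have hc : ((hfin.toFinset : Finset (ℤ × ℤ)) : Set (ℤ × ℤ)) = domainSites D a := hfin.coe_toFinset
  unfold Nsum
  refine Finset.sum_pos (fun N hN => mul_pos (hF _) ?_) ⟨∅, by simp⟩
  rw [← hc, prod_wDom _ b N (Finset.mem_powerset.1 hN)]
  refine Finset.prod_pos fun _ _ => ?_
  rw [← exp_crit (one_ne_zero)]
  exact Real.exp_pos _

/-- **the link, domains, perturbed model** (plus, free) -/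
theorem domMom_link (D : Set ℂ) (a : ℝ) (b : BoundaryCondition) (hb : b ≠ BoundaryCondition.minus)
    (hfin : (domainSites D a).Finite) {J : ℝ} (hJ : J ≠ 0) (lam β : ℝ) (R : ℕ)
    (V : Finset (ℤ × ℤ) → ℝ) (hV : TrInv V) (hr : Rng R V) (hev : ∀ A, V A ≠ 0 → Even A.card)
    {n m : ℕ} (xs : Fin n → ℂ) (ys : Fin m → ℂ) (js : Fin m → Fin 2) (c : Fin m → ℝ)
    (CX C0 : Cov (Fld ℤ))
    (hX : J2On hfin.toFinset (wD (isF b) D a (fun i => meshIndex a (xs i))) CX
      (obR (fun k => (meshIndex a (ys k), js k)) c *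
        GT hfin.toFinset b (max R 1) (tpot J lam β V)))
    (h0 : J2On hfin.toFinset (wDom (domainSites D a) (isF b)) C0
      (GT hfin.toFinset b (max R 1) (tpot J lam β V))) :
    domMom D a b J lam R V β xs ys js c *
        EG' C0 (TH (gw (wDom (domainSites D a) (isF b)))
          (GT hfin.toFinset b (max R 1) (tpot J lam β V))) =
      D0c D a b xs (![] : Fin 0 → ℂ) ![] *
        EG' CX (TH (gw (wD (isF b) D a (fun i => meshIndex a (xs i))))
          (obR (fun k => (meshIndex a (ys k), js k)) c *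
            GT hfin.toFinset b (max R 1) (tpot J lam β V))) := by
  set T := hfin.toFinset with hT
  set w := wDom (domainSites D a) (isF b) with hw
  set X : Fin n → ℤ × ℤ := fun i => meshIndex a (xs i) with hXdef
  set G := GT T b (max R 1) (tpot J lam β V) with hG
  have e1 : domMom D a b J lam R V β xs ys js c =
      Nsum T w (fun s => (∏ i, spinSign (s (X i))) *
        TH (epsE s) (obR (fun k => (meshIndex a (ys k), js k)) c * G)) /
      Nsum T w (fun s => TH (epsE s) G) := by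
    unfold domMom
    rw [domE_spins D a b hb hfin hJ lam β R V hV hr hev]
    congr 2
    funext s
    rw [obs_eq, TH_mul_sq _ (epsE_sq s), mul_assoc]
  have e2 : D0c D a b xs (![] : Fin 0 → ℂ) ![] =
      Nsum T w (fun s => ∏ i, spinSign (s (X i))) / Nsum T w (fun _ => 1) := by
    unfold D0c domMom
    rw [UDomCx420.domainExpect_N D a hfin b hb]
    congr 2
    funext s
    simp [obs, hXdef]
  have hp0 : 0 < Nsum T w (fun _ => 1) := by
    have := Nsum_pos D a b hfin (1 : RR (EG ℤ)) (fun s => by simp)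
    simpa using this
  have hpG : 0 < Nsum T w (fun s => TH (epsE s) G) := by
    refine Nsum_pos D a b hfin G fun s => ?_
    rw [hG, GT_eval T b (max R 1) _ (tpot_even hev)]
    exact Real.exp_pos _
  rw [e1, e2, Nsum_X X _ hX]
  rw [h0] at hpG ⊢
  have hE : EG' C0 (TH (gw w) G) ≠ 0 := by
    intro h; rw [h, mul_zero] at hpG; exact lt_irrefl _ hpG
  have hgw : gw (wD (isF b) D a X) = gw (wX w X) := rfl
  rw [hgw, div_mul_eq_mul_div, div_mul_eq_mul_div, div_eq_div_iff hpG.ne' hp0.ne']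
  ring

/-- **the link, domains, critical model** -/
theorem D0c_link (D : Set ℂ) (a : ℝ) (b : BoundaryCondition) (hb : b ≠ BoundaryCondition.minus)
    (hfin : (domainSites D a).Finite)
    {n m : ℕ} (xs : Fin n → ℂ) (ys : Fin m → ℂ) (js : Fin m → Fin 2)
    (CX : Cov (Fld ℤ))
    (hX : J2On hfin.toFinset (wD (isF b) D a (fun i => meshIndex a (xs i))) CX
      (obR (fun k => (meshIndex a (ys k), js k)) (fun _ => e0))) :
    D0c D a b xs ys js =
      D0c D a b xs (![] : Fin 0 → ℂ) ![] *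
        EG' CX (TH (gw (wD (isF b) D a (fun i => meshIndex a (xs i))))
          (obR (fun k => (meshIndex a (ys k), js k)) (fun _ => e0))) := by
  set T := hfin.toFinset with hT
  set w := wDom (domainSites D a) (isF b) with hw
  set X : Fin n → ℤ × ℤ := fun i => meshIndex a (xs i) with hXdef
  have e1 : D0c D a b xs ys js =
      Nsum T w (fun s => (∏ i, spinSign (s (X i))) *
        TH (epsE s) (obR (fun k => (meshIndex a (ys k), js k)) (fun _ => e0))) /
      Nsum T w (fun _ => 1) := by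
    unfold D0c domMom
    rw [UDomCx420.domainExpect_N D a hfin b hb]
    congr 2
    funext s
    rw [obs_eq]
  have e2 : D0c D a b xs (![] : Fin 0 → ℂ) ![] =
      Nsum T w (fun s => ∏ i, spinSign (s (X i))) / Nsum T w (fun _ => 1) := by
    unfold D0c domMom
    rw [UDomCx420.domainExpect_N D a hfin b hb]
    congr 2
    funext s
    simp [obs, hXdef]
  rw [e1, e2, Nsum_X X _ hX]
  have hgw : gw (wD (isF b) D a X) = gw (wX w X) := rfl
  rw [hgw, mul_div_right_comm]

end Crest.Agent.R165.J4Lnkx653
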