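import Crest.Agent.R165.J2f_606
import Crest.Agent.R165.J4Lnk1_653
import Crest.Agent.R165.UJ3_420

/-!
# Row 165 (S0250), block J, (J2) part g: the general evaluation theorem

For every element `F` of the eps-algebra `RR (EG ℤ)`:
* `link_plus` : plus boundary conditions
* `link_free` : free boundary conditions, if `TH (epsE s) F` only depends on `s` on `T`
  (bonds outside `T` are allowed in `F`: they are bonds of dummy spins)
* `j2on_plus`, `j2on_free`, `j2on_plus_D`, `j2on_free_D` : the same as `J4Lnkx653.J2On`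
* `exFree'`   : existence of the covariance, free boundary conditions (even number of spins)
* `J2In`, `j2in_free` : bond sets inside `T`
-/

set_option autoImplicit false

noncomputable section

open Finset
open Crest.ProbabilityR.IsingModel

namespace Crest.Agent.R165.J2gx606

open Crest.Agent.R165.Gr0x606 Crest.Agent.R165.Gr1x606 Crest.Agent.R165.J1ax606
  Crest.Agent.R165.J1bx606 Crest.Agent.R165.J1cx606 Crest.Agent.R165.J2ax606
  Crest.Agent.R165.J2bx606 Crest.Agent.R165.J2cx606 Crest.Agent.R165.J2dx606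
  Crest.Agent.R165.J2ex606 Crest.Agent.R165.J2fx606
open Crest.Agent.R165.Latx683 (xc wDom wX ray BW Fld IsCov covS formS)
open Crest.Agent.R165.UDomCx420 (Nsum conf Nsum_ray conf_true)
open Crest.Agent.R165.UJ2x420 (J2Set)
open Crest.Agent.R165.UJ3x420
open Crest.Agent.R165.J4Defx653 (epsE)
open Crest.Agent.R165.J4RRx653
open Crest.Agent.R165.J4Lnkx653

/-- the free background as `freew` -/
theorem wDom_freew (T : Finset (ℤ × ℤ)) (e : EG ℤ) :
    wDom (T : Set (ℤ × ℤ)) true e.1 e.2 = freew T (fun _ => xc) e := by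
  unfold wDom freew
  simp only [if_true, Finset.mem_coe]
  rfl

theorem conf_inter {N T : Finset (ℤ × ℤ)} {z : ℤ × ℤ} (hz : z ∈ T) :
    conf (N ∩ T) z = conf N z := by
  unfold conf
  simp [hz]

/-- dummy spins factor out -/
theorem Nsum_box {T L : Finset (ℤ × ℤ)} (hTL : T ⊆ L) (f : (ℤ × ℤ → Bool) → ℝ)
    (hf : ∀ s s' : ℤ × ℤ → Bool, (∀ z ∈ T, s z = s' z) → f s = f s') :
    Nsum L (wDom (T : Set (ℤ × ℤ)) true) f =
      2 ^ (L \ T).card * Nsum T (wDom (T : Set (ℤ × ℤ)) true) f := by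
  unfold Nsum
  rw [← sum_dummy hTL]
  refine Finset.sum_congr rfl fun N _ => ?_
  have h1 : ∏ e ∈ walls N, wDom (T : Set (ℤ × ℤ)) true e.1 e.2 =
      ∏ e ∈ walls (N ∩ T), wDom (T : Set (ℤ × ℤ)) true e.1 e.2 := by
    simp only [wDom_freew]
    exact prod_freew T _ N
  rw [h1, hf (conf N) (conf (N ∩ T)) fun z hz => (conf_inter hz).symm]

/-- existence of the finite inverse, free boundary conditions, on `Lat_683` names -/
theorem exists_finv_wfree (T : Finset (ℤ × ℤ)) {n : ℕ} (hn : Even n) (X : Fin n → ℤ × ℤ)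
    (hX : ∀ i, X i ∈ T)
    (hpos : Nsum T (wDom (T : Set (ℤ × ℤ)) true) (fun s => ∏ i, spinSign (s (X i))) ≠ 0) :
    ∃ S, FInv (fun e => wX (wDom (T : Set (ℤ × ℤ)) true) X e.1 e.2) S := by
  have h := exists_finv_free T (fun _ => xc) hn X hX (by
    have h1 := zs_empty' T (wDom (T : Set (ℤ × ℤ)) true) X
    simp only [wDom_freew] at h1
    rw [h1]; exact hpos)
  have e1 : (fun e : EG ℤ => freew T (fun _ => xc) e * cut X e) =
      fun e => wX (wDom (T : Set (ℤ × ℤ)) true) X e.1 e.2 := by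
    rw [← wX_eq]
    funext e
    rw [wDom_freew]
  rw [e1] at h
  exact h

theorem RR_mem {E : Type*} (F : RR E) (U : Set E)
    (h : ∀ S ∈ F.coeff.support, (S.support : Set E) ⊆ U) : F ∈ RIn U := by
  have e : F = ∑ S ∈ F.coeff.support, F.coeff S • ep S := by
    conv_lhs => rw [← AddMonoidAlgebra.ofCoeff_coeff F, ← Finsupp.sum_single F.coeff]
    rw [Finsupp.sum, AddMonoidAlgebra.ofCoeff_sum]
    exact Finset.sum_congr rfl fun S _ => single_eq S _
  rw [e]
  exact Subalgebra.sum_mem _ fun S hS => Subalgebra.smul_mem _ (ep_mem_RIn (h S hS)) _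

/-- (J2) in a large box for an element of the eps-algebra, any background with finite inverse -/
theorem box_RR {w : BW ℤ} {n : ℕ} (X : Fin n → ℤ × ℤ) {S : HE ℤ → HE ℤ → ℝ}
    (hS : FInv (fun e => wX w X e.1 e.2) S) (F : RR (EG ℤ)) :
    ∃ R0 : ℤ, ∀ R, R0 ≤ R → Nsum (bx R) (wX w X) (fun s => TH (epsE s) F) =
      Nsum (bx R) (wX w X) (fun _ => 1) * EG' (covOf S hS.anti) (TH (gw (wX w X)) F) := by
  set A : Finset (EG ℤ) := F.coeff.support.biUnion fun S => S.support with hA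
  have hF : F ∈ RIn (A : Set (EG ℤ)) := by
    refine RR_mem F (A : Set (EG ℤ)) fun S' hS' e he => ?_
    rw [Finset.mem_coe, hA, Finset.mem_biUnion]
    exact ⟨S', hS', he⟩
  obtain ⟨R1, _, hR1⟩ := exists_good hS (hes A)
  obtain ⟨R2, _, hR2⟩ := exists_box A
  refine ⟨max R1 R2, fun R hR => ?_⟩
  refine RIn_ind (P := fun F => Nsum (bx R) (wX w X) (fun s => TH (epsE s) F) =
      Nsum (bx R) (wX w X) (fun _ => 1) * EG' (covOf S hS.anti) (TH (gw (wX w X)) F))
    ?_ ?_ ?_ hF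
  · simp only [map_zero, EG'_zero, mul_zero]
    unfold Nsum; simp
  · intro F G hF hG
    simp only [map_add, mul_add, Nsum_add, EG'_add, hF, hG]
  · intro c S' hS'
    have hS'' : S'.support ⊆ A := fun e he => by simpa using hS' (Finset.mem_coe.2 he)
    have h1 := J2_gen hS (bx R) (noHole_box R) (fun e => w e.1 e.2) X
      (fun e _ => by rw [cut_eq]; unfold wX; ring) S'.support
      (hS''.trans (hR2 R ((le_max_right _ _).trans hR)))
      (fun k hk => by
        refine hR1 R ((le_max_left _ _).trans hR) k ?_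
        unfold hes at hk ⊢
        rcases Finset.mem_union.1 hk with h | h
        · exact Finset.mem_union_left _ (Finset.image_subset_image hS'' h)
        · exact Finset.mem_union_right _ (Finset.image_subset_image hS'' h))
    rw [zs_eq_nsum, zs_empty] at h1
    have h2 : Nsum (bx R) (wX w X) (fun s => ∏ e ∈ S'.support, epsE s e) =
        Nsum (bx R) (wX w X) (fun _ => 1) *
          EG' (covOf S hS.anti) (∏ e ∈ S'.support, gw (wX w X) e) := h1
    simp only [map_smul, smul_eq_mul, TH_ep, EG'_smul, Nsum_smul]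
    rw [h2]; ring

/-- **general evaluation, free boundary conditions** -/
theorem link_free {T : Finset (ℤ × ℤ)} {n : ℕ} {X : Fin n → ℤ × ℤ} (hX : ∀ i, X i ∈ T)
    {S : HE ℤ → HE ℤ → ℝ} (hS : FInv (fun e => wX (wDom (T : Set (ℤ × ℤ)) true) X e.1 e.2) S)
    (F : RR (EG ℤ)) (hF : ∀ s s' : ℤ × ℤ → Bool, (∀ z ∈ T, s z = s' z) →
      TH (epsE s) F = TH (epsE s') F) :
    Nsum T (wX (wDom (T : Set (ℤ × ℤ)) true) X) (fun s => TH (epsE s) F) =
      Nsum T (wX (wDom (T : Set (ℤ × ℤ)) true) X) (fun _ => 1) *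
        EG' (covOf S hS.anti) (TH (gw (wX (wDom (T : Set (ℤ × ℤ)) true) X)) F) := by
  obtain ⟨R0, hR0⟩ := box_RR X hS F
  obtain ⟨R3, _, hR3⟩ := exists_box_sites T
  set R := max R0 R3 with hR
  have hTL : T ⊆ bx R := by
    intro z hz
    have := hR3 z hz
    rw [mem_bx]
    have h3 : R3 ≤ R := le_max_right _ _
    omega
  have h := hR0 R (le_max_left _ _)
  have hx : ∀ s s' : ℤ × ℤ → Bool, (∀ z ∈ T, s z = s' z) →
      (∏ i, spinSign (s (X i))) = ∏ i, spinSign (s' (X i)) :=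
    fun s s' hs => Finset.prod_congr rfl fun i _ => by rw [hs _ (hX i)]
  have h1 := Nsum_box hTL (fun s => (∏ i, spinSign (s (X i))) * TH (epsE s) F)
    fun s s' hs => by rw [hx s s' hs, hF s s' hs]
  have h2 := Nsum_box hTL (fun s => (∏ i, spinSign (s (X i))) * 1)
    fun s s' hs => by rw [hx s s' hs]
  rw [Nsum_ray, Nsum_ray] at h1 h2
  rw [h1, h2, mul_assoc] at h
  exact mul_left_cancel₀ (pow_ne_zero _ two_ne_zero) h

/-- the same for any `IsCov` -/
theorem link_free_cov {T : Finset (ℤ × ℤ)} {n : ℕ} (hn : Even n) {X : Fin n → ℤ × ℤ}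
    (hX : ∀ i, X i ∈ T)
    (hpos : Nsum T (wDom (T : Set (ℤ × ℤ)) true) (fun s => ∏ i, spinSign (s (X i))) ≠ 0)
    {S : HE ℤ → HE ℤ → ℝ} (hS : IsCov (wX (wDom (T : Set (ℤ × ℤ)) true) X) S)
    (F : RR (EG ℤ)) (hF : ∀ s s' : ℤ × ℤ → Bool, (∀ z ∈ T, s z = s' z) →
      TH (epsE s) F = TH (epsE s') F) :
    Nsum T (wX (wDom (T : Set (ℤ × ℤ)) true) X) (fun s => TH (epsE s) F) =
      Nsum T (wX (wDom (T : Set (ℤ × ℤ)) true) X) (fun _ => 1) *
        EG' (covS S hS.skew) (TH (gw (wX (wDom (T : Set (ℤ × ℤ)) true) X)) F) := by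
  obtain ⟨S', hS'⟩ := exists_finv_wfree T hn X hX hpos
  have e : S = S' := hS'.unique_inv (isInv_of_isCov hS)
  subst e
  rw [covS_eq S hS.skew hS'.anti]
  exact link_free hX hS' F hF

/-- **general evaluation, plus boundary conditions** -/
theorem link_plus {T : Finset (ℤ × ℤ)} (hT : NoHole T) {n : ℕ} {X : Fin n → ℤ × ℤ}
    {S : HE ℤ → HE ℤ → ℝ} (hS : IsCov (wX (wDom (T : Set (ℤ × ℤ)) false) X) S)
    (F : RR (EG ℤ)) :
    Nsum T (wX (wDom (T : Set (ℤ × ℤ)) false) X) (fun s => TH (epsE s) F) =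
      Nsum T (wX (wDom (T : Set (ℤ × ℤ)) false) X) (fun _ => 1) *
        EG' (covS S hS.skew) (TH (gw (wX (wDom (T : Set (ℤ × ℤ)) false) X)) F) := by
  have h0 := isInv_of_isCov hS
  rw [← wX_eq] at h0
  have h : J2Set T (wX (wDom (T : Set (ℤ × ℤ)) false) X) (covS S hS.skew) := by
    intro A
    have h2 := J2_plus T hT (fun e => wDom (T : Set (ℤ × ℤ)) false e.1 e.2) (wDom_off T) X h0 A
    rw [zs_eq_nsum, zs_empty] at h2
    rw [h2, covS_eq _ _ h0.anti]
    congr 2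
    unfold BB
    rw [wX_eq]
  exact Nsum_RR h F

/-- (J2) for one element of the eps-algebra, plus -/
theorem j2on_plus {T : Finset (ℤ × ℤ)} (hT : NoHole T) {n : ℕ} {X : Fin n → ℤ × ℤ}
    {S : HE ℤ → HE ℤ → ℝ} (hS : IsCov (wX (wDom (T : Set (ℤ × ℤ)) false) X) S)
    (F : RR (EG ℤ)) :
    J2On T (wX (wDom (T : Set (ℤ × ℤ)) false) X) (covS S hS.skew) F :=
  link_plus hT hS F

/-- (J2) for one element of the eps-algebra, free -/
theorem j2on_free {T : Finset (ℤ × ℤ)} {n : ℕ} (hn : Even n) {X : Fin n → ℤ × ℤ}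
    (hX : ∀ i, X i ∈ T)
    (hpos : Nsum T (wDom (T : Set (ℤ × ℤ)) true) (fun s => ∏ i, spinSign (s (X i))) ≠ 0)
    {S : HE ℤ → HE ℤ → ℝ} (hS : IsCov (wX (wDom (T : Set (ℤ × ℤ)) true) X) S)
    (F : RR (EG ℤ)) (hF : DepOn T F) :
    J2On T (wX (wDom (T : Set (ℤ × ℤ)) true) X) (covS S hS.skew) F :=
  link_free_cov hn hX hpos hS F hF

theorem j2on_plus_K {T : Finset (ℤ × ℤ)} {K : Set (ℤ × ℤ)} (hK : (T : Set (ℤ × ℤ)) = K)
    (hT : NoHole T) {n : ℕ} {X : Fin n → ℤ × ℤ}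
    {S : HE ℤ → HE ℤ → ℝ} (hS : IsCov (wX (wDom K false) X) S) (F : RR (EG ℤ)) :
    J2On T (wX (wDom K false) X) (covS S hS.skew) F := by
  subst hK
  exact j2on_plus hT hS F

theorem j2on_free_K {T : Finset (ℤ × ℤ)} {K : Set (ℤ × ℤ)} (hK : (T : Set (ℤ × ℤ)) = K)
    {n : ℕ} (hn : Even n) {X : Fin n → ℤ × ℤ} (hX : ∀ i, X i ∈ K)
    (hpos : Nsum T (wDom K true) (fun s => ∏ i, spinSign (s (X i))) ≠ 0)
    {S : HE ℤ → HE ℤ → ℝ} (hS : IsCov (wX (wDom K true) X) S)
    (F : RR (EG ℤ)) (hF : DepOn T F) :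
    J2On T (wX (wDom K true) X) (covS S hS.skew) F := by
  subst hK
  exact j2on_free hn (fun i => Finset.mem_coe.1 (hX i)) hpos hS F hF

/-- domains, plus (`wD` of `UKer_420`) -/
theorem j2on_plus_D (D : Set ℂ) (a : ℝ) (hfin : (domainSites D a).Finite)
    (hT : NoHole hfin.toFinset) {n : ℕ} {X : Fin n → ℤ × ℤ}
    {S : HE ℤ → HE ℤ → ℝ} (hS : IsCov (UKerx420.wD false D a X) S) (F : RR (EG ℤ)) :
    J2On hfin.toFinset (UKerx420.wD false D a X) (covS S hS.skew) F :=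
  j2on_plus_K hfin.coe_toFinset hT hS F

/-- domains, free (`wD` of `UKer_420`) -/
theorem j2on_free_D (D : Set ℂ) (a : ℝ) (hfin : (domainSites D a).Finite)
    {n : ℕ} (hn : Even n) {X : Fin n → ℤ × ℤ} (hX : ∀ i, X i ∈ domainSites D a)
    (hpos : Nsum hfin.toFinset (wDom (domainSites D a) true) (fun s => ∏ i, spinSign (s (X i))) ≠ 0)
    {S : HE ℤ → HE ℤ → ℝ} (hS : IsCov (UKerx420.wD true D a X) S) (F : RR (EG ℤ))
    (hF : DepOn hfin.toFinset F) :
    J2On hfin.toFinset (UKerx420.wD true D a X) (covS S hS.skew) F :=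
  j2on_free_K hfin.coe_toFinset hn hX hpos hS F hF

/-- existence of the covariance, free boundary conditions -/
theorem exFree' (T : Finset (ℤ × ℤ)) {n : ℕ} (hn : Even n) (X : Fin n → ℤ × ℤ)
    (hX : ∀ i, X i ∈ T)
    (hpos : 0 < Nsum T (wDom (T : Set (ℤ × ℤ)) true) (fun s => ∏ i, spinSign (s (X i)))) :
    ∃ S, IsCov (wX (wDom (T : Set (ℤ × ℤ)) true) X) S := by
  obtain ⟨S, hS⟩ := exists_finv_wfree T hn X hX hpos.ne'
  exact ⟨S, isCov_of_fInv hS⟩

/-- the bond identity for the bond sets inside `P` -/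
def J2In (T : Finset (ℤ × ℤ)) (P : Set (EG ℤ)) (w : BW ℤ) (S : Cov (Fld ℤ)) : Prop :=
  ∀ A : Finset (EG ℤ), (A : Set (EG ℤ)) ⊆ P →
    Nsum T w (fun s => ∏ e ∈ A, UDomAx420.eps s e) = Nsum T w (fun _ => 1) *
      EE S ((∏ e ∈ A, (1 - (2 * w e.1 e.2) • bb e) : Ge (VI (HE ℤ))) : Gr (VI (HE ℤ)))

/-- bonds inside `T` -/
def insB (T : Finset (ℤ × ℤ)) : Set (EG ℤ) := {e | e.1 ∈ T ∧ e.1 + unitVec e.2 ∈ T}

theorem j2in_free {T : Finset (ℤ × ℤ)} {n : ℕ} (hn : Even n) {X : Fin n → ℤ × ℤ}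
    (hX : ∀ i, X i ∈ T)
    (hpos : Nsum T (wDom (T : Set (ℤ × ℤ)) true) (fun s => ∏ i, spinSign (s (X i))) ≠ 0)
    {S : HE ℤ → HE ℤ → ℝ} (hS : IsCov (wX (wDom (T : Set (ℤ × ℤ)) true) X) S) :
    J2In T (insB T) (wX (wDom (T : Set (ℤ × ℤ)) true) X) (covS S hS.skew) := by
  intro A hA
  have hsupp : (Finsupp.indicator A (fun _ _ => (1 : ZMod 2))).support = A := by
    ext e
    rw [Finsupp.mem_support_iff, Finsupp.indicator_apply]
    split_ifs with h <;> simp [h]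
  have h := link_free_cov hn hX hpos hS (ep (Finsupp.indicator A (fun _ _ => (1 : ZMod 2))))
    (by
      intro s s' hs
      rw [TH_ep, TH_ep, hsupp]
      refine Finset.prod_congr rfl fun e he => ?_
      have h1 := hA (Finset.mem_coe.2 he)
      unfold epsE
      rw [hs _ h1.1, hs _ h1.2])
  simp only [TH_ep, hsupp] at h
  exact h

end Crest.Agent.R165.J2gx606
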