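import Crest.Agent.R165.Fin2_315
import Crest.Agent.R165.FrFin_887
import Crest.Agent.R165.J2g_606
import Crest.Agent.R165.GapFin_40

/-!
# Row 165 (S0250), P9: the final step in the lattice domains (helper315)

* `abs_wX_le` : the weights of the domain backgrounds are at most one
* `inv_plus`, `inv_free`, `inv_of_isCov_plus`, `inv_of_isCov_free` : inverse kernels
* `gap_plus` : the gap of a plus background in a box of radius `R ≥ 1`, absolute constant `CPl`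
* `vol_near` : radius of the set of faces close to the sites
* `fin_plus_tendsto` : **plus backgrounds**, any insertions, any filter: the final factor tends to one
* `fin_dom_tendsto` : meshes `a → 0`, gap `C / a` as hypothesis (free boundary conditions)
-/

set_option autoImplicit false
set_option linter.unusedSectionVars false

noncomputable section

namespace Crest.Agent.R165.Fin3x315

open scoped ENNReal
open Filter Topology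
open Crest.ProbabilityR.IsingModel
open Crest.Agent.R165.Gr0x606 Crest.Agent.R165.Gr1x606 Crest.Agent.R165.Latx683
  Crest.Agent.R165.PNormx417 Crest.Agent.R165.GDefx387 Crest.Agent.R165.FRDPolyx439
  Crest.Agent.R165.FRDLatx439 Crest.Agent.R165.FRDRestx439 Crest.Agent.R165.GeOpsx337
  Crest.Agent.R165.KFlowx337
  Crest.Agent.R165.NSumx915 Crest.Agent.R165.Bridgex915 Crest.Agent.R165.KStepx892
  Crest.Agent.R165.Fin0x315 Crest.Agent.R165.Fin1x315 Crest.Agent.R165.Fin2x315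
  Crest.Agent.R165.Scalex900 Crest.Agent.R165.GSysx387

/-! ### weights -/

theorem xc_pos : 0 < xc := Covx359.xc_pos
theorem xc_lt_one : xc < 1 := Covx359.xc_lt_one

theorem abs_wDom_le (T : Set (ℤ × ℤ)) (b : Bool) (z : ℤ × ℤ) (j : Fin 2) :
    |wDom T b z j| ≤ 1 := by
  have h1 : |xc| ≤ 1 := by rw [abs_of_pos xc_pos]; exact xc_lt_one.le
  unfold wDom
  cases b
  · simp only [Bool.false_eq_true, if_false]
    split_ifs
    · exact h1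
    · simp
  · simp only [if_true]
    split_ifs
    · exact h1
    · simp

theorem abs_ray {n : ℕ} (X : Fin n → ℤ × ℤ) (z : ℤ × ℤ) (j : Fin 2) : |ray X z j| = 1 := by
  unfold ray
  rw [Finset.abs_prod]
  refine Finset.prod_eq_one fun i _ => ?_
  split_ifs <;> simp

theorem abs_wX_le (T : Set (ℤ × ℤ)) (b : Bool) {n : ℕ} (X : Fin n → ℤ × ℤ) (z : ℤ × ℤ)
    (j : Fin 2) : |wX (wDom T b) X z j| ≤ 1 := by
  unfold wX
  rw [abs_mul, abs_ray, one_mul]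
  exact abs_wDom_le T b z j

/-! ### inverse kernels -/

theorem inv_of_finv {w : BW ℤ} {S : HE ℤ → HE ℤ → ℝ} (h : J2bx606.FInv (fun e => w e.1 e.2) S) :
    Inv w S :=
  Inv.of_isCov (UJ3x420.isCov_of_fInv h) h.fin

theorem inv_plus {n : ℕ} (T : Finset (ℤ × ℤ)) (X : Fin n → ℤ × ℤ) :
    ∃ S, Inv (wX (wDom (T : Set (ℤ × ℤ)) false) X) S ∧
      IsCov (wX (wDom (T : Set (ℤ × ℤ)) false) X) S ∧
      ∀ S', IsCov (wX (wDom (T : Set (ℤ × ℤ)) false) X) S' → S' = S := by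
  obtain ⟨S, h1, h2, h3⟩ := Covx359.exists_isCov_plus T X
  exact ⟨S, Inv.of_isCov h1 h2.fin, h1, h3⟩

theorem inv_of_isCov_plus {n : ℕ} {T : Finset (ℤ × ℤ)} {X : Fin n → ℤ × ℤ}
    {S : HE ℤ → HE ℤ → ℝ} (hS : IsCov (wX (wDom (T : Set (ℤ × ℤ)) false) X) S) :
    Inv (wX (wDom (T : Set (ℤ × ℤ)) false) X) S := by
  obtain ⟨S', h1, _, h3⟩ := inv_plus T X
  rw [h3 S hS]
  exact h1

theorem inv_of_isCov_free {T : Finset (ℤ × ℤ)} {n : ℕ} (hn : Even n) {X : Fin n → ℤ × ℤ}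
    (hX : ∀ i, X i ∈ T)
    (hpos : UDomCx420.Nsum T (wDom (T : Set (ℤ × ℤ)) true)
      (fun s => ∏ i, spinSign (s (X i))) ≠ 0)
    {S : HE ℤ → HE ℤ → ℝ} (hS : IsCov (wX (wDom (T : Set (ℤ × ℤ)) true) X) S) :
    Inv (wX (wDom (T : Set (ℤ × ℤ)) true) X) S := by
  obtain ⟨S', hS'⟩ := J2gx606.exists_finv_wfree T hn X hX hpos
  have e : S = S' := hS'.unique_inv (UJ3x420.isInv_of_isCov hS)
  subst e
  exact inv_of_finv hS'

/-! ### gap and volume -/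

/-- the gap constant of the plus backgrounds -/
def CPl : ℝ := PlGapx887.CQ * 25 + 3

theorem CPl_pos : 0 < CPl := by unfold CPl PlGapx887.CQ; norm_num

/-- **gap of a plus background** in a box of radius `R ≥ 1` -/
theorem gap_plus {n : ℕ} (X : Fin n → ℤ × ℤ) {T : Finset (ℤ × ℤ)} {c : ℤ × ℤ} {R : ℝ} (hR : 1 ≤ R)
    (hT : ∀ f ∈ T, |((f.1 : ℝ) - (c.1 : ℝ))| ≤ R ∧ |((f.2 : ℝ) - (c.2 : ℝ))| ≤ R) (f : Fld ℤ) :
    l2 (f : HE ℤ → ℝ) ≤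
      CPl * R * l2 (Aop (wX (wDom (T : Set (ℤ × ℤ)) false) X) (f : HE ℤ → ℝ)) := by
  have hf : FrFinx887.FSH (f : HE ℤ → ℝ) := by
    unfold FrFinx887.FSH
    exact f.finite_support
  refine (FrFinx887.plus_gap_box X (c := c) (by linarith) hT hf).trans ?_
  refine mul_le_mul_of_nonneg_right ?_ (Real.sqrt_nonneg _)
  unfold FrFinx887.CG CPl PlGapx887.CQ
  nlinarith

theorem fd_le_real {f g : ℤ × ℤ} {s : ℝ} (h1 : |((g.1 : ℝ) - f.1)| ≤ s) (h2 : |((g.2 : ℝ) - f.2)| ≤ s) :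
    (fd f g : ℝ) ≤ s := by
  rw [fd_int]
  push_cast
  refine max_le ?_ ?_
  · rw [Nat.cast_natAbs, Int.cast_abs, Int.cast_sub, abs_sub_comm]; exact h1
  · rw [Nat.cast_natAbs, Int.cast_abs, Int.cast_sub, abs_sub_comm]; exact h2

/-- radius of the set of faces close to the sites -/
theorem vol_near {T : Finset (ℤ × ℤ)} {c : ℤ × ℤ} {R : ℝ} (hR : 1 ≤ R)
    (hT : ∀ f ∈ T, |((f.1 : ℝ) - (c.1 : ℝ))| ≤ R ∧ |((f.2 : ℝ) - (c.2 : ℝ))| ≤ R) (c0 : ℕ)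
    {f : ℤ × ℤ} (h : ∃ z ∈ T, fd z f ≤ c0) : (fd c f : ℝ) ≤ (1 + c0) * R := by
  obtain ⟨z, hz, hzf⟩ := h
  have h1 : (fd c z : ℝ) ≤ R := fd_le_real (hT z hz).1 (hT z hz).2
  have h2 : (fd c f : ℝ) ≤ fd c z + fd z f := by
    exact_mod_cast pd_fd.tri c z f
  have h3 : (fd z f : ℝ) ≤ c0 := by exact_mod_cast hzf
  nlinarith [Nat.cast_nonneg (α := ℝ) c0]

/-! ### the final factor -/

variable {M K : ℕ} (D : FRD 16 M K)

/-- **plus backgrounds**: the final factor tends to one, for any family of finite site sets `T a` in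
boxes of radii `R a → ∞` and any insertions -/
theorem fin_plus_tendsto (hM : MM ≤ M) {α : Type*} {l : Filter α} {p k0 : ℕ} (hp : 1 ≤ p)
    {δ : ℝ} (hδ : 0 < δ) {Γ : ℝ≥0∞} (hΓ : 1 ≤ Γ)
    (R : α → ℝ) (hR : Tendsto R l atTop) (T : α → Finset (ℤ × ℤ)) (c : α → ℤ × ℤ)
    (hT : ∀ᶠ a in l, ∀ f ∈ T a,
      |((f.1 : ℝ) - ((c a).1 : ℝ))| ≤ R a ∧ |((f.2 : ℝ) - ((c a).2 : ℝ))| ≤ R a)
    (m : α → ℕ) (X : ∀ a, Fin (m a) → ℤ × ℤ) (S : α → HE ℤ → HE ℤ → ℝ)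
    (hS : ∀ a, Inv (wX (wDom (T a : Set (ℤ × ℤ)) false) (X a)) (S a))
    {A : ℕ → ℝ} (hA : Tendsto A atTop atTop) (mk : α → Finset (ℤ × ℤ))
    (K0 : α → Finset (ℤ × ℤ) → Ge (Fld ℤ)) (Λ : α → Finset (ℤ × ℤ)) (c0 : ℕ)
    (hΛ : ∀ᶠ a in l, ∀ f ∈ Λ a, ∃ z ∈ T a, fd z f ≤ c0) (n : α → ℕ)
    (hn : ∀ᶠ a in l, n a = lastK p k0 (δ * R a))
    (hK : Tendsto (fun a => NK (wX (wDom (T a : Set (ℤ × ℤ)) false) (X a)) (A (n a))
      (rr p k0 (n a)) Γ (fun _ => True)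
      (fun U => ((sys D (wX (wDom (T a : Set (ℤ × ℤ)) false) (X a)) (mk a) p k0 (K0 a)).K (n a) U :
        Gr (Fld ℤ)))) l (𝓝 0)) :
    Tendsto (fun a => EEG ((hS a).last D p k0 (n a)) (ZZ (near p k0 (n a)) (Λ a)
      ((sys D (wX (wDom (T a : Set (ℤ × ℤ)) false) (X a)) (mk a) p k0 (K0 a)).K (n a)))) l
      (𝓝 1) := by
  have hR1 : ∀ᶠ a in l, 1 ≤ R a := hR.eventually_ge_atTop 1
  refine fin_tendsto_sys D hM hp hδ CPl_pos (Cv := 1 + (c0 : ℝ)) (by positivity) hΓ R hR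
    (fun a => wX (wDom (T a : Set (ℤ × ℤ)) false) (X a)) (fun a => abs_wX_le _ _ _) S hS ?_ hA mk K0
    Λ n hn c ?_ hK
  · filter_upwards [hT, hR1] with a h1 h2 f
    exact gap_plus (X a) h2 h1 f
  · filter_upwards [hT, hR1, hΛ] with a h1 h2 h3 f hf
    exact vol_near h2 h1 c0 (h3 f hf)

/-- **meshes `a → 0`**, gap `Cg / a` and volume `Cv / a` as hypotheses -/
theorem fin_dom_tendsto (hM : MM ≤ M) {p k0 : ℕ} (hp : 1 ≤ p)
    {δ Cg Cv : ℝ} (hδ : 0 < δ) (hCg : 0 < Cg) (hCv : 0 ≤ Cv) {Γ : ℝ≥0∞} (hΓ : 1 ≤ Γ)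
    (w : ℝ → BW ℤ) (hw : ∀ a z j, |w a z j| ≤ 1) (S : ℝ → HE ℤ → HE ℤ → ℝ)
    (hS : ∀ a, Inv (w a) (S a))
    (hgap : ∀ᶠ a : ℝ in 𝓝[>] 0, ∀ f : Fld ℤ,
      l2 (f : HE ℤ → ℝ) ≤ Cg / a * l2 (Aop (w a) (f : HE ℤ → ℝ)))
    {A : ℕ → ℝ} (hA : Tendsto A atTop atTop) (mk : ℝ → Finset (ℤ × ℤ))
    (K0 : ℝ → Finset (ℤ × ℤ) → Ge (Fld ℤ)) (Λ : ℝ → Finset (ℤ × ℤ)) (n : ℝ → ℕ)
    (hn : ∀ᶠ a : ℝ in 𝓝[>] 0, n a = lastK p k0 (δ / a))
    (hV : ∀ᶠ a : ℝ in 𝓝[>] 0, ∀ f ∈ Λ a, (fd ((0, 0) : ℤ × ℤ) f : ℝ) ≤ Cv / a)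
    (hK : Tendsto (fun a => NK (w a) (A (n a)) (rr p k0 (n a)) Γ (fun _ => True)
      (fun U => ((sys D (w a) (mk a) p k0 (K0 a)).K (n a) U : Gr (Fld ℤ)))) (𝓝[>] 0) (𝓝 0)) :
    Tendsto (fun a => EEG ((hS a).last D p k0 (n a))
      (ZZ (near p k0 (n a)) (Λ a) ((sys D (w a) (mk a) p k0 (K0 a)).K (n a)))) (𝓝[>] 0)
      (𝓝 1) := by
  refine fin_tendsto_sys D hM hp hδ hCg hCv hΓ (fun a => a⁻¹) tendsto_inv_nhdsGT_zero w hw S hS ?_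
    hA mk K0 Λ n ?_ (fun _ => (0, 0)) ?_ hK
  · filter_upwards [hgap] with a h f
    have := h f
    rwa [div_eq_mul_inv] at this
  · filter_upwards [hn] with a h
    rw [h, div_eq_mul_inv]
  · filter_upwards [hV] with a h f hf
    have := h f hf
    rwa [div_eq_mul_inv] at this

/-- volume of a bounded domain -/
theorem vol_dom {D : Set ℂ} {B : ℝ} (hB : 0 ≤ B) (hD : ∀ z ∈ D, ‖z‖ ≤ B) (c0 : ℕ) {a : ℝ}
    (ha : 0 < a) (ha1 : a ≤ 1) {f : ℤ × ℤ} (h : ∃ z ∈ domainSites D a, fd z f ≤ c0) :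
    (fd ((0, 0) : ℤ × ℤ) f : ℝ) ≤ (B + c0) / a := by
  obtain ⟨z, hz, hzf⟩ := h
  obtain ⟨h1, h2⟩ := GapFinx40.sites_le hD ha z hz
  have h3 : (fd ((0, 0) : ℤ × ℤ) z : ℝ) ≤ B / a := fd_le_real h1 h2
  have h4 : (fd ((0, 0) : ℤ × ℤ) f : ℝ) ≤ fd ((0, 0) : ℤ × ℤ) z + fd z f := by
    exact_mod_cast pd_fd.tri _ z f
  have h5 : (fd z f : ℝ) ≤ c0 := by exact_mod_cast hzf
  have h6 : (c0 : ℝ) ≤ c0 / a := by
    rw [le_div_iff₀ ha]
    nlinarith [Nat.cast_nonneg (α := ℝ) c0]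
  rw [add_div]
  linarith

end Crest.Agent.R165.Fin3x315
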