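import Crest.Agent.R165.FrAll_887

/-!
# Row 165 (S0250): the free background without insertions, unconditionally (helper887)

* `gap_free_zero_box` : any finite site set in a box of radius `r`: `|φ| ≤ 8 CG(r) |A φ|`
* `box_all_free_zero` : existence, finite columns, uniqueness, inverse, bounds, in a box
* `dom_all_free_zero` : the same for `domainSites D a`, constant `C / a`, any bounded `D`
-/

set_option autoImplicit false
set_option linter.unusedSimpArgs false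
set_option linter.unusedSectionVars false

noncomputable section

open Filter Topology Finset
open Crest.ProbabilityR.IsingModel

namespace Crest.Agent.R165.FrZerox887

open Crest.Agent.R165.FrFinx887 Crest.Agent.R165.PlGapx887
open Crest.Agent.R165.FrDomx887 Crest.Agent.R165.FrAllx887 Crest.Agent.R165.GapFinx40
open Crest.Agent.R165.U5Px422
open Crest.Agent.R165.Latx683 Crest.Agent.R165.GDefx387 Crest.Agent.R165.FRDAbsx439
  Crest.Agent.R165.FRDInfx439 Crest.Agent.R165.FRDLatx439 Crest.Agent.R165.Gr0x606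
open Crest.Agent.R165.UDomCx420 (Nsum conf)

theorem wX_zero (w : BW ℤ) (X : Fin 0 → ℤ × ℤ) : wX w X = w := by
  funext z j
  simp [wX, ray]

/-- **free gap without insertions** -/
theorem gap_free_zero_box {T : Finset (ℤ × ℤ)} {c : ℤ × ℤ} {r : ℝ} (hr : 0 ≤ r)
    (hE : ∀ f ∈ T, |((f.1 : ℝ) - (c.1 : ℝ))| ≤ r ∧ |((f.2 : ℝ) - (c.2 : ℝ))| ≤ r)
    {φ : HE ℤ → ℝ} (hφ : FSH φ) :
    l2 φ ≤ 8 * CG r * l2 (Aop (wDom (T : Set (ℤ × ℤ)) true) φ) := by
  obtain ⟨S, hS⟩ := exists_star T (![] : Fin 0 → ℤ × ℤ)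
  have h := free_gap_box (X := (![] : Fin 0 → ℤ × ℤ)) (T := T)
    (Function.injective_of_subsingleton _) (fun i => i.elim0) hr hE (ρ := 1)
    one_pos (fun i => i.elim0) (c₀ := 1) one_pos S hS.inv (by
      rw [Matrix.det_isEmpty]; simp) hφ
  rw [wX_zero] at h
  have e : CF 0 r 1 1 = 8 * CG r := by unfold CF; simp; ring
  rwa [e] at h

theorem nsum_zero_pos (T : Finset (ℤ × ℤ)) : 0 < Nsum T (wDom (T : Set (ℤ × ℤ)) true)
    (fun s => ∏ i, spinSign (s ((![] : Fin 0 → ℤ × ℤ) i))) := by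
  unfold UDomCx420.Nsum
  refine sum_pos (fun N _ => ?_) ⟨∅, by simp⟩
  simp only [Finset.univ_eq_empty, prod_empty, one_mul]
  exact prod_pos fun e _ => wDom_pos _ _ _

/-- **everything for the free background of a finite set, no insertions** -/
theorem box_all_free_zero {T : Finset (ℤ × ℤ)} {c : ℤ × ℤ} {r : ℝ} (hr : 0 ≤ r)
    (hE : ∀ f ∈ T, |((f.1 : ℝ) - (c.1 : ℝ))| ≤ r ∧ |((f.2 : ℝ) - (c.2 : ℝ))| ≤ r) :
    ∃ (S : HE ℤ → HE ℤ → ℝ)
      (hS : IsCov (wDom (T : Set (ℤ × ℤ)) true) S)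
      (hf : ∀ k, (Function.support fun h => S h k).Finite)
      (hN : IsNegInv (AopF (wDom (T : Set (ℤ × ℤ)) true)) (SF S hf)),
      (∀ S', IsCov (wDom (T : Set (ℤ × ℤ)) true) S' → S' = S) ∧
      (∀ φ : HE ℤ → ℝ, FSH φ → l2 φ ≤ 8 * CG r * l2 (Aop (wDom (T : Set (ℤ × ℤ)) true) φ)) ∧
      ABtw (preF (HE ℤ)) (AopF (wDom (T : Set (ℤ × ℤ)) true)) (((8 * CG r)⁻¹) ^ 2) 16 ∧
      restS (AopF_asy _) hN 1 = covS S hS.skew ∧
      ∀ l k, |formS S l k| ≤
        8 * CG r * (Real.sqrt (dotF (HE ℤ) l l) * Real.sqrt (dotF (HE ℤ) k k)) := by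
  have hC : 0 < 8 * CG r := by unfold CG CQ; positivity
  obtain ⟨S, hS⟩ := UJ4x420.exists_finv_dom T (n := 0) (by simp) ![] (fun i => i.elim0)
    (nsum_zero_pos T)
  rw [UJ3x420.wX_eq, wX_zero] at hS
  have hw : ∀ z j, |wDom (T : Set (ℤ × ℤ)) true z j| ≤ 1 := by
    intro z j
    have := abs_wX_le (T : Set (ℤ × ℤ)) true (![] : Fin 0 → ℤ × ℤ) z j
    rwa [wX_zero] at this
  have hg : ∀ φ : HE ℤ → ℝ, FSH φ →
      l2 φ ≤ 8 * CG r * l2 (Aop (wDom (T : Set (ℤ × ℤ)) true) φ) :=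
    fun φ hφ => gap_free_zero_box hr hE hφ
  obtain ⟨h4, h5, h6, h7, h8, h9, h10⟩ := all_of_gap hw hC hg hS
  exact ⟨S, h4, h5, h6, h7, hg, h8, h9, h10⟩

/-- **everything for the free background of a bounded domain, no insertions** -/
theorem dom_all_free_zero {D : Set ℂ} (hb : Bornology.IsBounded D) :
    ∃ C : ℝ, 0 < C ∧ ∀ᶠ a in 𝓝[>] (0 : ℝ), ∃ (S : HE ℤ → HE ℤ → ℝ)
      (hS : IsCov (wDom (domainSites D a) true) S)
      (hf : ∀ k, (Function.support fun h => S h k).Finite)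
      (hN : IsNegInv (AopF (wDom (domainSites D a) true)) (SF S hf)),
      (∀ S', IsCov (wDom (domainSites D a) true) S' → S' = S) ∧
      (∀ φ : HE ℤ → ℝ, FSH φ → l2 φ ≤ C / a * l2 (Aop (wDom (domainSites D a) true) φ)) ∧
      ABtw (preF (HE ℤ)) (AopF (wDom (domainSites D a) true)) (((C / a)⁻¹) ^ 2) 16 ∧
      restS (AopF_asy _) hN 1 = covS S hS.skew ∧
      ∀ l k, |formS S l k| ≤
        C / a * (Real.sqrt (dotF (HE ℤ) l l) * Real.sqrt (dotF (HE ℤ) k k)) := by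
  obtain ⟨R, hR0, hR⟩ := TT_box hb
  have hCG : 0 < CG R := by unfold CG CQ; positivity
  refine ⟨8 * CG R, by positivity, ?_⟩
  have hlt : ∀ᶠ a in 𝓝[>] (0 : ℝ), a < 1 := by
    have : ∀ᶠ a in 𝓝 (0 : ℝ), a < 1 := gt_mem_nhds one_pos
    exact this.filter_mono nhdsWithin_le_nhds
  filter_upwards [hlt, self_mem_nhdsWithin] with a h5 ha
  have ha : 0 < a := ha
  have hc : ((TT D a : Finset (ℤ × ℤ)) : Set (ℤ × ℤ)) = domainSites D a :=
    Kw9x871.coe_TT hb ha
  obtain ⟨S, hS⟩ := UJ4x420.exists_finv_dom (TT D a) (n := 0) (by simp) ![] (fun i => i.elim0)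
    (nsum_zero_pos _)
  rw [UJ3x420.wX_eq, wX_zero] at hS
  have hw : ∀ z j, |wDom (domainSites D a) true z j| ≤ 1 := by
    intro z j
    have := abs_wX_le (domainSites D a) true (![] : Fin 0 → ℤ × ℤ) z j
    rwa [wX_zero] at this
  have hg : ∀ φ : HE ℤ → ℝ, FSH φ →
      l2 φ ≤ 8 * CG R / a * l2 (Aop (wDom (domainSites D a) true) φ) := by
    intro φ hφ
    have h1 := gap_free_zero_box (c := (0, 0)) (by positivity : 0 ≤ R / a) (hR a ha) hφ
    rw [hc] at h1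
    refine h1.trans (mul_le_mul_of_nonneg_right ?_ (Real.sqrt_nonneg _))
    have h2 := CG_scale hR0.le ha h5.le
    calc 8 * CG (R / a) ≤ 8 * (CG R / a) := by linarith
      _ = _ := by ring
  rw [hc] at hS
  obtain ⟨h4, h5, h6, h7, h8, h9, h10⟩ := all_of_gap hw (by positivity : 0 < 8 * CG R / a) hg hS
  exact ⟨S, h4, h5, h6, h7, hg, h8, h9, h10⟩

end Crest.Agent.R165.FrZerox887
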