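import Crest.Agent.R165.JRun_445
import Crest.Agent.R165.JDomA_606
import Crest.Agent.R165.Bkg_683
import Crest.Agent.R165.GSysOK_439
import Crest.Agent.R165.J4Lnk4_653

/-!
# Row 165 (S0250): the runs of domains and discs without sources (helper445)

* `frG_id`, `frG_inl` : the frames of `Bkg_683` are the frames of `J4Lnk3_653`
* `VolD T b R Λ` : the volume contains the shapes and the rescaled faces
* `K00_plain` : `EEG (Cof w) (ZZ (=) Λ (K00 no sources)) = cs * EG' (Cof w) (TH (gw w) GT)`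
* `K00_ctG`, `K00_coP` : the same with the bond sources of `Bkg_683.bondSrc`
* `runB` : the `Run` of a background of the list
* `spm_start` : `spm / spm0 = start (X) / start (∅)`
* `domMom_start` : `domMom / spm = ctG (coP univ Z) / ctG Z`, `Z = srcZ ..`
-/

set_option autoImplicit false
set_option linter.unusedSectionVars false

noncomputable section

open Finset
open Crest.ProbabilityR.IsingModel

namespace Crest.Agent.R165.JRunx445

open Crest.Agent.R165.Gr0x606 Crest.Agent.R165.Gr1x606 Crest.Agent.R165.GeOpsx337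
  Crest.Agent.R165.ExpGx337 Crest.Agent.R165.KStepx892 Crest.Agent.R165.KFlowx337
  Crest.Agent.R165.SrcDefx991 Crest.Agent.R165.SRabsx900 Crest.Agent.R165.KInitx892
open Crest.Agent.R165.Latx683 (BW wDom ray wX wPl IsCov covS Fld HE xc)
open Crest.Agent.R165.GDefx387 Crest.Agent.R165.GSysx387 Crest.Agent.R165.GSysOKx439
  Crest.Agent.R165.FRDPolyx439 Crest.Agent.R165.BgIsox432
open Crest.Agent.R165.Bkgx683
open Crest.Agent.R165.J4Defx653 (tpot tr TrInv Rng)
open Crest.Agent.R165.J4Lnkx653 (tpot_even tpot_rng)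
open Crest.Agent.R165.J4RRx653 (RR RIn TH)
open Crest.Agent.R165.J1ax606 (pe qe)
open Crest.Agent.R165.J2ax606 (bar)
open Crest.Agent.R165.J4K0x126 (Bk Fr)
open Crest.Agent.R165.J4Geox126 (faE Yf faE_nonempty)
open Crest.Agent.R165.J4Lnkx653 (frV frS gw EG' PL GT obR PL_dom fsr wD_nil)
open Crest.Agent.R165.Topx683 Crest.Agent.R165.Redx541 Crest.Agent.R165.Red2x541
  Crest.Agent.R165.Centx541 Crest.Agent.R165.Symx541 Crest.Agent.R165.SRx541
open Crest.Agent.R165.UKerx420 (wD Cof Sof Sof_spec Sof_skew)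
open Crest.Agent.R165.JDomAx606

/-! ### frames -/

section frames

variable {G : Type} [CommRing G] [DecidableEq G]

theorem frG_id : frG (LinearMap.id : Fld G →ₗ[ℝ] Fld G) = frV G := rfl

theorem frG_inl (m : ℕ) : frG (LinearMap.inl ℝ (Fld G) (Src m)) = frS G m := by
  unfold frG frS
  congr 1
  · funext e
    exact (mpG_bi _ _ _).symm
  · funext f
    unfold J4Lnkx653.I4
    rw [map_sum]
    exact sum_congr rfl fun p _ => (mpG_bi _ _ _).symm

end frames

/-! ### the volume of a domain -/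

/-- the volume `Λ` contains the shapes and the rescaled faces of `T` with their neighbours -/
structure VolD (T : Finset (ℤ × ℤ)) (b : BoundaryCondition) (R : ℕ) (Λ : Finset (ℤ × ℤ)) : Prop where
  shp : ∀ S ∈ J4Defx653.BB T b R, Yf S ⊆ Λ
  cor : ∀ f, cor T f → f ∈ Λ
  nb : ∀ h : HE ℤ, Bkgx683.cor T h.1 → (bar h).1 ∈ Λ

/-- the rescaling constant of a volume -/
def csD (T : Finset (ℤ × ℤ)) (z : ℝ) (Λ : Finset (ℤ × ℤ)) : ℝ := by
  classical exact ∏ f ∈ Λ.filter (fun f => cor T f), (Real.sqrt (1 + z)) ^ 4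

theorem csD_ne (T : Finset (ℤ × ℤ)) {z : ℝ} (hz : 0 < 1 + z) (Λ : Finset (ℤ × ℤ)) :
    csD T z Λ ≠ 0 := by
  unfold csD
  exact prod_ne_zero_iff.2 fun _ _ => pow_ne_zero _ (Real.sqrt_pos.2 hz).ne'

section dom

variable {T : Finset (ℤ × ℤ)} {b : BoundaryCondition} {n m : ℕ} {X : Fin n → ℤ × ℤ}

theorem sc_off (P : MPar) {f : ℤ × ℤ} (h : ¬ cor T f) : (Bg.dom T b X).sc P f = 1 := by
  unfold Bg.sc
  exact if_neg h

theorem sc_on (P : MPar) {f : ℤ × ℤ} (h : cor T f) :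
    (Bg.dom T b X).sc P f = Real.sqrt (1 + P.z) := by
  unfold Bg.sc
  exact if_pos h

theorem prod_sc (P : MPar) (Λ : Finset (ℤ × ℤ)) [DecidablePred fun f => cor T f] :
    ∏ f ∈ Λ.filter (fun f => cor T f), (Bg.dom T b X).sc P f ^ 4 = csD T P.z Λ := by
  unfold csD
  rw [prod_congr (s₂ := Λ.filter (fun f => cor T f)) (by congr)
    (g := fun _ => (Real.sqrt (1 + P.z)) ^ 4)]
  · refine prod_congr (by congr) fun _ _ => rfl
  · intro f hf
    rw [sc_on P (mem_filter.1 hf).2]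

/-- **no sources** -/
theorem K00_plain {S : HE ℤ → HE ℤ → ℝ} (hS : IsCov (Bg.dom T b X).w S) (P : MPar)
    (ht : TrInv P.t) (hr : Rng P.R P.t) (hev : ∀ S, P.t S ≠ 0 → Even S.card)
    {Λ : Finset (ℤ × ℤ)} (hΛ : VolD T b P.R Λ) :
    EEG (covS S hS.skew) (ZZ (fun f g : ℤ × ℤ => f = g) Λ
      ((Bg.dom T b X).K00 P LinearMap.id (noSrc ℤ (Ge (Fld ℤ))))) =
      csD T P.z Λ * EG' (covS S hS.skew) (TH (gw (Bg.dom T b X).w) (GT T b P.R P.t)) := by
  classical
  have h := eeg_ZZ hS ((Bg.dom T b X).bk P (noSrc ℤ (Ge (Fld ℤ)))) rfl Λ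
    (Λ.filter fun f => cor T f) (filter_subset _ _)
    (fun h hh => hΛ.nb h (mem_filter.1 hh).2)
    (fun f hf => sc_off P fun hc => hf (mem_filter.2 ⟨hΛ.cor f hc, hc⟩))
  rw [PL_dom ((Bg.dom T b X).bk P (noSrc ℤ (Ge (Fld ℤ)))) T b (fun _ _ => Iff.rfl) ht hr hev Λ
    hΛ.shp] at h
  have h2 : ∏ f ∈ Λ.filter (fun f => cor T f),
      ((Bg.dom T b X).bk P (noSrc ℤ (Ge (Fld ℤ)))).s f ^ 4 = csD T P.z Λ := prod_sc P Λ
  rw [h2] at h
  exact h

theorem srcs_bond (P : MPar) (e : Fin m → Bkgx683.EG ℤ) {Λ : Finset (ℤ × ℤ)}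
    (he : ∀ k, faE (e k) ⊆ Λ) : ((Bg.dom T b X).bk P (bondSrc (Fld ℤ) e)).srcs Λ = univ := by
  unfold Bk.srcs
  rw [Finset.filter_true_of_mem]
  intro k _
  exact ⟨faE_nonempty _, he k⟩

/-- **the constant term with sources** -/
theorem K00_ctG {S : HE ℤ → HE ℤ → ℝ} (hS : IsCov (Bg.dom T b X).w S) (P : MPar)
    (ht : TrInv P.t) (hr : Rng P.R P.t) (hev : ∀ S, P.t S ≠ 0 → Even S.card)
    {Λ : Finset (ℤ × ℤ)} (hΛ : VolD T b P.R Λ) (e : Fin m → Bkgx683.EG ℤ)
    (he : ∀ k, faE (e k) ⊆ Λ) (c : Fin m → ℝ) :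
    ctG (srcZ (covS S hS.skew) Λ ((Bg.dom T b X).K00 P (LinearMap.inl ℝ (Fld ℤ) (Src m))
      (bondSrc (Fld ℤ) e)) c) =
      csD T P.z Λ * EG' (covS S hS.skew) (TH (gw (Bg.dom T b X).w) (GT T b P.R P.t)) := by
  classical
  have h := ctG_link hS ((Bg.dom T b X).bk P (bondSrc (Fld ℤ) e)) rfl rfl Λ
    (Λ.filter fun f => cor T f) (srcs_bond P e he) (filter_subset _ _)
    (fun h hh => hΛ.nb h (mem_filter.1 hh).2)
    (fun f hf => sc_off P fun hc => hf (mem_filter.2 ⟨hΛ.cor f hc, hc⟩)) c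
  rw [PL_dom ((Bg.dom T b X).bk P (bondSrc (Fld ℤ) e)) T b (fun _ _ => Iff.rfl) ht hr hev Λ
    hΛ.shp] at h
  have h2 : ∏ f ∈ Λ.filter (fun f => cor T f),
      ((Bg.dom T b X).bk P (bondSrc (Fld ℤ) e)).s f ^ 4 = csD T P.z Λ := prod_sc P Λ
  rw [h2, ← frG_inl] at h
  exact h

/-- **the top coefficient with sources** -/
theorem K00_coP {S : HE ℤ → HE ℤ → ℝ} (hS : IsCov (Bg.dom T b X).w S) (P : MPar)
    (ht : TrInv P.t) (hr : Rng P.R P.t) (hev : ∀ S, P.t S ≠ 0 → Even S.card)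
    {Λ : Finset (ℤ × ℤ)} (hΛ : VolD T b P.R Λ) (e : Fin m → Bkgx683.EG ℤ)
    (he : ∀ k, faE (e k) ⊆ Λ) (c : Fin m → ℝ) :
    ctG (coP univ (srcZ (covS S hS.skew) Λ ((Bg.dom T b X).K00 P
      (LinearMap.inl ℝ (Fld ℤ) (Src m)) (bondSrc (Fld ℤ) e)) c)) =
      csD T P.z Λ * EG' (covS S hS.skew)
        (TH (gw (Bg.dom T b X).w) (obR e c * GT T b P.R P.t)) := by
  classical
  have h := coP_link hS ((Bg.dom T b X).bk P (bondSrc (Fld ℤ) e)) rfl rfl Λ
    (Λ.filter fun f => cor T f) (srcs_bond P e he) (filter_subset _ _)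
    (fun h hh => hΛ.nb h (mem_filter.1 hh).2)
    (fun f hf => sc_off P fun hc => hf (mem_filter.2 ⟨hΛ.cor f hc, hc⟩)) c
  rw [PL_dom ((Bg.dom T b X).bk P (bondSrc (Fld ℤ) e)) T b (fun _ _ => Iff.rfl) ht hr hev Λ
    hΛ.shp] at h
  have h2 : ∏ f ∈ Λ.filter (fun f => cor T f),
      ((Bg.dom T b X).bk P (bondSrc (Fld ℤ) e)).s f ^ 4 = csD T P.z Λ := prod_sc P Λ
  rw [h2, ← frG_inl] at h
  refine h.trans ?_
  congr 3
  rw [mul_comm, obR]
  congr 1
  refine prod_congr rfl fun k _ => ?_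
  change algebraMap ℝ _ (1 - c k) + (J4RRx653.ep (Finsupp.single (e k) 1) - 1) = _
  rw [map_sub, map_one]
  ring

end dom

/-! ### the run of a background of the list -/

section runs

variable {G : Type} [CommRing G] [CN G] [CNZ G] [DecidableEq G]

/-- the run of the background `B` without source generators -/
def runB {M K : ℕ} (D : FRD 16 M K) (hK : 16 ≤ K) {l k0 : ℕ} (h5 : 5 ≤ l * (k0 + 1)) (B : Bg G)
    (P : MPar) (mk : Finset (G × G)) {κ : Type} [DecidableEq κ] [Fintype κ]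
    (src : Srcs κ G (Ge (Fld G))) (N : ℕ) (Λ : Finset (G × G)) (S : Cov (Fld G))
    (hmem : ∀ U, B.K0 P LinearMap.id src l k0 U ∈ grG (fldU U))
    (hsupp : ∀ U, ¬ U ⊆ Λ → B.K00 P LinearMap.id src U = 0) : Run (G × G) (Fld G) :=
  runG D B.w mk l k0 N (B.K00 P LinearMap.id src) Λ S (sys_OK D hK B.w mk h5 hmem) hsupp

theorem runB_start {M K : ℕ} (D : FRD 16 M K) (hK : 16 ≤ K) {l k0 : ℕ} (h5 : 5 ≤ l * (k0 + 1))
    (B : Bg G) (P : MPar) (mk : Finset (G × G)) {κ : Type} [DecidableEq κ] [Fintype κ]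
    (src : Srcs κ G (Ge (Fld G))) (N : ℕ) (Λ : Finset (G × G)) (S : Cov (Fld G))
    (hmem : ∀ U, B.K0 P LinearMap.id src l k0 U ∈ grG (fldU U))
    (hsupp : ∀ U, ¬ U ⊆ Λ → B.K00 P LinearMap.id src U = 0) :
    (runB D hK h5 B P mk src N Λ S hmem hsupp).start =
      EEG S (ZZ (fun a b => a = b) Λ (B.K00 P LinearMap.id src)) :=
  runG_start _ _ _ _ _ _ _ _ _ _ _

theorem runB_D {M K : ℕ} (D : FRD 16 M K) (hK : 16 ≤ K) {l k0 : ℕ} (h5 : 5 ≤ l * (k0 + 1))
    (B : Bg G) (P : MPar) (mk : Finset (G × G)) {κ : Type} [DecidableEq κ] [Fintype κ]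
    (src : Srcs κ G (Ge (Fld G))) (N : ℕ) (Λ : Finset (G × G)) (S : Cov (Fld G))
    (hmem : ∀ U, B.K0 P LinearMap.id src l k0 U ∈ grG (fldU U))
    (hsupp : ∀ U, ¬ U ⊆ Λ → B.K00 P LinearMap.id src U = 0) :
    (runB D hK h5 B P mk src N Λ S hmem hsupp).D = B.flow P D mk src l k0 := rfl

/-- the final covariance is the rest of 439 -/
theorem remC_eq {M K : ℕ} (D : FRD 16 M K) {w : BW G} {S : HE G → HE G → ℝ}
    (hS : ∀ h h', S h h' = -S h' h)
    (hinv : ∀ g h', Latx683.Aop w (fun h => S h h') g = -(Pi.single h' 1 : HE G → ℝ) g)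
    (hfin : ∀ h', {h | S h h' ≠ 0}.Finite) (l k0 N : ℕ) :
    remC (covS S hS) (slC D w l k0) N = FRDRestx439.restC D hS hinv hfin (lo l k0 N) := by
  have h1 := remC_add (covS S hS) (slC D w l k0) N
  rw [covS_split D hS hinv hfin l k0 N] at h1
  have h2 : remC (FRDRestx439.restC D hS hinv hfin (lo l k0 N) +
      ∑ n ∈ range N, slC D w l k0 n) (slC D w l k0) N =
      FRDRestx439.restC D hS hinv hfin (lo l k0 N) := by
    apply Cov.ext
    apply LinearMap.ext₂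
    intro x y
    simp only [remC, Cov.add_b, Cov.neg_b, LinearMap.add_apply, LinearMap.neg_apply]
    ring
  rw [covS_split D hS hinv hfin l k0 N, h2]

end runs

/-! ### the spin ratio -/

section final

variable {D : Set ℂ} {a : ℝ} {b : BoundaryCondition} {J lam : ℝ} {R : ℕ}
  {V : Finset (ℤ × ℤ) → ℝ} {β z : ℝ} {n m : ℕ}

theorem dom_w (h : (domainSites D a).Finite) (X : Fin n → ℤ × ℤ) :
    (Bg.dom h.toFinset b X).w = wD (Bkgx683.isF b) D a X := by
  show wX (wDom (h.toFinset : Set (ℤ × ℤ)) (Bkgx683.isF b)) X = _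
  rw [h.coe_toFinset]
  rfl

/-- the initial expectation with the canonical covariance -/
theorem start_dom (h : (domainSites D a).Finite) (hV : TrInv V) (hr : Rng R V)
    (hev : ∀ A, V A ≠ 0 → Even A.card) (X : Fin n → ℤ × ℤ) (hX : Lk D a b X)
    {Λ : Finset (ℤ × ℤ)} (hΛ : VolD h.toFinset b (max R 1) Λ) :
    EEG (Cof (Bg.dom h.toFinset b X).w) (ZZ (fun f g : ℤ × ℤ => f = g) Λ
      ((Bg.dom h.toFinset b X).K00 (mpar J lam R V β z) LinearMap.id (noSrc ℤ (Ge (Fld ℤ))))) =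
      csD h.toFinset z Λ * EXf D a b J lam R V β h X 1 := by
  have hex : ∃ S, IsCov (Bg.dom h.toFinset b X).w S := by
    rw [dom_w]; exact hX.ex
  have h1 := K00_plain (Sof_spec hex) (mpar J lam R V β z) hV.tpot (tpot_rng hr) (tpot_even hev) hΛ
  have h2 : covS (Sof (Bg.dom h.toFinset b X).w) (Sof_spec hex).skew =
      Cof (Bg.dom h.toFinset b X).w := rfl
  rw [h2] at h1
  rw [h1, EXf, one_mul, dom_w]
  rfl

/-- **the spin ratio in terms of the initial polymer gas** -/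
theorem spm_start (hb : b ≠ BoundaryCondition.minus) (h : (domainSites D a).Finite) (hJ : J ≠ 0)
    (hV : TrInv V) (hr : Rng R V) (hev : ∀ A, V A ≠ 0 → Even A.card) (x : Fin n → ℂ)
    (hx : Lk D a b (fun i => meshIndex a (x i))) (h0 : Lk D a b (fun i : Fin 0 => i.elim0))
    (hp : spm0 D a b x ≠ 0) (hz : 0 < 1 + z)
    {Λ Λ' : Finset (ℤ × ℤ)} (hΛ : VolD h.toFinset b (max R 1) Λ)
    (hΛ' : Λ' = Λ) :
    spm D a b J lam R V β x / spm0 D a b x =
      EEG (Cof (Bg.dom h.toFinset b (fun i => meshIndex a (x i))).w)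
        (ZZ (fun f g : ℤ × ℤ => f = g) Λ ((Bg.dom h.toFinset b (fun i => meshIndex a (x i))).K00
          (mpar J lam R V β z) LinearMap.id (noSrc ℤ (Ge (Fld ℤ))))) /
      EEG (Cof (Bg.dom h.toFinset b (fun i : Fin 0 => i.elim0)).w)
        (ZZ (fun f g : ℤ × ℤ => f = g) Λ' ((Bg.dom h.toFinset b (fun i : Fin 0 => i.elim0)).K00
          (mpar J lam R V β z) LinearMap.id (noSrc ℤ (Ge (Fld ℤ))))) := by
  subst hΛ'
  rw [start_dom h hV hr hev _ hx hΛ, start_dom h hV hr hev _ h0 hΛ,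
    mul_div_mul_left _ _ (csD_ne _ hz _), spm_ratio hb h hJ hV hr hev x hx h0 hp]
  congr 1
  rw [EXf, E0f, one_mul, wD_nil]

/-- **conditional bond moments in terms of the generating element** -/
theorem domMom_start (hb : b ≠ BoundaryCondition.minus) (h : (domainSites D a).Finite) (hJ : J ≠ 0)
    (hV : TrInv V) (hr : Rng R V) (hev : ∀ A, V A ≠ 0 → Even A.card) (x : Fin n → ℂ)
    (y : Fin m → ℂ) (j : Fin m → Fin 2) (c : Fin m → ℝ)
    (hx : Lk D a b (fun i => meshIndex a (x i))) (h0 : Lk D a b (fun i : Fin 0 => i.elim0))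
    (hy : b = BoundaryCondition.free → ∀ k, meshIndex a (y k) ∈ domainSites D a ∧
      meshIndex a (y k) + unitVec (j k) ∈ domainSites D a)
    (hp : spm0 D a b x ≠ 0) (hz : 0 < 1 + z)
    {Λ : Finset (ℤ × ℤ)} (hΛ : VolD h.toFinset b (max R 1) Λ)
    (he : ∀ k, faE ((meshIndex a (y k), j k) : Bkgx683.EG ℤ) ⊆ Λ) :
    domMom D a b J lam R V β x y j c / spm D a b J lam R V β x =
      ctG (coP univ (srcZ (Cof (Bg.dom h.toFinset b (fun i => meshIndex a (x i))).w) Λ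
        ((Bg.dom h.toFinset b (fun i => meshIndex a (x i))).K00 (mpar J lam R V β z)
          (LinearMap.inl ℝ (Fld ℤ) (Src m))
          (bondSrc (Fld ℤ) (fun k => ((meshIndex a (y k), j k) : Bkgx683.EG ℤ)))) c)) /
      ctG (srcZ (Cof (Bg.dom h.toFinset b (fun i => meshIndex a (x i))).w) Λ
        ((Bg.dom h.toFinset b (fun i => meshIndex a (x i))).K00 (mpar J lam R V β z)
          (LinearMap.inl ℝ (Fld ℤ) (Src m))
          (bondSrc (Fld ℤ) (fun k => ((meshIndex a (y k), j k) : Bkgx683.EG ℤ)))) c) := by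
  have hex : ∃ S, IsCov (Bg.dom h.toFinset b (fun i => meshIndex a (x i))).w S := by
    rw [dom_w]; exact hx.ex
  have h2 : covS (Sof (Bg.dom h.toFinset b (fun i => meshIndex a (x i))).w) (Sof_spec hex).skew =
      Cof (Bg.dom h.toFinset b (fun i => meshIndex a (x i))).w := rfl
  have h3 := K00_coP (Sof_spec hex) (mpar J lam R V β z) hV.tpot (tpot_rng hr) (tpot_even hev) hΛ
    (fun k => ((meshIndex a (y k), j k) : Bkgx683.EG ℤ)) he c
  have h4 := K00_ctG (Sof_spec hex) (mpar J lam R V β z) hV.tpot (tpot_rng hr) (tpot_even hev) hΛ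
    (fun k => ((meshIndex a (y k), j k) : Bkgx683.EG ℤ)) he c
  rw [h2] at h3 h4
  have hz' : csD h.toFinset (mpar J lam R V β z).z Λ ≠ 0 := csD_ne _ hz _
  rw [h3, h4, mul_div_mul_left _ _ hz',
    domMom_ratio hb h hJ hV hr hev x y j c hx h0 hy hp, EXf, EXf, one_mul, dom_w]
  rfl

end final

end Crest.Agent.R165.JRunx445
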