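import Crest.Agent.R165.FarB_900
import Crest.Agent.R165.JRunD_445
import Crest.Agent.R165.FrZero_887
import Crest.Agent.R165.Fin3_315
import Crest.Agent.R165.UFin_420

/-!
# Row 165 (S0250): the flows of a domain, volume, start and last scale (helper900)

* `vol_bx` : a box containing the domain is a volume
* `fl_Fl`, `Z0_eq` : the hypotheses `Fl` of `Tel_337`, the partition function at the initial scale
* `spm_eq` : `spm / spm0 = Z0 (with insertions) / Z0 (without)`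
* `GoodBg` : existence of the covariance with finite columns and gap; `goodBg_ev`
* `fin_dom` : the final factor of a domain flow tends to one, from the norm at the last scale
-/

set_option autoImplicit false
set_option linter.unusedSectionVars false

noncomputable section

open Filter Topology
open scoped ENNReal
open Crest.ProbabilityR.IsingModel
open Crest.Agent.R165.Gr0x606 Crest.Agent.R165.Gr1x606 Crest.Agent.R165.GeOpsx337
open Crest.Agent.R165.Latx683 Crest.Agent.R165.GDefx387 Crest.Agent.R165.GSysx387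
open Crest.Agent.R165.KFlowx337 Crest.Agent.R165.Telx337 Crest.Agent.R165.FRDPolyx439
open Crest.Agent.R165.BgIsox432 Crest.Agent.R165.GSysOKx439 Crest.Agent.R165.KStepx892
open Crest.Agent.R165.KInitx892 Crest.Agent.R165.NSumx915 Crest.Agent.R165.Packx915
open Crest.Agent.R165.Bridgex915 Crest.Agent.R165.PNormx417
open Crest.Agent.R165.Bkgx683 Crest.Agent.R165.PEndx683 Crest.Agent.R165.Outx683
open Crest.Agent.R165.JRunx445 Crest.Agent.R165.JDomAx606 Crest.Agent.R165.JVolx950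
open Crest.Agent.R165.J4Defx653 (bx mem_bx thick mem_thick BB mem_BB TrInv Rng)
open Crest.Agent.R165.J4Geox126 (Yf mem_Yf)
open Crest.Agent.R165.J2ax606 (bar)
open Crest.Agent.R165.Topx683 Crest.Agent.R165.Redx541 Crest.Agent.R165.Red2x541
  Crest.Agent.R165.Centx541 Crest.Agent.R165.Symx541 Crest.Agent.R165.SRx541
open Crest.Agent.R165.UKerx420 (wD Cof Sof Sof_spec Sof_skew)
open Crest.Agent.R165.U5Px422 (TT mem_TT SpinOut LApp lapp_meshIndex)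
open Crest.Agent.R165.FrFinx887 (FSH)
open Crest.Agent.R165.Scalex900 Crest.Agent.R165.FarBx900
open Crest.Agent.R165.Fin2x315 (Inv)

namespace Crest.Agent.R165.SRdomAx900

/-! ### the volume -/

theorem bar_near (h : HE ℤ) : |(bar h).1.1 - h.1.1| ≤ 1 ∧ |(bar h).1.2 - h.1.2| ≤ 1 := by
  unfold bar
  split_ifs <;> simp

/-- a box containing the domain is a volume -/
theorem vol_bx {T : Finset (ℤ × ℤ)} {b : BoundaryCondition} {R n N : ℕ} (hT : T ⊆ bx n)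
    (hN : n + R + 2 ≤ N) {κ : Type} (Ys : κ → Finset (ℤ × ℤ)) (hY : ∀ k, Ys k = ∅) :
    Vol T b R Ys (bx N) := by
  have hW : ∀ f, f ∈ Wf T → |f.1| ≤ (n : ℤ) + 1 ∧ |f.2| ≤ (n : ℤ) + 1 := by
    intro f hf
    rw [mem_Wf] at hf
    unfold cor at hf
    rcases hf with h | h | h | h <;> have h := mem_bx.1 (hT h) <;>
      simp only [abs_le] at h ⊢ <;> omega
  refine ⟨fun f hf => ?_, fun h hh => ?_, fun S hS f hf => ?_, fun k => by rw [hY]; simp⟩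
  · have := hW f hf
    rw [mem_bx]
    simp only [abs_le] at this ⊢
    omega
  · have h1 := hW _ hh
    have h2 := bar_near h
    rw [mem_bx]
    simp only [abs_le] at h1 h2 ⊢
    omega
  · have hS' := (mem_BB.1 hS).1
    have key : ∀ x ∈ S, |x.1| ≤ (n : ℤ) + R ∧ |x.2| ≤ (n : ℤ) + R := by
      intro x hx
      obtain ⟨z, hz, hxz⟩ := mem_thick.1 (hS' hx)
      have h1 := mem_bx.1 (hT hz)
      have h2 := mem_bx.1 hxz
      simp only [Prod.fst_sub, Prod.snd_sub, abs_le] at h1 h2 ⊢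
      omega
    obtain ⟨⟨p, hp, h1⟩, ⟨q, hq, h2⟩, ⟨r, hr, h3⟩, ⟨s, hs, h4⟩⟩ := mem_Yf.1 hf
    have kp := key p hp
    have kq := key q hq
    have kr := key r hr
    have ks := key s hs
    rw [mem_bx]
    simp only [abs_le] at kp kq kr ks ⊢
    omega

theorem volD_of_vol {T : Finset (ℤ × ℤ)} {b : BoundaryCondition} {R : ℕ} {κ : Type}
    {Ys : κ → Finset (ℤ × ℤ)} {Λ : Finset (ℤ × ℤ)} (v : Vol T b R Ys Λ) : VolD T b R Λ where
  shp := v.BB
  cor _ hf := v.W (mem_Wf.2 hf)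
  nb h hh := v.nb h (mem_Wf.2 hh)

/-- the volume used for the domain at mesh `a`; `B` = radius of the domain -/
def Lam (B : ℝ) (R : ℕ) (a : ℝ) : Finset (ℤ × ℤ) := bx (⌈B / a⌉₊ + R + 2)

theorem TT_sub_bx {D : Set ℂ} {B : ℝ} (hD : ∀ z ∈ D, ‖z‖ ≤ B) (hb : Bornology.IsBounded D)
    {a : ℝ} (ha : 0 < a) : TT D a ⊆ bx ⌈B / a⌉₊ := by
  intro z hz
  have h0 : z ∈ domainSites D a := (mem_TT hb ha).1 hz
  obtain ⟨h1, h2⟩ := GapFinx40.sites_le hD ha z h0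
  simp only [Int.cast_zero, sub_zero] at h1 h2
  rw [mem_bx]
  have h3 : B / a ≤ (⌈B / a⌉₊ : ℝ) := Nat.le_ceil _
  constructor
  · have : |(z.1 : ℝ)| ≤ (⌈B / a⌉₊ : ℝ) := h1.trans h3
    exact_mod_cast this
  · have : |(z.2 : ℝ)| ≤ (⌈B / a⌉₊ : ℝ) := h2.trans h3
    exact_mod_cast this

theorem vol_Lam {D : Set ℂ} {B : ℝ} (hD : ∀ z ∈ D, ‖z‖ ≤ B) (hb : Bornology.IsBounded D)
    {a : ℝ} (ha : 0 < a) (b : BoundaryCondition) (R : ℕ) {κ : Type} (Ys : κ → Finset (ℤ × ℤ))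
    (hY : ∀ k, Ys k = ∅) : Vol (TT D a) b R Ys (Lam B R a) :=
  vol_bx (TT_sub_bx hD hb ha) le_rfl Ys hY

theorem fd_Lam {B : ℝ} (hB : 0 ≤ B) (R : ℕ) {a : ℝ} (ha : 0 < a) (ha1 : a ≤ 1) {f : ℤ × ℤ}
    (hf : f ∈ Lam B R a) : (fd ((0, 0) : ℤ × ℤ) f : ℝ) ≤ (B + R + 3) * a⁻¹ := by
  have h1 := mem_bx.1 hf
  have h2 : fd ((0, 0) : ℤ × ℤ) f ≤ ⌈B / a⌉₊ + R + 2 := by
    have e : fd ((0, 0) : ℤ × ℤ) f = max ((0 : ℤ) - f.1).natAbs ((0 : ℤ) - f.2).natAbs := rfl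
    rw [e]
    rw [Int.abs_eq_natAbs, Int.abs_eq_natAbs] at h1
    omega
  have h3 : (fd ((0, 0) : ℤ × ℤ) f : ℝ) ≤ (⌈B / a⌉₊ : ℝ) + R + 2 := by exact_mod_cast h2
  have h4 : (⌈B / a⌉₊ : ℝ) ≤ B / a + 1 := (Nat.ceil_lt_add_one (by positivity)).le
  have h5 : 1 ≤ a⁻¹ := by rw [one_le_inv₀ ha]; exact ha1
  have h6 : B / a = B * a⁻¹ := div_eq_mul_inv _ _
  have h7 : (R : ℝ) ≤ R * a⁻¹ := le_mul_of_one_le_right (Nat.cast_nonneg R) h5
  nlinarith

/-! ### flow hypotheses and start -/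

/-- the remaining covariance -/
abbrev rem (c : Cst) (w : BW ℤ) (n : ℕ) : Cov (Fld ℤ) := remC (Cof w) (slC DD w c.p c.k0) n

theorem fl_Fl {c : Cst} (h5 : 5 ≤ c.p * (c.k0 + 1)) (P : MPar) {T : Finset (ℤ × ℤ)}
    {b : BoundaryCondition} {n : ℕ} {X : Fin n → ℤ × ℤ} {Λ : Finset (ℤ × ℤ)}
    (v : Vol T b P.R (noSrc ℤ (Ge (Fld ℤ))).Ys Λ) (N : ℕ) :
    Fl (domF c P T b X) Λ N (Cof (Bg.dom T b X).w) (rem c (Bg.dom T b X).w N) where
  ok := ⟨⊥, fl_OK h5 P _, fun x hx y => by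
    rw [Submodule.mem_bot] at hx; rw [hx, map_zero, LinearMap.zero_apply]⟩
  supp U hU := v.supp1 LinearMap.id c.p c.k0 U hU
  emp := fl_emp c P _
  vac a := ctG_vac0 a
  cov := remC_add _ _ N

theorem Z0_eq {G : Type} [CommRing G] [CN G] [CNZ G] [DecidableEq G] {c : Cst}
    (h5 : 5 ≤ c.p * (c.k0 + 1)) (P : MPar) (B : Bg G) (Λ : Finset (G × G)) (S : Cov (Fld G)) :
    Z0 (fl c P B) Λ S = EEG S (ZZ (fun f g : G × G => f = g) Λ
      (B.K00 P LinearMap.id (noSrc G (Ge (Fld G))))) := by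
  have hok := fl_OK h5 P B
  rw [ZZ_K1 (near' := near c.p c.k0 0) (hok.near_symm 0) (hok.near_refl 0) Λ
    (B.K00 P LinearMap.id (noSrc G (Ge (Fld G))))]
  rfl

/-- **the spin ratio in terms of the flows** -/
theorem spm_eq {c : Cst} (h5 : 5 ≤ c.p * (c.k0 + 1)) {J lam : ℝ} {R : ℕ}
    {V : Finset (ℤ × ℤ) → ℝ} {β z : ℝ} (hJ : J ≠ 0) (hV : TrInv V) (hr : Rng R V)
    (hev : ∀ A, V A ≠ 0 → Even A.card) (hz : 0 < 1 + z) {D : Set ℂ} {B : ℝ}
    (hD : ∀ w ∈ D, ‖w‖ ≤ B) (hb : Bornology.IsBounded D) {b : BoundaryCondition}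
    (hbm : b ≠ BoundaryCondition.minus) {n : ℕ} (x : Fin n → ℂ) {a : ℝ} (ha : 0 < a)
    (hx : Lk D a b (fun i => meshIndex a (x i))) (h0 : Lk D a b (fun i : Fin 0 => i.elim0))
    (hp : spm0 D a b x ≠ 0) :
    spm D a b J lam R V β x / spm0 D a b x =
      Z0 (domF c (mpar J lam R V β z) (TT D a) b (fun i => meshIndex a (x i)))
        (Lam B (max R 1) a) (Cof (Bg.dom (TT D a) b (fun i => meshIndex a (x i))).w) /
      Z0 (domF c (mpar J lam R V β z) (TT D a) b (fun i : Fin 0 => i.elim0))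
        (Lam B (max R 1) a) (Cof (Bg.dom (TT D a) b (fun i : Fin 0 => i.elim0)).w) := by
  have h := domainSites_finite hb ha
  have hT : TT D a = h.toFinset := by unfold TT; rw [dif_pos h]
  have v : Vol (TT D a) b (max R 1) (noSrc ℤ (Ge (Fld ℤ))).Ys (Lam B (max R 1) a) :=
    vol_Lam hD hb ha b (max R 1) _ fun _ => rfl
  rw [Z0_eq h5, Z0_eq h5, hT]
  rw [hT] at v
  exact spm_start hbm h hJ hV hr hev x hx h0 hp hz (volD_of_vol v) rfl

/-! ### good backgrounds -/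

/-- the covariance exists, is unique, has finite columns, and there is a gap -/
def GoodBg (w : BW ℤ) (C : ℝ) : Prop :=
  ∃ S : HE ℤ → HE ℤ → ℝ, IsCov w S ∧ (∀ k, (Function.support fun h => S h k).Finite) ∧
    (∀ S', IsCov w S' → S' = S) ∧ ∀ φ : HE ℤ → ℝ, FSH φ → l2 φ ≤ C * l2 (Aop w φ)

theorem GoodBg.inv {w : BW ℤ} {C : ℝ} (h : GoodBg w C) : Inv w (Sof w) := by
  obtain ⟨S, h1, h2, h3, -⟩ := h
  have h4 : Sof w = S := h3 _ (Sof_spec ⟨S, h1⟩)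
  rw [h4]
  exact Inv.of_isCov h1 h2

theorem GoodBg.gap {w : BW ℤ} {C : ℝ} (h : GoodBg w C) (f : Fld ℤ) :
    l2 (f : HE ℤ → ℝ) ≤ C * l2 (Aop w (f : HE ℤ → ℝ)) := by
  obtain ⟨S, -, -, -, h4⟩ := h
  exact h4 _ f.hasFiniteSupport

theorem TT_coe {D : Set ℂ} (hb : Bornology.IsBounded D) {a : ℝ} (ha : 0 < a) :
    ((TT D a : Finset (ℤ × ℤ)) : Set (ℤ × ℤ)) = domainSites D a := Kw9x871.coe_TT hb ha

/-- the weights of a domain background -/
theorem dom_weight {D : Set ℂ} (hb : Bornology.IsBounded D) {a : ℝ} (ha : 0 < a)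
    (b : BoundaryCondition) {n : ℕ} (X : Fin n → ℤ × ℤ) :
    (Bg.dom (TT D a) b X).w = wX (wDom (domainSites D a) (Bkgx683.isF b)) X := by
  show wX (wDom ((TT D a : Finset (ℤ × ℤ)) : Set (ℤ × ℤ)) (Bkgx683.isF b)) X = _
  rw [TT_coe hb ha]

/-- **`C²` domains, small mesh, with `n ≥ 1` insertions** -/
theorem goodBg_ev (hS : UFinx420.SpinLeaf) {D : Set ℂ} (hD : IsC2JordanDomain D)
    (b : BoundaryCondition) {n : ℕ} (hn : 1 ≤ n) (hR : Rel b n) {x : Fin n → ℂ}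
    (hx : x ∈ U5Px422.Conf D n) : ∃ C : ℝ, 0 < C ∧ ∀ᶠ a in 𝓝[>] (0 : ℝ),
      GoodBg (Bg.dom (TT D a) b (fun i => meshIndex a (x i))).w (C * a⁻¹) := by
  have hb : Bornology.IsBounded D := bounded_of_C2 hD
  rcases hR with rfl | ⟨rfl, hev⟩
  · obtain ⟨C, hC, h⟩ := FrAllx887.dom_all_plus (n := n) hb
    refine ⟨C, hC, ?_⟩
    filter_upwards [h, self_mem_nhdsWithin] with a h1 ha
    obtain ⟨S, hS1, hf, -, h3, h4, -⟩ := h1 (fun i => meshIndex a (x i))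
    rw [dom_weight hb ha]
    refine ⟨S, hS1, hf, h3, fun φ hφ => ?_⟩
    rw [← div_eq_mul_inv]
    exact h4 φ hφ
  · obtain ⟨C, hC, h⟩ := FrAllx887.dom_all_free (n := n) hev
      (hS .plus 1 le_rfl (Or.inl rfl)) (hS .free n hn (Or.inr ⟨rfl, hev⟩)) hD hx (lapp_meshIndex x)
    refine ⟨C, hC, ?_⟩
    filter_upwards [h, self_mem_nhdsWithin] with a h1 ha
    obtain ⟨S, hS1, hf, -, h3, h4, -⟩ := h1
    rw [dom_weight hb ha]
    refine ⟨S, hS1, hf, h3, fun φ hφ => ?_⟩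
    rw [← div_eq_mul_inv]
    exact h4 φ hφ

/-- no insertions -/
theorem goodBg_ev0 {D : Set ℂ} (hD : IsC2JordanDomain D) (b : BoundaryCondition)
    (hbm : b ≠ BoundaryCondition.minus) : ∃ C : ℝ, 0 < C ∧ ∀ᶠ a in 𝓝[>] (0 : ℝ),
      GoodBg (Bg.dom (TT D a) b (fun i : Fin 0 => i.elim0)).w (C * a⁻¹) := by
  have hb : Bornology.IsBounded D := bounded_of_C2 hD
  have hR : b = BoundaryCondition.plus ∨ b = BoundaryCondition.free := by
    cases b
    · exact Or.inr rfl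
    · exact Or.inl rfl
    · exact absurd rfl hbm
  rcases hR with rfl | rfl
  · obtain ⟨C, hC, h⟩ := FrAllx887.dom_all_plus (n := 0) hb
    refine ⟨C, hC, ?_⟩
    filter_upwards [h, self_mem_nhdsWithin] with a h1 ha
    obtain ⟨S, hS1, hf, -, h3, h4, -⟩ := h1 (fun i : Fin 0 => i.elim0)
    rw [dom_weight hb ha]
    refine ⟨S, hS1, hf, h3, fun φ hφ => ?_⟩
    rw [← div_eq_mul_inv]
    exact h4 φ hφ
  · obtain ⟨C, hC, h⟩ := FrZerox887.dom_all_free_zero hb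
    refine ⟨C, hC, ?_⟩
    filter_upwards [h, self_mem_nhdsWithin] with a h1 ha
    obtain ⟨S, hS1, hf, -, h3, h4, -⟩ := h1
    rw [dom_weight hb ha, FrZerox887.wX_zero]
    refine ⟨S, hS1, hf, h3, fun φ hφ => ?_⟩
    rw [← div_eq_mul_inv]
    exact h4 φ hφ

/-! ### the last scale -/

theorem last_eq {w : BW ℤ} (h : Inv w (Sof w)) (c : Cst) (n : ℕ) :
    h.last DD c.p c.k0 n = rem c w n :=
  (remC_eq DD h.skew h.inv h.fin c.p c.k0 n).symm

/-- **the final factor of a family of backgrounds tends to one** -/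
theorem fin_bg {c : Cst} (hp : 1 ≤ c.p) (hΓ : 1 ≤ ENNReal.ofReal c.Γ) (P : MPar)
    {δ Cg Cv : ℝ} (hδ : 0 < δ) (hCg : 0 < Cg) (hCv : 0 ≤ Cv) (B : ℝ → Bg ℤ)
    (hw : ∀ a z j, |(B a).w z j| ≤ 1) (hg : ∀ᶠ a in 𝓝[>] (0 : ℝ), GoodBg (B a).w (Cg * a⁻¹))
    {A : ℕ → ℝ} (hA : Tendsto A atTop atTop) (Λ : ℝ → Finset (ℤ × ℤ))
    (hV : ∀ᶠ a : ℝ in 𝓝[>] 0, ∀ f ∈ Λ a, (fd ((0, 0) : ℤ × ℤ) f : ℝ) ≤ Cv * a⁻¹)
    (hK : Tendsto (fun a : ℝ => NK (B a).w (A (lastK c.p c.k0 (δ * a⁻¹)))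
      (rr c.p c.k0 (lastK c.p c.k0 (δ * a⁻¹))) (ENNReal.ofReal c.Γ) (fun _ => True)
      (fun U => ((fl c P (B a)).K (lastK c.p c.k0 (δ * a⁻¹)) U : Gr (Fld ℤ)))) (𝓝[>] 0) (𝓝 0)) :
    Tendsto (fun a : ℝ => Zf (fl c P (B a)) (Λ a) (lastK c.p c.k0 (δ * a⁻¹))
      (rem c (B a).w (lastK c.p c.k0 (δ * a⁻¹)))) (𝓝[>] 0) (𝓝 1) := by
  set l : Filter ℝ := 𝓝[>] (0 : ℝ) with hl
  let α : Type := {a : ℝ // Inv (B a).w (Sof (B a).w)}
  let m : Filter α := comap (fun a : α => (a : ℝ)) l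
  have hmem : Set.range (fun a : α => (a : ℝ)) ∈ l := by
    filter_upwards [hg] with a ha
    exact ⟨⟨a, ha.inv⟩, rfl⟩
  have hmap : map (fun a : α => (a : ℝ)) m = l := map_comap_of_mem hmem
  have hval : Tendsto (fun a : α => (a : ℝ)) m l := tendsto_comap
  have key := Fin2x315.fin_tendsto_sys (G := ℤ) DD (α := α) (l := m) (by unfold MM; norm_num) hp hδ hCg hCv hΓ
    (fun a : α => (a : ℝ)⁻¹) (tendsto_inv_nhdsGT_zero.comp hval) (fun a : α => (B a).w)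
    (fun a => hw a) (fun a : α => Sof (B a).w) (fun a => a.2)
    (hval.eventually (hg.mono fun a ha f => ha.gap f)) hA (fun _ => ∅)
    (fun a : α => (B a).K0 P LinearMap.id (noSrc ℤ (Ge (Fld ℤ))) c.p c.k0) (fun a : α => Λ a)
    (fun a : α => lastK c.p c.k0 (δ * (a : ℝ)⁻¹)) (Eventually.of_forall fun _ => rfl)
    (fun _ => (0, 0)) (hval.eventually hV) (hK.comp hval)
  rw [← hmap, tendsto_map'_iff]
  refine key.congr fun a => ?_
  simp only [Function.comp_apply]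
  rw [last_eq a.2 c]
  rfl

end Crest.Agent.R165.SRdomAx900
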