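import Crest.Agent.R165.JRunE_445

/-!
# Row 165 (S0250): explicit volumes (helper445)

* `boxV c m` : the faces at distance at most `m` from `c`;  `mem_boxV`
* `vol_boxV` : it is an admissible volume (`JVol_950.Vol`) for `T` in the box of radius `m₀`, if
  `m₀ + R + 2 ≤ m`
* `volA B a R` : explicit volume of the domains `D` in the ball of radius `B` at mesh `a`;
  `volA_vol`, `volA_fd`
-/

set_option autoImplicit false
set_option linter.unusedSectionVars false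

noncomputable section

open Finset Filter Topology
open Crest.ProbabilityR.IsingModel

namespace Crest.Agent.R165.JRunx445

open Crest.Agent.R165.Gr1x606 Crest.Agent.R165.GeOpsx337
open Crest.Agent.R165.Latx683 (Fld HE)
open Crest.Agent.R165.GDefx387
open Crest.Agent.R165.Bkgx683
open Crest.Agent.R165.J2ax606 (bar)
open Crest.Agent.R165.J4Geox126 (faE Yf mem_Yf)
open Crest.Agent.R165.JVolx950
open Crest.Agent.R165.U5Px422 (TT mem_TT)
open Crest.Agent.R165.J4Defx653 (BB thick bx mem_bx)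

/-- the faces at distance at most `m` from `c` -/
def boxV (c : ℤ × ℤ) (m : ℕ) : Finset (ℤ × ℤ) :=
  Icc (c.1 - m) (c.1 + m) ×ˢ Icc (c.2 - m) (c.2 + m)

theorem fd_le_iff {c f : ℤ × ℤ} {m : ℕ} : fd c f ≤ m ↔
    (c.1 - m ≤ f.1 ∧ f.1 ≤ c.1 + m) ∧ (c.2 - m ≤ f.2 ∧ f.2 ≤ c.2 + m) := by
  change max (c.1 - f.1).natAbs (c.2 - f.2).natAbs ≤ m ↔ _
  rw [max_le_iff]
  omega

theorem mem_boxV {c f : ℤ × ℤ} {m : ℕ} : f ∈ boxV c m ↔ fd c f ≤ m := by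
  unfold boxV
  rw [mem_product, mem_Icc, mem_Icc, fd_le_iff]

theorem boxV_mono {c : ℤ × ℤ} {m m' : ℕ} (h : m ≤ m') : boxV c m ⊆ boxV c m' := fun _ hf =>
  mem_boxV.2 ((mem_boxV.1 hf).trans h)

theorem bar_box {c : ℤ × ℤ} {m : ℕ} {h : HE ℤ} (hh : h.1 ∈ boxV c m) :
    (bar h).1 ∈ boxV c (m + 1) := by
  rw [mem_boxV, fd_le_iff] at hh ⊢
  unfold bar
  push_cast
  split_ifs
  all_goals simp only [Prod.fst_sub, Prod.snd_sub, Prod.fst_add, Prod.snd_add]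
  all_goals omega

/-- **the box is an admissible volume** -/
theorem vol_boxV {T : Finset (ℤ × ℤ)} {b : BoundaryCondition} {R : ℕ} {c : ℤ × ℤ} {m₀ m : ℕ}
    (hT : ∀ z ∈ T, fd c z ≤ m₀) (hm : m₀ + R + 2 ≤ m) {κ : Type} {Ys : κ → Finset (ℤ × ℤ)}
    (hY : ∀ k, Ys k ⊆ boxV c m) : Vol T b R Ys (boxV c m) := by
  have hW : ∀ f ∈ Wf T, f ∈ boxV c (m₀ + 1) := by
    intro f hf
    rw [mem_Wf] at hf
    rw [mem_boxV, fd_le_iff]
    unfold cor at hf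
    rcases hf with h | h | h | h
    all_goals
      have h1 := fd_le_iff.1 (hT _ h)
      push_cast
      omega
  refine ⟨fun f hf => boxV_mono (by omega) (hW f hf), fun h hh =>
    boxV_mono (by omega) (bar_box (hW _ hh)), fun S hS f hf => ?_, hY⟩
  have hS1 : S ⊆ thick T R := by
    have h1 := (mem_filter.1 hS).1
    exact mem_powerset.1 h1
  have hS2 : ∀ p ∈ S, fd c p ≤ m₀ + R := by
    intro p hp
    obtain ⟨z, hz, hzp⟩ := mem_biUnion.1 (hS1 hp)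
    obtain ⟨x, hx, rfl⟩ := mem_image.1 hzp
    have h1 := fd_le_iff.1 (hT z hz)
    have h2 := mem_bx.1 hx
    rw [abs_le, abs_le] at h2
    rw [fd_le_iff]
    push_cast
    simp only [Prod.fst_add, Prod.snd_add]
    omega
  rw [mem_Yf] at hf
  obtain ⟨⟨p, hp, h1⟩, ⟨q, hq, h2⟩, ⟨r, hr, h3⟩, ⟨s, hs, h4⟩⟩ := hf
  have hp' := fd_le_iff.1 (hS2 p hp)
  have hq' := fd_le_iff.1 (hS2 q hq)
  have hr' := fd_le_iff.1 (hS2 r hr)
  have hs' := fd_le_iff.1 (hS2 s hs)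
  push_cast at hp' hq' hr' hs'
  rw [mem_boxV, fd_le_iff]
  omega

theorem volN_boxV {T : Finset (ℤ × ℤ)} (b : BoundaryCondition) (R : ℕ) {c : ℤ × ℤ} {m₀ : ℕ}
    (hT : ∀ z ∈ T, fd c z ≤ m₀) : VolN T b R (boxV c (m₀ + R + 2)) :=
  vol_boxV hT le_rfl fun k => k.elim0

/-! ### domains -/

/-- explicit volume of the domains in the ball of radius `B` at mesh `a` -/
def volA (B a : ℝ) (R : ℕ) : Finset (ℤ × ℤ) := boxV (0, 0) (⌊B / a⌋₊ + R + 2)

theorem fd_TT {D : Set ℂ} {B : ℝ} (hD : ∀ z ∈ D, ‖z‖ ≤ B) {a : ℝ} (ha : 0 < a) {z : ℤ × ℤ}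
    (hz : z ∈ domainSites D a) : fd ((0, 0) : ℤ × ℤ) z ≤ ⌊B / a⌋₊ := by
  have hz0 : z ∈ domainSites D a := hz
  obtain ⟨h1, h2⟩ := GapFinx40.sites_le hD ha z hz0
  have h3 : (fd ((0, 0) : ℤ × ℤ) z : ℝ) ≤ B / a := Fin3x315.fd_le_real h1 h2
  exact Nat.le_floor h3

theorem volA_vol {D : Set ℂ} {B : ℝ} (hD : ∀ z ∈ D, ‖z‖ ≤ B) {a : ℝ} (ha : 0 < a)
    (b : BoundaryCondition) (R : ℕ) : VolN (TT D a) b R (volA B a R) := by
  refine volN_boxV b R fun z hz => fd_TT hD ha ?_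
  unfold TT at hz
  split_ifs at hz with h
  · exact h.mem_toFinset.1 hz
  · exact absurd hz (notMem_empty _)

theorem volA_fd {B : ℝ} (hB : 0 ≤ B) {a : ℝ} (ha : 0 < a) (ha1 : a ≤ 1) {R : ℕ} {f : ℤ × ℤ}
    (hf : f ∈ volA B a R) : (fd ((0, 0) : ℤ × ℤ) f : ℝ) ≤ (B + R + 2) / a := by
  have h1 := mem_boxV.1 hf
  have h2 : (fd ((0, 0) : ℤ × ℤ) f : ℝ) ≤ (⌊B / a⌋₊ : ℝ) + R + 2 := by exact_mod_cast h1
  have h3 : (⌊B / a⌋₊ : ℝ) ≤ B / a := Nat.floor_le (by positivity)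
  have h4 : (R : ℝ) + 2 ≤ (R + 2) / a := by
    rw [le_div_iff₀ ha]
    nlinarith [Nat.cast_nonneg (α := ℝ) R]
  have h5 : (B + R + 2) / a = B / a + (R + 2) / a := by ring
  rw [h5]
  linarith

end Crest.Agent.R165.JRunx445
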