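import Crest.Agent.R165.SrcSys_991
import Crest.Agent.R165.SrcLin_336
import Crest.Agent.R165.Bkg_683
import Crest.Agent.R165.GSysOK_439
import Crest.Agent.R165.GSys2_387

/-!
# Row 165 (S0250), P11: the concrete bond sources (helper991), `G = ℤ`

* `uB w e = -(2 * w e)`, `beB w e` : the leading form of the bond `e`
* `cS w z` : coefficient of the light modes in the canonical chart at the face `z`
* `srcD w e he` : the data of the bond sources
* `dpS w mk l k0 n i` : the source `i` is deep at step `n`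
* `Bg.flowP` : the flow with bond sources; `flowP_eq`, `flowP_flowS`, `flowP_OK`
* `zeP`, `ppP` : running coefficient and remainder
* `srcAt_of_emb` : 336's `SrcAt` at deep sources
* `linP_eq` : `linP` is 336's `linR`
-/

set_option autoImplicit false
set_option linter.unusedSectionVars false

noncomputable section

namespace Crest.Agent.R165.SrcInsx991

open scoped ENNReal
open Crest.Agent.R165.Gr0x606 Crest.Agent.R165.Gr1x606 Crest.Agent.R165.GeOpsx337
open Crest.Agent.R165.ExpGx337 Crest.Agent.R165.KFlowx337 Crest.Agent.R165.GSysx387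
open Crest.Agent.R165.SrcDefx991 Crest.Agent.R165.SrcSysx991 Crest.Agent.R165.PStepx417
open Crest.Agent.R165.GDefx387 Crest.Agent.R165.PNormx417
open Crest.Agent.R165.GrLocx337 Crest.Agent.R165.FRDPolyx439 Crest.Agent.R165.Bkgx683
open Crest.Agent.R165.J4Geox126 Crest.Agent.R165.PlaneModesx901 Crest.Agent.R165.PlaneLocx901
open Crest.Agent.R165.Locx901 Crest.Agent.R165.BgIsox432 Crest.Agent.R165.SrcLinx336
open Crest.Agent.R165.Srcx336 Crest.Agent.R165.WChx336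
open Crest.Agent.R165.J1ax606 (pe qe)
open Crest.Agent.R165.Latx683 (xc wPl wDom wX BW HE Fld hp hq yE yN)

theorem pe_hp (z : ℤ × ℤ) (j : Fin 2) : pe (z, j) = hp z j := by
  fin_cases j
  · rfl
  · simp [pe, hp, Prod.ext_iff]

theorem qe_hq (z : ℤ × ℤ) (j : Fin 2) : qe (z, j) = hq z j := by
  fin_cases j
  · simp [qe, hq, Prod.ext_iff]
  · rfl

/-! ### the bond forms -/

/-- the constant `-2 w_e` of the bond `e` -/
def uB (w : BW ℤ) (e : Bkgx683.EG ℤ) : ℝ := -(2 * w e.1 e.2)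

/-- the bilinear of the bond `e` -/
def bE (e : Bkgx683.EG ℤ) : Ge (Fld ℤ) := bi (Finsupp.single (pe e) 1) (Finsupp.single (qe e) 1)

/-- the leading form of the bond `e` -/
def beB (w : BW ℤ) (e : Bkgx683.EG ℤ) : Ge (Fld ℤ) := uB w e • bE e

theorem coe_bE (e : Bkgx683.EG ℤ) : ((bE e : Ge (Fld ℤ)) : Gr (Fld ℤ)) = Latx683.bb e.1 e.2 := by
  obtain ⟨z, j⟩ := e
  rw [bE, coe_bi, pe_hp, qe_hq]
  rfl

theorem cvG_bE (S : Cov (Fld ℤ)) (e : Bkgx683.EG ℤ) : cvG S (bE e) = bE e +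
    algebraMap ℝ _ (S.b (Finsupp.single (pe e) 1) (Finsupp.single (qe e) 1)) := by
  apply ge_ext
  rw [coe_cvG, bE, coe_bi, conv_two, Ge.coe_add, ge_coe_algebraMap, coe_bi]

theorem ctG_bE (e : Bkgx683.EG ℤ) : ctG (bE e) = 0 := by
  rw [ctG_apply, bE, coe_bi]; simp

/-! ### the coefficient functional -/

/-- the coefficient of the light modes in the canonical chart at the face `z` -/
def cS (w : BW ℤ) (z : ℤ × ℤ) : Ge (Fld ℤ) →ₗ[ℝ] ℝ :=
  cMass ∘ₗ (mp (chP w z)).toLinearMap ∘ₗ (geVal (Fld ℤ)).toLinearMap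

theorem cS_apply (w : BW ℤ) (z : ℤ × ℤ) (a : Ge (Fld ℤ)) :
    cS w z a = cMass (mp (chP w z) (a : Gr (Fld ℤ))) := rfl

theorem cS_cC (w : BW ℤ) (z : ℤ × ℤ) (a : Ge (Fld ℤ)) :
    cS w z a = cC (tauC z) (gp w z) (a : Gr (Fld ℤ)) := rfl

theorem cS_const (w : BW ℤ) (z : ℤ × ℤ) (c : ℝ) : cS w z (algebraMap ℝ _ c) = 0 := by
  rw [cS_apply, ge_coe_algebraMap, AlgHom.commutes, cMass, formL_apply, form_algebraMap]

theorem chP_hp (w : BW ℤ) (z : ℤ × ℤ) (j : Fin 2) :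
    mp (chP w z) (Latx683.bb z j) =
      (gp w z (hp z j).1 * gp w z (hq z j).1) • Latx683.bb (0 : ℤ × ℤ) j := by
  have e1 : ∀ h : HE ℤ, mp (chP w z) (Latx683.ph h) = gp w z h.1 • Latx683.ph (h.1 - z, h.2) := by
    intro h
    rw [Latx683.ph, mp_fi, chP_single, one_smul, fi_smul, Latx683.ph]
    congr 3
    ext <;> simp [tauC]
  rw [Latx683.bb, map_mul, e1, e1, smul_mul_smul_comm, Latx683.bb]
  fin_cases j
  · have e0 : ((z.1, z.2 - 1) : ℤ × ℤ) - z = (0, -1) := by ext <;> simp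
    simp [hp, hq, e0]
  · have e0 : ((z.1 - 1, z.2) : ℤ × ℤ) - z = (-1, 0) := by ext <;> simp
    simp [hp, hq, e0]

theorem cS_bE (w : BW ℤ) (e : Bkgx683.EG ℤ) :
    cS w e.1 (bE e) = -(gp w e.1 (pe e).1 * gp w e.1 (qe e).1) := by
  obtain ⟨z, j⟩ := e
  rw [cS_apply, coe_bE, chP_hp, map_smul, cMass_bb, smul_eq_mul, pe_hp, qe_hq]
  ring

theorem abs_cS_bE (w : BW ℤ) (e : Bkgx683.EG ℤ) : |cS w e.1 (bE e)| = 1 := by
  have h1 := gp_sq w e.1 (pe e).1
  have h2 := gp_sq w e.1 (qe e).1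
  have h3 : ∀ a : ℝ, a * a = 1 → |a| = 1 := fun a ha => by
    rcases mul_self_eq_one_iff.1 ha with h | h <;> rw [h] <;> simp
  rw [cS_bE, abs_neg, abs_mul, h3 _ h1, h3 _ h2, one_mul]

theorem cS_bE_ne (w : BW ℤ) (e : Bkgx683.EG ℤ) : cS w e.1 (bE e) ≠ 0 := by
  intro h
  have := abs_cS_bE w e
  rw [h, abs_zero] at this
  exact one_ne_zero this.symm

theorem cS_beB (w : BW ℤ) (e : Bkgx683.EG ℤ) : cS w e.1 (beB w e) = uB w e * cS w e.1 (bE e) := by
  rw [beB, map_smul, smul_eq_mul]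

theorem cS_beB_ne {w : BW ℤ} {e : Bkgx683.EG ℤ} (he : w e.1 e.2 ≠ 0) :
    cS w e.1 (beB w e) ≠ 0 := by
  rw [cS_beB]
  refine mul_ne_zero ?_ (cS_bE_ne w e)
  rw [uB]
  exact neg_ne_zero.2 (mul_ne_zero two_ne_zero he)

/-- the coefficient of the leading form -/
def muB (w : BW ℤ) (e : Bkgx683.EG ℤ) : Ge (Fld ℤ) →ₗ[ℝ] ℝ :=
  (cS w e.1 (beB w e))⁻¹ • cS w e.1

theorem muB_apply (w : BW ℤ) (e : Bkgx683.EG ℤ) (a : Ge (Fld ℤ)) :
    muB w e a = (cS w e.1 (beB w e))⁻¹ * cS w e.1 a := rfl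

variable {m : ℕ}

/-- **the data of the bond sources** -/
def srcD (w : BW ℤ) (e : Fin m → Bkgx683.EG ℤ) (he : ∀ i, w (e i).1 (e i).2 ≠ 0) :
    SData ℤ (Fld ℤ) m where
  sf i := faE (e i)
  ne i := faE_nonempty (e i)
  mu i := muB w (e i)
  β i := beB w (e i)
  mu_β i := by rw [muB_apply, inv_mul_cancel₀ (cS_beB_ne (he i))]
  mu_const i c := by rw [muB_apply, cS_const, mul_zero]
  cv_β i S := by
    have h : ctG (cvG S (beB w (e i))) =
        uB w (e i) * S.b (Finsupp.single (pe (e i)) 1) (Finsupp.single (qe (e i)) 1) := by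
      rw [beB, map_smul, cvG_bE, map_smul, map_add, ctG_bE, zero_add, AlgHom.commutes]
      rfl
    rw [h, beB, map_smul, cvG_bE, smul_add, map_mul, Algebra.smul_def (uB w (e i))
      (algebraMap ℝ (Ge (Fld ℤ)) _)]
  ct_β i := by rw [beB, map_smul, ctG_bE, smul_zero]

section data

variable (w : BW ℤ) (e : Fin m → Bkgx683.EG ℤ) (he : ∀ i, w (e i).1 (e i).2 ≠ 0)

@[simp] theorem srcD_sf (i : Fin m) : (srcD w e he).sf i = faE (e i) := rfl
@[simp] theorem srcD_mu (i : Fin m) : (srcD w e he).mu i = muB w (e i) := rfl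
@[simp] theorem srcD_β (i : Fin m) : (srcD w e he).β i = beB w (e i) := rfl

/-- the constant created by the convolution of the leading form -/
theorem ctG_beB (S : Cov (Fld ℤ)) (e : Bkgx683.EG ℤ) : ctG (cvG S (beB w e)) =
    uB w e * S.b (Finsupp.single (pe e) 1) (Finsupp.single (qe e) 1) := by
  rw [beB, map_smul, cvG_bE, map_smul, map_add, ctG_bE, zero_add, AlgHom.commutes]
  rfl

theorem EEG_beB (S : Cov (Fld ℤ)) (e : Bkgx683.EG ℤ) : EEG S (beB w e) =
    uB w e * S.b (Finsupp.single (pe e) 1) (Finsupp.single (qe e) 1) := by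
  rw [← ctG_cvG, ctG_beB]

theorem bE_mem (e : Bkgx683.EG ℤ) : bE e ∈ grG (fldU (faE e)) := by
  rw [mem_grG]
  have h1 : (pe e).1 ∈ nbhd 1 (faE e) := ⟨(pe e).1, Finset.mem_insert_self _ _, by simp⟩
  have h2 : (qe e).1 ∈ nbhd 1 (faE e) :=
    ⟨(qe e).1, Finset.mem_insert_of_mem (Finset.mem_singleton_self _), by simp⟩
  exact mul_mem (fi_mem_gr (single_mem_fldS h1 1)) (fi_mem_gr (single_mem_fldS h2 1))

theorem beB_mem (e : Bkgx683.EG ℤ) : beB w e ∈ grG (fldU (faE e)) :=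
  Subalgebra.smul_mem _ (bE_mem e) _

end data

/-! ### the flow with sources -/

/-- the source `i` is deep at step `n` -/
def dpS (w : BW ℤ) (mk : Finset (ℤ × ℤ)) (l k0 : ℕ) (e : Fin m → Bkgx683.EG ℤ) (n : ℕ)
    (i : Fin m) : Prop := ∀ f ∈ faE (e i), deep w mk l k0 n f

/-- the extraction of the source terms at step `n` -/
def srcX (w : BW ℤ) (mk : Finset (ℤ × ℤ)) (l k0 : ℕ) (e : Fin m → Bkgx683.EG ℤ)
    (he : ∀ i, w (e i).1 (e i).2 ≠ 0) (n : ℕ) : Extr (ℤ × ℤ) (VS (Fld ℤ) m) :=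
  srcE (rr l k0 n) (srcD w e he).sf (srcD w e he).ne (dpS w mk l k0 e n) (srcD w e he).mu
    (srcD w e he).β

section flow

variable (B : Bg ℤ) (P : MPar) {M K : ℕ} (D : FRD 16 M K) (mk : Finset (ℤ × ℤ))
  (e : Fin m → Bkgx683.EG ℤ) (he : ∀ i, B.w (e i).1 (e i).2 ≠ 0) (l k0 : ℕ)

/-- the flow without sources -/
def flow0 : Sys (ℤ × ℤ) (Fld ℤ) := B.flow P D mk (noSrc ℤ (Ge (Fld ℤ))) l k0

/-- the initial activities with sources -/
def K0P : Finset (ℤ × ℤ) → Ge (VS (Fld ℤ) m) :=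
  B.K0 P (LinearMap.inl ℝ (Fld ℤ) (Src m)) (bondSrc (Fld ℤ) e) l k0

/-- **the flow with bond sources** -/
def flowP : Sys (ℤ × ℤ) (VS (Fld ℤ) m) :=
  sysP (flow0 B P D mk l k0) (srcD B.w e he) (rr l k0) (dpS B.w mk l k0 e)
    (fldUS fun i => faE (e i)) (K0P B P e l k0)

theorem flowP_eq : flowP B P D mk e he l k0 =
    sysP (flow0 B P D mk l k0) (srcD B.w e he) (rr l k0) (dpS B.w mk l k0 e)
      (fldUS fun i => faE (e i)) (K0P B P e l k0) := rfl

/-- the flow with bond sources is 683's `flowS` -/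
theorem flowP_flowS : flowP B P D mk e he l k0 =
    B.flowS P D mk e (srcX B.w mk l k0 e he) l k0 := rfl

/-- the running coefficients (start value `1`; `zeP (n+1)` does not depend on the start value) -/
def zeP (n : ℕ) (i : Fin m) : ℝ :=
  zeta (flow0 B P D mk l k0) (srcD B.w e he) (rr l k0) (dpS B.w mk l k0 e)
    (fldUS fun i => faE (e i)) (K0P B P e l k0) (fun _ => 1) n i

/-- the remainders -/
def ppP (n : ℕ) (U : Finset (ℤ × ℤ)) : Ge (VS (Fld ℤ) m) :=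
  PP (flow0 B P D mk l k0) (srcD B.w e he) (rr l k0) (dpS B.w mk l k0 e)
    (fldUS fun i => faE (e i)) (K0P B P e l k0) (fun _ => 1) n U

theorem zeP_zero (i : Fin m) : zeP B P D mk e he l k0 0 i = 1 := rfl

theorem flowP_K (n : ℕ) (U : Finset (ℤ × ℤ)) : (flowP B P D mk e he l k0).K n U =
    inG m ((flow0 B P D mk l k0).K n U) + LEAD (srcD B.w e he) (zeP B P D mk e he l k0 n) U +
      ppP B P D mk e he l k0 n U := K_eq_PP _ n U

variable {l k0}

/-- **`Sys.OK` for the flow with bond sources** -/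
theorem flowP_OK (hK : 16 ≤ K) (h : 5 ≤ l * (k0 + 1))
    (h0 : ∀ U, K0P B P e l k0 U ∈ grG (fldUS (fun i => faE (e i)) U)) :
    (flowP B P D mk e he l k0).OK (srcW (Fld ℤ) m) := by
  rw [flowP_flowS]
  exact GSysOKx439.sysS_OK D hK B.w mk h _
    (fun n U T _ a _ => srcE_X_mem (rr l k0 n) (srcD B.w e he) (dpS B.w mk l k0 e n)
      (fun i => beB_mem B.w (e i)) U T a) h0

end flow

end Crest.Agent.R165.SrcInsx991
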