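import Crest.Agent.R165.SrcDom_697
import Crest.Agent.R165.SrcIns_991
import Crest.Agent.R165.Fin4_315
import Crest.Agent.R165.JRunV_445

/-!
# Row 165 (S0250), leaf P11: sources in domains, the exact identities (helper697)

* `c0D` : the unperturbed constants of the bonds after `N` steps
* `runPack_dom` : `RunPack` of the energy ratios of a domain from `FinL` for the flow `flowP`
-/

set_option autoImplicit false
set_option linter.unusedSectionVars false
set_option linter.unusedVariables false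

noncomputable section

namespace Crest.Agent.R165.SrcDomx697

open Finset Filter Topology
open scoped ENNReal
open Crest.ProbabilityR.IsingModel
open Crest.Agent.R165.KStepx892
open Crest.Agent.R165.Gr0x606 Crest.Agent.R165.Gr1x606 Crest.Agent.R165.GeOpsx337
  Crest.Agent.R165.ExpGx337 Crest.Agent.R165.KFlowx337
open Crest.Agent.R165.SrcDefx991 (VS Src tau ext0 inG coP)
open Crest.Agent.R165.SrcCmpx441
open Crest.Agent.R165.Latx683 (BW wDom wX IsCov covS Fld HE)
open Crest.Agent.R165.GDefx387 Crest.Agent.R165.GSysx387 Crest.Agent.R165.FRDPolyx439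
  Crest.Agent.R165.BgIsox432 Crest.Agent.R165.PStepx417
open Crest.Agent.R165.Bkgx683 (MPar mpar Bg cor bondSrc)
open Crest.Agent.R165.Outx683 (DD)
open Crest.Agent.R165.J4Geox126 (faE)
open Crest.Agent.R165.J1ax606 (pe qe)
open Crest.Agent.R165.JRunSx408 (SrcOK eb xb q_run q0_run VolS)
open Crest.Agent.R165.JRunx445 (Links dom_w)
open Crest.Agent.R165.JVolx950 (Vol)
open Crest.Agent.R165.Fin2x315
open Crest.Agent.R165.SrcInsx991
open Crest.Agent.R165.UKerx420 (wD Cof Sof Sof_spec Sof_skew)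
open Crest.Agent.R165.UFinx420 (isF)
open Crest.Agent.R165.Centx541 Crest.Agent.R165.Redx541 Crest.Agent.R165.Symx541
  Crest.Agent.R165.Red2x541 Crest.Agent.R165.Topx683 Crest.Agent.R165.SRx541

/-- the unperturbed constant of the bond `e` after `N` steps in the background `w` -/
def c0D {M K : ℕ} (Dd : FRD 16 M K) (w : BW ℤ) (l k0 N : ℕ) (e : Bkgx683.EG ℤ) : ℝ :=
  1 - e0 + uB w e * ∑ k ∈ range N,
    (slC Dd w l k0 k).b (Finsupp.single (pe e) 1) (Finsupp.single (qe e) 1)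

theorem c0D_eq {M K : ℕ} (Dd : FRD 16 M K) (w : BW ℤ) (l k0 N : ℕ) (e : Bkgx683.EG ℤ) :
    c0D Dd w l k0 N e = 1 - e0 + ∑ k ∈ range N, EEG (slC Dd w l k0 k) (beB w e) := by
  rw [c0D, mul_sum]
  congr 1
  exact sum_congr rfl fun k _ => (EEG_beB w _ e).symm

/-- admissible volumes of 950 are admissible for 408 -/
theorem volS_of_vol {T : Finset (ℤ × ℤ)} {b : BoundaryCondition} {R m : ℕ}
    {e : Fin m → Bkgx683.EG ℤ} {Λ : Finset (ℤ × ℤ)}
    (v : Vol T b R (fun k => faE (e k)) Λ) : VolS T b R e Λ :=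
  ⟨v.BB, fun _ h => v.W (JVolx950.mem_Wf.2 h), fun h hh => v.nb h (JVolx950.mem_Wf.2 hh), v.src⟩

section

variable {D : Set ℂ} {a : ℝ} {b : BoundaryCondition} {n m : ℕ} {x : Fin n → ℂ} {y : Fin m → ℂ}
  {j : Fin m → Fin 2}

/-- **`RunPack` in a domain** from the data at the last good scale -/
theorem runPack_dom (H : SrcOK D a b x y j) (hX : Links D a b (xb a x)) {T : Finset (ℤ × ℤ)}
    (hT : T = H.fin.toFinset) {J lam : ℝ} {R : ℕ} {V : Finset (ℤ × ℤ) → ℝ} {β z : ℝ}
    (hJ : J ≠ 0) (hV : VHyp R V) (hz : 0 < 1 + z) (c : Fin m → ℝ) {Λ : Finset (ℤ × ℤ)}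
    (hΛ : Vol T b (max R 1) (fun k => faE (eb a y j k)) Λ)
    (he : ∀ i, (Bg.dom T b (xb a x)).w (eb a y j i).1 (eb a y j i).2 ≠ 0)
    {l k0 : ℕ} (h5 : 5 ≤ l * (k0 + 1)) (N : ℕ)
    (hinv : Inv (Bg.dom T b (xb a x)).w (Sof (Bg.dom T b (xb a x)).w))
    (hsep : ∀ i i', i ≠ i' → nearR l k0 (N - 1) < fd (eb a y j i).1 (eb a y j i').1)
    {ζ : Fin m → ℝ} {g : Fld ℤ → ℝ≥0∞} {v ε M Ze A κ : ℝ}
    (hL : FinL (flowP (Bg.dom T b (xb a x)) (mpar J lam R V β z) DD ∅ (eb a y j) he l k0)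
      (near l k0 N) Λ N (fun i => faE (eb a y j i)) ζ (fun i => 1 - c i)
      (fun i => c0D DD (Bg.dom T b (xb a x)).w l k0 N (eb a y j i))
      (fun i => beB (Bg.dom T b (xb a x)).w (eb a y j i))
      (hinv.last DD l k0 N) g v ε M Ze)
    (hκ : κ ≤ a * (A ^ 2 * v ^ 2)) :
    RunPack m (domMom D a b J lam R V β x y j c / spm D a b J lam R V β x)
      (Ze ^ m * (D0c D a b x y j / spm0 D a b x)) a A ((1 + m * M + m + 2 ^ m) * ε)
      (2 * (m * M)) κ := by
  subst hT
  have hw : wD (isF b) D a (xb a x) = (Bg.dom H.fin.toFinset b (xb a x)).w :=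
    (dom_w H.fin (xb a x)).symm
  have hS : Cof (wD (isF b) D a (xb a x)) =
      hinv.last DD l k0 N + ∑ k ∈ range N, slC DD (wD (isF b) D a (xb a x)) l k0 k := by
    rw [hw]
    exact hinv.full_eq DD l k0 N
  have hok := flowP_OK (Bg.dom H.fin.toFinset b (xb a x)) (mpar J lam R V β z) DD ∅ (eb a y j) he
    (by norm_num) h5 (fun U => JVolx950.K0_fldUS (Bg.dom H.fin.toFinset b (xb a x))
      (mpar J lam R V β z) (eb a y j) l k0 U)
  have hq := q_run H (z := z) (lam := lam) (β := β) hJ hV.trans hV.range hV.even hz c (volS_of_vol hΛ)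
    DD ∅ l k0 N (srcX (Bg.dom H.fin.toFinset b (xb a x)).w ∅ l k0 (eb a y j) he) hok
    (hinv.last DD l k0 N) hS
    (fun u hu v => by
      have h1 : u.1 = 0 := hu
      rw [SrcDefx991.ext0_b, h1, map_zero, LinearMap.zero_apply])
    (fun U hU => hΛ.supp (LinearMap.inl ℝ (Fld ℤ) (Src m)) U hU)
  have hq0 := q0_run H DD l k0 N (hinv.last DD l k0 N) hS
    (fun k hk i i' hii => JRunSx408.slC_sep DD (by norm_num) _ h5 (hsep i i' hii) k hk)
  refine hL.runPack (q := domMom D a b J lam R V β x y j c / spm D a b J lam R V β x)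
    (q0 := D0c D a b x y j / spm0 D a b x) hκ hq ?_
  rw [hq0, hw]
  rfl

end

end Crest.Agent.R165.SrcDomx697
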