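import Crest.Agent.R165.EnW_359
import Crest.Agent.R165.SrcDomB_697
import Crest.Agent.R165.SRdomA_900
import Crest.Agent.R165.DiscK_892
import Crest.Agent.R165.Out_683

/-!
# Row 165 (S0250), leaf P11 item 8: large plus discs, the eventual side (helper359)

* `sep_ev` : the lattice points are separated by `c / a`; `sep_k1` : separation of the sources at the
  last fine step `k1 p k0 u a`, `2 ^ p * u ≤ c`
* `e2D` : the source extraction of `SrcIns_991` for the steps `< K₁`, none afterwards; `flD_OK`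
* `DiscEv` : everything `runPack_of` asks from the disc, except `FinE`; `disc_ev` : it holds
  eventually along `dl`
* `DiscEv.runPack` : **`RunPack` from `FinE` only**
-/

set_option autoImplicit false
set_option linter.unusedSectionVars false
set_option linter.unusedVariables false

noncomputable section

open Filter Topology Finset
open Crest.ProbabilityR.IsingModel

namespace Crest.Agent.R165.EnWx359

open scoped ENNReal
open Crest.Agent.R165.Gr0x606 Crest.Agent.R165.Gr1x606 Crest.Agent.R165.J1ax606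
open Crest.Agent.R165.GeOpsx337 Crest.Agent.R165.ExpGx337 Crest.Agent.R165.KStepx892
  Crest.Agent.R165.KFlowx337 Crest.Agent.R165.KInitx892
open Crest.Agent.R165.SrcDefx991 (VS Src th th' tau tauP ext0 inG noS vacH vacS coP wS vS GS ext0_b)
open Crest.Agent.R165.J4Defx653 Crest.Agent.R165.J4Geox126
open Crest.Agent.R165.JRunSx408 Crest.Agent.R165.JDomAx606
open Crest.Agent.R165.Bkgx683 (MPar mpar bondSrc Bg)
open Crest.Agent.R165.Latx683 (BW wDom ray wX IsCov covS formS Fld)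
open Crest.Agent.R165.Centx541 Crest.Agent.R165.Redx541 Crest.Agent.R165.Symx541
  Crest.Agent.R165.Red2x541 Crest.Agent.R165.Topx683 Crest.Agent.R165.SRx541
open Crest.Agent.R165.UKerx420 (wD Cof Sof Sof_spec Sof_skew)
open Crest.Agent.R165.UFinx420 (isF)
open Crest.Agent.R165.GDefx387 Crest.Agent.R165.GSysx387 Crest.Agent.R165.FRDPolyx439
  Crest.Agent.R165.BgIsox432
open Crest.Agent.R165.SrcFinx441 (lead)
open Crest.Agent.R165.SrcCmpx441 (FinE RunPack ratio ratio_lead_Ze)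
open Crest.Agent.R165.SrcTailx441 (shift shift_OK ratio_run)
open Crest.Agent.R165.SrcInsx991 (uB bE beB beB_mem srcX srcD dpS)
open Crest.Agent.R165.DiscKx892 Crest.Agent.R165.CovPkgx359
open Crest.Agent.R165.SRdomAx900 (Lam)
open Crest.Agent.R165.Outx683 (DD)

/-! ### separation -/

theorem fd_real (f g : ℤ × ℤ) : (fd f g : ℝ) = PlGapx887.dm f g := by
  have e : fd f g = max (f.1 - g.1).natAbs (f.2 - g.2).natAbs := rfl
  rw [e, Nat.cast_max, Nat.cast_natAbs, Nat.cast_natAbs]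
  unfold PlGapx887.dm
  push_cast
  rw [abs_sub_comm (f.1 : ℝ), abs_sub_comm (f.2 : ℝ)]

/-- distinct points are separated by `c / a` on the lattice -/
theorem sep_ev {N : ℕ} {z : Fin N → ℂ} (hz : Function.Injective z) : ∃ c : ℝ, 0 < c ∧
    ∀ᶠ a in 𝓝[>] (0 : ℝ), ∀ i i', i ≠ i' →
      c / a ≤ (fd (meshIndex a (z i)) (meshIndex a (z i')) : ℝ) := by
  obtain ⟨d, hd0, hd⟩ := FrDomx887.exists_sep hz
  refine ⟨d / 4, by linarith, ?_⟩
  filter_upwards [FrDomx887.lapp_sep (U5Px422.lapp_meshIndex z) hd0 hd] with a ha i i' hii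
  rw [fd_real]
  exact ha i i' hii

/-- **separation at the last fine step** -/
theorem sep_k1 {N : ℕ} {z : Fin N → ℂ} (hz : Function.Injective z) : ∃ c : ℝ, 0 < c ∧
    ∀ (p k0 : ℕ) (u : ℝ), 0 < u → 2 ^ p * u ≤ c → ∀ᶠ a in 𝓝[>] (0 : ℝ), ∀ i i', i ≠ i' →
      nearR p k0 (k1 p k0 u a) + 2 < fd (meshIndex a (z i)) (meshIndex a (z i')) := by
  obtain ⟨c, hc, h⟩ := sep_ev hz
  refine ⟨c, hc, fun p k0 u hu hpu => ?_⟩
  filter_upwards [h, ev_div (M := (2 : ℝ) ^ (p * k0)) hu, ev_div (M := 3) hc,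
    self_mem_nhdsWithin] with a h1 h2 h3 ha i i' hii
  have ha : 0 < a := ha
  have h4 := h1 i i' hii
  have h5 := rr_le_k1 (p := p) (k0 := k0) h2 (le_refl (k1 p k0 u a))
  have h6 : (nearR p k0 (k1 p k0 u a) : ℝ) ≤ 2 ^ p * (u / a) / 8 := by
    unfold nearR
    refine Nat.cast_div_le.trans ?_
    rw [rr_succ]
    push_cast
    have : (0 : ℝ) ≤ 2 ^ p := by positivity
    have := mul_le_mul_of_nonneg_left h5 this
    linarith
  have h7 : 2 ^ p * (u / a) ≤ c / a := by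
    rw [← mul_div_assoc]
    exact div_le_div_of_nonneg_right hpu ha.le
  have h8 : ((nearR p k0 (k1 p k0 u a) + 2 : ℕ) : ℝ) <
      (fd (meshIndex a (z i)) (meshIndex a (z i')) : ℝ) := by
    push_cast
    linarith
  exact_mod_cast h8

/-! ### the source extraction up to `K₁` -/

/-- the extraction of the source terms for the steps `< K₁`, none afterwards -/
def e2D {m : ℕ} (w : BW ℤ) (mk : Finset (ℤ × ℤ)) (l k0 : ℕ) (e : Fin m → EG ℤ)
    (he : ∀ i, w (e i).1 (e i).2 ≠ 0) (K₁ n : ℕ) : Extr (ℤ × ℤ) (VS (Fld ℤ) m) :=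
  if n < K₁ then srcX w mk l k0 e he n else Extr.none _ _

theorem e2D_lt {m : ℕ} {w : BW ℤ} {mk : Finset (ℤ × ℤ)} {l k0 : ℕ} {e : Fin m → EG ℤ}
    {he : ∀ i, w (e i).1 (e i).2 ≠ 0} {K₁ n : ℕ} (h : n < K₁) :
    e2D w mk l k0 e he K₁ n = srcX w mk l k0 e he n := if_pos h

theorem e2D_ge {m : ℕ} {w : BW ℤ} {mk : Finset (ℤ × ℤ)} {l k0 : ℕ} {e : Fin m → EG ℤ}
    {he : ∀ i, w (e i).1 (e i).2 ≠ 0} {K₁ n : ℕ} (h : K₁ ≤ n) :
    e2D w mk l k0 e he K₁ n = Extr.none _ _ := if_neg (not_lt.2 h)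

/-- **`Sys.OK`** of the flow with bond sources -/
theorem flS_OK {m : ℕ} (B : Bg ℤ) (P : MPar) {M K : ℕ} (D : FRD 16 M K) (hK : 16 ≤ K)
    (mk : Finset (ℤ × ℤ)) {l k0 : ℕ} (h5 : 5 ≤ l * (k0 + 1)) (e : Fin m → EG ℤ)
    (he : ∀ i, B.w (e i).1 (e i).2 ≠ 0) (K₁ : ℕ) :
    (B.flowS P D mk e (e2D B.w mk l k0 e he K₁) l k0).OK (GSysx387.srcW (Fld ℤ) m) := by
  refine GSysOKx439.sysS_OK D hK B.w mk h5 _ (fun n U T hT a ha => ?_)
    (fun U => JVolx950.K0_fldUS B P e l k0 U)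
  by_cases hn : n < K₁
  · rw [e2D_lt hn]
    exact SrcSysx991.srcE_X_mem (rr l k0 n) (srcD B.w e he) (dpS B.w mk l k0 e n)
      (fun i => beB_mem B.w (e i)) U T a
  · rw [e2D_ge (not_lt.1 hn)] at hT
    exact absurd hT (by simp [Extr.none])

/-! ### the disc -/

/-- **everything the disc must satisfy**, except `FinE`; `K₁` = the last fine step -/
structure DiscEv (p k0 R : ℕ) (a B : ℝ) {n m : ℕ} (x : Fin n → ℂ) (y : Fin m → ℂ)
    (j : Fin m → Fin 2) (K₁ : ℕ) : Prop where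
  ok : SrcOK (Metric.ball (0 : ℂ) B) a .plus x y j
  apos : 0 < a
  aB : a ≤ B
  mem : ∀ i, meshIndex a (y i) ∈ domainSites (Metric.ball (0 : ℂ) B) a
  sep : ∀ i i', i ≠ i' → nearR p k0 K₁ + 2 < fd (eb a y j i).1 (eb a y j i').1

theorem faE_fd (e : EG ℤ) {f : ℤ × ℤ} (hf : f ∈ faE e) : |f.1 - e.1.1| ≤ 1 ∧ |f.2 - e.1.2| ≤ 1 := by
  obtain ⟨⟨q, r⟩, i⟩ := e
  fin_cases i
  · simp only [faE, pe, qe, Finset.mem_insert, Finset.mem_singleton] at hf
    rcases hf with rfl | rfl <;> simp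
  · simp only [faE, pe, qe, Finset.mem_insert, Finset.mem_singleton] at hf
    rcases hf with rfl | rfl <;> simp

/-- **the disc is in order**, eventually (`a → 0` after `B → ∞`) -/
theorem disc_ev {n m : ℕ} (x : Fin n → ℂ) {y : Fin m → ℂ} (j : Fin m → Fin 2)
    (hy : Function.Injective y) : ∃ c : ℝ, 0 < c ∧ ∀ (p k0 R : ℕ) (u : ℝ), 0 < u → 2 ^ p * u ≤ c →
      ∀ᶠ P : ℝ × ℝ in dl, DiscEv p k0 R P.1 P.2 x y j (k1 p k0 u P.1) := by
  obtain ⟨c, hc, h⟩ := sep_k1 hy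
  refine ⟨c, hc, fun p k0 R u hu hpu => ?_⟩
  rw [dl, eventually_curry_iff]
  filter_upwards [srcOK_disc x y j hy, h p k0 u hu hpu, self_mem_nhdsWithin] with a h1 h2 ha
  have ha : 0 < a := ha
  have hm : ∀ i, ∀ᶠ B : ℝ in atTop, meshIndex a (y i) ∈ domainSites (Metric.ball (0 : ℂ) B) a := by
    intro i
    filter_upwards [eventually_gt_atTop ‖meshPoint a (meshIndex a (y i))‖] with B hB
    show meshPoint a (meshIndex a (y i)) ∈ Metric.ball 0 B
    rwa [mem_ball_zero_iff]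
  filter_upwards [h1, eventually_ge_atTop a, eventually_all.2 hm] with B h3 h4 h5
  exact ⟨h3, ha, h4, h5, h2⟩

section disc

variable {p k0 R : ℕ} {a B : ℝ} {n m : ℕ} {x : Fin n → ℂ} {y : Fin m → ℂ} {j : Fin m → Fin 2}
  {K₁ : ℕ}

/-- the covariance package of the disc -/
theorem DiscEv.pkg (h : DiscEv p k0 R a B x y j K₁) :
    Pkg (wD (isF .plus) (Metric.ball (0 : ℂ) B) a (xb a x)) (cPl * a / B) :=
  pkg_disc h.apos h.aB (xb a x)

/-- the background of the disc -/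
abbrev discBg (h : DiscEv p k0 R a B x y j K₁) : Bg ℤ := Bg.dom h.ok.fin.toFinset .plus (xb a x)

theorem DiscEv.w_eq (h : DiscEv p k0 R a B x y j K₁) :
    (discBg h).w = wD (isF .plus) (Metric.ball (0 : ℂ) B) a (xb a x) :=
  dom_w h.ok.fin .plus (xb a x)

/-- the weights of the source bonds do not vanish -/
theorem DiscEv.ne (h : DiscEv p k0 R a B x y j K₁) (i : Fin m) :
    (discBg h).w (eb a y j i).1 (eb a y j i).2 ≠ 0 := by
  classical
  have h1 : (eb a y j i).1 ∈ ((h.ok.fin.toFinset : Finset (ℤ × ℤ)) : Set (ℤ × ℤ)) := by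
    rw [h.ok.fin.coe_toFinset]; exact h.mem i
  show wX (wDom ((h.ok.fin.toFinset : Finset (ℤ × ℤ)) : Set (ℤ × ℤ)) false) (xb a x) _ _ ≠ 0
  have h2 : Latx683.ray (xb a x) (eb a y j i).1 (eb a y j i).2 ≠ 0 := by
    rw [Covx359.ray_eq]
    intro h0
    have := Covx359.abs_cut (xb a x) (eb a y j i)
    rw [h0, abs_zero] at this
    exact zero_ne_one this
  unfold wX
  refine mul_ne_zero h2 ?_
  unfold wDom
  simp only [Bool.false_eq_true, if_false]
  rw [if_pos (Or.inl h1)]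
  exact Covx359.xc_pos.ne'

theorem DiscEv.sub_bx (h : DiscEv p k0 R a B x y j K₁) :
    h.ok.fin.toFinset ⊆ bx ⌈B / a⌉₊ := by
  intro z hz
  have h0 : z ∈ domainSites (Metric.ball (0 : ℂ) B) a := h.ok.fin.mem_toFinset.1 hz
  obtain ⟨h1, h2⟩ := GapFinx40.sites_le (B := B)
    (fun z hz => by rw [mem_ball_zero_iff] at hz; exact hz.le) h.apos z h0
  simp only [Int.cast_zero, sub_zero] at h1 h2
  rw [mem_bx]
  have h3 : B / a ≤ (⌈B / a⌉₊ : ℝ) := Nat.le_ceil _
  constructor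
  · have : |(z.1 : ℝ)| ≤ (⌈B / a⌉₊ : ℝ) := h1.trans h3
    exact_mod_cast this
  · have : |(z.2 : ℝ)| ≤ (⌈B / a⌉₊ : ℝ) := h2.trans h3
    exact_mod_cast this

theorem DiscEv.sub (h : DiscEv p k0 R a B x y j K₁) (R' : ℕ) (i : Fin m) :
    faE (eb a y j i) ⊆ Lam B R' a := by
  intro f hf
  have h1 := faE_fd _ hf
  have h2 := mem_bx.1 (h.sub_bx (h.ok.fin.mem_toFinset.2 (h.mem i)))
  unfold Lam
  rw [mem_bx]
  have e1 : (eb a y j i).1 = meshIndex a (y i) := rfl
  rw [e1] at h1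
  simp only [abs_le] at h1 h2 ⊢
  push_cast
  omega

/-- **the volume** (900's `Lam`) is admissible -/
theorem DiscEv.vol (h : DiscEv p k0 R a B x y j K₁) (R' : ℕ) :
    JVolx950.Vol h.ok.fin.toFinset .plus R' (fun k => faE (eb a y j k)) (Lam B R' a) := by
  have v := SRdomAx900.vol_bx (b := .plus) (R := R') h.sub_bx (le_refl (⌈B / a⌉₊ + R' + 2))
    (κ := Fin 0) (fun _ => ∅) (fun _ => rfl)
  exact ⟨v.W, v.nb, v.BB, fun k => h.sub R' k⟩

/-- the flow of the disc with bond sources; source extraction for the steps `< K₁` only -/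
abbrev flDisc (h : DiscEv p k0 R a B x y j K₁) (P : MPar) :
    Sys (ℤ × ℤ) (VS (Fld ℤ) m) :=
  (discBg h).flowS P DD ∅ (eb a y j) (e2D (discBg h).w ∅ p k0 (eb a y j) h.ne K₁) p k0

/-- the last covariance of the disc after `N` steps -/
abbrev sfDisc (h : DiscEv p k0 R a B x y j K₁) (N : ℕ) : Cov (Fld ℤ) := sfL h.pkg DD p k0 N

/-- **`RunPack` in large discs from `FinE`** -/
theorem DiscEv.runPack (h : DiscEv p k0 R a B x y j K₁) (h5 : 5 ≤ p * (k0 + 1)) {J lam : ℝ}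
    {V : Finset (ℤ × ℤ) → ℝ} {β z : ℝ} (hJ : J ≠ 0) (hV : VHyp R V) (hz : 0 < 1 + z) (N : ℕ)
    (Ze : ℝ) (ebv : Fin m → ℝ) {g : Fld ℤ → ℝ≥0∞} {v : Fin m → ℝ} {e M' A κ : ℝ}
    (hF : FinE (near p k0 (K₁ + N)) (Lam B (max R 1) a)
      ((flDisc h (mpar J lam R V β z)).K (K₁ + N))
      ((flL (flDisc h (mpar J lam R V β z)) K₁ (discBg h).w (eb a y j) Ze).K N)
      (∑ i, (1 - ebv i) • tau i +
        (flDisc h (mpar J lam R V β z)).E (Lam B (max R 1) a) (K₁ + N))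
      (∑ i, (Ze * c0B DD (discBg h).w p k0 K₁ (eb a y j i)) • tau i +
        (flL (flDisc h (mpar J lam R V β z)) K₁ (discBg h).w (eb a y j) Ze).E
          (Lam B (max R 1) a) N)
      (sfDisc h (K₁ + N)) g v e M')
    (hk : ∀ i, κ ≤ a * (A ^ 2 * v i ^ 2)) :
    RunPack m (domMom (Metric.ball 0 B) a .plus J lam R V β x y j ebv /
        spm (Metric.ball 0 B) a .plus J lam R V β x)
      (Ze ^ m * (D0c (Metric.ball 0 B) a .plus x y j / spm0 (Metric.ball 0 B) a .plus x))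
      a A e M' κ := by
  have hsep := sep_of h.sep
  have key : ∀ w' : BW ℤ, w' = wD (isF .plus) (Metric.ball (0 : ℂ) B) a (xb a x) →
      FinE (near p k0 (K₁ + N)) (Lam B (max R 1) a)
        ((flDisc h (mpar J lam R V β z)).K (K₁ + N))
        ((flL (flDisc h (mpar J lam R V β z)) K₁ w' (eb a y j) Ze).K N)
        (∑ i, (1 - ebv i) • tau i +
          (flDisc h (mpar J lam R V β z)).E (Lam B (max R 1) a) (K₁ + N))
        (∑ i, (Ze * c0B DD w' p k0 K₁ (eb a y j i)) • tau i +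
          (flL (flDisc h (mpar J lam R V β z)) K₁ w' (eb a y j) Ze).E
            (Lam B (max R 1) a) N)
        (sfDisc h (K₁ + N)) g v e M' →
      FinE (near p k0 (K₁ + N)) (Lam B (max R 1) a)
        ((flDisc h (mpar J lam R V β z)).K (K₁ + N))
        ((flL (flDisc h (mpar J lam R V β z)) K₁
          (wD (isF .plus) (Metric.ball (0 : ℂ) B) a (xb a x)) (eb a y j) Ze).K N)
        (∑ i, (1 - ebv i) • tau i +
          (flDisc h (mpar J lam R V β z)).E (Lam B (max R 1) a) (K₁ + N))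
        (∑ i, (Ze * c0B DD (wD (isF .plus) (Metric.ball (0 : ℂ) B) a (xb a x)) p k0 K₁
            (eb a y j i)) • tau i +
          (flL (flDisc h (mpar J lam R V β z)) K₁
            (wD (isF .plus) (Metric.ball (0 : ℂ) B) a (xb a x)) (eb a y j) Ze).E
            (Lam B (max R 1) a) N)
        (sfDisc h (K₁ + N)) g v e M' := by
    rintro _ rfl h'
    exact h'
  exact runPack_ofW h.ok hJ hV.trans hV.range hV.even hz
    (SrcDomx697.volS_of_vol (h.vol (max R 1))) DD (by norm_num) ∅ h5 K₁ N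
    (e2D (discBg h).w ∅ p k0 (eb a y j) h.ne K₁)
    (flS_OK (discBg h) (mpar J lam R V β z) DD (by norm_num) ∅ h5 (eb a y j) h.ne K₁)
    (sfDisc h (K₁ + N)) (sfL_eq h.pkg DD p k0 (K₁ + N))
    (fun U hU => (h.vol (max R 1)).supp (LinearMap.inl ℝ (Fld ℤ) (Src m)) U hU) hsep.1 hsep.2
    Ze ebv (key _ h.w_eq hF) hk

/-- the Gram weight of the last covariance of the disc after `N` steps -/
abbrev grDisc (h : DiscEv p k0 R a B x y j K₁) (N : ℕ) : Fld ℤ → ℝ≥0∞ :=
  FRDRestx439.gr DD (wD (isF .plus) (Metric.ball (0 : ℂ) B) a (xb a x)) (cPl * a / B)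
    (lo p k0 N)

/-- **Gram bound** of the last covariance -/
theorem DiscEv.gram (h : DiscEv p k0 R a B x y j K₁) (N : ℕ) :
    PNormx417.Gram (sfDisc h N) (grDisc h N) := sfL_gram h.pkg DD p k0 N

/-- the Gram weight is below the weight of every polymer at the scale `rr N ≥ κ B / a`, for
amplitudes `≥ 7 √(C / (cPl κ))` -/
theorem DiscEv.gr_le (h : DiscEv p k0 R a B x y j K₁) {N : ℕ} (hN : 1 ≤ N) {κ : ℝ} (hκ : 0 < κ)
    (hr : κ * (B / a) ≤ (rr p k0 N : ℝ)) {A : ℝ} (hA : 0 < A)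
    (hA' : 7 * √(DD.C / (cPl * κ)) ≤ A) (U : Finset (ℤ × ℤ)) (l : Fld ℤ) :
    grDisc h N l ≤
      wU (wD (isF .plus) (Metric.ball (0 : ℂ) B) a (xb a x)) A (rr p k0 N) U l := by
  have hB : 0 < B := h.apos.trans_le h.aB
  have ha := h.apos
  have hc := cPl_pos
  have hlo : lo p k0 N = p * (k0 + N) := by unfold lo; rw [if_neg (by omega)]
  refine Fin0x315.gr_le_wU DD (by unfold MM; norm_num) _ h.pkg.mpos h.pkg.gap0 (lo p k0 N)
    (rr p k0 N) (rr_pos p k0 N) (by rw [hlo]; exact le_refl _) hA (le_trans ?_ hA') U l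
  refine mul_le_mul_of_nonneg_left (Real.sqrt_le_sqrt ?_) (by norm_num)
  refine div_le_div_of_nonneg_left DD.C_pos.le (by positivity) ?_
  calc cPl * κ = cPl * a / B * (κ * (B / a)) := by field_simp
    _ ≤ cPl * a / B * (rr p k0 N : ℝ) := mul_le_mul_of_nonneg_left hr (by positivity)

end disc

end Crest.Agent.R165.EnWx359
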