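import Crest.Agent.R165.SrcDomB_697
import Crest.Agent.R165.SrcRec_54
import Crest.Agent.R165.DiscK_892

/-!
# Row 165 (S0250), leaf EnR: the interface between the fine phase and the ends (helper811)

* `FineAt` : the state of a flow with bond sources after `K` steps of the fine phase: remainder,
  running factors, constants of order one and of higher order, amplitude `A`, source weight `v`,
  accuracy `ε`
* `FineAt.scale` : smaller source weights
* `FineAt.dE`, `FineAt.bE` : the vacuum exponents against those of the free run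
* `FineD` : the fine phase of the large discs
-/

set_option autoImplicit false
set_option linter.unusedSectionVars false
set_option linter.unusedVariables false

noncomputable section

namespace Crest.Agent.R165.EnFinex811

open Finset Filter Topology
open scoped ENNReal
open Crest.ProbabilityR.IsingModel
open Crest.Agent.R165.KStepx892
open Crest.Agent.R165.Gr0x606 Crest.Agent.R165.Gr1x606 Crest.Agent.R165.GeOpsx337
  Crest.Agent.R165.ExpGx337 Crest.Agent.R165.KFlowx337 Crest.Agent.R165.PNormx417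
open Crest.Agent.R165.SrcFinx441 (Bd)
open Crest.Agent.R165.SrcFinBx441 (Nw ra_Nw bd_tau)
open Crest.Agent.R165.SrcDefx991 (VS Src tau ext0 inG coP vacH vacS GS wS)
open Crest.Agent.R165.SrcCmpx441
open Crest.Agent.R165.SrcCstx484 (co co_E Etot Etot_mem vacH_Etot vrest_of co_Etot_singleton
  E_mem_GS vacH_E)
open Crest.Agent.R165.Latx683 (BW wDom wX IsCov covS Fld HE)
open Crest.Agent.R165.GDefx387 Crest.Agent.R165.GSysx387 Crest.Agent.R165.FRDPolyx439
  Crest.Agent.R165.BgIsox432 Crest.Agent.R165.PStepx417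
open Crest.Agent.R165.Bkgx683 (MPar mpar Bg cor bondSrc)
open Crest.Agent.R165.Outx683 (DD)
open Crest.Agent.R165.J4Geox126 (faE)
open Crest.Agent.R165.JRunSx408 (SrcOK eb xb VolS)
open Crest.Agent.R165.SrcInsx991
open Crest.Agent.R165.SrcSysx991 (SOK)
open Crest.Agent.R165.SrcDomx697 (c0D EF)
open Crest.Agent.R165.PEndx683 (Cst)
open Crest.Agent.R165.SRx541

/-- **the state of the flow with the bond sources `e` after `K` steps** on the background `B`:
amplitude `A`, source weight `v`, accuracy `ε`, bound `M`, energy factor `Ze`, bond means `ebv` -/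
structure FineAt (c : Cst) (B : Bg ℤ) (P : MPar) {m : ℕ} (e : Fin m → Bkgx683.EG ℤ)
    (he : ∀ i, B.w (e i).1 (e i).2 ≠ 0) (Λ : Finset (ℤ × ℤ)) (K : ℕ) (A v ε M Ze : ℝ)
    (ebv : Fin m → ℝ) : Prop where
  v0 : 0 < v
  ε0 : 0 ≤ ε
  M0 : 0 ≤ M
  inj : Function.Injective fun i => faE (e i)
  pp : SrcRecx54.Tot (fun U => GDefx387.wU B.w A (rr c.p c.k0 K) U) (fun _ => ENNReal.ofReal v)
    (ENNReal.ofReal c.Γ) (rr c.p c.k0 K) (ppP B P DD ∅ e he c.p c.k0 K) ≤ ENNReal.ofReal ε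
  ze : ∀ i, |zeP B P DD ∅ e he c.p c.k0 K i - Ze| ≤ ε
  hZe : |Ze| ≤ 2
  cst : ∀ i, v ^ 2 * |(1 - ebv i) + co {i} ((flowP B P DD ∅ e he c.p c.k0).E Λ K) -
    Ze * c0D DD B.w c.p c.k0 K (e i)| ≤ ε
  high : ∀ I : Finset (Fin m), 2 ≤ I.card →
    (v ^ 2) ^ I.card * |co I ((flowP B P DD ∅ e he c.p c.k0).E Λ K)| ≤ ε
  hc0 : ∀ i, v ^ 2 * |c0D DD B.w c.p c.k0 K (e i)| ≤ M
  hβ : ∀ i, Bd (fun a : Ge (Fld ℤ) => pG (GDefx387.wU B.w A (rr c.p c.k0 K) (faE (e i))) a)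
    (beB B.w (e i)) (M / v ^ 2)

variable {c : Cst} {B : Bg ℤ} {P : MPar} {m : ℕ} {e : Fin m → Bkgx683.EG ℤ}
  {he : ∀ i, B.w (e i).1 (e i).2 ≠ 0} {Λ : Finset (ℤ × ℤ)} {K : ℕ} {A v ε M Ze : ℝ}
  {ebv : Fin m → ℝ}

/-- monotonicity of the total norm in the source weights -/
theorem Tot_mono_v {W : Finset (ℤ × ℤ) → Fld ℤ → ℝ≥0∞} {v v' : Fin m → ℝ≥0∞}
    (h : ∀ i, v i ≤ v' i) (Γ : ℝ≥0∞) (r : ℕ) (X : Finset (ℤ × ℤ) → Ge (VS (Fld ℤ) m)) :
    SrcRecx54.Tot W v Γ r X ≤ SrcRecx54.Tot W v' Γ r X := by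
  unfold SrcRecx54.Tot
  refine SrcStepx54.Tout_mono fun U _ => ?_
  refine pnorm_le_pnorm (fun x => ?_) _
  unfold wS SrcDefx991.vS
  gcongr
  exact h _

/-- **smaller source weights** -/
theorem FineAt.scale (h : FineAt c B P e he Λ K A v ε M Ze ebv) {s : ℝ} (hs : 0 < s)
    (hs1 : s ≤ 1) : FineAt c B P e he Λ K A (s * v) ε (s ^ 2 * M) Ze ebv := by
  have hv := h.v0
  have hsv : s * v ≤ v := by nlinarith
  have hsv2 : (s * v) ^ 2 ≤ v ^ 2 := by gcongr
  have hs0 : 0 ≤ (s * v) ^ 2 := by positivity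
  refine ⟨by positivity, h.ε0, by have := h.M0; positivity, h.inj, ?_, h.ze, h.hZe, fun i => ?_,
    fun I hI => ?_, fun i => ?_, fun i => ?_⟩
  · exact (Tot_mono_v (fun _ => ENNReal.ofReal_le_ofReal hsv) _ _ _).trans h.pp
  · exact (mul_le_mul_of_nonneg_right hsv2 (abs_nonneg _)).trans (h.cst i)
  · exact (mul_le_mul_of_nonneg_right (pow_le_pow_left₀ hs0 hsv2 _) (abs_nonneg _)).trans
      (h.high I hI)
  · calc (s * v) ^ 2 * |c0D DD B.w c.p c.k0 K (e i)| =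
        s ^ 2 * (v ^ 2 * |c0D DD B.w c.p c.k0 K (e i)|) := by ring
      _ ≤ s ^ 2 * M := mul_le_mul_of_nonneg_left (h.hc0 i) (by positivity)
  · have e1 : s ^ 2 * M / (s * v) ^ 2 = M / v ^ 2 := by
      have h1 : s ≠ 0 := hs.ne'
      have h2 : v ≠ 0 := hv.ne'
      field_simp
    rw [e1]
    exact h.hβ i

theorem FineAt.mono (h : FineAt c B P e he Λ K A v ε M Ze ebv) {ε' M' : ℝ} (hε : ε ≤ ε')
    (hM : M ≤ M') : FineAt c B P e he Λ K A v ε' M' Ze ebv := by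
  have hv := h.v0
  refine ⟨h.v0, h.ε0.trans hε, h.M0.trans hM, h.inj, h.pp.trans (ENNReal.ofReal_le_ofReal hε),
    fun i => (h.ze i).trans hε, h.hZe, fun i => (h.cst i).trans hε, fun I hI =>
    (h.high I hI).trans hε, fun i => (h.hc0 i).trans hM, fun i => (h.hβ i).mono ?_⟩
  gcongr

/-- norm of one leading term -/
theorem FineAt.bd_term (h : FineAt c B P e he Λ K A v ε M Ze ebv) (x : ℝ) (i : Fin m)
    {g : Fld ℤ → ℝ≥0∞} (hg0 : g 0 = 0)
    (hg : ∀ l, g l ≤ GDefx387.wU B.w A (rr c.p c.k0 K) (faE (e i)) l) :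
    Bd (Nw g fun _ => v) (x • (tau i * inG m (beB B.w (e i))) : Ge (VS (Fld ℤ) m)) (|x| * M) := by
  have hv := h.v0
  have h0 : Bd (fun a : Ge (Fld ℤ) => pG g a) (beB B.w (e i)) (M / v ^ 2) :=
    (pnorm_le_pnorm hg _).trans (h.hβ i)
  have h1 := (bd_tau hg0 (v := fun _ => v) i hv).mul (ra_Nw g fun _ => v)
    (SrcFinBx441.bd_inG g (fun _ => v) h0) (by positivity)
  refine (h1.smul (ra_Nw g fun _ => v) x).mono (le_of_eq ?_)
  field_simp

section exponents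

variable (h : FineAt c B P e he Λ K A v ε M Ze ebv)
include h

/-- **the vacuum exponents of the actual run and of the free run** -/
theorem FineAt.dE (hK0 : SOK (flow0 B P DD ∅ c.p c.k0) (K0P B P e c.p c.k0))
    {g : Fld ℤ → ℝ≥0∞} (hg0 : g 0 = 0) :
    Bd (Nw g fun _ => v)
      ((∑ i, (1 - ebv i) • tau i + (flowP B P DD ∅ e he c.p c.k0).E Λ K -
          algebraMap ℝ _ (ctG (∑ i, (1 - ebv i) • tau i +
            (flowP B P DD ∅ e he c.p c.k0).E Λ K))) -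
        (∑ i, (Ze * c0D DD B.w c.p c.k0 K (e i)) • tau i - algebraMap ℝ _
          (ctG (∑ i, (Ze * c0D DD B.w c.p c.k0 K (e i)) • (tau i : Ge (VS (Fld ℤ) m))))))
      ((m + 2 ^ m) * ε) := by
  have hv := h.v0
  have hε := h.ε0
  have hN := ra_Nw (V := Fld ℤ) (m := m) g (fun _ => v)
  have hvac : (flowP B P DD ∅ e he c.p c.k0).vac = vacS := rfl
  have hGS : ∀ k U, (flowP B P DD ∅ e he c.p c.k0).H k U ∈ GS (Fld ℤ) m := fun k U =>
    SrcSysx991.pGS_H hK0 k U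
  have hES : (flowP B P DD ∅ e he c.p c.k0).E Λ K ∈ GS (Fld ℤ) m := E_mem_GS hvac hGS Λ K
  have hEv : vacH ((flowP B P DD ∅ e he c.p c.k0).E Λ K) = (flowP B P DD ∅ e he c.p c.k0).E Λ K :=
    vacH_E hvac Λ K
  have htau : ∀ i : Fin m, Bd (Nw g fun _ => v) (tau i : Ge (VS (Fld ℤ) m)) (v ^ 2) := fun i =>
    bd_tau hg0 (v := fun _ => v) i hv
  set E := (flowP B P DD ∅ e he c.p c.k0).E Λ K with hE
  have hsplit : (Etot (fun i => 1 - ebv i) E - algebraMap ℝ _ (ctG (Etot (fun i => 1 - ebv i) E))) -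
      (∑ i, (Ze * c0D DD B.w c.p c.k0 K (e i)) • tau i - algebraMap ℝ _
          (ctG (∑ i, (Ze * c0D DD B.w c.p c.k0 K (e i)) • (tau i : Ge (VS (Fld ℤ) m))))) =
      (Etot (fun i => 1 - ebv i) E - algebraMap ℝ _ (ctG (Etot (fun i => 1 - ebv i) E)) -
        ∑ i, ((1 - ebv i) + co {i} E) • tau i) +
      ∑ i, ((1 - ebv i) + co {i} E - Ze * c0D DD B.w c.p c.k0 K (e i)) • tau i := by
    rw [ctG_sum_tau, map_zero, sub_zero]
    simp only [sub_smul, sum_sub_distrib]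
    abel
  change Bd (Nw g fun _ => v)
    ((Etot (fun i => 1 - ebv i) E - algebraMap ℝ _ (ctG (Etot (fun i => 1 - ebv i) E))) - _) _
  rw [hsplit]
  have h1 := vrest_of hES hEv hg0 h.high (fun i => 1 - ebv i)
  have h2 : Bd (Nw g fun _ => v) (∑ i, ((1 - ebv i) + co {i} E -
      Ze * c0D DD B.w c.p c.k0 K (e i)) • (tau i : Ge (VS (Fld ℤ) m))) (m * ε) := by
    have h3 := Bd.sum hN univ (f := fun i => ((1 - ebv i) + co {i} E -
      Ze * c0D DD B.w c.p c.k0 K (e i)) • (tau i : Ge (VS (Fld ℤ) m))) (t := fun _ => ε)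
      (fun i _ => by
        refine ((htau i).smul hN _).mono ?_
        have := h.cst i
        rwa [mul_comm] at this) fun _ _ => hε
    simpa using h3
  exact (h1.add hN h2 (by positivity) (by positivity)).mono (le_of_eq (by ring))

/-- the vacuum exponent of the free run -/
theorem FineAt.bE {g : Fld ℤ → ℝ≥0∞} (hg0 : g 0 = 0) :
    Bd (Nw g fun _ => v) (∑ i, (Ze * c0D DD B.w c.p c.k0 K (e i)) • tau i - algebraMap ℝ _
      (ctG (∑ i, (Ze * c0D DD B.w c.p c.k0 K (e i)) • (tau i : Ge (VS (Fld ℤ) m)))))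
      (2 * (m * M)) := by
  have hv := h.v0
  have hM := h.M0
  have hN := ra_Nw (V := Fld ℤ) (m := m) g (fun _ => v)
  have htau : ∀ i : Fin m, Bd (Nw g fun _ => v) (tau i : Ge (VS (Fld ℤ) m)) (v ^ 2) := fun i =>
    bd_tau hg0 (v := fun _ => v) i hv
  rw [ctG_sum_tau, map_zero, sub_zero]
  have h3 := Bd.sum hN univ (f := fun i => (Ze * c0D DD B.w c.p c.k0 K (e i)) •
    (tau i : Ge (VS (Fld ℤ) m))) (t := fun _ => 2 * M) (fun i _ => by
      refine ((htau i).smul hN _).mono ?_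
      rw [abs_mul]
      calc |Ze| * |c0D DD B.w c.p c.k0 K (e i)| * v ^ 2 =
          |Ze| * (v ^ 2 * |c0D DD B.w c.p c.k0 K (e i)|) := by ring
        _ ≤ 2 * M := mul_le_mul h.hZe (h.hc0 i) (by positivity) (by norm_num))
    fun _ _ => by positivity
  refine Bd.mono ?_ (le_of_eq (show (m : ℝ) * (2 * M) = 2 * (m * M) by ring))
  simpa using h3

end exponents

/-- **the fine phase of the large discs** (first crude step `k1`), accuracy `Ce σ ^ k1` -/
def FineD (J lam : ℝ) (R : ℕ) (V : Finset (ℤ × ℤ) → ℝ) (β z : ℝ) (c : Cst) (Ze : ℝ)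
    (ebb : Fin 2 → ℝ) : Prop :=
  ∀ (n m : ℕ), 1 ≤ m → Even n → ∀ (x : Fin n → ℂ) (y : Fin m → ℂ) (j : Fin m → Fin 2),
    Function.Injective (Fin.append x y) →
    ∃ u1 : ℝ, 0 < u1 ∧ ∀ u : ℝ, 0 < u → u ≤ u1 →
      ∃ (σ Ce M κ : ℝ) (v : ℝ → ℝ), 0 ≤ σ ∧ σ < 1 ∧ 0 ≤ Ce ∧ 0 ≤ M ∧ 0 < κ ∧
        ∀ᶠ a : ℝ in 𝓝[>] 0,
          κ ≤ a * (Outx683.amp c (DiscKx892.k1 c.p c.k0 u a) ^ 2 * v a ^ 2) ∧
          ∀ᶠ B : ℝ in atTop, ∀ T : Finset (ℤ × ℤ),
            (T : Set (ℤ × ℤ)) = domainSites (Metric.ball (0 : ℂ) B) a →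
            ∀ Λ : Finset (ℤ × ℤ), VolS T .plus (max R 1) (eb a y j) Λ →
            ∀ he : ∀ i, (Bg.dom T .plus (xb a x)).w (eb a y j i).1 (eb a y j i).2 ≠ 0,
              FineAt c (Bg.dom T .plus (xb a x)) (mpar J lam R V β z) (eb a y j) he Λ
                (DiscKx892.k1 c.p c.k0 u a) (Outx683.amp c (DiscKx892.k1 c.p c.k0 u a)) (v a)
                (Ce * σ ^ DiscKx892.k1 c.p c.k0 u a) M Ze (fun i => ebb (j i))

end Crest.Agent.R165.EnFinex811
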