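import Crest.Agent.R165.DiscComp_722
import Crest.Agent.R165.EnEv_359
import Crest.Agent.R165.Fin4_315

/-!
# Row 165 (S0250), large discs with sources, node N6: the last sum (helper722)

* `sum_last_le` : `∑_{W ∈ nes Λ} pG g (K W) ≤ cntK * NK` for every weight `g` below the weights of
  the last scale
* `hb_ev` : for a flow with the bounds `Out3` up to `kf`, the last sum with the weight `grDisc` of
  359 is `≤ ε₁`, eventually along `dl`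
* `ev_hb` : the same for `domF`, `ForP` form (hypothesis `hb` of `finE_mid`)
-/

set_option autoImplicit false
set_option linter.unusedSectionVars false

noncomputable section

open Filter Topology Finset
open scoped ENNReal
open Crest.ProbabilityR.IsingModel
open Crest.Agent.R165.Gr0x606 Crest.Agent.R165.Gr1x606 Crest.Agent.R165.GeOpsx337
open Crest.Agent.R165.Latx683 (BW wDom wX wPl Fld)
open Crest.Agent.R165.GDefx387 Crest.Agent.R165.GSysx387 Crest.Agent.R165.KFlowx337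
open Crest.Agent.R165.KStepx892 Crest.Agent.R165.PNormx417
open Crest.Agent.R165.DefRecx915 Crest.Agent.R165.Compx889 Crest.Agent.R165.NKDefx915
open Crest.Agent.R165.Bkgx683 Crest.Agent.R165.Outx683 Crest.Agent.R165.PEndx683
open Crest.Agent.R165.Constx891
open Crest.Agent.R165.BgIsox432 Crest.Agent.R165.Bridgex915 Crest.Agent.R165.Scalex900
open Crest.Agent.R165.DiscPhx892 Crest.Agent.R165.DiscKx892
open Crest.Agent.R165.GeoScx420 Crest.Agent.R165.DiscCompx722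
open Crest.Agent.R165.TorNorm2x583 (PlB)
open Crest.Agent.R165.EnWx359 Crest.Agent.R165.CovPkgx359
open Crest.Agent.R165.SRdomAx900 (Lam)
open Crest.Agent.R165.JRunSx408 (xb eb)
open Crest.Agent.R165.Fin4x315 (cntK net_lower)

namespace Crest.Agent.R165.EnHbx722

/-- **the last sum**, any weight below the weights of the last scale -/
theorem sum_last_le {w : BW ℤ} {A : ℝ} {r : ℕ} {Γ : ℝ≥0∞} (hΓ : 1 ≤ Γ) {g : Fld ℤ → ℝ≥0∞}
    (hg : ∀ U l, g l ≤ wU w A r U l) {κ S Cv : ℝ} (hκ : 0 < κ) (hS : 0 < S) (hCv : 0 ≤ Cv)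
    (hr : κ * S ≤ r) (x : ℤ × ℤ) {Λ : Finset (ℤ × ℤ)} (hV : ∀ f ∈ Λ, (fd x f : ℝ) ≤ Cv * S)
    (K : Finset (ℤ × ℤ) → Ge (Fld ℤ)) :
    ∑ W ∈ nes Λ, pG g (K W) ≤
      cntK κ Cv * NK w A r Γ (fun _ => True) (fun U => (K U : Gr (Fld ℤ))) := by
  obtain ⟨net, hc, hnt⟩ := net_lower hκ hS hCv hr x
  refine (Finset.sum_le_sum fun U _ => ?_).trans
    ((Fin0x315.sum_nes_le_NK hΓ w A r (fun U => (K U : Gr (Fld ℤ))) Λ net (hnt Λ hV)).trans ?_)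
  · exact pnorm_le_pnorm (fun l => hg U l) _
  · gcongr

/-- the last scale is comparable to the radius -/
theorem rr_kf_ge {p k0 : ℕ} (hp : 1 ≤ p) (cc : ℝ) (P : ℝ × ℝ) :
    cc / 2 ^ p * (P.2 / P.1) ≤ rr p k0 (kf p k0 cc P) := by
  have h := (lt_rr_kf (k0 := k0) hp cc P).le
  rw [rr_succ] at h
  push_cast at h
  have h2 : (0 : ℝ) < 2 ^ p := by positivity
  rw [div_mul_eq_mul_div, div_le_iff₀ h2, ← mul_div_assoc]
  linarith

theorem half_tendsto {p : ℕ} (hp : 1 ≤ p) (k0 : ℕ) {cc : ℝ} (hc : 0 < cc) (C : ℝ) :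
    Tendsto (fun P : ℝ × ℝ => C * (1 / 2 : ℝ) ^ kf p k0 cc P) dl (𝓝 0) := by
  have h2 := (tendsto_pow_atTop_nhds_zero_of_lt_one (r := (1 / 2 : ℝ)) (by norm_num)
    (by norm_num)).comp (kf_tendsto hp k0 hc)
  simpa using h2.const_mul C

/-- points of the volume -/
theorem fd_Lam2 {B : ℝ} {R : ℕ} {a : ℝ} (h : (R : ℝ) + 3 ≤ B / a) {f : ℤ × ℤ}
    (hf : f ∈ Lam B R a) : (fd ((0, 0) : ℤ × ℤ) f : ℝ) ≤ 2 * (B / a) := by
  have h1 := J4Defx653.mem_bx.1 hf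
  have h2 : fd ((0, 0) : ℤ × ℤ) f ≤ ⌈B / a⌉₊ + R + 2 := by
    have e : fd ((0, 0) : ℤ × ℤ) f = max ((0 : ℤ) - f.1).natAbs ((0 : ℤ) - f.2).natAbs := rfl
    rw [e]
    rw [Int.abs_eq_natAbs, Int.abs_eq_natAbs] at h1
    have h3 := h1.1
    have h4 := h1.2
    refine max_le ?_ ?_
    · rw [zero_sub, Int.natAbs_neg]
      exact_mod_cast h3
    · rw [zero_sub, Int.natAbs_neg]
      exact_mod_cast h4
  have h3 : (fd ((0, 0) : ℤ × ℤ) f : ℝ) ≤ (⌈B / a⌉₊ : ℝ) + R + 2 := by exact_mod_cast h2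
  have h4 : (⌈B / a⌉₊ : ℝ) < B / a + 1 := by
    refine Nat.ceil_lt_add_one ?_
    have : (0 : ℝ) ≤ R := Nat.cast_nonneg _
    linarith
  linarith

/-- **the last sum in the large discs**, for any flow with the bounds `Out3` -/
theorem hb_ev {c : Cst} (hc : Std c) {u v cc : ℝ} (huv : u ≤ v) (hcc : 0 < cc) {M : ℝ} (hM : 0 ≤ M)
    (R R' : ℕ) {n m : ℕ} (x : Fin n → ℂ) (y : Fin m → ℂ) (j : Fin m → Fin 2) {ε₁ : ℝ}
    (hε₁ : 0 < ε₁) : ∀ᶠ P : ℝ × ℝ in dl, ∀ (K₁ : ℕ) (h : DiscEv c.p c.k0 R P.1 P.2 x y j K₁)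
      (Q : Sys (ℤ × ℤ) (Fld ℤ)) (M0 t : ℝ), 0 ≤ t → t ≤ 1 →
      Out3 c Q (discBg h).w (k1 c.p c.k0 u P.1) (k2 c.p c.k0 v P.1) (kf c.p c.k0 cc P) M0 M t →
      ∀ N, N = kf c.p c.k0 cc P →
        ∑ W ∈ nes (Lam P.2 R' P.1), pG (grDisc h N) (Q.K N W) ≤ ENNReal.ofReal ε₁ := by
  have hp : 1 ≤ c.p := by have := hc.p_pos; omega
  have hA0 : 0 < c.A0 := one_pos.trans_le hc.A0_ge
  have hκ : 0 < cc / 2 ^ c.p := by positivity
  have hq : 0 < qD c := one_pos.trans_le (one_le_qD c)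
  filter_upwards [(kf_tendsto hp c.k0 hcc).eventually_ge_atTop 1,
    (aD_tendsto (q := qD c) hp c.k0 huv hcc hA0 hc.δ_pos hq).eventually_ge_atTop
      (7 * √(DD.C / (cPl * (cc / 2 ^ c.p)))),
    (aD_tendsto (q := qD c) hp c.k0 huv hcc hA0 hc.δ_pos hq).eventually_gt_atTop 0,
    ev_ratio (c := 1) one_pos fun _ => ((R' : ℝ) + 3),
    (half_tendsto hp c.k0 hcc (cntK (cc / 2 ^ c.p) 2 * M)).eventually_le_const hε₁,
    ev_pos] with P h1 h2 h2' h3 h4 h5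
  intro K₁ h Q M0 t ht ht1 hout N hN
  subst hN
  have h3' : (R' : ℝ) + 3 ≤ P.2 / P.1 := by rwa [one_mul] at h3
  have hS : 0 < P.2 / P.1 := by
    have : (0 : ℝ) ≤ R' := Nat.cast_nonneg _
    linarith
  have hw := h.w_eq
  have hg : ∀ U l, grDisc h (kf c.p c.k0 cc P) l ≤
      wU (discBg h).w (aC c (k1 c.p c.k0 u P.1) (k2 c.p c.k0 v P.1) (kf c.p c.k0 cc P))
        (rr c.p c.k0 (kf c.p c.k0 cc P)) U l := by
    intro U l
    rw [hw]
    exact h.gr_le h1 hκ (rr_kf_ge hp cc P) h2' h2 U l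
  refine (sum_last_le (Γ := ENNReal.ofReal c.Γ) (by
    rw [← ENNReal.ofReal_one]
    exact ENNReal.ofReal_le_ofReal (by linarith [hc.Γ_ge])) hg hκ hS (by norm_num : (0 : ℝ) ≤ 2)
    (rr_kf_ge hp cc P) (0, 0) (fun f hf => fd_Lam2 h3' hf) _).trans ?_
  refine (mul_le_mul_right (hout.nk _ le_rfl) _).trans ?_
  rw [← ENNReal.ofReal_natCast, ← ENNReal.ofReal_mul (Nat.cast_nonneg _)]
  refine ENNReal.ofReal_le_ofReal (le_trans ?_ h4)
  rw [← mul_assoc, ← mul_assoc]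
  refine mul_le_mul_of_nonneg_right ?_ (by positivity)
  exact mul_le_of_le_one_right (by positivity) ht1

/-- **N6**: the last sum of the base flow of the large discs, `ForP` form -/
theorem ev_hb {J : ℝ} {R : ℕ} {V : Finset (ℤ × ℤ) → ℝ} (hpl : PlB J R V) :
    EvC fun c => ∃ c1 : ℝ, 0 < c1 ∧ ∀ C : ℝ, ∃ ε > 0,
      ∀ n : ℕ, Even n → ∀ x : Fin n → ℂ, Function.Injective x → ∃ u0 v0 : ℝ, 0 < u0 ∧ u0 ≤ v0 ∧
      ∀ u v cc : ℝ, 0 < u → u ≤ u0 → v0 ≤ v → 0 < cc → cc ≤ c1 →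
      ∀ (m : ℕ) (y : Fin m → ℂ) (j : Fin m → Fin 2) (R₁ R' : ℕ) (ε₁ : ℝ), 0 < ε₁ →
      ∀ᶠ P : ℝ × ℝ in dl, ∀ lam β z : ℝ, |lam| < ε → NearP J C lam β z → PF J R V C c lam β z →
      ∀ (K₁ : ℕ) (h : DiscEv c.p c.k0 R₁ P.1 P.2 x y j K₁) (N : ℕ), N = kf c.p c.k0 cc P →
        ∑ W ∈ nes (Lam P.2 R' P.1), pG (grDisc h N)
          ((domF c (mpar J lam R V β z) h.ok.fin.toFinset .plus (xb P.1 x)).K N W) ≤
            ENNReal.ofReal ε₁ := by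
  refine ev_mono2 (ev_disc3 hpl) ev_std ?_
  rintro c ⟨C1, -, c1, hc1, H⟩ hc
  refine ⟨c1, hc1, fun C => ?_⟩
  obtain ⟨ε, hε, M0, hM0, H⟩ := H C
  refine ⟨min ε 1, lt_min hε one_pos, fun n hn x hx => ?_⟩
  obtain ⟨u0, v0, hu0, huv0, H⟩ := H n hn x hx
  refine ⟨u0, v0, hu0, huv0, fun u v cc hu hu1 hv hcc hcc1 m y j R₁ R' ε₁ hε₁ => ?_⟩
  obtain ⟨M, hM, H⟩ := H u v cc hu hu1 hv hcc hcc1
  filter_upwards [H, hb_ev hc (hu1.trans (huv0.trans hv)) hcc (hM0.le.trans hM) R₁ R' x y j hε₁]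
    with P h1 h2
  intro lam β z hl hn hPF K₁ h N hN
  have hl1 := hl.trans_le (min_le_left _ _)
  have hl2 := (hl.trans_le (min_le_right _ _)).le
  have h3 := (h1.2.2.2 lam β z hl1 hn hPF h.ok.fin.toFinset h.ok.fin.coe_toFinset .plus).1
  exact h2 K₁ h (domF c (mpar J lam R V β z) h.ok.fin.toFinset .plus (xb P.1 x)) M0 |lam|
    (abs_nonneg _) hl2 h3 N hN

end Crest.Agent.R165.EnHbx722
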