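import Crest.Agent.R165.JRunS_408
import Crest.Agent.R165.GSysOK_439

/-!
# Row 165 (S0250), block J: the energy ratios at step `N` of the flow with sources (helper408)

* `SrcOK D a b x y j` : everything which is needed of the domain, the spins and the bonds
  (`ev_C2`: small mesh, `C²` domains; `ev_disc`: large plus discs)
* `q_run`  : `domMom / spm = ctG (coP univ (gexp E * cvG (ext0 m Sf) (ZZ_N Λ (K N)))) / ctG (..)`
  for the flow `flowS` of Bkg_683, `Sf` = the remaining covariance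
* `q0_run` : `D0c / spm0 = EEG Sf (∏ (β i + c0 i))`
* `slC_sep`: the slices do not connect distant source bonds
* `q_start`: the same at the initial scale
-/

set_option autoImplicit false
set_option linter.unusedSectionVars false

noncomputable section

open Filter Topology Finset
open Crest.ProbabilityR.IsingModel

namespace Crest.Agent.R165.JRunSx408

open Crest.Agent.R165.Gr0x606 Crest.Agent.R165.Gr1x606 Crest.Agent.R165.J1ax606
open Crest.Agent.R165.GeOpsx337 Crest.Agent.R165.ExpGx337 Crest.Agent.R165.KStepx892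
  Crest.Agent.R165.KFlowx337 Crest.Agent.R165.SrcDefx991 Crest.Agent.R165.KInitx892
open Crest.Agent.R165.J4Defx653 Crest.Agent.R165.J4RRx653 Crest.Agent.R165.J4K0x126
  Crest.Agent.R165.J4Geox126
open Crest.Agent.R165.J4Lnkx653 (frS frV PL PL_dom obR gw EG' ez_eq_trEd)
open Crest.Agent.R165.JRunx445 Crest.Agent.R165.JDomAx606
open Crest.Agent.R165.Bkgx683 (frG MPar mpar bondSrc Bg cor)
open Crest.Agent.R165.Latx683 (BW wDom ray wX IsCov covS formS Fld)
open Crest.Agent.R165.Centx541 Crest.Agent.R165.Redx541 Crest.Agent.R165.Symx541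
  Crest.Agent.R165.Red2x541 Crest.Agent.R165.Topx683 Crest.Agent.R165.SRx541
open Crest.Agent.R165.UKerx420 (wD Cof Sof Sof_spec Sof_skew)
open Crest.Agent.R165.UFinx420 (isF)
open Crest.Agent.R165.Covx359 (un)
open Crest.Agent.R165.J2ax606 (bar)
open Crest.Agent.R165.GDefx387 Crest.Agent.R165.GSysx387 Crest.Agent.R165.FRDPolyx439
  Crest.Agent.R165.BgIsox432 Crest.Agent.R165.GSysOKx439

/-! ### the situation -/

/-- the domain, the spins and the source bonds are in order -/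
structure SrcOK (D : Set ℂ) (a : ℝ) (b : BoundaryCondition) {n m : ℕ} (x : Fin n → ℂ)
    (y : Fin m → ℂ) (j : Fin m → Fin 2) : Prop where
  bne : b ≠ BoundaryCondition.minus
  fin : (domainSites D a).Finite
  lk : Lk D a b (fun i => meshIndex a (x i))
  lk0 : Lk D a b (fun i : Fin 0 => i.elim0)
  pos : 0 < spm0 D a b x
  mem : b = BoundaryCondition.free → ∀ k, meshIndex a (y k) ∈ domainSites D a ∧
      meshIndex a (y k) + unitVec (j k) ∈ domainSites D a
  inj : Function.Injective fun k => meshIndex a (y k)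

/-- `C²` domains, small mesh -/
theorem srcOK_C2 {b : BoundaryCondition} {n m : ℕ} (hR : Rel b n) {D : Set ℂ}
    (hD : IsC2JordanDomain D) (x : Fin n → ℂ) (hx : ∀ i, x i ∈ D) (y : Fin m → ℂ)
    (j : Fin m → Fin 2) (hy : ∀ k, y k ∈ D) (hinj : Function.Injective y) :
    ∀ᶠ a in 𝓝[>] (0 : ℝ), SrcOK D a b x y j := by
  filter_upwards [ev_C2 b hR hD x hx y j hy, UJ2x420.eventually_distinct y hinj] with a h h2
  exact ⟨UFinx420.rel_ne_minus hR, h.1, h.2.1, h.2.2.1, h.2.2.2.1, fun _ => h.2.2.2.2, h2⟩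

/-- large plus discs -/
theorem srcOK_disc {n m : ℕ} (x : Fin n → ℂ) (y : Fin m → ℂ)
    (j : Fin m → Fin 2) (hinj : Function.Injective y) :
    ∀ᶠ a in 𝓝[>] (0 : ℝ), ∀ᶠ B : ℝ in atTop, SrcOK (Metric.ball (0 : ℂ) B) a .plus x y j := by
  filter_upwards [UJ2x420.eventually_distinct y hinj, self_mem_nhdsWithin] with a h2 ha
  filter_upwards [JDomAx606.ev_disc (a := a) ha] with B hB
  exact ⟨by simp, hB.1, (hB.2 n x).1, (hB.2 n x).2.1, (hB.2 n x).2.2,
    fun h => absurd h (by simp), h2⟩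

/-- the source bonds -/
def eb (a : ℝ) {m : ℕ} (y : Fin m → ℂ) (j : Fin m → Fin 2) (k : Fin m) : EG ℤ :=
  (meshIndex a (y k), j k)

/-- the spins -/
def xb (a : ℝ) {n : ℕ} (x : Fin n → ℂ) (i : Fin n) : ℤ × ℤ := meshIndex a (x i)

section

variable {D : Set ℂ} {a : ℝ} {b : BoundaryCondition} {n m : ℕ} {x : Fin n → ℂ} {y : Fin m → ℂ}
  {j : Fin m → Fin 2}

/-- **initial scale** -/
theorem q_start (H : SrcOK D a b x y j) {J lam : ℝ} {R : ℕ} {V : Finset (ℤ × ℤ) → ℝ} {β z : ℝ}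
    (hJ : J ≠ 0) (hV : TrInv V) (hr : Rng R V) (hev : ∀ A, V A ≠ 0 → Even A.card)
    (hz : 0 < 1 + z) (c : Fin m → ℝ) {Λ : Finset (ℤ × ℤ)}
    (hΛ : VolS H.fin.toFinset b (max R 1) (eb a y j) Λ) :
    domMom D a b J lam R V β x y j c / spm D a b J lam R V β x =
      ctG (coP univ (Zs H.fin b (mpar J lam R V β z) (xb a x) (eb a y j) Λ c)) /
      ctG (Zs H.fin b (mpar J lam R V β z) (xb a x) (eb a y j) Λ c) :=
  domMom_srcZ H.bne H.fin hJ hV hr hev x y j c H.lk H.lk0 H.mem H.pos.ne' hΛ hz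

theorem eq_remC {V : Type*} [AddCommGroup V] [Module ℝ V] {S Sf : Cov V} {T : ℕ → Cov V} {N : ℕ}
    (h : S = Sf + ∑ k ∈ range N, T k) : Sf = remC S T N := by
  apply Cov.ext
  apply LinearMap.ext₂
  intro u v
  rw [remC, h]
  simp only [Cov.add_b, Cov.neg_b, LinearMap.add_apply, LinearMap.neg_apply]
  ring

/-- **step `N` of the flow with sources** -/
theorem q_run (H : SrcOK D a b x y j) {J lam : ℝ} {R : ℕ} {V : Finset (ℤ × ℤ) → ℝ} {β z : ℝ}
    (hJ : J ≠ 0) (hV : TrInv V) (hr : Rng R V) (hev : ∀ A, V A ≠ 0 → Even A.card)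
    (hz : 0 < 1 + z) (c : Fin m → ℝ) {Λ : Finset (ℤ × ℤ)}
    (hΛ : VolS H.fin.toFinset b (max R 1) (eb a y j) Λ)
    {M K : ℕ} (Dd : FRD 16 M K) (mk : Finset (ℤ × ℤ)) (l k0 N : ℕ)
    (e2 : ℕ → Extr (ℤ × ℤ) (VS (Fld ℤ) m)) {src : Submodule ℝ (VS (Fld ℤ) m)}
    (hok : ((Bg.dom H.fin.toFinset b (xb a x)).flowS (mpar J lam R V β z) Dd mk (eb a y j) e2
      l k0).OK src)
    (Sf : Cov (Fld ℤ))
    (hSf : Cof (wD (isF b) D a (xb a x)) = Sf +
      ∑ k ∈ range N, slC Dd (wD (isF b) D a (xb a x)) l k0 k)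
    (hsrc : ∀ u ∈ src, ∀ v, (ext0 m Sf).b u v = 0)
    (hsupp : ∀ U, ¬ U ⊆ Λ → K0S H.fin b (mpar J lam R V β z) (xb a x) (eb a y j) U = 0) :
    domMom D a b J lam R V β x y j c / spm D a b J lam R V β x =
      ctG (coP univ (gexp (∑ i, (1 - c i) • tau i +
          ((Bg.dom H.fin.toFinset b (xb a x)).flowS (mpar J lam R V β z) Dd mk (eb a y j) e2
            l k0).E Λ N) *
        cvG (ext0 m Sf) (ZZ (near l k0 N) Λ
          (((Bg.dom H.fin.toFinset b (xb a x)).flowS (mpar J lam R V β z) Dd mk (eb a y j) e2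
            l k0).K N)))) /
      ctG (gexp (∑ i, (1 - c i) • tau i +
          ((Bg.dom H.fin.toFinset b (xb a x)).flowS (mpar J lam R V β z) Dd mk (eb a y j) e2
            l k0).E Λ N) *
        cvG (ext0 m Sf) (ZZ (near l k0 N) Λ
          (((Bg.dom H.fin.toFinset b (xb a x)).flowS (mpar J lam R V β z) Dd mk (eb a y j) e2
            l k0).K N))) := by
  rw [q_start H (β := β) (lam := lam) hJ hV hr hev hz c hΛ]
  have hw : wD (isF b) D a (xb a x) = (Bg.dom H.fin.toFinset b (xb a x)).w :=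
    (dom_w H.fin b (xb a x)).symm
  rw [hw] at hSf
  have hrem : Sf = remC (Cof (wD (isF b) D a (xb a x)))
      (slC Dd (Bg.dom H.fin.toFinset b (xb a x)).w l k0) N := by
    rw [hw]; exact eq_remC hSf
  have h1 := srcZ_total Dd (Bg.dom H.fin.toFinset b (xb a x)).w mk l k0 N
    (fun i => faE (eb a y j i)) e2 (K0S H.fin b (mpar J lam R V β z) (xb a x) (eb a y j)) Λ
    (Cof (wD (isF b) D a (xb a x))) c hok (by rw [← hrem]; exact hsrc) hsupp
  rw [← hrem] at h1
  unfold Zs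
  rw [h1]
  rfl

/-- **the unperturbed moment at step `N`** -/
theorem q0_run (H : SrcOK D a b x y j) {M K : ℕ} (Dd : FRD 16 M K) (l k0 N : ℕ) (Sf : Cov (Fld ℤ))
    (hSf : Cof (wD (isF b) D a (xb a x)) = Sf +
      ∑ k ∈ range N, slC Dd (wD (isF b) D a (xb a x)) l k0 k)
    (hsep : ∀ k < N, ∀ i i', i ≠ i' → ∀ u ∈ fldU {(eb a y j i).1}, ∀ v ∈ fldU {(eb a y j i').1},
      (slC Dd (wD (isF b) D a (xb a x)) l k0 k).b u v = 0) :
    D0c D a b x y j / spm0 D a b x =
      EEG Sf (∏ i, ((-(2 * wD (isF b) D a (xb a x) (eb a y j i).1 (eb a y j i).2)) •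
          bi (Finsupp.single (pe (eb a y j i)) 1) (Finsupp.single (qe (eb a y j i)) 1) +
        algebraMap ℝ _ (1 - e0 + (-(2 * wD (isF b) D a (xb a x) (eb a y j i).1 (eb a y j i).2)) *
          ∑ k ∈ range N, (slC Dd (wD (isF b) D a (xb a x)) l k0 k).b
            (Finsupp.single (pe (eb a y j i)) 1) (Finsupp.single (qe (eb a y j i)) 1)))) := by
  have hp : ∀ e : EG ℤ, (Finsupp.single (pe e) (1 : ℝ) : Fld ℤ) ∈ fldU {e.1} := by
    intro e
    have h1 : (pe e).1 ∈ nbhd 1 {e.1} := by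
      refine ⟨e.1, Finset.mem_singleton_self _, ?_⟩
      obtain ⟨⟨p, q⟩, i⟩ := e
      fin_cases i <;> simp [pe, fd, cn]
    exact single_mem_fldS h1 1
  have hq : ∀ e : EG ℤ, (Finsupp.single (qe e) (1 : ℝ) : Fld ℤ) ∈ fldU {e.1} := by
    intro e
    have h1 : (qe e).1 ∈ nbhd 1 {e.1} := by
      refine ⟨e.1, Finset.mem_singleton_self _, ?_⟩
      obtain ⟨⟨p, q⟩, i⟩ := e
      fin_cases i <;> simp [qe, fd, cn]
    exact single_mem_fldS h1 1
  rw [D0c_bnd H.bne H.fin x y j H.lk H.mem H.inj H.pos.ne']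
  have h1 := SrcERx441.unpert_slices Sf (slC Dd (wD (isF b) D a (xb a x)) l k0) N
    (fun i => -(2 * wD (isF b) D a (xb a x) (eb a y j i).1 (eb a y j i).2)) (fun _ => 1 - e0)
    (fun i => (Finsupp.single (pe (eb a y j i)) 1 : Fld ℤ))
    (fun i => (Finsupp.single (qe (eb a y j i)) 1 : Fld ℤ))
    (fun k hk i i' hii => ⟨hsep k hk i i' hii _ (hp _) _ (hp _), hsep k hk i i' hii _ (hp _) _ (hq _),
      hsep k hk i i' hii _ (hq _) _ (hp _), hsep k hk i i' hii _ (hq _) _ (hq _)⟩)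
  rw [← hSf] at h1
  exact h1

end

/-- **the slices do not connect distant source bonds** -/
theorem slC_sep {M K : ℕ} (Dd : FRD 16 M K) (hK : 16 ≤ K) (w : BW ℤ) {l k0 : ℕ}
    (h5 : 5 ≤ l * (k0 + 1)) {N : ℕ} {f g : ℤ × ℤ} (hfg : nearR l k0 (N - 1) < fd f g) :
    ∀ k < N, ∀ u ∈ fldU {f}, ∀ v ∈ fldU {g}, (slC Dd w l k0 k).b u v = 0 := by
  intro k hk u hu v hv
  refine slC_range Dd hK w h5 k ?_ hu hv
  rintro ⟨p, hp, q, hq, hpq⟩
  rw [Finset.mem_singleton] at hp hq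
  subst hp hq
  have h1 : fd p q ≤ nearR l k0 k := hpq
  have h2 : nearR l k0 k ≤ nearR l k0 (N - 1) := nearR_mono l k0 (by omega)
  omega

end Crest.Agent.R165.JRunSx408
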