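import Crest.Agent.R165.SrcCmp_441
import Crest.Agent.R165.SrcCstD_484
import Crest.Agent.R165.SrcSys_991
import Crest.Agent.R165.JRunS2_408

/-!
# Row 165 (S0250), leaf P11: sources in domains, the last good scale (helper697)

* `FinL` : the list (a)-(e) of 441 (msg 7293) at the last good scale `N`
* `FinL.finE` : the comparison `FinE` of `SrcCmp_441` with the free run
* `FinL.runPack` : `RunPack` from `FinL` and the two exact identities
* `LEAD_eq` : the leading part of `SrcSys_991` is `LD` of `SrcCstB_484` (disjoint source faces)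
* `runPack_dom` : `RunPack` for `Bg.flowS (Bg.dom T b X)`
-/

set_option autoImplicit false
set_option linter.unusedSectionVars false
set_option linter.unusedVariables false

noncomputable section

namespace Crest.Agent.R165.SrcDomx697

open Finset Filter Topology
open scoped ENNReal
open Crest.ProbabilityR.IsingModel
open Crest.Agent.R165.FinBx900 Crest.Agent.R165.KStepx892
open Crest.Agent.R165.Gr0x606 Crest.Agent.R165.Gr1x606 Crest.Agent.R165.GeOpsx337
  Crest.Agent.R165.ExpGx337 Crest.Agent.R165.PNormx417 Crest.Agent.R165.KFlowx337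
  Crest.Agent.R165.SrcFinx441 Crest.Agent.R165.GrLocx337
open Crest.Agent.R165.SrcDefx991 (VS Src th th' tau tauP ext0 inG noS vacH vacS coP wS vS GS
  noS_inG noS_tau EEG_ext0 vacH_tau)
open Crest.Agent.R165.SrcFinBx441 (bd_tau bd_inG Nw ra_Nw ra_pG ctG_tau)
open Crest.Agent.R165.SrcCmpx441
open Crest.Agent.R165.SrcCstx484 (co co_E LD Etot Etot_mem vacH_Etot vrest_of co_Etot_singleton
  E_mem_GS vacH_E)

section abstract

variable {V : Type*} [AddCommGroup V] [Module ℝ V] {m : ℕ}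
variable {F : Type*} [DecidableEq F]

/-- **the data at the last good scale `N`** of a run `D` with sources: leading faces `sf`, running
factors `ζ`, prefactors `cst i = 1 - eb_i`, unperturbed constants `c0`, forms `β`, remaining
covariance `Sf` with Gram weight `g`, source weight `v` -/
structure FinL (D : Sys F (VS V m)) (near : F → F → Prop) (Λ : Finset F) (N : ℕ)
    (sf : Fin m → Finset F) (ζ cst c0 : Fin m → ℝ) (β : Fin m → Ge V) (Sf : Cov V)
    (g : V → ℝ≥0∞) (v ε M Ze : ℝ) : Prop where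
  gram : Gram Sf g
  g0 : g 0 = 0
  v0 : 0 < v
  ε0 : 0 ≤ ε
  M0 : 0 ≤ M
  inj : Function.Injective sf
  ne : ∀ i, (sf i).Nonempty
  sub : ∀ i, sf i ⊆ Λ
  sep : ∀ i j, i ≠ j → ¬ touch near (sf i) (sf j)
  vac : D.vac = vacS
  hGS : ∀ k U, D.H k U ∈ GS V m
  act : ∑ W ∈ nes Λ, Nw g (fun _ => v) (D.K N W - LD sf ζ β W) ≤ ENNReal.ofReal ε
  hβ : ∀ i, Bd (fun a : Ge V => pG g a) (β i) (M / v ^ 2)
  hζ : ∀ i, |ζ i - Ze| ≤ ε
  hZe : |Ze| ≤ 2
  cst : ∀ i, v ^ 2 * |cst i + co {i} (D.E Λ N) - Ze * c0 i| ≤ ε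
  high : ∀ I : Finset (Fin m), 2 ≤ I.card → (v ^ 2) ^ I.card * |co I (D.E Λ N)| ≤ ε
  hc0 : ∀ i, v ^ 2 * |c0 i| ≤ M

variable {D : Sys F (VS V m)} {near : F → F → Prop} {Λ : Finset F} {N : ℕ}
  {sf : Fin m → Finset F} {ζ cst c0 : Fin m → ℝ} {β : Fin m → Ge V} {Sf : Cov V}
  {g : V → ℝ≥0∞} {v ε M Ze : ℝ}

/-- the activities of the free run -/
def KF (sf : Fin m → Finset F) (Ze : ℝ) (β : Fin m → Ge V) : Finset F → Ge (VS V m) :=
  lead sf fun i => Ze • (tau i * inG m (β i))

/-- the exponent of the free run -/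
def EF (V : Type*) [AddCommGroup V] [Module ℝ V] {m : ℕ} (Ze : ℝ) (c0 : Fin m → ℝ) :
    Ge (VS V m) := ∑ i, (Ze * c0 i) • tau i

theorem LD_sub (sf : Fin m → Finset F) (ζ ζ' : Fin m → ℝ) (β : Fin m → Ge V) (W : Finset F) :
    LD sf ζ β W - LD sf ζ' β W = lead sf (fun i => (ζ i - ζ' i) • (tau i * inG m (β i))) W := by
  unfold LD lead
  rw [← sum_sub_distrib]
  refine sum_congr rfl fun i _ => ?_
  split_ifs
  · exact (sub_smul _ _ _).symm
  · rw [sub_zero]

theorem LD_const (sf : Fin m → Finset F) (Ze : ℝ) (β : Fin m → Ge V) :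
    LD sf (fun _ => Ze) β = KF sf Ze β := rfl

theorem noS_lead (sf : Fin m → Finset F) (x : Fin m → ℝ) (β : Fin m → Ge V) (W : Finset F) :
    noS (lead sf (fun i => x i • (tau i * inG m (β i))) W) = 0 := by
  unfold lead
  rw [map_sum]
  refine sum_eq_zero fun i _ => ?_
  split_ifs
  · rw [map_smul, map_mul, noS_tau, zero_mul, smul_zero]
  · rw [map_zero]

/-- norm of one leading term -/
theorem FinL.bd_term (h : FinL D near Λ N sf ζ cst c0 β Sf g v ε M Ze) (x : ℝ) (i : Fin m) :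
    Bd (Nw g fun _ => v) (x • (tau i * inG m (β i)) : Ge (VS V m)) (|x| * M) := by
  have hv := h.v0
  have h1 := (bd_tau h.g0 (v := fun _ => v) i hv).mul (ra_Nw g fun _ => v)
    (bd_inG g (fun _ => v) (h.hβ i)) (by positivity)
  refine (h1.smul (ra_Nw g fun _ => v) x).mono (le_of_eq ?_)
  field_simp

/-- **the comparison with the free run** -/
theorem FinL.finE (h : FinL D near Λ N sf ζ cst c0 β Sf g v ε M Ze) :
    FinE near Λ (D.K N) (KF sf Ze β) (Etot cst (D.E Λ N)) (EF V Ze c0) Sf g (fun _ => v)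
      ((1 + m * M + m + 2 ^ m) * ε) (2 * (m * M)) := by
  have hv := h.v0
  have hε := h.ε0
  have hM := h.M0
  have hN := ra_Nw (V := V) (m := m) g (fun _ => v)
  have hES : D.E Λ N ∈ GS V m := E_mem_GS h.vac h.hGS Λ N
  have hEv : vacH (D.E Λ N) = D.E Λ N := vacH_E h.vac Λ N
  have htau : ∀ i : Fin m, Bd (Nw g fun _ => v) (tau i : Ge (VS V m)) (v ^ 2) := fun i =>
    bd_tau h.g0 (v := fun _ => v) i hv
  have ctE' : ctG (EF V Ze c0 : Ge (VS V m)) = 0 := ctG_sum_tau fun i => Ze * c0 i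
  have hsplit : (Etot cst (D.E Λ N) - algebraMap ℝ _ (ctG (Etot cst (D.E Λ N)))) -
      (EF V Ze c0 - algebraMap ℝ _ (ctG (EF V Ze c0))) =
      (Etot cst (D.E Λ N) - algebraMap ℝ _ (ctG (Etot cst (D.E Λ N))) -
        ∑ i, (cst i + co {i} (D.E Λ N)) • tau i) +
      ∑ i, (cst i + co {i} (D.E Λ N) - Ze * c0 i) • tau i := by
    rw [ctE', map_zero, sub_zero, EF]
    simp only [sub_smul, sum_sub_distrib]
    abel
  refine ⟨h.gram, fun _ => hv, by positivity, by positivity, vacH_Etot hEv, ?_, fun W _ => ?_, ?_,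
    ?_, ?_, ?_⟩
  · rw [EF]; exact vacH_sum_tau fun i => Ze * c0 i
  · exact noS_lead sf (fun _ => Ze) β W
  · -- activities
    have e : ∀ W, D.K N W - KF sf Ze β W = (D.K N W - LD sf ζ β W) +
        lead sf (fun i => (ζ i - Ze) • (tau i * inG m (β i))) W := fun W => by
      rw [← LD_sub sf ζ (fun _ => Ze) β W, LD_const]; abel
    calc ∑ W ∈ nes Λ, Nw g (fun _ => v) (D.K N W - KF sf Ze β W)
        ≤ ∑ W ∈ nes Λ, (Nw g (fun _ => v) (D.K N W - LD sf ζ β W) +
            Nw g (fun _ => v) (lead sf (fun i => (ζ i - Ze) • (tau i * inG m (β i))) W)) := by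
          refine sum_le_sum fun W _ => ?_
          rw [e W]
          exact hN.add _ _
      _ = ∑ W ∈ nes Λ, Nw g (fun _ => v) (D.K N W - LD sf ζ β W) +
            ∑ W ∈ nes Λ, Nw g (fun _ => v)
              (lead sf (fun i => (ζ i - Ze) • (tau i * inG m (β i))) W) := sum_add_distrib
      _ ≤ ENNReal.ofReal ε + ENNReal.ofReal (m * (ε * M)) := by
          refine add_le_add h.act (sum_lead_le hN (by positivity) fun i => ?_)
          exact (h.bd_term (ζ i - Ze) i).mono (mul_le_mul_of_nonneg_right (h.hζ i) hM)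
      _ = ENNReal.ofReal (ε + m * (ε * M)) := (ENNReal.ofReal_add hε (by positivity)).symm
      _ ≤ _ := ENNReal.ofReal_le_ofReal (by
          have h2 : (0 : ℝ) ≤ 2 ^ m * ε := by positivity
          have h3 : (0 : ℝ) ≤ m * ε := by positivity
          nlinarith)
  · -- free activities
    refine (sum_lead_le hN (t := 2 * M) (by positivity) fun i => ?_).trans
      (ENNReal.ofReal_le_ofReal (le_of_eq (by ring)))
    exact (h.bd_term Ze i).mono (mul_le_mul_of_nonneg_right h.hZe hM)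
  · -- exponents
    rw [hsplit]
    have h1 := vrest_of hES hEv h.g0 h.high cst
    have h2 : Bd (Nw g fun _ => v) (∑ i, (cst i + co {i} (D.E Λ N) - Ze * c0 i) •
        (tau i : Ge (VS V m))) (m * ε) := by
      have h3 := Bd.sum hN univ (f := fun i => (cst i + co {i} (D.E Λ N) - Ze * c0 i) •
        (tau i : Ge (VS V m))) (t := fun _ => ε) (fun i _ => by
          refine ((htau i).smul hN _).mono ?_
          have := h.cst i
          rwa [mul_comm] at this) fun _ _ => hε
      simpa using h3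
    refine (h1.add hN h2 (by positivity) (by positivity)).mono ?_
    have h3 : 0 ≤ m * M * ε := by positivity
    nlinarith
  · rw [ctE', map_zero, sub_zero, EF]
    have h3 := Bd.sum hN univ (f := fun i => (Ze * c0 i) • (tau i : Ge (VS V m)))
      (t := fun _ => 2 * M) (fun i _ => by
        refine ((htau i).smul hN _).mono ?_
        rw [abs_mul]
        calc |Ze| * |c0 i| * v ^ 2 = |Ze| * (v ^ 2 * |c0 i|) := by ring
          _ ≤ 2 * M := mul_le_mul h.hZe (h.hc0 i) (by positivity) (by norm_num))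
      fun _ _ => by positivity
    refine Bd.mono ?_ (le_of_eq (show (m : ℝ) * (2 * M) = 2 * (m * M) by ring))
    simpa using h3

/-- **`RunPack`** from the data at the last good scale and the two exact identities -/
theorem FinL.runPack {F V : Type} [DecidableEq F] [AddCommGroup V] [Module ℝ V]
    {D : Sys F (VS V m)} {near : F → F → Prop} {Λ : Finset F} {N : ℕ}
    {sf : Fin m → Finset F} {ζ cst c0 : Fin m → ℝ} {β : Fin m → Ge V} {Sf : Cov V}
    {g : V → ℝ≥0∞} {v ε M Ze : ℝ} (h : FinL D near Λ N sf ζ cst c0 β Sf g v ε M Ze)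
    {a A κ q q0 : ℝ} (hκ : κ ≤ a * (A ^ 2 * v ^ 2))
    (hq : q = ctG (coP univ (gexp (∑ i, cst i • tau i + D.E Λ N) *
        cvG (ext0 m Sf) (ZZ near Λ (D.K N)))) /
      ctG (gexp (∑ i, cst i • tau i + D.E Λ N) * cvG (ext0 m Sf) (ZZ near Λ (D.K N))))
    (hq0 : q0 = EEG Sf (∏ i, (β i + algebraMap ℝ _ (c0 i)))) :
    RunPack m q (Ze ^ m * q0) a A ((1 + m * M + m + 2 ^ m) * ε) (2 * (m * M)) κ := by
  refine ⟨F, inferInstance, V, inferInstance, inferInstance, near, Λ, D.K N, KF sf Ze β,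
    Etot cst (D.E Λ N), EF V Ze c0, Sf, g, fun _ => v, h.finE, fun _ => hκ, hq, ?_⟩
  rw [hq0]
  exact (ratio_lead_Ze near h.inj h.ne h.sub h.sep Ze c0 β Sf).symm

end abstract

end Crest.Agent.R165.SrcDomx697
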