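import Crest.Agent.R165.SrcTailAll_441
import Crest.Agent.R165.SrcTailB_999
import Crest.Agent.R165.SrcDom_697

/-!
# Row 165 (S0250), leaf P11 item 8 (sources in large discs), the change of regime (helper441)

* `FinM` : the data at the scale `K1` (total norms)
* `PX` : the class of the source dependent activities of the tail (source-local, no source free
  part, connected support); `lead_PX`, `rest_PX`
* `finE_mid` : **`FinE` at the last scale** `K1 + N` from `FinM`, the step hypotheses and `ScalarT3`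
-/

set_option autoImplicit false
set_option linter.unusedSectionVars false
set_option linter.unusedVariables false

noncomputable section

namespace Crest.Agent.R165.SrcMidx441

open Finset Filter Topology
open scoped ENNReal
open Crest.Agent.R165.FinBx900 Crest.Agent.R165.KStepx892 Crest.Agent.R165.KMapx892
open Crest.Agent.R165.Gr0x606 Crest.Agent.R165.Gr1x606 Crest.Agent.R165.GeOpsx337
  Crest.Agent.R165.ExpGx337 Crest.Agent.R165.PNormx417 Crest.Agent.R165.KFlowx337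
  Crest.Agent.R165.SrcFinx441 Crest.Agent.R165.GrLocx337 Crest.Agent.R165.SrcCmpx441
  Crest.Agent.R165.ExpAx337 Crest.Agent.R165.Quadx897 Crest.Agent.R165.SrcStepx54
  Crest.Agent.R165.SrcTailx441 Crest.Agent.R165.SrcTailFinx441 Crest.Agent.R165.SrcTailAllx441
open Crest.Agent.R165.SrcDefx991 (VS Src th th' tau tauP ext0 inG noS vacH vacS coP wS vS GS
  noS_inG noS_tau EEG_ext0 vacH_tau srcM tau_mem inG_mem coP_inG)
open Crest.Agent.R165.SrcFinBx441 (Nw ra_Nw bd_inG bd_tau ra_pG)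
open Crest.Agent.R165.SrcCstx484 (co co_E LD Etot Etot_mem vacH_Etot vrest_of E_mem_GS)
open Crest.Agent.R165.SrcDomx697 (KF EF LD_sub LD_const noS_lead)
open Crest.Agent.R165.SrcTailx999 (SLA mem_SLA SLA_mono tail_SLA tail_conn PT_ne PT_SLA PT_noS
  tail_noS lead_noS leadStep restStep)
open Crest.Agent.R165.PStepx417 (vac0)

variable {F : Type} [DecidableEq F] {V : Type} [AddCommGroup V] [Module ℝ V] {m : ℕ}

/-! ### total norms of leading parts -/

theorem GN.sum_le {W : Type*} [AddCommGroup W] [Module ℝ W] {N : Ge W → ℝ≥0∞} (hN : GN N)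
    {ι : Type*} (s : Finset ι) (f : ι → Ge W) : N (∑ i ∈ s, f i) ≤ ∑ i ∈ s, N (f i) := by
  classical
  induction s using Finset.induction_on with
  | empty => simp [hN.zero]
  | insert a s ha ih =>
    rw [sum_insert ha, sum_insert ha]
    exact (hN.add _ _).trans (add_le_add le_rfl ih)

/-- total norm of a leading part -/
theorem Tout_lead {nm0 : Finset F → Ge (VS V m) → ℝ≥0∞} (hN : ∀ U, GN (nm0 U))
    (Wo0 : Finset F → ℝ≥0∞) (sf : Fin m → Finset F) (f : Fin m → Ge (VS V m)) :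
    Tout Wo0 (fun U => nm0 U (lead sf f U)) ≤ ∑ i, Wo0 (sf i) * nm0 (sf i) (f i) := by
  classical
  have h1 : ∀ U : Finset F, Set.indicator {U : Finset F | U.Nonempty}
      (fun U => Wo0 U * nm0 U (lead sf f U)) U ≤
      ∑ i, if U = sf i then Wo0 (sf i) * nm0 (sf i) (f i) else 0 := by
    intro U
    refine (Set.indicator_le_self' (fun _ _ => bot_le) U).trans ?_
    have h2 : nm0 U (lead sf f U) ≤ ∑ i, if U = sf i then nm0 (sf i) (f i) else 0 := by
      unfold lead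
      refine (GN.sum_le (hN U) _ _).trans (sum_le_sum fun i _ => ?_)
      split_ifs with h
      · rw [h]
      · rw [(hN U).zero]
    refine (mul_le_mul_right h2 _).trans (le_of_eq ?_)
    rw [mul_sum]
    refine sum_congr rfl fun i _ => ?_
    split_ifs with h
    · rw [h]
    · rw [mul_zero]
  show ∑' U : Finset F, Set.indicator {U : Finset F | U.Nonempty}
      (fun U => Wo0 U * nm0 U (lead sf f U)) U ≤ _
  refine (ENNReal.tsum_le_tsum h1).trans (le_of_eq ?_)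
  rw [Summable.tsum_finsetSum (fun i _ => ENNReal.summable)]
  refine sum_congr rfl fun i _ => ?_
  rw [tsum_ite_eq]

/-! ### the data at the change of regime -/

/-- **the data at the scale `K1`**: actual run `D` (source extraction on below `K1`), base run `B`;
total norm of the rest, running factors, constants -/
structure FinM (D : Sys F (VS V m)) (B : Sys F V) (Λ : Finset F) (K1 : ℕ)
    (sf : Fin m → Finset F) (ζ cst c0 : Fin m → ℝ) (β : Fin m → Ge V)
    (nm0 : Finset F → Ge (VS V m) → ℝ≥0∞) (Wo0 : Finset F → ℝ≥0∞)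
    (v ε μ M Ze : ℝ) : Prop where
  v0 : 0 < v
  ε0 : 0 ≤ ε
  μ0 : 0 ≤ μ
  M0 : 0 ≤ M
  vac : D.vac = vacS
  hGS : ∀ k U, D.H k U ∈ GS V m
  act : Tout Wo0 (fun W => nm0 W (D.K K1 W - inG m (B.K K1 W) - LD sf ζ β W)) ≤
    ENNReal.ofReal ε
  hβ : ∀ i, Wo0 (sf i) * nm0 (sf i) (tau i * inG m (β i)) ≤ ENNReal.ofReal μ
  hζ : ∀ i, |ζ i - Ze| ≤ ε
  hZe : |Ze| ≤ 2
  cst : ∀ i, v ^ 2 * |cst i + co {i} (D.E Λ K1) - Ze * c0 i| ≤ ε
  high : ∀ I : Finset (Fin m), 2 ≤ I.card → (v ^ 2) ^ I.card * |co I (D.E Λ K1)| ≤ ε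
  hc0 : ∀ i, v ^ 2 * |c0 i| ≤ M

section mid

variable {D : Sys F (VS V m)} {B : Sys F V} {Λ : Finset F} {K1 : ℕ}
  {sf : Fin m → Finset F} {ζ cst c0 : Fin m → ℝ} {β : Fin m → Ge V}
  {nm0 : Finset F → Ge (VS V m) → ℝ≥0∞} {Wo0 : Finset F → ℝ≥0∞} {v ε μ M Ze : ℝ}

theorem Tout_lead_le (h : FinM D B Λ K1 sf ζ cst c0 β nm0 Wo0 v ε μ M Ze) (hN : ∀ U, GN (nm0 U))
    {x : Fin m → ℝ} {X : ℝ} (hx : ∀ i, |x i| ≤ X) (hX : 0 ≤ X) :
    Tout Wo0 (fun U => nm0 U (lead sf (fun i => x i • (tau i * inG m (β i))) U)) ≤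
      ENNReal.ofReal (m * (X * μ)) := by
  have hμ := h.μ0
  refine (Tout_lead hN Wo0 sf _).trans ?_
  calc ∑ i, Wo0 (sf i) * nm0 (sf i) (x i • (tau i * inG m (β i)))
      ≤ ∑ _i : Fin m, ENNReal.ofReal (X * μ) := by
        refine sum_le_sum fun i _ => ?_
        calc Wo0 (sf i) * nm0 (sf i) (x i • (tau i * inG m (β i)))
            ≤ Wo0 (sf i) * (‖x i‖ₑ * nm0 (sf i) (tau i * inG m (β i))) :=
              mul_le_mul_right ((hN _).smul _ _) _
          _ = ‖x i‖ₑ * (Wo0 (sf i) * nm0 (sf i) (tau i * inG m (β i))) := by ring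
          _ ≤ ENNReal.ofReal X * ENNReal.ofReal μ := by
              refine mul_le_mul' ?_ (h.hβ i)
              rw [← ofReal_norm, Real.norm_eq_abs]
              exact ENNReal.ofReal_le_ofReal (hx i)
          _ = ENNReal.ofReal (X * μ) := (ENNReal.ofReal_mul hX).symm
    _ = ENNReal.ofReal (m * (X * μ)) := by
        rw [sum_const, card_univ, Fintype.card_fin, nsmul_eq_mul,
          ENNReal.ofReal_mul (Nat.cast_nonneg m), ENNReal.ofReal_natCast]

/-- the initial total norm of the lead run -/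
theorem lead_init (h : FinM D B Λ K1 sf ζ cst c0 β nm0 Wo0 v ε μ M Ze) (hN : ∀ U, GN (nm0 U)) :
    Tout Wo0 (fun U => nm0 U (KF sf Ze β U)) ≤ ENNReal.ofReal (m * (2 * μ)) :=
  Tout_lead_le h hN (x := fun _ => Ze) (fun _ => h.hZe) (by norm_num)

/-- the initial total norm of the rest -/
theorem rest_init (h : FinM D B Λ K1 sf ζ cst c0 β nm0 Wo0 v ε μ M Ze) (hN : ∀ U, GN (nm0 U)) :
    Tout Wo0 (fun U => nm0 U (D.K K1 U - inG m (B.K K1 U) - KF sf Ze β U)) ≤
      ENNReal.ofReal (ε * (1 + m * μ)) := by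
  have hε := h.ε0
  have hμ := h.μ0
  have e : ∀ W, D.K K1 W - inG m (B.K K1 W) - KF sf Ze β W =
      (D.K K1 W - inG m (B.K K1 W) - LD sf ζ β W) +
        lead sf (fun i => (ζ i - Ze) • (tau i * inG m (β i))) W := fun W => by
    rw [← LD_sub sf ζ (fun _ => Ze) β W, LD_const]; abel
  calc Tout Wo0 (fun U => nm0 U (D.K K1 U - inG m (B.K K1 U) - KF sf Ze β U))
      ≤ Tout Wo0 (fun U => nm0 U (D.K K1 U - inG m (B.K K1 U) - LD sf ζ β U) +
          nm0 U (lead sf (fun i => (ζ i - Ze) • (tau i * inG m (β i))) U)) := by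
        refine Tout_mono fun U _ => ?_
        rw [e U]
        exact (hN U).add _ _
    _ = Tout Wo0 (fun U => nm0 U (D.K K1 U - inG m (B.K K1 U) - LD sf ζ β U)) +
          Tout Wo0 (fun U => nm0 U (lead sf (fun i => (ζ i - Ze) • (tau i * inG m (β i))) U)) :=
        Tout_add _ _
    _ ≤ ENNReal.ofReal ε + ENNReal.ofReal (m * (ε * μ)) :=
        add_le_add h.act (Tout_lead_le h hN h.hζ hε)
    _ = ENNReal.ofReal (ε * (1 + m * μ)) := by
        rw [← ENNReal.ofReal_add hε (by positivity)]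
        congr 1; ring

/-- the constants -/
theorem cst_diff (h : FinM D B Λ K1 sf ζ cst c0 β nm0 Wo0 v ε μ M Ze) {g : V → ℝ≥0∞}
    (g0 : g 0 = 0) :
    Bd (Nw g fun _ => v) ((Etot cst (D.E Λ K1) - algebraMap ℝ _ (ctG (Etot cst (D.E Λ K1)))) -
      (EF V Ze c0 - algebraMap ℝ _ (ctG (EF V Ze c0)))) ((m + 2 ^ m) * ε) := by
  have hv := h.v0
  have hε := h.ε0
  have hN := ra_Nw (V := V) (m := m) g (fun _ => v)
  have hES : D.E Λ K1 ∈ GS V m := E_mem_GS h.vac h.hGS Λ K1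
  have hEv : vacH (D.E Λ K1) = D.E Λ K1 := vacH_E h.vac Λ K1
  have htau : ∀ i : Fin m, Bd (Nw g fun _ => v) (tau i : Ge (VS V m)) (v ^ 2) := fun i =>
    bd_tau g0 (v := fun _ => v) i hv
  have ctE' : ctG (EF V Ze c0 : Ge (VS V m)) = 0 := ctG_sum_tau fun i => Ze * c0 i
  have hsplit : (Etot cst (D.E Λ K1) - algebraMap ℝ _ (ctG (Etot cst (D.E Λ K1)))) -
      (EF V Ze c0 - algebraMap ℝ _ (ctG (EF V Ze c0))) =
      (Etot cst (D.E Λ K1) - algebraMap ℝ _ (ctG (Etot cst (D.E Λ K1))) -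
        ∑ i, (cst i + co {i} (D.E Λ K1)) • tau i) +
      ∑ i, (cst i + co {i} (D.E Λ K1) - Ze * c0 i) • tau i := by
    rw [ctE', map_zero, sub_zero, EF]
    simp only [sub_smul, sum_sub_distrib]
    abel
  rw [hsplit]
  have h1 := vrest_of hES hEv g0 h.high cst
  have h2 : Bd (Nw g fun _ => v) (∑ i, (cst i + co {i} (D.E Λ K1) - Ze * c0 i) •
      (tau i : Ge (VS V m))) (m * ε) := by
    have h3 := Bd.sum hN univ (f := fun i => (cst i + co {i} (D.E Λ K1) - Ze * c0 i) •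
      (tau i : Ge (VS V m))) (t := fun _ => ε) (fun i _ => by
        refine ((htau i).smul hN _).mono ?_
        have := h.cst i
        rwa [mul_comm] at this) fun _ _ => hε
    simpa using h3
  refine (h1.add hN h2 (by positivity) (by positivity)).mono (le_of_eq ?_)
  ring

/-- the free constants -/
theorem cst_free (h : FinM D B Λ K1 sf ζ cst c0 β nm0 Wo0 v ε μ M Ze) {g : V → ℝ≥0∞}
    (g0 : g 0 = 0) :
    Bd (Nw g fun _ => v) (EF V Ze c0 - algebraMap ℝ _ (ctG (EF V Ze c0)) : Ge (VS V m))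
      (m * (2 * M)) := by
  have hv := h.v0
  have hM := h.M0
  have hN := ra_Nw (V := V) (m := m) g (fun _ => v)
  have htau : ∀ i : Fin m, Bd (Nw g fun _ => v) (tau i : Ge (VS V m)) (v ^ 2) := fun i =>
    bd_tau g0 (v := fun _ => v) i hv
  have ctE' : ctG (EF V Ze c0 : Ge (VS V m)) = 0 := ctG_sum_tau fun i => Ze * c0 i
  rw [ctE', map_zero, sub_zero, EF]
  have h3 := Bd.sum hN univ (f := fun i => (Ze * c0 i) • (tau i : Ge (VS V m)))
    (t := fun _ => 2 * M) (fun i _ => by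
      refine ((htau i).smul hN _).mono ?_
      rw [abs_mul]
      calc |Ze| * |c0 i| * v ^ 2 = |Ze| * (v ^ 2 * |c0 i|) := by ring
        _ ≤ 2 * M := mul_le_mul h.hZe (h.hc0 i) (by positivity) (by norm_num))
    fun _ _ => by positivity
  simpa using h3

end mid

/-! ### the class of the source dependent activities -/

/-- **source dependent activities**: source-local, no source free part, connected support -/
def PX (d : F → F → ℕ) (R : ℕ → ℕ) (sf : Fin m → Finset F) (k : ℕ) (U : Finset F)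
    (X : Ge (VS V m)) : Prop :=
  X ∈ SLA sf U ∧ noS X = 0 ∧ (X ≠ 0 → Packx915.Conn d (R k) U)

theorem KF_SLA (sf : Fin m → Finset F) (Ze : ℝ) (β : Fin m → Ge V) (U : Finset F) :
    (KF sf Ze β U : Ge (VS V m)) ∈ SLA sf U := by
  classical
  unfold KF lead
  refine Subalgebra.sum_mem _ fun i _ => ?_
  split_ifs with h
  · refine Subalgebra.smul_mem _ (Subalgebra.mul_mem _ ?_ (SrcTailx999.inG_mem_SLA sf U _)) _
    refine ⟨tau_mem i, fun I hI j hj => ?_⟩
    have e : (tau i : Ge (VS V m)) = tauP {i} * inG m 1 := by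
      rw [SrcCstx484.tauP_singleton, map_one, mul_one]
    rw [e, SrcDefx991.coP_basis] at hI
    have hIi : I = {i} := by
      by_contra hne
      exact hI (if_neg hne)
    rw [hIi, mem_singleton] at hj
    rw [hj, h]
  · exact Subalgebra.zero_mem _

theorem noS_KF (sf : Fin m → Finset F) (Ze : ℝ) (β : Fin m → Ge V) (U : Finset F) :
    noS (KF sf Ze β U : Ge (VS V m)) = 0 := noS_lead sf (fun _ => Ze) β U

theorem KF_conn {d : F → F → ℕ} {R : ℕ} {sf : Fin m → Finset F} (hc : ∀ i, Packx915.Conn d R (sf i))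
    (Ze : ℝ) (β : Fin m → Ge V) (U : Finset F) (h : (KF sf Ze β U : Ge (VS V m)) ≠ 0) :
    Packx915.Conn d R U := by
  unfold KF lead at h
  obtain ⟨i, _, hi⟩ := Finset.exists_ne_zero_of_sum_ne_zero h
  split_ifs at hi with hU
  · rw [hU]; exact hc i
  · exact absurd rfl hi

section cls

variable {B : Sys F V} {D DL : Sys F (VS V m)} {d : F → F → ℕ} {R : ℕ → ℕ}
  {sf : Fin m → Finset F}

/-- the lead run is in the class -/
theorem lead_PX {N : ℕ} (hL : TailOf B DL N) (hR : ∀ k < N, R k ≤ R (k + 1))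
    (hnear : ∀ k < N, B.near (k + 1) = fun a b => d a b ≤ R (k + 1))
    (h0 : ∀ U, noS (DL.K 0 U) = 0) (h1 : ∀ U, DL.K 0 U ∈ SLA sf U)
    (h2 : ∀ U, U.Nonempty → DL.K 0 U ≠ 0 → Packx915.Conn d (R 0) U)
    (k : ℕ) (hk : k ≤ N) (U : Finset F) (hU : U.Nonempty) : PX d R sf k U (DL.K k U) := by
  refine ⟨tail_SLA hL h1 k hk U, lead_noS hL h0 k hk U, ?_⟩
  refine tail_conn hL hR hnear h2 (fun k hk U hU hne => ?_) k hk U hU
  exfalso
  apply hne
  have e : (fun U => noS (DL.H k U)) = fun _ => 0 :=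
    funext fun U => SrcTailx999.lead_noS_H hL h0 hk U
  rw [e]
  simp [Extr.gain, Extr.lost]

/-- the rest is in the class -/
theorem rest_PX {N : ℕ} (hT : TailOf B D N) (hL : TailOf B DL N) (hR : ∀ k < N, R k ≤ R (k + 1))
    (hnear : ∀ k < N, B.near (k + 1) = fun a b => d a b ≤ R (k + 1))
    (a0 : ∀ U, noS (D.K 0 U) = B.K 0 U) (a1 : ∀ U, D.K 0 U ∈ SLA sf U)
    (a2 : ∀ U, U.Nonempty → D.K 0 U ≠ 0 → Packx915.Conn d (R 0) U)
    (aX : ∀ k < N, ∀ U, U.Nonempty → (B.e k).gain (B.H k) U - (B.e k).lost (B.H k) U ≠ 0 →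
      Packx915.Conn d (R k) U)
    (h0 : ∀ U, noS (DL.K 0 U) = 0) (h1 : ∀ U, DL.K 0 U ∈ SLA sf U)
    (h2 : ∀ U, U.Nonempty → DL.K 0 U ≠ 0 → Packx915.Conn d (R 0) U)
    (k : ℕ) (hk : k ≤ N) (U : Finset F) (hU : U.Nonempty) : PX d R sf k U (PT B D DL k U) := by
  refine ⟨PT_SLA (tail_SLA hT a1 k hk U) (tail_SLA hL h1 k hk U),
    PT_noS (tail_noS hT a0 k hk U) (lead_noS hL h0 k hk U), fun hne => ?_⟩
  have hD : D.K k U ≠ 0 → Packx915.Conn d (R k) U := by
    refine tail_conn hT hR hnear a2 (fun k hk U hU hne => ?_) k hk U hU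
    refine aX k hk U hU ?_
    have e : (fun U => noS (D.H k U)) = B.H k := by
      funext U
      rw [SrcTailx999.tail_noS_H hT hk, tail_noS hT a0 k hk.le]
      rfl
    rwa [e] at hne
  rcases PT_ne hne with h | h | h
  · exact hD h
  · refine hD fun h' => h ?_
    rw [← tail_noS hT a0 k hk U, h', map_zero]
  · exact (lead_PX hL hR hnear h0 h1 h2 k hk U hU).2.2 h

end cls

/-! ### the comparison at the last scale -/

section final

variable {D : Sys F (VS V m)} {B : Sys F V} {Λ : Finset F} {K1 : ℕ}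
  {sf : Fin m → Finset F} {ζ cst c0 : Fin m → ℝ} {β : Fin m → Ge V} {v ε μ M Ze : ℝ}
  {bt : Type} {nm : ℕ → Finset F → Ge (VS V m) → ℝ≥0∞}
  {Wo : ℕ → Finset F → ℝ≥0∞} {sz : ℕ → Finset F → ℕ} {nr : ℕ → bt → Finset F → Prop}
  {P : ℕ → Finset F → Ge (VS V m) → Prop} {C c : ℝ≥0∞} {q : ℕ → ℝ≥0∞}

/-- the tail condition does not see the activities -/
theorem tailOf_K0 {B : Sys F V} {D : Sys F (VS V m)} {N K1 : ℕ} {X Y : Finset F → Ge (VS V m)}
    (h : TailOf B (shift D K1 X) N) : TailOf B (shift D K1 Y) N :=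
  ⟨h.S, h.near, h.vac, h.bvac, h.e⟩

/-- **`FinE` at the last scale `K1 + N`** from the data at `K1` and the steps `K1 ≤ k < K1 + N` -/
theorem finE_mid {J N : ℕ} {t0 C0 : ℝ} (h3 : ScalarT3 J c C t0 C0) (hC0 : 0 ≤ C0) (hCt : C ≠ ∞)
    {b0 : ℝ} (hb0 : 0 < b0) (hbt : b0 ≤ t0)
    (hF : FinM D B Λ K1 sf ζ cst c0 β (nm 0) (Wo 0) v ε μ M Ze) (hnm : ∀ U, GN (nm 0 U))
    (het : ε * (1 + m * μ) ≤ t0) (hμt : m * (2 * μ) ≤ t0)
    (hTO : ∀ n, TailOf (shift B K1 (B.K K1)) (shift D K1 (D.K K1)) n)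
    (hnoS : ∀ U, noS (D.K K1 U) = B.K K1 U) (hSLA : ∀ U, D.K K1 U ∈ SLA sf U)
    (h : TailH (shift B K1 (B.K K1)) (shift D K1 (D.K K1)) (shift D K1 (KF sf Ze β)) nm Wo sz nr
      P C c q J N b0)
    {Sf : Cov V} {g : V → ℝ≥0∞} (hg : Gram Sf g) (g0 : g 0 = 0) (hW : ∀ k U, 1 ≤ Wo k U)
    (hvac : ∀ k < N, ∀ U : Finset F, U.Nonempty → ∀ X ∈ GS V m,
      Nw g (fun _ => v) (vacH (cvG (ext0 m (B.S (K1 + k))) X)) ≤ nm k U X)
    (hfin : ∀ U : Finset F, U.Nonempty → ∀ X, Nw g (fun _ => v) X ≤ nm N U X)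
    {ε₁ : ℝ} (hε₁ : 0 ≤ ε₁)
    (hb : ∑ W ∈ nes Λ, pG g (B.K (K1 + N) W) ≤ ENNReal.ofReal ε₁) :
    FinE (D.near (K1 + N)) Λ (D.K (K1 + N)) ((shift D K1 (KF sf Ze β)).K N)
      (∑ i, cst i • tau i + D.E Λ (K1 + N))
      (∑ i, (Ze * c0 i) • tau i + (shift D K1 (KF sf Ze β)).E Λ N) Sf g (fun _ => v)
      (ε₁ + (m + 2 ^ m) * ε + 3 * (C0 * (ε * (1 + m * μ) + b0)))
      (m * (2 * M) + 3 * (C0 * (m * (2 * μ)))) := by
  have hε := hF.ε0
  have hμ := hF.μ0
  have hM := hF.M0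
  set B' := shift B K1 (B.K K1) with hB'
  set D' := shift D K1 (D.K K1) with hD'
  set DL := shift D K1 (KF sf Ze β) with hDL
  have hTL : ∀ n, TailOf B' DL n := fun n => tailOf_K0 (hTO n)
  have a0 : ∀ U, noS (D'.K 0 U) = B'.K 0 U := hnoS
  have l0 : ∀ U, noS (DL.K 0 U) = 0 := noS_KF sf Ze β
  have n1 : ∀ k U, noS (D'.K k U) = B'.K k U := fun k U => tail_noS (hTO k) a0 k le_rfl U
  have n2 : ∀ k U, noS (DL.K k U) = 0 := fun k U => lead_noS (hTL k) l0 k le_rfl U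
  have g1 : ∀ k U, D'.K k U ∈ SLA sf U := fun k U => tail_SLA (hTO k) hSLA k le_rfl U
  have g2 : ∀ k U, DL.K k U ∈ SLA sf U := fun k U =>
    tail_SLA (hTL k) (KF_SLA sf Ze β) k le_rfl U
  have hR1 := rest_init hF hnm
  have hL1 := lead_init hF hnm
  have hR0 : tn nm Wo 0 (PT B' D' DL 0) ≤ ENNReal.ofReal (ε * (1 + m * μ)) := hR1
  have hL0 : tn nm Wo 0 (DL.K 0) ≤ ENNReal.ofReal (m * (2 * μ)) := hL1
  have key := finE_all (B := B') (D := D') (DL := DL) (Λ := Λ) h3 hC0 hb0 (e0 := ε * (1 + m * μ))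
    (τ0 := m * (2 * μ)) (by positivity) (by positivity) hbt het hμt h
    (fun k hk => leadStep (hTL N) hk (n2 k) hCt)
    (fun k hk => restStep (hTO N) (hTL N) hk (n1 k) (n2 k))
    hL0 hR0
    (fun k => (hTO (k + 1)).S k (Nat.lt_succ_self k)) (fun k => rfl) hF.vac hF.vac n1 n2 hg
    (fun _ => hF.v0) hW (fun k hk U hU X hX => ?_) hfin (E₁ := Etot cst (D.E Λ K1))
    (E₁' := EF V Ze c0) hε₁ (ε₂ := (m + 2 ^ m) * ε) (by positivity) (M₀ := m * (2 * M))
    (by positivity) ?_ (vacH_Etot (vacH_E hF.vac Λ K1)) (by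
      rw [EF]; exact vacH_sum_tau fun i => Ze * c0 i) (cst_diff hF g0) (cst_free hF g0)
  · have e1 : Etot cst (D.E Λ K1) + D'.E Λ N = ∑ i, cst i • tau i + D.E Λ (K1 + N) := by
      rw [Etot, add_assoc, hD', ← shift_E]
    have e2 : D'.K N = D.K (K1 + N) := shift_K D K1 N
    rw [e1, e2] at key
    exact key
  · rcases hX with rfl | rfl
    · exact hvac k hk U hU _ (PT_SLA (g1 k U) (g2 k U)).1
    · exact hvac k hk U hU _ (g2 k U).1
  · rw [hB', shift_K]
    exact hb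

end final

end Crest.Agent.R165.SrcMidx441
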