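import Crest.Agent.R165.JRunS2_408
import Crest.Agent.R165.SrcTailFin_441
import Crest.Agent.R165.SrcIns_991
import Crest.Agent.R165.CovPkg_359

/-!
# Row 165 (S0250), leaf P11: from `FinE` to `RunPack` (helper359)

* `leadB` : the leading activities `Ze τ_i β_i` of the bond sources, `flL` : the lead run started at
  the step `K₁`
* `c0B` : the constants `1 - e0 + u_i Σ_{k<K₁} S_k(p_i, q_i)`
* `runPack_of` : `FinE` (actual run against lead run) gives `RunPack` for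
  `domMom / spm` and `Ze ^ m * (D0c / spm0)`; any site set, any number of spins, both boundary
  conditions: domains (`N = 0`) and discs
* `sfL` : the last covariance from the covariance package, `sfL_eq`, `sfL_gram`
-/

set_option autoImplicit false
set_option linter.unusedSectionVars false

noncomputable section

open Filter Topology Finset
open Crest.ProbabilityR.IsingModel

namespace Crest.Agent.R165.EnWx359

open scoped ENNReal
open Crest.Agent.R165.Gr0x606 Crest.Agent.R165.Gr1x606 Crest.Agent.R165.J1ax606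
open Crest.Agent.R165.GeOpsx337 Crest.Agent.R165.ExpGx337 Crest.Agent.R165.KStepx892
  Crest.Agent.R165.KFlowx337 Crest.Agent.R165.KInitx892
open Crest.Agent.R165.SrcDefx991 (VS Src th th' tau tauP ext0 inG noS vacH vacS coP wS vS GS ext0_b)
open Crest.Agent.R165.J4Defx653 Crest.Agent.R165.J4Geox126
open Crest.Agent.R165.JRunSx408 Crest.Agent.R165.JDomAx606
open Crest.Agent.R165.Bkgx683 (MPar mpar bondSrc Bg)
open Crest.Agent.R165.Latx683 (BW wDom ray wX IsCov covS formS Fld)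
open Crest.Agent.R165.Centx541 Crest.Agent.R165.Redx541 Crest.Agent.R165.Symx541
  Crest.Agent.R165.Red2x541 Crest.Agent.R165.Topx683 Crest.Agent.R165.SRx541
open Crest.Agent.R165.UKerx420 (wD Cof Sof Sof_spec Sof_skew)
open Crest.Agent.R165.UFinx420 (isF)
open Crest.Agent.R165.GDefx387 Crest.Agent.R165.GSysx387 Crest.Agent.R165.FRDPolyx439
  Crest.Agent.R165.BgIsox432
open Crest.Agent.R165.SrcFinx441 (lead)
open Crest.Agent.R165.SrcCmpx441 (FinE RunPack ratio ratio_lead_Ze)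
open Crest.Agent.R165.SrcTailx441 (shift shift_OK ratio_run)
open Crest.Agent.R165.SrcInsx991 (uB bE beB beB_mem)

/-! ### the lead run -/

/-- the leading activities of the bond sources -/
def leadB {m : ℕ} (w : BW ℤ) (e : Fin m → EG ℤ) (Ze : ℝ) :
    Finset (ℤ × ℤ) → Ge (VS (Fld ℤ) m) :=
  lead (fun i => faE (e i)) fun i => Ze • (tau i * inG m (beB w (e i)))

theorem leadB_mem {m : ℕ} (w : BW ℤ) (e : Fin m → EG ℤ) (Ze : ℝ) (U : Finset (ℤ × ℤ)) :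
    leadB w e Ze U ∈ grG (fldUS (fun i => faE (e i)) U) := by
  unfold leadB lead
  refine Subalgebra.sum_mem _ fun i _ => ?_
  split_ifs with h
  · subst h
    refine Subalgebra.smul_mem _ (Subalgebra.mul_mem _ ?_ ?_) _
    · obtain ⟨f, hf⟩ := faE_nonempty (e i)
      exact SrcSysx991.tau_mem_fldUS (fun i => faE (e i)) ⟨f, hf, hf⟩
    · exact SrcSysx991.inG_mem_fldUS (fun i => faE (e i)) (beB_mem w (e i))
  · exact Subalgebra.zero_mem _

theorem leadB_zero {m : ℕ} (w : BW ℤ) (e : Fin m → EG ℤ) (Ze : ℝ) {Λ : Finset (ℤ × ℤ)}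
    (hΛ : ∀ i, faE (e i) ⊆ Λ) (U : Finset (ℤ × ℤ)) (hU : ¬ U ⊆ Λ) : leadB w e Ze U = 0 := by
  unfold leadB lead
  refine Finset.sum_eq_zero fun i _ => if_neg fun h => hU ?_
  rw [h]; exact hΛ i

/-- the lead run: the flow `F` restarted at the step `K₁` from the leading activities -/
def flL {m : ℕ} (F : Sys (ℤ × ℤ) (VS (Fld ℤ) m)) (K₁ : ℕ) (w : BW ℤ) (e : Fin m → EG ℤ) (Ze : ℝ) :
    Sys (ℤ × ℤ) (VS (Fld ℤ) m) := shift F K₁ (leadB w e Ze)

/-- the constants `1 - e0 + u Σ_{k<K₁} S_k(p, q)` -/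
def c0B {M K : ℕ} (Dd : FRD 16 M K) (w : BW ℤ) (l k0 K₁ : ℕ) (e : EG ℤ) : ℝ :=
  1 - e0 + uB w e * ∑ k ∈ range K₁, (slC Dd w l k0 k).b
    (Finsupp.single (pe e) 1) (Finsupp.single (qe e) 1)

section run

variable {D : Set ℂ} {a : ℝ} {b : BoundaryCondition} {n m : ℕ} {x : Fin n → ℂ} {y : Fin m → ℂ}
  {j : Fin m → Fin 2}

/-- the flow with bond sources of the domain -/
abbrev flD (H : SrcOK D a b x y j) (P : MPar) {M K : ℕ} (Dd : FRD 16 M K) (mk : Finset (ℤ × ℤ))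
    (e2 : ℕ → Extr (ℤ × ℤ) (VS (Fld ℤ) m)) (l k0 : ℕ) : Sys (ℤ × ℤ) (VS (Fld ℤ) m) :=
  (Bg.dom H.fin.toFinset b (xb a x)).flowS P Dd mk (eb a y j) e2 l k0

/-- **the unperturbed side**: the lead run -/
theorem lead_run (H : SrcOK D a b x y j) (P : MPar) {Λ : Finset (ℤ × ℤ)}
    (hsub : ∀ i, faE (eb a y j i) ⊆ Λ)
    {M K : ℕ} (Dd : FRD 16 M K) (hK : 16 ≤ K) (mk : Finset (ℤ × ℤ)) {l k0 : ℕ}
    (h5 : 5 ≤ l * (k0 + 1)) (K₁ N : ℕ) (e2 : ℕ → Extr (ℤ × ℤ) (VS (Fld ℤ) m))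
    {src : Submodule ℝ (VS (Fld ℤ) m)} (hok : (flD H P Dd mk e2 l k0).OK src)
    (Sf : Cov (Fld ℤ))
    (hSf : Cof (wD (isF b) D a (xb a x)) = Sf +
      ∑ k ∈ range (K₁ + N), slC Dd (wD (isF b) D a (xb a x)) l k0 k)
    (hsrc : ∀ u ∈ src, ∀ v, (ext0 m Sf).b u v = 0)
    (hsep : ∀ i i', i ≠ i' → nearR l k0 (K₁ - 1) < fd (eb a y j i).1 (eb a y j i').1)
    (hnt : ∀ i i', i ≠ i' → ¬ touch (near l k0 K₁) (faE (eb a y j i)) (faE (eb a y j i')))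
    (Ze : ℝ) :
    Ze ^ m * (D0c D a b x y j / spm0 D a b x) =
      ratio Sf (∑ i, (Ze * c0B Dd (wD (isF b) D a (xb a x)) l k0 K₁ (eb a y j i)) • tau i +
          (flL (flD H P Dd mk e2 l k0) K₁ (wD (isF b) D a (xb a x)) (eb a y j) Ze).E Λ N)
        (ZZ (near l k0 (K₁ + N)) Λ
          ((flL (flD H P Dd mk e2 l k0) K₁ (wD (isF b) D a (xb a x)) (eb a y j) Ze).K N)) := by
  set w := wD (isF b) D a (xb a x) with hw
  have hBw : (Bg.dom H.fin.toFinset b (xb a x)).w = w := dom_w H.fin b (xb a x)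
  set S1 : Cov (Fld ℤ) := Sf + ∑ k ∈ range N, slC Dd w l k0 (K₁ + k) with hS1
  have h1 : Cof w = S1 + ∑ k ∈ range K₁, slC Dd w l k0 k := by
    rw [hSf, hS1, Finset.sum_range_add, add_assoc,
      add_comm (∑ k ∈ range N, slC Dd w l k0 (K₁ + k))]
  have h2 := q0_run H Dd l k0 K₁ S1 h1 (fun k hk i i' hii u hu v hv =>
    slC_sep Dd hK w h5 (hsep i i' hii) k hk u hu v hv)
  have hrefl : ∀ f : ℤ × ℤ, near l k0 K₁ f f := fun f => by
    show fd f f ≤ _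
    rw [show fd f f = 0 by simp [fd, cn]]
    exact Nat.zero_le _
  have hinj : Function.Injective fun i => faE (eb a y j i) := by
    intro i i' h
    by_contra hne
    refine hnt i i' hne ?_
    obtain ⟨f, hf⟩ := faE_nonempty (eb a y j i)
    have h' : faE (eb a y j i) = faE (eb a y j i') := h
    exact ⟨f, hf, f, h' ▸ hf, hrefl f⟩
  have h3 := ratio_lead_Ze (near l k0 K₁) hinj (fun i => faE_nonempty _) hsub hnt Ze
    (fun i => c0B Dd w l k0 K₁ (eb a y j i)) (fun i => beB w (eb a y j i)) S1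
  have hokL : (flL (flD H P Dd mk e2 l k0) K₁ w (eb a y j) Ze).OK src :=
    shift_OK hok K₁ fun U => leadB_mem w (eb a y j) Ze U
  have h4 := ratio_run (m := m) hokL (Λ := Λ) (fun U hU => leadB_zero w (eb a y j) Ze hsub U hU)
    (Sc := fun k => slC Dd w l k0 (K₁ + k)) N (fun k _ => by rw [← hBw]; rfl) S1 Sf hS1 hsrc
    (∑ i, (Ze * c0B Dd w l k0 K₁ (eb a y j i)) • tau i)
  rw [h2]
  exact h3.symm.trans h4

/-- **from `FinE` to `RunPack`** -/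
theorem runPack_of' (H : SrcOK D a b x y j) {J lam : ℝ} {R : ℕ} {V : Finset (ℤ × ℤ) → ℝ} {β z : ℝ}
    (hJ : J ≠ 0) (hV : TrInv V) (hr : Rng R V) (hev : ∀ A, V A ≠ 0 → Even A.card)
    (hz : 0 < 1 + z) {Λ : Finset (ℤ × ℤ)}
    (hΛ : VolS H.fin.toFinset b (max R 1) (eb a y j) Λ)
    {M K : ℕ} (Dd : FRD 16 M K) (hK : 16 ≤ K) (mk : Finset (ℤ × ℤ)) {l k0 : ℕ}
    (h5 : 5 ≤ l * (k0 + 1)) (K₁ N : ℕ) (e2 : ℕ → Extr (ℤ × ℤ) (VS (Fld ℤ) m))
    {src : Submodule ℝ (VS (Fld ℤ) m)}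
    (hok : (flD H (mpar J lam R V β z) Dd mk e2 l k0).OK src)
    (Sf : Cov (Fld ℤ))
    (hSf : Cof (wD (isF b) D a (xb a x)) = Sf +
      ∑ k ∈ range (K₁ + N), slC Dd (wD (isF b) D a (xb a x)) l k0 k)
    (hsrc : ∀ u ∈ src, ∀ v, (ext0 m Sf).b u v = 0)
    (hsupp : ∀ U, ¬ U ⊆ Λ → K0S H.fin b (mpar J lam R V β z) (xb a x) (eb a y j) U = 0)
    (hsep : ∀ i i', i ≠ i' → nearR l k0 (K₁ - 1) < fd (eb a y j i).1 (eb a y j i').1)
    (hnt : ∀ i i', i ≠ i' → ¬ touch (near l k0 K₁) (faE (eb a y j i)) (faE (eb a y j i')))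
    (Ze : ℝ) (ebv : Fin m → ℝ) {g : Fld ℤ → ℝ≥0∞} {v : Fin m → ℝ} {e M' A κ : ℝ}
    (hF : FinE (near l k0 (K₁ + N)) Λ
      ((flD H (mpar J lam R V β z) Dd mk e2 l k0).K (K₁ + N))
      ((flL (flD H (mpar J lam R V β z) Dd mk e2 l k0) K₁ (wD (isF b) D a (xb a x))
        (eb a y j) Ze).K N)
      (∑ i, (1 - ebv i) • tau i + (flD H (mpar J lam R V β z) Dd mk e2 l k0).E Λ (K₁ + N))
      (∑ i, (Ze * c0B Dd (wD (isF b) D a (xb a x)) l k0 K₁ (eb a y j i)) • tau i +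
        (flL (flD H (mpar J lam R V β z) Dd mk e2 l k0) K₁ (wD (isF b) D a (xb a x))
          (eb a y j) Ze).E Λ N) Sf g v e M')
    (hk : ∀ i, κ ≤ a * (A ^ 2 * v i ^ 2)) :
    RunPack m (domMom D a b J lam R V β x y j ebv / spm D a b J lam R V β x)
      (Ze ^ m * (D0c D a b x y j / spm0 D a b x)) a A e M' κ :=
  ⟨ℤ × ℤ, inferInstance, Fld ℤ, inferInstance, inferInstance, _, _, _, _, _, _, Sf, g, v, hF, hk,
    q_run H hJ hV hr hev hz ebv hΛ Dd mk l k0 (K₁ + N) e2 hok Sf hSf hsrc hsupp,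
    lead_run H (mpar J lam R V β z) hΛ.src Dd hK mk h5 K₁ N e2 hok Sf hSf hsrc hsep hnt Ze⟩

/-- **from `FinE` to `RunPack`**, `Sys.OK` with the source fields `srcM` -/
theorem runPack_of (H : SrcOK D a b x y j) {J lam : ℝ} {R : ℕ} {V : Finset (ℤ × ℤ) → ℝ} {β z : ℝ}
    (hJ : J ≠ 0) (hV : TrInv V) (hr : Rng R V) (hev : ∀ A, V A ≠ 0 → Even A.card)
    (hz : 0 < 1 + z) {Λ : Finset (ℤ × ℤ)}
    (hΛ : VolS H.fin.toFinset b (max R 1) (eb a y j) Λ)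
    {M K : ℕ} (Dd : FRD 16 M K) (hK : 16 ≤ K) (mk : Finset (ℤ × ℤ)) {l k0 : ℕ}
    (h5 : 5 ≤ l * (k0 + 1)) (K₁ N : ℕ) (e2 : ℕ → Extr (ℤ × ℤ) (VS (Fld ℤ) m))
    (hok : (flD H (mpar J lam R V β z) Dd mk e2 l k0).OK (SrcDefx991.srcM (Fld ℤ) m))
    (Sf : Cov (Fld ℤ))
    (hSf : Cof (wD (isF b) D a (xb a x)) = Sf +
      ∑ k ∈ range (K₁ + N), slC Dd (wD (isF b) D a (xb a x)) l k0 k)
    (hsupp : ∀ U, ¬ U ⊆ Λ → K0S H.fin b (mpar J lam R V β z) (xb a x) (eb a y j) U = 0)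
    (hsep : ∀ i i', i ≠ i' → nearR l k0 (K₁ - 1) < fd (eb a y j i).1 (eb a y j i').1)
    (hnt : ∀ i i', i ≠ i' → ¬ touch (near l k0 K₁) (faE (eb a y j i)) (faE (eb a y j i')))
    (Ze : ℝ) (ebv : Fin m → ℝ) {g : Fld ℤ → ℝ≥0∞} {v : Fin m → ℝ} {e M' A κ : ℝ}
    (hF : FinE (near l k0 (K₁ + N)) Λ
      ((flD H (mpar J lam R V β z) Dd mk e2 l k0).K (K₁ + N))
      ((flL (flD H (mpar J lam R V β z) Dd mk e2 l k0) K₁ (wD (isF b) D a (xb a x))
        (eb a y j) Ze).K N)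
      (∑ i, (1 - ebv i) • tau i + (flD H (mpar J lam R V β z) Dd mk e2 l k0).E Λ (K₁ + N))
      (∑ i, (Ze * c0B Dd (wD (isF b) D a (xb a x)) l k0 K₁ (eb a y j i)) • tau i +
        (flL (flD H (mpar J lam R V β z) Dd mk e2 l k0) K₁ (wD (isF b) D a (xb a x))
          (eb a y j) Ze).E Λ N) Sf g v e M')
    (hk : ∀ i, κ ≤ a * (A ^ 2 * v i ^ 2)) :
    RunPack m (domMom D a b J lam R V β x y j ebv / spm D a b J lam R V β x)
      (Ze ^ m * (D0c D a b x y j / spm0 D a b x)) a A e M' κ :=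
  runPack_of' H hJ hV hr hev hz hΛ Dd hK mk h5 K₁ N e2 hok Sf hSf (SrcDefx991.ext0_src Sf) hsupp
    hsep hnt Ze ebv hF hk

/-- the same with the source fields `srcW` of `GSys_387` (the form of `flowP_OK`) -/
theorem runPack_ofW (H : SrcOK D a b x y j) {J lam : ℝ} {R : ℕ} {V : Finset (ℤ × ℤ) → ℝ} {β z : ℝ}
    (hJ : J ≠ 0) (hV : TrInv V) (hr : Rng R V) (hev : ∀ A, V A ≠ 0 → Even A.card)
    (hz : 0 < 1 + z) {Λ : Finset (ℤ × ℤ)}
    (hΛ : VolS H.fin.toFinset b (max R 1) (eb a y j) Λ)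
    {M K : ℕ} (Dd : FRD 16 M K) (hK : 16 ≤ K) (mk : Finset (ℤ × ℤ)) {l k0 : ℕ}
    (h5 : 5 ≤ l * (k0 + 1)) (K₁ N : ℕ) (e2 : ℕ → Extr (ℤ × ℤ) (VS (Fld ℤ) m))
    (hok : (flD H (mpar J lam R V β z) Dd mk e2 l k0).OK (GSysx387.srcW (Fld ℤ) m))
    (Sf : Cov (Fld ℤ))
    (hSf : Cof (wD (isF b) D a (xb a x)) = Sf +
      ∑ k ∈ range (K₁ + N), slC Dd (wD (isF b) D a (xb a x)) l k0 k)
    (hsupp : ∀ U, ¬ U ⊆ Λ → K0S H.fin b (mpar J lam R V β z) (xb a x) (eb a y j) U = 0)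
    (hsep : ∀ i i', i ≠ i' → nearR l k0 (K₁ - 1) < fd (eb a y j i).1 (eb a y j i').1)
    (hnt : ∀ i i', i ≠ i' → ¬ touch (near l k0 K₁) (faE (eb a y j i)) (faE (eb a y j i')))
    (Ze : ℝ) (ebv : Fin m → ℝ) {g : Fld ℤ → ℝ≥0∞} {v : Fin m → ℝ} {e M' A κ : ℝ}
    (hF : FinE (near l k0 (K₁ + N)) Λ
      ((flD H (mpar J lam R V β z) Dd mk e2 l k0).K (K₁ + N))
      ((flL (flD H (mpar J lam R V β z) Dd mk e2 l k0) K₁ (wD (isF b) D a (xb a x))
        (eb a y j) Ze).K N)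
      (∑ i, (1 - ebv i) • tau i + (flD H (mpar J lam R V β z) Dd mk e2 l k0).E Λ (K₁ + N))
      (∑ i, (Ze * c0B Dd (wD (isF b) D a (xb a x)) l k0 K₁ (eb a y j i)) • tau i +
        (flL (flD H (mpar J lam R V β z) Dd mk e2 l k0) K₁ (wD (isF b) D a (xb a x))
          (eb a y j) Ze).E Λ N) Sf g v e M')
    (hk : ∀ i, κ ≤ a * (A ^ 2 * v i ^ 2)) :
    RunPack m (domMom D a b J lam R V β x y j ebv / spm D a b J lam R V β x)
      (Ze ^ m * (D0c D a b x y j / spm0 D a b x)) a A e M' κ :=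
  runPack_of' H hJ hV hr hev hz hΛ Dd hK mk h5 K₁ N e2 hok Sf hSf (SrcFinBx441.ext0_src Sf) hsupp
    hsep hnt Ze ebv hF hk

end run

/-! ### the last covariance from the covariance package -/

open Crest.Agent.R165.CovPkgx359 Crest.Agent.R165.PNormx417 in
/-- **the last covariance** `Sf` after `n` steps -/
def sfL {w : BW ℤ} {m₀ : ℝ} (P : Pkg w m₀) {M K : ℕ} (Dd : FRD 16 M K) (l k0 n : ℕ) :
    Cov (Fld ℤ) := P.sof.last Dd l k0 n

open Crest.Agent.R165.CovPkgx359 in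
/-- the hypothesis `hSf` -/
theorem sfL_eq {w : BW ℤ} {m₀ : ℝ} (P : Pkg w m₀) {M K : ℕ} (Dd : FRD 16 M K) (l k0 n : ℕ) :
    Cof w = sfL P Dd l k0 n + ∑ k ∈ range n, slC Dd w l k0 k :=
  P.sof.full_eq Dd l k0 n

open Crest.Agent.R165.CovPkgx359 Crest.Agent.R165.PNormx417 in
/-- its Gram bound -/
theorem sfL_gram {w : BW ℤ} {m₀ : ℝ} (P : Pkg w m₀) {M K : ℕ} (Dd : FRD 16 M K) (l k0 n : ℕ) :
    Gram (sfL P Dd l k0 n) (FRDRestx439.gr Dd w m₀ (lo l k0 n)) :=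
  P.rest_gram (Sof_spec P.ex) Dd (lo l k0 n)

/-! ### separation of the sources -/

/-- the two separation hypotheses from one distance -/
theorem sep_of {m : ℕ} {l k0 K₁ : ℕ} {e : Fin m → EG ℤ}
    (h : ∀ i i', i ≠ i' → nearR l k0 K₁ + 2 < fd (e i).1 (e i').1) :
    (∀ i i', i ≠ i' → nearR l k0 (K₁ - 1) < fd (e i).1 (e i').1) ∧
      ∀ i i', i ≠ i' → ¬ touch (near l k0 K₁) (faE (e i)) (faE (e i')) := by
  have hd : ∀ (e : EG ℤ) (f : ℤ × ℤ), f ∈ faE e → fd e.1 f ≤ 1 := by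
    rintro ⟨⟨p, q⟩, i⟩ f hf
    fin_cases i
    · simp only [faE, pe, qe, Finset.mem_insert, Finset.mem_singleton] at hf
      rcases hf with rfl | rfl <;> simp [fd, cn]
    · simp only [faE, pe, qe, Finset.mem_insert, Finset.mem_singleton] at hf
      rcases hf with rfl | rfl <;> simp [fd, cn]
  refine ⟨fun i i' hii => ?_, fun i i' hii => ?_⟩
  · have h1 := h i i' hii
    have h2 : nearR l k0 (K₁ - 1) ≤ nearR l k0 K₁ := nearR_mono l k0 (by omega)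
    omega
  · rintro ⟨f, hf, f', hf', hn⟩
    have h1 := h i i' hii
    have h2 := hd _ _ hf
    have h3 := hd _ _ hf'
    have h4 : fd f f' ≤ nearR l k0 K₁ := hn
    have h5 := fd_triangle (e i).1 f (e i').1
    have h6 := fd_triangle f f' (e i').1
    have h7 : fd f' (e i').1 = fd (e i').1 f' := fd_comm _ _
    omega

end Crest.Agent.R165.EnWx359
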