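import Crest.Agent.R165.SrcIns2_991
import Crest.Agent.R165.J4K0L_126

/-!
# Row 165 (S0250), P11: the initial activities with bond sources (helper991)

* `act_drop`, `K0_drop` : an algebra homomorphism which kills the constants of the sources maps the
  activities with sources to the activities without sources
* `noS_K0P` : the source-free part of the initial activities
* `GS_K0P`, `sup_K0P` : algebra generated, supports of the coefficients
* `SOK_flowP` : the hypotheses `SOK` of `SrcSys_991`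
-/

set_option autoImplicit false
set_option linter.unusedSectionVars false

noncomputable section

namespace Crest.Agent.R165.SrcInsx991

open scoped ENNReal
open Finset

/-! ### dropping items -/

section drop

open Crest.Agent.R165.KCompx892 Crest.Agent.R165.J4Actx126

variable {ι F RR A : Type*} [DecidableEq ι] [DecidableEq F] [CommRing RR] [CommRing A]
variable {ι' RR' A' : Type*} [DecidableEq ι'] [CommRing RR'] [CommRing A']

open Classical in
/-- **items with weight zero can be dropped** -/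
theorem act_drop [Fintype ι] [Fintype ι'] {I : Items ι F RR A} {I' : Items ι' F RR' A'}
    {e : ι' → ι} (he : Function.Injective e) (hY : ∀ i, I.Y (e i) = I'.Y i) (τ : A →+ A')
    (h1 : ∀ T : Finset ι', τ (I.w (T.image e)) = I'.w T)
    (h2 : ∀ T : Finset ι, (∃ i ∈ T, ∀ j, e j ≠ i) → τ (I.w T) = 0) (U : Finset F) :
    τ (I.act U) = I'.act U := by
  unfold Items.act
  rw [map_sum]
  have hY' : ∀ T : Finset ι', J4Actx126.supp I.Y (T.image e) = J4Actx126.supp I'.Y T := by
    intro T
    unfold J4Actx126.supp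
    rw [Finset.image_biUnion]
    exact Finset.biUnion_congr rfl fun i _ => hY i
  have hc : ∀ T : Finset ι', Conn (touch I.Y) (T.image e) ↔ Conn (touch I'.Y) T := by
    intro T
    refine J4Actx126.conn_image he.injOn fun i _ j _ => ?_
    unfold touch
    rw [hY, hY]
  symm
  refine Finset.sum_of_injOn (fun T' : Finset ι' => T'.image e) ?_ ?_ ?_ ?_
  · intro T _ T' _ h
    exact Finset.image_injective he h
  · intro T hT
    rw [Finset.mem_coe, Finset.mem_filter] at hT ⊢
    exact ⟨Finset.mem_univ _, (hc T).2 hT.2.1, (hY' T).trans hT.2.2⟩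
  · intro T hT hn
    refine h2 T ?_
    by_contra hcon
    push Not at hcon
    apply hn
    have e1 : (univ.filter fun i => e i ∈ T).image e = T := by
      ext j
      rw [Finset.mem_image]
      constructor
      · rintro ⟨i, hi, rfl⟩; exact (Finset.mem_filter.1 hi).2
      · intro hj
        obtain ⟨i, hi⟩ := hcon j hj
        exact ⟨i, Finset.mem_filter.2 ⟨Finset.mem_univ _, hi ▸ hj⟩, hi⟩
    refine ⟨univ.filter fun i => e i ∈ T, ?_, e1⟩
    rw [Finset.mem_coe, Finset.mem_filter]
    rw [Finset.mem_filter] at hT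
    refine ⟨Finset.mem_univ _, ?_, ?_⟩
    · rw [← hc, e1]; exact hT.2.1
    · rw [← hY', e1]; exact hT.2.2
  · intro T _
    exact (h1 T).symm

end drop

/-! ### the activities with sources killed -/

section K0

open Crest.Agent.R165.KCompx892 Crest.Agent.R165.J4Actx126
open Crest.Agent.R165.J4Datx126 Crest.Agent.R165.J4Geox126 Crest.Agent.R165.J4K0x126
open Crest.Agent.R165.J4K0Mapx126 Crest.Agent.R165.J4K0Lx126
open Crest.Agent.R165.J4Defx653 Crest.Agent.R165.J4Pathx653
open Crest.Agent.R165.J4RRx653 Crest.Agent.R165.J4RRAx653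
open Crest.Agent.R165.J1ax606 (HE EG pe qe pe_zero pe_one qe_zero qe_one)

variable {G : Type*} [CommRing G] [DecidableEq G]
variable {A : Type*} [CommRing A] [Algebra ℝ A] {κ : Type*} [DecidableEq κ] [Fintype κ]
variable {A' : Type*} [CommRing A'] [Algebra ℝ A'] {κ' : Type*} [DecidableEq κ'] [Fintype κ']

/-- labels without sources as labels -/
def lab [IsEmpty κ'] : Ix G κ' → Ix G κ
  | .inl p => .inl p
  | .inr (.inl f) => .inr (.inl f)
  | .inr (.inr (.inl e)) => .inr (.inr (.inl e))
  | .inr (.inr (.inr k)) => isEmptyElim k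

theorem lab_inj [IsEmpty κ'] : Function.Injective (lab : Ix G κ' → Ix G κ) := by
  intro a b h
  rcases a with p | f | e | k <;> rcases b with p' | f' | e' | k' <;>
    first
    | exact isEmptyElim k
    | exact isEmptyElim k'
    | (simp only [lab, Sum.inl.injEq, Sum.inr.injEq, reduceCtorEq] at h; subst h; rfl)
    | (simp [lab] at h)

/-- **killing the sources** -/
theorem K0_drop [IsEmpty κ'] {fr : Fr G A} {B : Bk G κ A} {fr' : Fr G A'} {B' : Bk G κ' A'}
    (hy : B'.y = B.y) (hs : B'.s = B.s) (hok : B'.ok = B.ok) (ht : B'.t = B.t) (hR : B'.R = B.R)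
    (τ : A →ₐ[ℝ] A') (hb : ∀ e, τ (fr.b e) = fr'.b e) (hI : ∀ f, τ (fr.I4 f) = fr'.I4 f)
    (hk : ∀ k, τ (B.as k) = 0) (U : Finset (G × G)) : τ (B.K0 fr U) = B'.K0 fr' U := by
  have hYI : ∀ i : Ix G κ', B.YI (lab i) = B'.YI i := by
    intro i
    rcases i with p | f | e | k
    · rfl
    · rfl
    · rfl
    · exact isEmptyElim k
  have hokI : ∀ i : Ix G κ', B.okI (lab i) ↔ B'.okI i := by
    intro i
    rcases i with p | f | e | k
    · show ((_ ∈ Can B.R ∧ _) ∧ B.ok _ _) ↔ ((_ ∈ Can B'.R ∧ _) ∧ B'.ok _ _)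
      rw [hR, hok]
    · exact Iff.rfl
    · exact Iff.rfl
    · exact isEmptyElim k
  have hg : ∀ e, τ (B.g fr e) = B'.g fr' e := by
    intro e
    unfold Bk.g
    rw [map_sub, map_one, map_smul, hb, hy, hs]
  have ha : ∀ i : Ix G κ', τ (B.aI fr (lab i)) = B'.aI fr' i := by
    intro i
    rcases i with p | f | e | k
    · exact map_one τ
    · show τ (B.cI f • fr.I4 f + (B.cI f ^ 2 / 2) • (fr.I4 f * fr.I4 f)) =
        B'.cI f • fr'.I4 f + (B'.cI f ^ 2 / 2) • (fr'.I4 f * fr'.I4 f)
      have : B'.cI f = B.cI f := by unfold Bk.cI; rw [hs]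
      rw [map_add, map_smul, map_smul, map_mul, hI, this]
    · show τ ((B.y e * (B.s (pe e).1 * B.s (qe e).1 - 1)) • fr.b e) =
        (B'.y e * (B'.s (pe e).1 * B'.s (qe e).1 - 1)) • fr'.b e
      rw [map_smul, hb, hy, hs]
    · exact isEmptyElim k
  have hF : ∀ i : Ix G κ', B.FI (lab i) = B'.FI i := by
    intro i
    rcases i with p | f | e | k
    · show em (ez p.1) (kB (B.t p.2) p.2) = em (ez p.1) (kB (B'.t p.2) p.2)
      rw [ht]
    · rfl
    · rfl
    · exact isEmptyElim k
  have hmem : ∀ i : {i // i ∈ B'.ixs U}, lab i.1 ∈ B.ixs U := by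
    intro i
    have h1 := B'.mem_ixs.1 i.2
    rw [B.mem_ixs, hokI, hYI]
    exact h1
  have hinj : Function.Injective
      (fun i : {i // i ∈ B'.ixs U} => (⟨lab i.1, hmem i⟩ : {i // i ∈ B.ixs U})) := by
    intro i j hij
    have : lab i.1 = (lab j.1 : Ix G κ) := congrArg Subtype.val hij
    exact Subtype.ext (lab_inj this)
  refine act_drop (I := (B.datU fr U).items) (I' := (B'.datU fr' U).items) hinj
    (fun i => hYI i.1) (τ : A →+* A').toAddMonoidHom ?_ ?_ U
  · intro T
    change τ ((B.datU fr U).items.w _) = (B'.datU fr' U).items.w T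
    rw [Dat.w_eq, Dat.w_eq, Finset.prod_image fun i _ j _ hij => hinj hij,
      Finset.prod_image fun i _ j _ hij => hinj hij, map_mul, map_prod, TH_algHom]
    congr 1
    · exact Finset.prod_congr rfl fun i _ => ha i.1
    · have e1 : (fun e => τ ((B.datU fr U).g e)) = (B'.datU fr' U).g := funext hg
      rw [e1]
      congr 1
      exact Finset.prod_congr rfl fun i _ => hF i.1
  · intro T hT
    obtain ⟨i, hi, hn⟩ := hT
    change τ ((B.datU fr U).items.w T) = 0
    rw [Dat.w_eq, map_mul, map_prod]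
    have h0 : τ ((B.datU fr U).a i) = 0 := by
      obtain ⟨i, hiU⟩ := i
      change τ (B.aI fr i) = 0
      have hi2 := B.mem_ixs.1 hiU
      have key : ∀ i' : Ix G κ', lab i' = i → False := by
        intro i' hi'
        have h3 : i' ∈ B'.ixs U := by
          rw [B'.mem_ixs, ← hokI, ← hYI (i := i'), hi']
          exact hi2
        exact hn ⟨i', h3⟩ (Subtype.ext hi')
      rcases i with p | f | e | k
      · exact (key (.inl p) rfl).elim
      · exact (key (.inr (.inl f)) rfl).elim
      · exact (key (.inr (.inr (.inl e))) rfl).elim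
      · exact hk k
    rw [Finset.prod_eq_zero hi h0, zero_mul]

end K0

/-! ### the concrete initial activities -/

section conc

open Crest.Agent.R165.Gr0x606 Crest.Agent.R165.Gr1x606 Crest.Agent.R165.GeOpsx337
open Crest.Agent.R165.ExpGx337 Crest.Agent.R165.KFlowx337 Crest.Agent.R165.GSysx387
open Crest.Agent.R165.SrcDefx991 Crest.Agent.R165.SrcSysx991 Crest.Agent.R165.PStepx417
open Crest.Agent.R165.GDefx387 Crest.Agent.R165.KStepx892 Crest.Agent.R165.KInitx892
open Crest.Agent.R165.FRDPolyx439 Crest.Agent.R165.Bkgx683 Crest.Agent.R165.J4Geox126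
open Crest.Agent.R165.Latx683 (HE Fld BW)
open Crest.Agent.R165.J1ax606 (pe qe)

variable {V : Type} [AddCommGroup V] [Module ℝ V] {m : ℕ} {F : Type} [DecidableEq F]

/-- elements of `GS` whose `I`-coefficients need `sf i ⊆ U` for all `i ∈ I` -/
def supA (V : Type) [AddCommGroup V] [Module ℝ V] (sf : Fin m → Finset F) (U : Finset F) :
    Subalgebra ℝ (Ge (VS V m)) where
  carrier := {a | a ∈ GS V m ∧ ∀ I, coP I a ≠ 0 → ∀ i ∈ I, sf i ⊆ U}
  mul_mem' {a b} ha hb := by
    refine ⟨Subalgebra.mul_mem _ ha.1 hb.1, fun I hI i hi => ?_⟩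
    rw [coP_mul ha.1 hb.1] at hI
    obtain ⟨J, hJ, hne⟩ := Finset.exists_ne_zero_of_sum_ne_zero hI
    by_cases hiJ : i ∈ J
    · exact ha.2 J (left_ne_zero_of_mul hne) i hiJ
    · exact hb.2 (I \ J) (right_ne_zero_of_mul hne) i (Finset.mem_sdiff.2 ⟨hi, hiJ⟩)
  add_mem' {a b} ha hb := by
    refine ⟨Subalgebra.add_mem _ ha.1 hb.1, fun I hI i hi => ?_⟩
    rw [map_add] at hI
    by_cases h : coP I a = 0
    · rw [h, zero_add] at hI; exact hb.2 I hI i hi
    · exact ha.2 I h i hi
  algebraMap_mem' c := by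
    refine ⟨Subalgebra.algebraMap_mem _ c, fun I hI i hi => ?_⟩
    rw [Algebra.algebraMap_eq_smul_one, map_smul, coP_one] at hI
    by_cases h : I = ∅
    · rw [h] at hi; exact absurd hi (Finset.notMem_empty i)
    · rw [if_neg h, smul_zero] at hI; exact absurd rfl hI

theorem mem_supA {sf : Fin m → Finset F} {U : Finset F} {a : Ge (VS V m)} :
    a ∈ supA V sf U ↔ a ∈ GS V m ∧ ∀ I, coP I a ≠ 0 → ∀ i ∈ I, sf i ⊆ U := Iff.rfl

theorem supA_mono {sf : Fin m → Finset F} {U W : Finset F} (h : U ⊆ W) :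
    supA V sf U ≤ supA V sf W :=
  fun _ ha => ⟨ha.1, fun I hI i hi => (ha.2 I hI i hi).trans h⟩

theorem inG_mem_supA (sf : Fin m → Finset F) (U : Finset F) (a : Ge V) :
    inG m a ∈ supA V sf U := by
  refine ⟨inG_mem a, fun I hI i hi => ?_⟩
  rw [coP_inG] at hI
  by_cases h : I = ∅
  · rw [h] at hi; exact absurd hi (Finset.notMem_empty i)
  · rw [if_neg h] at hI; exact absurd rfl hI

theorem tau_mem_supA (sf : Fin m → Finset F) {U : Finset F} {i : Fin m} (h : sf i ⊆ U) :
    (tau i : Ge (VS V m)) ∈ supA V sf U := by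
  refine ⟨tau_mem i, fun I hI j hj => ?_⟩
  have e : (tau i : Ge (VS V m)) = tau i * inG m 1 := by rw [map_one, mul_one]
  rw [e, coP_tau_inG] at hI
  by_cases h' : I = {i}
  · rw [h', Finset.mem_singleton] at hj
    rw [hj]; exact h
  · rw [if_neg h'] at hI; exact absurd rfl hI

theorem frG_inl_b {G : Type} [CommRing G] (e : Bkgx683.EG G) :
    (frG (LinearMap.inl ℝ (Fld G) (Src m))).b e =
      inG m ((frG (LinearMap.id : Fld G →ₗ[ℝ] Fld G)).b e) := by
  rw [frG_b, frG_b, inG, mpG_bi]
  rfl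

theorem frG_inl_I4 {G : Type} [CommRing G] (f : G × G) :
    (frG (LinearMap.inl ℝ (Fld G) (Src m))).I4 f =
      inG m ((frG (LinearMap.id : Fld G →ₗ[ℝ] Fld G)).I4 f) := by
  rw [frG_I4, frG_I4, map_sum]
  refine Finset.sum_congr rfl fun p _ => ?_
  rw [inG, mpG_bi]
  rfl

variable {G : Type} [CommRing G] [DecidableEq G] (B : Bg G) (P : MPar)
  (e : Fin m → Bkgx683.EG G)

/-- the source-free part of the initial activities (hard core `=`) -/
theorem noS_K00 (U : Finset (G × G)) :
    noS (B.K00 P (LinearMap.inl ℝ (Fld G) (Src m)) (bondSrc (Fld G) e) U) =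
      B.K00 P LinearMap.id (noSrc G (Ge (Fld G))) U := by
  refine K0_drop (κ' := Fin 0) (B := B.bk P (bondSrc (Fld G) e))
    (B' := B.bk P (noSrc G (Ge (Fld G)))) rfl rfl rfl rfl rfl (noS (V := Fld G) (m := m)) ?_ ?_ ?_ U
  · intro e'
    rw [frG_inl_b, noS_inG]
  · intro f
    rw [frG_inl_I4, noS_inG]
  · intro k
    exact noS_tau k

/-- supports of the coefficients (hard core `=`) -/
theorem K00_mem_supA (U : Finset (G × G)) :
    B.K00 P (LinearMap.inl ℝ (Fld G) (Src m)) (bondSrc (Fld G) e) U ∈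
      supA (Fld G) (fun i => faE (e i)) U := by
  refine J4K0Lx126.K0_mem (supA (Fld G) fun i => faE (e i)) ?_ ?_ ?_ U
  · intro U e' _
    rw [frG_inl_b]
    exact inG_mem_supA _ _ _
  · intro U f _
    rw [frG_inl_I4]
    exact inG_mem_supA _ _ _
  · intro U k hk
    exact tau_mem_supA _ hk

variable [CN G]

/-- **the source-free part of the initial activities** -/
theorem noS_K0 (l k0 : ℕ) (U : Finset (G × G)) :
    noS (B.K0 P (LinearMap.inl ℝ (Fld G) (Src m)) (bondSrc (Fld G) e) l k0 U) =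
      B.K0 P LinearMap.id (noSrc G (Ge (Fld G))) l k0 U := by
  have h := KK_hom (noS (V := Fld G) (m := m)).toRingHom (fun a b : G × G => a = b)
    (near l k0 0) (B.K00 P (LinearMap.inl ℝ (Fld G) (Src m)) (bondSrc (Fld G) e)) (fun _ => 0) U
  have e1 : (fun U => (noS (V := Fld G) (m := m)).toRingHom
      (B.K00 P (LinearMap.inl ℝ (Fld G) (Src m)) (bondSrc (Fld G) e) U)) =
      B.K00 P LinearMap.id (noSrc G (Ge (Fld G))) := funext fun U => noS_K00 B P e U
  have e2 : (fun _ : Finset (G × G) => (noS (V := Fld G) (m := m)).toRingHom 0) =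
      fun _ => (0 : Ge (Fld G)) := funext fun _ => map_zero _
  rw [e1, e2] at h
  exact h

/-- **the initial activities lie in `GS`, and supports of the coefficients** -/
theorem K0_mem_supA (l k0 : ℕ) (U : Finset (G × G)) :
    B.K0 P (LinearMap.inl ℝ (Fld G) (Src m)) (bondSrc (Fld G) e) l k0 U ∈
      supA (Fld G) (fun i => faE (e i)) U :=
  K1_mem _ (fun _ _ h => supA_mono h) _ U fun U _ => K00_mem_supA B P e U

end conc

/-! ### the hypotheses of `SrcSys_991` -/

section sok

open Crest.Agent.R165.GeOpsx337 Crest.Agent.R165.SrcDefx991 Crest.Agent.R165.SrcSysx991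
open Crest.Agent.R165.FRDPolyx439 Crest.Agent.R165.Bkgx683 Crest.Agent.R165.J4Geox126
open Crest.Agent.R165.Latx683 (HE Fld BW)

variable {m : ℕ} (B : Bg ℤ) (P : MPar) {M K : ℕ} (D : FRD 16 M K) (mk : Finset (ℤ × ℤ))
  (e : Fin m → Bkgx683.EG ℤ) (l k0 : ℕ)

/-- **the hypotheses `SOK`** for the flow with bond sources -/
theorem SOK_flowP : SOK (flow0 B P D mk l k0) (K0P B P e l k0) where
  vac := rfl
  noS0 U := noS_K0 B P e l k0 U
  GS0 U := (K0_mem_supA B P e l k0 U).1

theorem K0P_sup (U : Finset (ℤ × ℤ)) (I : Finset (Fin m)) (h : coP I (K0P B P e l k0 U) ≠ 0) :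
    ∀ i ∈ I, faE (e i) ⊆ U := (K0_mem_supA B P e l k0 U).2 I h

end sok

end Crest.Agent.R165.SrcInsx991
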