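import Crest.Agent.R165.EnFine_811
import Crest.Agent.R165.TailD_999
import Crest.Agent.R165.TailNA_999
import Crest.Agent.R165.SrcMid_441
import Crest.Agent.R165.C0S_950
import Crest.Agent.R165.SrcIns2_991

/-!
# Row 165 (S0250), leaf EnR: from the fine phase to the change of regime (helper811)

* `finM_of` : `FinM` of `SrcMid_441` for the cut flow `flC` of `TailD_999` from `FineAt`
-/

set_option autoImplicit false
set_option linter.unusedSectionVars false
set_option linter.unusedVariables false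

noncomputable section

namespace Crest.Agent.R165.EnPAx811

open Finset Filter Topology
open scoped ENNReal
open Crest.ProbabilityR.IsingModel
open Crest.Agent.R165.KStepx892
open Crest.Agent.R165.Gr0x606 Crest.Agent.R165.Gr1x606 Crest.Agent.R165.GeOpsx337
  Crest.Agent.R165.ExpGx337 Crest.Agent.R165.KFlowx337 Crest.Agent.R165.PNormx417
open Crest.Agent.R165.SrcFinx441 (Bd lead)
open Crest.Agent.R165.SrcFinBx441 (Nw ra_Nw bd_tau bd_inG)
open Crest.Agent.R165.SrcDefx991 (VS Src tau ext0 inG coP vacH vacS GS wS)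
open Crest.Agent.R165.SrcCstx484 (co LD)
open Crest.Agent.R165.Latx683 (BW wDom wX IsCov covS Fld HE)
open Crest.Agent.R165.GDefx387 Crest.Agent.R165.GSysx387 Crest.Agent.R165.FRDPolyx439
  Crest.Agent.R165.BgIsox432 Crest.Agent.R165.PStepx417
open Crest.Agent.R165.Bkgx683 (MPar mpar Bg cor bondSrc)
open Crest.Agent.R165.Outx683 (DD)
open Crest.Agent.R165.J4Geox126 (faE)
open Crest.Agent.R165.SrcInsx991
open Crest.Agent.R165.SrcSysx991 (SOK LEAD)
open Crest.Agent.R165.SrcDomx697 (c0D EF)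
open Crest.Agent.R165.PEndx683 (Cst)
open Crest.Agent.R165.EnFinex811 Crest.Agent.R165.TailDx999 Crest.Agent.R165.TailNAx999
  Crest.Agent.R165.SrcMidx441

variable {c : Cst} {B : Bg ℤ} {P : MPar} {m : ℕ} {e : Fin m → Bkgx683.EG ℤ}
  {he : ∀ i, B.w (e i).1 (e i).2 ≠ 0} {Λ : Finset (ℤ × ℤ)} {K : ℕ} {A v ε M Ze : ℝ}
  {ebv : Fin m → ℝ}

/-- 991's leading part is 484's -/
theorem LEAD_eq (w : BW ℤ) (e : Fin m → Bkgx683.EG ℤ) (he : ∀ i, w (e i).1 (e i).2 ≠ 0)
    (z : Fin m → ℝ) (U : Finset (ℤ × ℤ)) :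
    LEAD (srcD w e he) z U = LD (fun i => faE (e i)) z (fun i => beB w (e i)) U := by
  unfold LEAD LD lead
  rw [Finset.sum_filter]
  refine Finset.sum_congr rfl fun i _ => ?_
  have e1 : (srcD w e he).sf i = faE (e i) := rfl
  have e2 : (srcD w e he).β i = beB w (e i) := rfl
  rw [e1, e2]
  by_cases h : faE (e i) = U
  · rw [if_pos h, if_pos h.symm, map_smul, mul_smul_comm]
  · rw [if_neg h, if_neg (fun h' => h h'.symm)]

/-- the remainder of the cut flow is 991's remainder -/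
theorem flC_rest (U : Finset (ℤ × ℤ)) :
    (flC B P DD ∅ e he c.p c.k0 K).K K U - inG m ((flow0 B P DD ∅ c.p c.k0).K K U) -
      LD (fun i => faE (e i)) (fun i => zeP B P DD ∅ e he c.p c.k0 K i)
        (fun i => beB B.w (e i)) U = ppP B P DD ∅ e he c.p c.k0 K U := by
  rw [flC_K B P DD ∅ e he c.p c.k0 K le_rfl, flowP_K, ← LEAD_eq B.w e he]
  abel

/-- **the data at the change of regime** from the fine phase -/
theorem finM_of (h : FineAt c B P e he Λ K A v ε M Ze ebv) (hΓ : 1 ≤ c.Γ)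
    {a : ℕ → ℝ} {r : ℕ → ℕ} (ha : a 0 = A) (hr : r 0 = rr c.p c.k0 K) :
    FinM (flC B P DD ∅ e he c.p c.k0 K) (flow0 B P DD ∅ c.p c.k0) Λ K (fun i => faE (e i))
      (fun i => zeP B P DD ∅ e he c.p c.k0 K i) (fun i => 1 - ebv i)
      (fun i => c0D DD B.w c.p c.k0 K (e i)) (fun i => beB B.w (e i))
      (nmS B.w a r (fun _ => ENNReal.ofReal v) 0) (WoS r (ENNReal.ofReal c.Γ) 0)
      v ε (c.Γ * M) M Ze := by
  have hv := h.v0
  have hM := h.M0
  have hΓ0 : 0 < c.Γ := by linarith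
  refine ⟨h.v0, h.ε0, by positivity, h.M0, rfl, fun k U => ?_, ?_, fun i => ?_, h.ze, h.hZe,
    fun i => ?_, fun I hI => ?_, h.hc0⟩
  · exact SrcDefx991.GS_cvG _ (flC_GS B P DD ∅ e he c.p c.k0 K k U)
  · have e1 : (fun W => nmS B.w a r (fun _ => ENNReal.ofReal v) 0 W
        ((flC B P DD ∅ e he c.p c.k0 K).K K W - inG m ((flow0 B P DD ∅ c.p c.k0).K K W) -
          LD (fun i => faE (e i)) (fun i => zeP B P DD ∅ e he c.p c.k0 K i)
            (fun i => beB B.w (e i)) W)) =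
        fun U => pG (wS (GDefx387.wU B.w A (rr c.p c.k0 K) U) fun _ => ENNReal.ofReal v)
          (ppP B P DD ∅ e he c.p c.k0 K U) := by
      funext U
      rw [flC_rest, nmS, ha, hr]
    have e2 : WoS r (ENNReal.ofReal c.Γ) 0 = fun U : Finset (ℤ × ℤ) =>
        ENNReal.ofReal c.Γ ^ size (rr c.p c.k0 K) U := by
      funext U
      rw [WoS, hr]
    rw [e1, e2]
    exact h.pp
  · have g0 : GDefx387.wU B.w (a 0) (r 0) (faE (e i)) 0 = 0 :=
      C0x950.wU_zero _ _ _ (J4Geox126.faE_nonempty (e i))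
    have h1 : Bd (Nw (GDefx387.wU B.w (a 0) (r 0) (faE (e i))) fun _ => v)
        (tau i * inG m (beB B.w (e i)) : Ge (VS (Fld ℤ) m)) M := by
      have h2 := (bd_tau g0 (v := fun _ => v) i hv).mul (ra_Nw _ fun _ => v)
        (bd_inG _ (fun _ => v) (by rw [ha, hr]; exact h.hβ i)) (by positivity)
      refine h2.mono (le_of_eq ?_)
      field_simp
    have h3 : WoS r (ENNReal.ofReal c.Γ) 0 (faE (e i)) ≤ ENNReal.ofReal c.Γ := by
      unfold WoS
      have hs : size (r 0) (faE (e i)) ≤ 1 := by rw [hr]; exact size_faE (rr_pos _ _ _) (e i)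
      calc ENNReal.ofReal c.Γ ^ size (r 0) (faE (e i)) ≤ ENNReal.ofReal c.Γ ^ 1 :=
            pow_le_pow_right₀ (by rw [ENNReal.one_le_ofReal]; exact hΓ) hs
        _ = _ := pow_one _
    calc WoS r (ENNReal.ofReal c.Γ) 0 (faE (e i)) *
          nmS B.w a r (fun _ => ENNReal.ofReal v) 0 (faE (e i)) (tau i * inG m (beB B.w (e i)))
        ≤ ENNReal.ofReal c.Γ * ENNReal.ofReal M := mul_le_mul' h3 h1
      _ = ENNReal.ofReal (c.Γ * M) := (ENNReal.ofReal_mul hΓ0.le).symm
  · rw [flC_E]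
    exact h.cst i
  · rw [flC_E]
    exact h.high I hI

end Crest.Agent.R165.EnPAx811
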