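import Crest.Agent.R165.DiscComp2_722
import Crest.Agent.R165.EnEv_359
import Crest.Agent.R165.TailNA_999
import Crest.Agent.R165.Fin4_315
import Crest.Agent.R165.SrcIns_991

/-!
# Row 165 (S0250), leaf P11 item 8: the bulk input of the tail (helper387)

* `CtlJ.bulk`, `Ctl.bulk`, `Run3.bulk` : `BulkIn` of `SrcTailA_441` at every step of a controlled
  flow
* `bulk_shift` : the same for the flow restarted at step `n₀`, literally `TailH.bulk`
* `last_sum` : the sum of the activities at the last scale (final weight) from `NK`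
* `ev_last` : large discs, literally `hb` of `finE_mid` at `K1 + N = kf`, `g = grDisc h kf`
-/

set_option autoImplicit false
set_option linter.unusedSectionVars false

noncomputable section

open Filter Topology
open scoped ENNReal
open Crest.ProbabilityR.IsingModel
open Crest.Agent.R165.Gr0x606 Crest.Agent.R165.Gr1x606 Crest.Agent.R165.GeOpsx337
open Crest.Agent.R165.Latx683 (BW wDom wX wPl Fld)
open Crest.Agent.R165.GDefx387 Crest.Agent.R165.GSysx387 Crest.Agent.R165.KFlowx337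
open Crest.Agent.R165.DefRecx915 Crest.Agent.R165.Compx889 Crest.Agent.R165.NKDefx915
open Crest.Agent.R165.Bkgx683 Crest.Agent.R165.Outx683 Crest.Agent.R165.PEndx683
open Crest.Agent.R165.Constx891 Crest.Agent.R165.StepOKx838 Crest.Agent.R165.DomAcx117
open Crest.Agent.R165.BgIsox432 Crest.Agent.R165.Bridgex915 Crest.Agent.R165.Scalex900
open Crest.Agent.R165.GeoIx838 (Sep SepP)
open Crest.Agent.R165.GeoCox838 (Clu)
open Crest.Agent.R165.StepGluex897 (acS)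
open Crest.Agent.R165.DiscMkx117 Crest.Agent.R165.DiscPhx892 Crest.Agent.R165.DiscKx892
open Crest.Agent.R165.CrudeDx915 Crest.Agent.R165.GeoScx420 Crest.Agent.R165.DeepBgx898
open Crest.Agent.R165.U5Px422 (TT)
open Crest.Agent.R165.TorNorm2x583 (PlB)
open Crest.Agent.R165.DiscCompx722 Crest.Agent.R165.TailNAx999
open Crest.Agent.R165.SrcTailx441 (BulkIn shift)

namespace Crest.Agent.R165.EnPBulkx387

/-! ### the bulk input of a controlled flow -/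

section gen

variable {G : Type} [CommRing G] [CN G] [DecidableEq G] [GoodG G] {m : ℕ}

/-- the bulk input at the step `k`, at the scales of the system -/
abbrev BulkAt (c : Cst) (D : Sys (G × G) (Fld G)) (w : BW G) (a : ℕ → ℝ) (v : Fin m → ℝ≥0∞)
    (k : ℕ) (b : ℝ≥0∞) : Prop :=
  BulkIn D (nmS w a (rr c.p c.k0) v) (WoS (rr c.p c.k0) (ENNReal.ofReal c.Γ)) (szS (rr c.p c.k0))
    (nrS (rr c.p c.k0)) k b

/-- real form of the bound -/
theorem bulk_real {CF : ℝ≥0∞} (hCF : CF ≠ ∞) {X : ℝ≥0∞} {M t : ℝ} {k : ℕ}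
    (hX : X ≤ ENNReal.ofReal (M * t * (1 / 2) ^ k)) :
    2 * (CF * X) ≤ ENNReal.ofReal (2 * CF.toReal * M * t * (1 / 2) ^ k) := by
  calc 2 * (CF * X) ≤ 2 * (CF * ENNReal.ofReal (M * t * (1 / 2) ^ k)) := by gcongr
    _ = ENNReal.ofReal (2 * CF.toReal * M * t * (1 / 2) ^ k) := by
      conv_lhs => rw [← ENNReal.ofReal_toReal hCF]
      have e2 : (2 : ℝ≥0∞) = ENNReal.ofReal 2 := by norm_num
      rw [← ENNReal.ofReal_mul ENNReal.toReal_nonneg, e2, ← ENNReal.ofReal_mul (by norm_num)]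
      congr 1
      ring

/-- **the bulk input along a controlled flow with crude steps** -/
theorem CtlJ.bulk {c : Cst} {CF CF' : ℝ≥0∞} (hCF : CF ≠ ∞) (hCF' : CF' ≠ ∞) {J : ℕ}
    {good : ℕ → Prop} {a : ℕ → ℝ} {D : Sys (G × G) (Fld G)} {w : BW G}
    {ac em : ℕ → Finset (G × G) → Prop} {K : ℕ} (h : CtlJ c CF CF' J good a D w ac em K)
    {M t : ℝ} (hb : ∀ k, k ≤ K → NPc c D w a allP k ≤ ENNReal.ofReal (M * t * (1 / 2) ^ k))
    (v : Fin m → ℝ≥0∞) {k : ℕ} (hk : k < K) :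
    BulkAt c D w a v k
      (ENNReal.ofReal (2 * (max CF CF').toReal * M * t * (1 / 2) ^ k)) := by
  have hm : max CF CF' ≠ ∞ := (max_lt hCF.lt_top hCF'.lt_top).ne
  refine BulkIn.mono ?_ (bulk_real hm (hb k hk.le))
  by_cases hg : good k
  · exact bulkIn_of h.str hk ((h.step k hk hg).mono le_rfl (le_max_left CF CF'))
  · exact bulkIn_of h.str hk ((h.crude k hk hg).mono le_rfl (le_max_right CF CF'))

/-- **the bulk input along a controlled flow** -/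
theorem Ctl.bulk {c : Cst} {CF : ℝ≥0∞} (hCF : CF ≠ ∞) {a : ℕ → ℝ} {D : Sys (G × G) (Fld G)}
    {w : BW G} {ac em : ℕ → Finset (G × G) → Prop} {K : ℕ} (h : Ctl c CF a D w ac em K)
    {M t : ℝ} (hb : ∀ k, k ≤ K → NPc c D w a allP k ≤ ENNReal.ofReal (M * t * (1 / 2) ^ k))
    (v : Fin m → ℝ≥0∞) {k : ℕ} (hk : k < K) :
    BulkAt c D w a v k (ENNReal.ofReal (2 * CF.toReal * M * t * (1 / 2) ^ k)) :=
  BulkIn.mono (bulkIn_of h.str hk (h.step k hk)) (bulk_real hCF (hb k hk.le))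

/-- the flow restarted at the step `n₀`: literally `TailH.bulk` with `b0 = b (1/2)^n₀` -/
theorem bulk_shift {c : Cst} {D : Sys (G × G) (Fld G)} {w : BW G} {a : ℕ → ℝ}
    {v : Fin m → ℝ≥0∞} {K : ℕ} {b : ℝ}
    (h : ∀ k, k < K → BulkAt c D w a v k (ENNReal.ofReal (b * (1 / 2) ^ k))) (n₀ : ℕ)
    {b0 : ℝ} (hb0 : b * (1 / 2) ^ n₀ ≤ b0) {k : ℕ} (hk : n₀ + k < K) :
    BulkIn (shift D n₀ (D.K n₀))
      (nmS w (fun n => a (n₀ + n)) (fun n => rr c.p c.k0 (n₀ + n)) v)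
      (WoS (fun n => rr c.p c.k0 (n₀ + n)) (ENNReal.ofReal c.Γ))
      (szS fun n => rr c.p c.k0 (n₀ + n)) (nrS fun n => rr c.p c.k0 (n₀ + n)) k
      (ENNReal.ofReal (b0 / 2 ^ k)) := by
  refine BulkIn.mono (shift_bulkIn (h (n₀ + k) hk)) (ENNReal.ofReal_le_ofReal ?_)
  have e : b * (1 / 2) ^ (n₀ + k) = b * (1 / 2) ^ n₀ / 2 ^ k := by
    rw [pow_add, one_div, inv_pow, inv_pow]
    field_simp
  rw [e]
  gcongr

end gen

/-- the bulk input of the flows in the large discs -/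
theorem Run3.bulk {c : Cst} {CF : ℝ≥0∞} (hCF : CF ≠ ∞) {J q : ℕ} {D : Sys (ℤ × ℤ) (Fld ℤ)}
    {w : BW ℤ} {T : Finset (ℤ × ℤ)} {K1 K2 K : ℕ} {M0 M t : ℝ}
    (h : Run3 c CF J q D w T K1 K2 K M0 M t) {m : ℕ} (v : Fin m → ℝ≥0∞) {k : ℕ} (hk : k < K) :
    BulkAt c D w (aC c K1 K2) v k
      (ENNReal.ofReal (2 * (max CF (CFcr c)).toReal * M * t * (1 / 2) ^ k)) :=
  CtlJ.bulk hCF (CFcr_ne_top c) h.ctl h.out.np v hk

theorem Run0.bulk {c : Cst} {CF : ℝ≥0∞} (hCF : CF ≠ ∞) {q : ℕ} {D : Sys (ℤ × ℤ) (Fld ℤ)}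
    {w : BW ℤ} {T : Finset (ℤ × ℤ)} {K1 K2 K : ℕ} {M0 t : ℝ}
    (h : Run0 c CF q D w T K1 K2 K M0 t) {m : ℕ} (v : Fin m → ℝ≥0∞) {k : ℕ} (hk : k < K) :
    BulkAt c D w (aC c K1 K2) v k (ENNReal.ofReal (2 * CF.toReal * M0 * t * (1 / 2) ^ k)) :=
  Ctl.bulk hCF h.ctl h.out.np v hk

/-! ### the last sum -/

/-- **the sum of the activities at the last scale** with the final weight -/
theorem last_sum {G : Type} [CommRing G] [CN G] [CNZ G] [DecidableEq G] [GoodG G] {M K : ℕ}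
    (D : FRDPolyx439.FRD 16 M K) (hM : MM ≤ M) {w : BW G} (hw : ∀ z j, |w z j| ≤ 1)
    {p k0 N : ℕ} (hN : 1 ≤ N) {κ R Cg Cv : ℝ} (hκ : 0 < κ) (hR : 0 < R) (hCg : 0 < Cg)
    (hCv : 0 ≤ Cv) (hr : κ * R ≤ rr p k0 N) {A : ℝ} (hA : Fin4x315.ampK D.C κ Cg ≤ A)
    {Γ : ℝ≥0∞} (hΓ : 1 ≤ Γ) (x : G × G) (Λ : Finset (G × G))
    (hV : ∀ f ∈ Λ, (fd x f : ℝ) ≤ Cv * R) (F : Finset (G × G) → Ge (Fld G)) :
    ∑ U ∈ KStepx892.nes Λ, pG (FRDRestx439.gr D w (Cg * R)⁻¹ (lo p k0 N)) (F U) ≤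
      (Fin4x315.cntK κ Cv : ℝ≥0∞) * NK w A (rr p k0 N) Γ (fun _ => True)
        (fun U => (F U : Gr (Fld G))) := by
  obtain ⟨net, hc, hnt⟩ := Fin4x315.net_lower hκ hR hCv hr x
  refine (Finset.sum_le_sum fun U _ => ?_).trans
    ((Fin0x315.sum_nes_le_NK hΓ w A _ (fun U => (F U : Gr (Fld G))) Λ net (hnt Λ hV)).trans ?_)
  · exact PNormx417.pnorm_le_pnorm (fun l => Fin4x315.gr_lower D hM hw hN hκ hR hCg hr hA U l) _
  · gcongr

/-! ### large discs, the last sum -/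

open Crest.Agent.R165.EnWx359 (DiscEv discBg grDisc)
open Crest.Agent.R165.SRdomAx900 (Lam)
open Crest.Agent.R165.CovPkgx359 (cPl cPl_pos)

/-- number of balls at the last scale of a large disc -/
def cL (c : Cst) (cc : ℝ) : ℕ := Fin4x315.cntK (cc / 2 ^ c.p) 2

/-- the volume of a large disc -/
theorem fd_Lam_disc {a B : ℝ} (R' : ℕ) (hB : (R' + 3 : ℝ) ≤ B / a)
    {f : ℤ × ℤ} (hf : f ∈ Lam B R' a) : (fd ((0, 0) : ℤ × ℤ) f : ℝ) ≤ 2 * (B / a) := by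
  have h1 := J4Defx653.mem_bx.1 hf
  have h0 : (0 : ℝ) ≤ B / a := le_trans (by positivity) hB
  have h2 : fd ((0, 0) : ℤ × ℤ) f ≤ ⌈B / a⌉₊ + R' + 2 := by
    have e : fd ((0, 0) : ℤ × ℤ) f = max ((0 : ℤ) - f.1).natAbs ((0 : ℤ) - f.2).natAbs := rfl
    rw [e]
    rw [Int.abs_eq_natAbs, Int.abs_eq_natAbs] at h1
    omega
  have h3 : (⌈B / a⌉₊ : ℝ) < B / a + 1 := Nat.ceil_lt_add_one h0
  have h4 : (fd ((0, 0) : ℤ × ℤ) f : ℝ) ≤ ((⌈B / a⌉₊ + R' + 2 : ℕ) : ℝ) := by exact_mod_cast h2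
  push_cast at h4
  linarith

/-- **large discs, the sum of the activities at the last scale** -/
theorem ev_last {c : Cst} (hc : Std c) {u v cc : ℝ} (huv : u ≤ v) (hcc : 0 < cc) (R' : ℕ) :
    ∀ᶠ P : ℝ × ℝ in dl, ∀ (R n m : ℕ) (x : Fin n → ℂ) (y : Fin m → ℂ) (j : Fin m → Fin 2)
      (K₁ : ℕ) (h : DiscEv c.p c.k0 R P.1 P.2 x y j K₁) (F : Finset (ℤ × ℤ) → Ge (Fld ℤ)),
      ∑ U ∈ KStepx892.nes (Lam P.2 R' P.1), pG (grDisc h (kf c.p c.k0 cc P)) (F U) ≤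
        (cL c cc : ℝ≥0∞) * NK (discBg h).w
          (aC c (k1 c.p c.k0 u P.1) (k2 c.p c.k0 v P.1) (kf c.p c.k0 cc P))
          (rr c.p c.k0 (kf c.p c.k0 cc P)) (ENNReal.ofReal c.Γ) (fun _ => True)
          (fun U => (F U : Gr (Fld ℤ))) := by
  have hp : 1 ≤ c.p := by have := hc.p_pos; omega
  have hκ : 0 < cc / 2 ^ c.p := by positivity
  have h1 := aD_tendsto (u := u) (v := v) (c := cc) (A₀ := c.A0) (δ := c.δ) (q := qD c) hp c.k0
    huv hcc (by have := hc.A0_ge; linarith) hc.δ_pos (by have := one_le_qD c; linarith)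
  filter_upwards [h1.eventually_ge_atTop
      (Fin4x315.ampK DD.C (cc / 2 ^ c.p) cPl⁻¹),
    (kf_tendsto hp c.k0 hcc).eventually_ge_atTop 1,
    ev_divB (c := 1) (M := (R' : ℝ) + 3) one_pos] with P hA hN hB
  intro R n m x y j K₁ h F
  rw [one_mul] at hB
  have hBa : 0 < P.2 / P.1 := lt_of_lt_of_le (by positivity) hB
  have hw : ∀ z j, |(discBg h).w z j| ≤ 1 := abs_wX_dom h.ok.fin.toFinset (isF .plus) _
  have hr : cc / 2 ^ c.p * (P.2 / P.1) ≤ (rr c.p c.k0 (kf c.p c.k0 cc P) : ℝ) := by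
    have h3 := lt_rr_kf (k0 := c.k0) hp cc P
    rw [rr_succ] at h3
    push_cast at h3
    rw [div_mul_eq_mul_div, div_le_iff₀ (by positivity)]
    have e : cc * P.2 / P.1 = cc * (P.2 / P.1) := by ring
    rw [e] at h3
    linarith
  have hΓ : 1 ≤ ENNReal.ofReal c.Γ := by
    rw [ENNReal.one_le_ofReal]; have := hc.Γ_ge; linarith
  have h4 := last_sum DD (by unfold MM; norm_num) hw hN hκ hBa (inv_pos.2 cPl_pos)
    (by norm_num : (0 : ℝ) ≤ 2) hr hA hΓ (0, 0) (Lam P.2 R' P.1)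
    (fun f hf => fd_Lam_disc R' hB hf) F
  have e : (cPl⁻¹ * (P.2 / P.1))⁻¹ = cPl * P.1 / P.2 := by
    rw [mul_inv, inv_inv, inv_div]; ring
  rw [e, h.w_eq] at h4
  rw [h.w_eq]
  exact h4

/-- the powers at the last scale are small, however slowly the mesh goes to zero -/
theorem ev_pow {p : ℕ} (hp : 1 ≤ p) (k0 : ℕ) {cc : ℝ} (hcc : 0 < cc) {s : ℝ} (hs0 : 0 ≤ s)
    (hs : s < 1) (C : ℝ) {e : ℝ → ℝ} (he : ∀ a, 0 < a → 0 < e a) :
    ∀ᶠ P : ℝ × ℝ in dl, C * s ^ kf p k0 cc P ≤ e P.1 := by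
  refine ev_aB fun a ha => ?_
  have h1 : Tendsto (fun B : ℝ => C * s ^ kf p k0 cc (a, B)) atTop (𝓝 (C * 0)) :=
    ((tendsto_pow_atTop_nhds_zero_of_lt_one hs0 hs).comp (kf_tendsto_B hp k0 hcc ha)).const_mul C
  rw [mul_zero] at h1
  exact (h1.eventually (eventually_le_nhds (he a ha)))

/-- **`hb` of `finE_mid`** in the large discs: the sum of the source free activities at the last
scale is at most `ε₁ = e (a)`, any positive function of the mesh -/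
theorem ev_hb {c : Cst} (hc : Std c) {u v cc : ℝ} (huv : u ≤ v) (hcc : 0 < cc) (R' : ℕ)
    (M t : ℝ) {e : ℝ → ℝ} (he : ∀ a, 0 < a → 0 < e a) :
    ∀ᶠ P : ℝ × ℝ in dl, ∀ (R n m : ℕ) (x : Fin n → ℂ) (y : Fin m → ℂ) (j : Fin m → Fin 2)
      (K₁ : ℕ) (h : DiscEv c.p c.k0 R P.1 P.2 x y j K₁) (D : Sys (ℤ × ℤ) (Fld ℤ)),
      NPc c D (discBg h).w (aC c (k1 c.p c.k0 u P.1) (k2 c.p c.k0 v P.1)) allP
        (kf c.p c.k0 cc P) ≤ ENNReal.ofReal (M * t * (1 / 2) ^ kf c.p c.k0 cc P) →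
      ∑ U ∈ KStepx892.nes (Lam P.2 R' P.1),
        pG (grDisc h (kf c.p c.k0 cc P)) (D.K (kf c.p c.k0 cc P) U) ≤
          ENNReal.ofReal (e P.1) := by
  have hp : 1 ≤ c.p := by have := hc.p_pos; omega
  filter_upwards [ev_last hc huv hcc R', ev_pow hp c.k0 hcc (s := 1 / 2) (by norm_num)
    (by norm_num) (cL c cc * (M * t)) he] with P h1 h2
  intro R n m x y j K₁ h D hD
  refine (h1 R n m x y j K₁ h _).trans ?_
  refine le_trans (mul_le_mul_right (show _ ≤ ENNReal.ofReal (M * t * (1 / 2) ^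
    kf c.p c.k0 cc P) from hD) _) ?_
  rw [← ENNReal.ofReal_natCast, ← ENNReal.ofReal_mul (Nat.cast_nonneg _)]
  refine ENNReal.ofReal_le_ofReal (le_trans (le_of_eq ?_) h2)
  ring

end Crest.Agent.R165.EnPBulkx387
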