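import Crest.Agent.R165.SrcDom_697

/-!
# Row 165 (S0250), leaf P11 (helper644): the energies at the end of the fine phase

* `ener_diff` : `hd` of `finE_all` (441) at the scale `K₁`, from the constants of the fine phase
* `ener_free` : `hM` of `finE_all`
* `vac_etot`, `vac_ef` : `hE₁`, `hE₁'` of `finE_all`
-/

set_option autoImplicit false
set_option linter.unusedSectionVars false
set_option linter.unusedVariables false

noncomputable section

namespace Crest.Agent.R165.EnPEx644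

open Finset Filter Topology
open scoped ENNReal
open Crest.Agent.R165.FinBx900 Crest.Agent.R165.KStepx892
open Crest.Agent.R165.Gr0x606 Crest.Agent.R165.Gr1x606 Crest.Agent.R165.GeOpsx337
  Crest.Agent.R165.ExpGx337 Crest.Agent.R165.PNormx417 Crest.Agent.R165.KFlowx337
  Crest.Agent.R165.SrcFinx441 Crest.Agent.R165.GrLocx337
open Crest.Agent.R165.SrcDefx991 (VS Src th th' tau tauP ext0 inG noS vacH vacS coP wS vS GS
  noS_inG noS_tau EEG_ext0 vacH_tau)
open Crest.Agent.R165.SrcFinBx441 (bd_tau bd_inG Nw ra_Nw ra_pG ctG_tau)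
open Crest.Agent.R165.SrcCmpx441
open Crest.Agent.R165.SrcCstx484 (co co_E LD Etot Etot_mem vacH_Etot vrest_of co_Etot_singleton
  E_mem_GS vacH_E)
open Crest.Agent.R165.SrcDomx697 (EF KF)

variable {V : Type*} [AddCommGroup V] [Module ℝ V] {m : ℕ}
variable {F : Type*} [DecidableEq F]
variable {D : Sys F (VS V m)} {Λ : Finset F} {N : ℕ} {cst c0 : Fin m → ℝ}
  {g : V → ℝ≥0∞} {v ε M Ze : ℝ}

/-- `hE₁` of `finE_all` -/
theorem vac_etot (hvac : D.vac = vacS) (cst : Fin m → ℝ) (Λ : Finset F) (N : ℕ) :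
    vacH (Etot cst (D.E Λ N)) = Etot cst (D.E Λ N) := vacH_Etot (vacH_E hvac Λ N)

/-- `hE₁'` of `finE_all` -/
theorem vac_ef (Ze : ℝ) (c0 : Fin m → ℝ) : vacH (EF V Ze c0) = EF V Ze c0 := by
  rw [EF]; exact vacH_sum_tau fun i => Ze * c0 i

theorem ct_ef (Ze : ℝ) (c0 : Fin m → ℝ) : ctG (EF V Ze c0 : Ge (VS V m)) = 0 :=
  ctG_sum_tau fun i => Ze * c0 i

/-- **`hd` of `finE_all`** -/
theorem ener_diff (hvac : D.vac = vacS) (hGS : ∀ k U, D.H k U ∈ GS V m) (g0 : g 0 = 0)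
    (hv : 0 < v) (hε : 0 ≤ ε)
    (hcst : ∀ i, v ^ 2 * |cst i + co {i} (D.E Λ N) - Ze * c0 i| ≤ ε)
    (high : ∀ I : Finset (Fin m), 2 ≤ I.card → (v ^ 2) ^ I.card * |co I (D.E Λ N)| ≤ ε) :
    Bd (Nw g fun _ => v) ((Etot cst (D.E Λ N) - algebraMap ℝ _ (ctG (Etot cst (D.E Λ N)))) -
      (EF V Ze c0 - algebraMap ℝ _ (ctG (EF V Ze c0)))) ((m + 2 ^ m) * ε) := by
  have hN := ra_Nw (V := V) (m := m) g (fun _ => v)
  have hES : D.E Λ N ∈ GS V m := E_mem_GS hvac hGS Λ N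
  have hEv : vacH (D.E Λ N) = D.E Λ N := vacH_E hvac Λ N
  have htau : ∀ i : Fin m, Bd (Nw g fun _ => v) (tau i : Ge (VS V m)) (v ^ 2) := fun i =>
    bd_tau g0 (v := fun _ => v) i hv
  have hsplit : (Etot cst (D.E Λ N) - algebraMap ℝ _ (ctG (Etot cst (D.E Λ N)))) -
      (EF V Ze c0 - algebraMap ℝ _ (ctG (EF V Ze c0))) =
      (Etot cst (D.E Λ N) - algebraMap ℝ _ (ctG (Etot cst (D.E Λ N))) -
        ∑ i, (cst i + co {i} (D.E Λ N)) • tau i) +
      ∑ i, (cst i + co {i} (D.E Λ N) - Ze * c0 i) • tau i := by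
    rw [ct_ef, map_zero, sub_zero, EF]
    simp only [sub_smul, sum_sub_distrib]
    abel
  rw [hsplit]
  have h1 := vrest_of hES hEv g0 high cst
  have h2 : Bd (Nw g fun _ => v) (∑ i, (cst i + co {i} (D.E Λ N) - Ze * c0 i) •
      (tau i : Ge (VS V m))) (m * ε) := by
    have h3 := Bd.sum hN univ (f := fun i => (cst i + co {i} (D.E Λ N) - Ze * c0 i) •
      (tau i : Ge (VS V m))) (t := fun _ => ε) (fun i _ => by
        refine ((htau i).smul hN _).mono ?_
        have := hcst i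
        rwa [mul_comm] at this) fun _ _ => hε
    simpa using h3
  refine (h1.add hN h2 (by positivity) (by positivity)).mono ?_
  linarith

/-- **`hM` of `finE_all`** -/
theorem ener_free (g0 : g 0 = 0) (hv : 0 < v) (hM : 0 ≤ M) (hZe : |Ze| ≤ 2)
    (hc0 : ∀ i, v ^ 2 * |c0 i| ≤ M) :
    Bd (Nw g fun _ => v) (EF V Ze c0 - algebraMap ℝ _ (ctG (EF V Ze c0)) : Ge (VS V m))
      (2 * (m * M)) := by
  have hN := ra_Nw (V := V) (m := m) g (fun _ => v)
  have htau : ∀ i : Fin m, Bd (Nw g fun _ => v) (tau i : Ge (VS V m)) (v ^ 2) := fun i =>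
    bd_tau g0 (v := fun _ => v) i hv
  rw [ct_ef, map_zero, sub_zero, EF]
  have h3 := Bd.sum hN univ (f := fun i => (Ze * c0 i) • (tau i : Ge (VS V m)))
    (t := fun _ => 2 * M) (fun i _ => by
      refine ((htau i).smul hN _).mono ?_
      rw [abs_mul]
      calc |Ze| * |c0 i| * v ^ 2 = |Ze| * (v ^ 2 * |c0 i|) := by ring
        _ ≤ 2 * M := mul_le_mul hZe (hc0 i) (by positivity) (by norm_num))
    fun _ _ => by positivity
  refine Bd.mono ?_ (le_of_eq (show (m : ℝ) * (2 * M) = 2 * (m * M) by ring))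
  simpa using h3

end Crest.Agent.R165.EnPEx644
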