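import Crest.Agent.R165.SrcDiscT_610
import Crest.Agent.R165.DiscComp_722

/-!
# Row 165 (S0250), leaf P11 (sources in large discs), T5: linear factors in large discs (helper610)

* `TOK`, `ev_TOK` : the conditions on the constants
* `tlin_clu` : coarse step, cluster of insertions, factor `1/8`
* `tlin_crA` : crude step, factor `3`
* `qT` : the linear factors; `tlin_disc` : all steps `k1 ≤ k < kf` of a large disc
* `tail_det` : `TailH` of a large disc at one parameter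
* `ev_tail` : the same eventually, for all constants
-/

set_option autoImplicit false
set_option linter.unusedSectionVars false

noncomputable section

open scoped ENNReal
open Filter Topology
open Crest.ProbabilityR.IsingModel
open Crest.Agent.R165.Geo (LatReg bdS)
open Crest.Agent.R165.Gr0x606 Crest.Agent.R165.Gr1x606 Crest.Agent.R165.GeOpsx337
  Crest.Agent.R165.PNormx417 Crest.Agent.R165.Latx683 Crest.Agent.R165.GDefx387
  Crest.Agent.R165.GSysx387 Crest.Agent.R165.KFlowx337 Crest.Agent.R165.Bridgex915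
  Crest.Agent.R165.BgIsox432 Crest.Agent.R165.FRDPolyx439 Crest.Agent.R165.FRDLatx439
  Crest.Agent.R165.PEndx683 Crest.Agent.R165.Outx683 Crest.Agent.R165.Constx891
  Crest.Agent.R165.StepOKx838 Crest.Agent.R165.GeoCox838 Crest.Agent.R165.DiscPhx892
  Crest.Agent.R165.DiscKx892 Crest.Agent.R165.GeoScx420 Crest.Agent.R165.SrcDiscx610
  Crest.Agent.R165.SrcDiscTx610
open Crest.Agent.R165.CrudeDx915 (CrOK DD_M ev_crOK aD_drop CFcr CFcr_ne_top)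
open Crest.Agent.R165.SrcDefx991 (VS noS)
open Crest.Agent.R165.SrcTailx441 (TailOf TailN BulkIn PT shift shift_K)
open Crest.Agent.R165.SrcTailAllx441 (TailH)
open Crest.Agent.R165.SrcTailx999 (SLA)
open Crest.Agent.R165.TailNAx999 (nmS WoS szS nrS bulkIn_real)
open Crest.Agent.R165.Bkgx683
open Crest.Agent.R165.DomAcx117 Crest.Agent.R165.DiscMkx117 Crest.Agent.R165.DiscCompx722

namespace Crest.Agent.R165.SrcDiscUx610

/-- the conditions on the constants -/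
structure TOK (Dn : ℕ) (c : Cst) : Prop where
  cr : CrOK c
  st : CstOK Dn c
  big : BigT KA (2 ^ c.p) (ENNReal.ofReal c.Γ)
  δ0 : 0 < c.δ
  δ1 : c.δ ≤ 1

theorem ev_bigT_c (C : ℝ) : EvC fun c => BigT C (2 ^ c.p) (ENNReal.ofReal c.Γ) := by
  have h1 : ∀ᶠ p : ℕ in atTop, ∀ Γ : ℝ≥0∞, Γ ≠ ∞ → 72 ≤ Γ → BigT C (2 ^ p) Γ :=
    (tendsto_pow_atTop_atTop_of_one_lt (by norm_num : 1 < 2)).eventually (ev_bigT C)
  unfold EvC
  filter_upwards [h1] with p hp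
  filter_upwards [eventually_ge_atTop (72 : ℝ)] with Γ hΓ
  refine Eventually.of_forall fun k0 => Eventually.of_forall fun A0 =>
    Eventually.of_forall fun δ => hp _ ENNReal.ofReal_ne_top ?_
  have h3 : (72 : ℝ≥0∞) = ENNReal.ofReal 72 := by norm_num
  rw [h3]
  exact ENNReal.ofReal_le_ofReal hΓ

theorem ev_δ : EvC fun c => 0 < c.δ ∧ c.δ ≤ 1 := by
  unfold EvC
  refine Eventually.of_forall fun p => Eventually.of_forall fun Γ => Eventually.of_forall fun k0 =>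
    Eventually.of_forall fun A0 => ?_
  filter_upwards [Ioc_mem_nhdsGT (show (0 : ℝ) < 1 by norm_num)] with δ hδ
  exact ⟨hδ.1, hδ.2⟩

theorem ev_TOK : ∃ Dn : ℕ, EvC (TOK Dn) := by
  obtain ⟨Dn, h⟩ := ev_cstOK
  refine ⟨Dn, (((h.and ev_crOK).and (ev_bigT_c KA)).and ev_δ).mono fun c hc => ?_⟩
  exact ⟨hc.1.1.2, hc.1.1.1, hc.1.2, hc.2.1, hc.2.2⟩

section steps

variable {Dn : ℕ} {c : Cst}

theorem nearR_room (h10 : 10 ≤ 2 ^ c.p) (h2 : 2 ≤ rr c.p c.k0 0) (n : ℕ) :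
    4 * nearR c.p c.k0 n + 3 * rr c.p c.k0 n + 2 ≤ rr c.p c.k0 (n + 1) := by
  have h1 : 10 * rr c.p c.k0 n ≤ rr c.p c.k0 (n + 1) := by
    rw [rr_succ]
    exact Nat.mul_le_mul_right _ h10
  have h3 := h2.trans (rr_mono c.p c.k0 (Nat.zero_le n))
  unfold nearR
  omega

/-- **coarse step**: a cluster of insertions far from the boundary -/
theorem tlin_clu (hc : TOK Dn c) {T : Set (ℤ × ℤ)} {ρ κ : ℝ} (hT : LatReg T ρ κ) (hκ : κ * ρ ≤ 1)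
    {m : ℕ} {X : Fin m → ℤ × ℤ} {Z : Set (ℤ × ℤ)} {b : Bool} {z0 : ℤ × ℤ} {R1 n : ℕ} {a a' : ℝ}
    (hρ : ((32 * C0v c.p : ℕ) : ℝ) * rr c.p c.k0 (n + 1) ≤ ρ)
    (hS : Clu T X z0 Z R1 (32 * rr c.p c.k0 (n + 1))) (hR1 : 4 * R1 + 8 ≤ rr c.p c.k0 n)
    (ha : c.A0 ≤ a) (ha' : c.A0 ≤ a') (h2 : a' ≤ 2 * a) :
    TLin (wX (wDom T b) X) a a' (rr c.p c.k0 n) (rr c.p c.k0 (n + 1)) (ENNReal.ofReal c.Γ)
      (3 * ENNReal.ofReal c.Γ) (slC DD (wX (wDom T b) X) c.p c.k0 n) (acR (nearR c.p c.k0) n) (1 / 8) 3 := by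
  obtain ⟨-, hC1, -, -, H⟩ := geo_v c.p
  have hG := H T ρ κ hT hκ m X z0 Z b R1 (32 * rr c.p c.k0 (n + 1)) (by
    refine le_trans (le_of_eq ?_) hρ
    push_cast; ring) hS Fin.elim0
  have h0 : 0 < a := lt_of_lt_of_le hc.st.A0 ha
  exact tlin_of_geo hG DD DD_M (abs_wX_dom T b X) hc.big le_rfl (max_le (hc.st.r0 n) hR1) le_rfl
    h0 h2 ((hc.st.cw n).trans ha') (fun U hU => hU.1) (fun U _ x _ => Set.mem_univ x)
    (fun U hU => hU.2) (nearR_room hc.cr.h10 hc.cr.hr n)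

/-- **crude step**: every background -/
theorem tlin_crA (hc : CrOK c) {w : BW ℤ} (hw : ∀ z j, |w z j| ≤ 1) {n : ℕ} {a a' : ℝ}
    (ha : 0 < a) (ha' : c.A0 ≤ a')
    (hdrop : 2 * (a' * Real.sqrt (rr c.p c.k0 (n + 1))) ≤ a * Real.sqrt (rr c.p c.k0 n)) :
    TLin w a a' (rr c.p c.k0 n) (rr c.p c.k0 (n + 1)) (ENNReal.ofReal c.Γ)
      (3 * ENNReal.ofReal c.Γ) (slC DD w c.p c.k0 n) (acR (nearR c.p c.k0) n) 3 3 := by
  refine tlin_crudeS DD DD_M hw ha hdrop ((hc.hA n).trans ha') (fun U hU => hU.1)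
    (fun U hU => hU.2) (nearR_room hc.h10 hc.hr n) ?_
  have h3 : (3 : ℝ≥0∞) = ENNReal.ofReal 3 := by norm_num
  rw [h3]
  exact ENNReal.ofReal_le_ofReal hc.hΓ

/-- the amplitudes of a large disc -/
def aT (c : Cst) (K₁ K₂ : ℕ) : ℕ → ℝ := aD c.A0 c.δ (2 * Real.sqrt (2 ^ c.p)) K₁ K₂

/-- the linear factors of the tail, relative steps -/
def qT (K₁ K₂ j : ℕ) : ℝ≥0∞ := if K₁ + j < K₂ then 3 else 1 / 8

theorem qT_crude (K₁ K₂ j : ℕ) : qT K₁ K₂ j ≤ 2 * 3 := by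
  unfold qT
  split_ifs
  · norm_num
  · refine le_trans ?_ (by norm_num : (1 : ℝ≥0∞) ≤ 2 * 3)
    rw [one_div]
    exact ENNReal.inv_le_one.2 (by norm_num)

theorem qT_good {K₁ K₂ j : ℕ} (h : K₂ - K₁ ≤ j) : qT K₁ K₂ j ≤ 8⁻¹ := by
  unfold qT
  rw [if_neg (by omega), one_div]

theorem one_le_q (c : Cst) : 1 ≤ 2 * Real.sqrt (2 ^ c.p) := by
  have : (1 : ℝ) ≤ Real.sqrt (2 ^ c.p) := by
    rw [← Real.sqrt_one]
    exact Real.sqrt_le_sqrt (one_le_pow₀ (by norm_num))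
  linarith

/-- **the linear factors of all steps of the tail in a large disc** (`n` even) -/
theorem tlin_disc (hc : TOK Dn c) {C1 : ℕ} (hC1 : 32 * C0v c.p ≤ C1) {u v cc : ℝ} {n m : ℕ}
    {x : Fin n → ℂ} {y : Fin m → ℂ} (hn : Even n) {P : ℝ × ℝ}
    (hG : DiscG c.p c.k0 C1 u v cc x y P) (b : Bool)
    (h12 : k1 c.p c.k0 u P.1 ≤ k2 c.p c.k0 v P.1)
    (hJ : (2 * Real.sqrt (2 ^ c.p)) ^ (k2 c.p c.k0 v P.1 - k1 c.p c.k0 u P.1) ≤
      1 + c.δ * k1 c.p c.k0 u P.1) {j : ℕ} (hj : k1 c.p c.k0 u P.1 + j < kf c.p c.k0 cc P) :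
    TLin (wX (wDom (domainSites (Metric.ball (0 : ℂ) P.2) P.1) b) fun i => meshIndex P.1 (x i))
      (aT c (k1 c.p c.k0 u P.1) (k2 c.p c.k0 v P.1) (k1 c.p c.k0 u P.1 + j))
      (aT c (k1 c.p c.k0 u P.1) (k2 c.p c.k0 v P.1) (k1 c.p c.k0 u P.1 + j + 1))
      (rr c.p c.k0 (k1 c.p c.k0 u P.1 + j)) (rr c.p c.k0 (k1 c.p c.k0 u P.1 + j + 1))
      (ENNReal.ofReal c.Γ) (3 * ENNReal.ofReal c.Γ)
      (slC DD (wX (wDom (domainSites (Metric.ball (0 : ℂ) P.2) P.1) b)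
        fun i => meshIndex P.1 (x i)) c.p c.k0 (k1 c.p c.k0 u P.1 + j))
      (acR (nearR c.p c.k0) (k1 c.p c.k0 u P.1 + j))
      (qT (k1 c.p c.k0 u P.1) (k2 c.p c.k0 v P.1) j) 3 := by
  set K₁ := k1 c.p c.k0 u P.1
  set K₂ := k2 c.p c.k0 v P.1
  have hA0 := hc.st.A0
  have hge : ∀ k, c.A0 ≤ aT c K₁ K₂ k := fun k =>
    aD_ge h12 hA0.le hc.δ0.le (one_le_q c) hJ k
  unfold qT
  by_cases hk : K₁ + j < K₂
  · rw [if_pos hk]
    exact tlin_crA hc.cr (abs_wX_dom _ b _) (hA0.trans_le (hge _)) (hge _)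
      (aD_drop (by omega) hk).le
  · rw [if_neg hk]
    obtain ⟨ρ, κ, h1, h2, h3⟩ := hG.reg
    obtain ⟨R1, h4, h5⟩ := hG.coarse hn (K₁ + j) (not_lt.1 hk) hj
    refine tlin_clu hc h1 h2 (le_trans (mul_le_mul_of_nonneg_right ?_ (Nat.cast_nonneg _))
      (h3 _ hj)) h4 h5 (hge _) (hge _) ?_
    · exact_mod_cast hC1
    · have h6 := (aD_step h12 hA0.le hc.δ0.le (one_le_q c) hJ (k := K₁ + j)
        (Or.inr (not_lt.1 hk))).2
      refine h6.trans ?_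
      have h7 : 0 ≤ aD c.A0 c.δ (2 * Real.sqrt (2 ^ c.p)) K₁ K₂ (K₁ + j) :=
        hA0.le.trans (hge _)
      have h8 := hc.δ1
      exact mul_le_mul_of_nonneg_right (by linarith) h7

theorem DiscG.mono {p k0 C1 C1' : ℕ} {u v cc : ℝ} {n m : ℕ} {x : Fin n → ℂ} {y : Fin m → ℂ}
    {P : ℝ × ℝ} (h : DiscG p k0 C1 u v cc x y P) (hC : C1' ≤ C1) :
    DiscG p k0 C1' u v cc x y P where
  pos := h.pos
  posB := h.posB
  le_k1 := h.le_k1
  le_kf := h.le_kf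
  reg := by
    obtain ⟨ρ, κ, h1, h2, h3⟩ := h.reg
    exact ⟨ρ, κ, h1, h2, fun k hk => le_trans (mul_le_mul_of_nonneg_right
      (by exact_mod_cast hC) (Nat.cast_nonneg _)) (h3 k hk)⟩
  fine := h.fine
  marks := h.marks
  k1_le := h.k1_le
  k2_le := h.k2_le
  coarse := h.coarse

end steps

/-! ### the tail of a large disc -/

/-- the constant of the bulk input -/
def CB (CF : ℝ≥0∞) (c : Cst) : ℝ := 2 * (CF.toReal + (CFcr c).toReal)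

theorem CB_nonneg (CF : ℝ≥0∞) (c : Cst) : 0 ≤ CB CF c := by
  unfold CB
  have h1 : 0 ≤ CF.toReal := ENNReal.toReal_nonneg
  have h2 : 0 ≤ (CFcr c).toReal := ENNReal.toReal_nonneg
  positivity

/-- the system restarted at the step `K₁` -/
abbrev rs (F : Sys (ℤ × ℤ) (Fld ℤ)) (K₁ : ℕ) : Sys (ℤ × ℤ) (Fld ℤ) := shift F K₁ (F.K K₁)

/-- admissible elements of the tail -/
abbrev AdmT (c : Cst) (K₁ : ℕ) {m : ℕ} (j : ℕ) (U : Finset (ℤ × ℤ)) (X : Ge (VS (Fld ℤ) m)) :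
    Prop := Adm (fun j => nearR c.p c.k0 (K₁ + j)) j U X

/-- `TailH` with the norms of a background `w` and the amplitudes `aC` -/
abbrev TH (c : Cst) (w : BW ℤ) (K₁ K₂ K Jn : ℕ) {m : ℕ} (B : Sys (ℤ × ℤ) (Fld ℤ))
    (D DL : Sys (ℤ × ℤ) (VS (Fld ℤ) m))
    (Pc : ℕ → Finset (ℤ × ℤ) → Ge (VS (Fld ℤ) m) → Prop) (vv : Fin m → ℝ≥0∞) (b0 : ℝ) : Prop :=
  TailH B D DL
    (nmS w (fun j => aC c K₁ K₂ (K₁ + j)) (fun j => rr c.p c.k0 (K₁ + j)) vv)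
    (WoS (fun j => rr c.p c.k0 (K₁ + j)) (ENNReal.ofReal c.Γ))
    (szS fun j => rr c.p c.k0 (K₁ + j)) (nrS fun j => rr c.p c.k0 (K₁ + j)) Pc
    (StepGluex897.N3 c.p : ℝ≥0∞) (2 * 3) (qT K₁ K₂) Jn (K - K₁) b0

section det

variable {c : Cst} {CF : ℝ≥0∞} {C1 Dn Rm : ℕ}

/-- **the tail of a large disc**, one parameter `P = (a, B)`: `K₁ = k1`, `K₂ = k2`, `K = kf`; any
lead run `DL`, any run `D`, any class `Pc` of admissible elements containing the two runs -/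
theorem tail_det (H : Good c CF C1) (hCF : CF ≠ ∞) (hc : TOK Dn c) (hd : DCst Rm c) {MP : MPar}
    (hMP : MP.R ≤ Rm) {n : ℕ} (hn : Even n) {x : Fin n → ℂ} {u v cc : ℝ} {P : ℝ × ℝ}
    (hG : DiscG c.p c.k0 (max C1 (32 * C0v c.p)) u v cc x (Fin.elim0 : Fin 0 → ℂ) P)
    (h12 : k1 c.p c.k0 u P.1 ≤ k2 c.p c.k0 v P.1)
    (hJ : qD c ^ (k2 c.p c.k0 v P.1 - k1 c.p c.k0 u P.1) ≤ 1 + c.δ * k1 c.p c.k0 u P.1)
    {T : Finset (ℤ × ℤ)} (hT : (T : Set (ℤ × ℤ)) = domainSites (Metric.ball (0 : ℂ) P.2) P.1)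
    (b : BoundaryCondition) {M0 M t : ℝ}
    (hO : Out3 c (domF c MP T b fun i => meshIndex P.1 (x i))
      (Bg.dom T b fun i => meshIndex P.1 (x i)).w (k1 c.p c.k0 u P.1) (k2 c.p c.k0 v P.1)
      (kf c.p c.k0 cc P) M0 M t) {m : ℕ} {D DL : Sys (ℤ × ℤ) (VS (Fld ℤ) m)}
    {Pc : ℕ → Finset (ℤ × ℤ) → Ge (VS (Fld ℤ) m) → Prop}
    (hP : ∀ j U X, Pc j U X → AdmT c (k1 c.p c.k0 u P.1) j U X)
    (hlead : ∀ j U, Pc j U (DL.K j U))
    (hrest : ∀ j U, Pc j U (PT (rs (domF c MP T b fun i => meshIndex P.1 (x i))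
      (k1 c.p c.k0 u P.1)) D DL j U))
    {vv : Fin m → ℝ≥0∞} (hv : ∀ i, vv i ≠ ∞) (hv0 : ∀ i, vv i ≠ 0) {b0 : ℝ}
    (hb : CB CF c * (M * t) * (1 / 2) ^ k1 c.p c.k0 u P.1 ≤ b0) (hMt : 0 ≤ M * t) {Jn : ℕ}
    (hJn : k2 c.p c.k0 v P.1 - k1 c.p c.k0 u P.1 ≤ Jn) :
    TH c (Bg.dom T b fun i => meshIndex P.1 (x i)).w (k1 c.p c.k0 u P.1) (k2 c.p c.k0 v P.1)
      (kf c.p c.k0 cc P) Jn (rs (domF c MP T b fun i => meshIndex P.1 (x i))
      (k1 c.p c.k0 u P.1)) D DL Pc vv b0 := by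
  set K₁ := k1 c.p c.k0 u P.1 with hK₁
  set K₂ := k2 c.p c.k0 v P.1 with hK₂
  set K := kf c.p c.k0 cc P with hK
  set X : Fin n → ℤ × ℤ := fun i => meshIndex P.1 (x i) with hX
  have hΓ : (1 : ℝ≥0∞) ≤ ENNReal.ofReal c.Γ := by
    rw [← ENNReal.ofReal_one]
    exact ENNReal.ofReal_le_ofReal (by linarith [hd.std.Γ_ge])
  have hG1 := DiscG.mono hG (le_max_left C1 (32 * C0v c.p))
  have hctl := ctlJ3 (b := b) (P := MP) H hd.std hc.cr hd.five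
    (q := 2 * Rm + 2) (by omega) (by omega) hd.q_le
    (SrcOK.no ℤ) (fun k => k.elim0) h12 hJ (geo3_of hG1 hn hT)
  refine tailH_gen (R := fun j => nearR c.p c.k0 (K₁ + j)) (fun j _ => hP j)
    (fun j _ => hlead j) (fun j _ => hrest j) hv hv0 hΓ (fun k => rr_pos _ _ _)
    (fun k _ => ?_) (fun k _ => rfl) (fun k hk => ?_)
    (fun k hk => ?_) (fun k _ _ => qT_crude _ _ _) (fun k _ hk => qT_good (by omega))
  · exact StrSx897.nn3_sys (l := c.p) (k0 := c.k0) (K₁ + k)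
  · have h := tlin_disc (b := isF b) hc (le_max_right C1 (32 * C0v c.p)) hn hG h12 hJ
      (j := k) (by omega)
    rw [← hT] at h
    exact h
  · have hk' : K₁ + k < K := by omega
    have hnp := hO.np (K₁ + k) hk'.le
    by_cases hph : Ph K₁ K₂ (K₁ + k)
    · refine bulkIn_real (w := (Bg.dom T b X).w) (a := aC c K₁ K₂) hCF hctl.str hk'
        (hctl.step _ hk' hph) hnp (le_trans ?_ hb)
      unfold CB
      have h3 : 0 ≤ (CFcr c).toReal := ENNReal.toReal_nonneg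
      have h4 : CF.toReal ≤ CF.toReal + (CFcr c).toReal := by linarith
      gcongr
    · refine bulkIn_real (w := (Bg.dom T b X).w) (a := aC c K₁ K₂) (CFcr_ne_top c) hctl.str hk'
        (hctl.crude _ hk' hph) hnp (le_trans ?_ hb)
      unfold CB
      have h3 : 0 ≤ CF.toReal := ENNReal.toReal_nonneg
      have h4 : (CFcr c).toReal ≤ CF.toReal + (CFcr c).toReal := by linarith
      gcongr

end det

/-- **(T5)**: the tail of the large discs, for all constants; `Rm` = bound of the range; `B = rs F K₁`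
the restarted flow, `D DL` any two runs in the class `Pc` -/
theorem ev_tail (Rm : ℕ) : EvC fun c => 1 ≤ (StepGluex897.N3 c.p : ℝ≥0∞) ∧
    ∃ CB : ℝ, 0 ≤ CB ∧ ∃ c1 : ℝ, 0 < c1 ∧ ∀ n : ℕ, Even n → ∀ x : Fin n → ℂ,
    Function.Injective x → ∃ u0 v0 : ℝ, 0 < u0 ∧ u0 ≤ v0 ∧
    ∀ u v cc : ℝ, 0 < u → u ≤ u0 → v0 ≤ v → 0 < cc → cc ≤ c1 → ∃ Jn : ℕ, ∀ᶠ P in dl,
    ∀ MP : MPar, MP.R ≤ Rm →
    ∀ T : Finset (ℤ × ℤ), (T : Set (ℤ × ℤ)) = domainSites (Metric.ball (0 : ℂ) P.2) P.1 →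
    ∀ (b : BoundaryCondition) (M0 M t : ℝ), 0 ≤ M * t →
    Out3 c (domF c MP T b fun i => meshIndex P.1 (x i))
      (Bg.dom T b fun i => meshIndex P.1 (x i)).w (k1 c.p c.k0 u P.1) (k2 c.p c.k0 v P.1)
      (kf c.p c.k0 cc P) M0 M t →
    ∀ (m : ℕ) (D DL : Sys (ℤ × ℤ) (VS (Fld ℤ) m))
      (Pc : ℕ → Finset (ℤ × ℤ) → Ge (VS (Fld ℤ) m) → Prop),
    (∀ j U X, Pc j U X → AdmT c (k1 c.p c.k0 u P.1) j U X) →
    (∀ j U, Pc j U (DL.K j U)) →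
    (∀ j U, Pc j U (PT (rs (domF c MP T b fun i => meshIndex P.1 (x i))
      (k1 c.p c.k0 u P.1)) D DL j U)) →
    ∀ vv : Fin m → ℝ≥0∞, (∀ i, vv i ≠ ∞) → (∀ i, vv i ≠ 0) → ∀ b0 : ℝ,
    CB * (M * t) * (1 / 2) ^ k1 c.p c.k0 u P.1 ≤ b0 →
    TH c (Bg.dom T b fun i => meshIndex P.1 (x i)).w (k1 c.p c.k0 u P.1) (k2 c.p c.k0 v P.1)
      (kf c.p c.k0 cc P) Jn (rs (domF c MP T b fun i => meshIndex P.1 (x i))
      (k1 c.p c.k0 u P.1)) D DL Pc vv b0 := by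
  obtain ⟨Dn, hDn⟩ := ev_TOK
  refine ev_mono3 stepOK_ev hDn (ev_dcst Rm) ?_
  rintro c ⟨CF, hCF, C1, H⟩ hc hd
  have hp : 1 ≤ c.p := by have := hd.std.p_pos; omega
  obtain ⟨c1, hc1, hgeo⟩ := disc_good0 (max C1 (32 * C0v c.p))
  refine ⟨?_, CB CF c, CB_nonneg CF c, c1, hc1, fun n hn x hx => ?_⟩
  · have : 1 ≤ StepGluex897.N3 c.p := Nat.one_le_pow _ _ (by omega)
    exact_mod_cast this
  obtain ⟨u0, v0, hu0, hv0, hgeo⟩ := hgeo n x hx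
  refine ⟨u0, max v0 u0, hu0, le_max_right _ _, ?_⟩
  intro u v cc hu huu hvv hcc hcc1
  have huv : u ≤ v := huu.trans ((le_max_right _ _).trans hvv)
  have hv : 0 < v := hu.trans_le huv
  obtain ⟨Jn, hJn⟩ := exists_J (v := v) hu
  refine ⟨Jn, ?_⟩
  filter_upwards [hgeo u v cc hu huu ((le_max_left _ _).trans hvv) hcc hcc1 c.p c.k0 hp,
    ev_a (ev_hJ hp c.k0 hu hv hd.std.δ_pos (one_le_qD c)),
    ev_a (ev_div (M := (2 : ℝ) ^ (c.p * c.k0)) hv)] with P hG hJ hv2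
  have h12 : k1 c.p c.k0 u P.1 ≤ k2 c.p c.k0 v P.1 := k1_le_k2 hG.pos huv
  intro MP hMP T hT b M0 M t hMt hO m D DL Pc hP hlead hrest vv hvv1 hvv2 b0 hb
  exact tail_det H hCF hc hd hMP hn hG h12 hJ hT b hO hP hlead hrest hvv1 hvv2 hb hMt
    (hJn c.p c.k0 hp P.1 hG.pos hv2)

end Crest.Agent.R165.SrcDiscUx610
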