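import Crest.Agent.R165.TailD2_999
import Crest.Agent.R165.EnEv_359
import Crest.Agent.R165.EnFine_811
import Crest.Agent.R165.SrcDiscT_610

/-!
# Row 165 (S0250), tail with sources: `RunPack` for large discs at one mesh (helper999)

* `runT_flC` : 610's `RunT` for the frozen flows
* `finM_of_fineAt` : 441's `FinM` for the cut flow from 811's `FineAt`
* `runPack_disc` : **`RunPack` for a large disc** from `DiscEv` (359), `FineAt` (811), `TailH` (610)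
-/

set_option autoImplicit false
set_option linter.unusedSectionVars false
set_option linter.unusedVariables false

noncomputable section

open scoped ENNReal

namespace Crest.Agent.R165.TailDx999

open Crest.ProbabilityR.IsingModel
open Crest.Agent.R165.Gr0x606 Crest.Agent.R165.Gr1x606 Crest.Agent.R165.GeOpsx337
  Crest.Agent.R165.ExpGx337 Crest.Agent.R165.KStepx892 Crest.Agent.R165.KFlowx337
  Crest.Agent.R165.Latx683 Crest.Agent.R165.PNormx417 Crest.Agent.R165.GDefx387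
  Crest.Agent.R165.GSysx387 Crest.Agent.R165.FRDPolyx439 Crest.Agent.R165.Bkgx683
  Crest.Agent.R165.Topx683 Crest.Agent.R165.J4Defx653 Crest.Agent.R165.J4Geox126
  Crest.Agent.R165.W0Sx897 Crest.Agent.R165.ExpAx337
open Crest.Agent.R165.SrcDefx991 (VS Src th th' tau tauP ext0 inG noS vacH vacS coP wS vS GS
  noS_inG noS_tau inG_mem tau_mem)
open Crest.Agent.R165.SrcSysx991
open Crest.Agent.R165.SrcInsx991
open Crest.Agent.R165.SrcFinx441 (lead Bd)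
open Crest.Agent.R165.SrcFinBx441 (Nw)
open Crest.Agent.R165.EnWx359
open Crest.Agent.R165.SrcTailx441 (NoX TailOf base0 PT shift shift_K shift_H)
open Crest.Agent.R165.SrcTailAllx441 (TailH ScalarT3)
open Crest.Agent.R165.SrcTailx999 (SLA)
open Crest.Agent.R165.SrcDomx697 (KF c0D LEAD_LD)
open Crest.Agent.R165.SrcCstx484 (LD co)
open Crest.Agent.R165.SrcMidx441 (FinM finE_mid KF_SLA)
open Crest.Agent.R165.SrcCmpx441 (FinE RunPack)
open Crest.Agent.R165.SrcDiscTx610 (RunT)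
open Crest.Agent.R165.EnFinex811 (FineAt)
open Crest.Agent.R165.PEndx683 (Cst)
open Crest.Agent.R165.Outx683 (DD)
open Crest.Agent.R165.SRx541 Crest.Agent.R165.JRunSx408 Crest.Agent.R165.SRdomAx900
open Crest.Agent.R165.CovPkgx359 Crest.Agent.R165.Centx541 Crest.Agent.R165.Redx541
  Crest.Agent.R165.Symx541 Crest.Agent.R165.Red2x541
open Crest.Agent.R165.TailNAx999

/-! ### the two runs -/

section runT

variable {m : ℕ} (B : Bg ℤ) (P : MPar) {M K : ℕ} (Dd : FRD 16 M K) (mk : Finset (ℤ × ℤ))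
  (e : Fin m → Bkgx683.EG ℤ) (he : ∀ i, B.w (e i).1 (e i).2 ≠ 0) (l k0 K₁ : ℕ)

/-- **610's `RunT` for the frozen flows** -/
theorem runT_flC (hR : 1 ≤ nearR l k0 0) (Ze : ℝ) (N : ℕ) :
    RunT (tB B P Dd mk l k0 K₁) (tD B P Dd mk e he l k0 K₁) (tL B P Dd mk e he l k0 K₁ Ze)
      (fun i => faE (e i)) (fun n => nearR l k0 (K₁ + n)) N where
  hD := tailOf_D B P Dd mk e he l k0 K₁ N
  hL := tailOf_L B P Dd mk e he l k0 K₁ Ze N
  mono k _ := nearR_mono l k0 (Nat.add_le_add_left (Nat.le_succ k) K₁)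
  near _ _ := rfl
  noS0 U := tD_noS B P Dd mk e he l k0 K₁ 0 U
  noL0 U := tL_noS B P Dd mk e he l k0 K₁ Ze 0 U
  sla0 U := flC_SLA B P Dd mk e he l k0 K₁ U
  slaL0 U := KF_SLA (fun i => faE (e i)) Ze (fun i => beB B.w (e i)) U
  cn0 U _ h := (flC_conn B P Dd mk e he l k0 K₁ hR K₁ U h).2
  cnL0 U _ h := (tL_conn B P Dd mk e he l k0 K₁ hR Ze 0 U h).2
  cnB k _ U _ h := by
    rw [tB_K] at h
    exact (flow0_conn B P Dd mk l k0 hR _ U h).2
  out k _ U T hT := by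
    obtain ⟨_, f, _, _, rfl⟩ := mem_bulk_out.1
      (show T ∈ (bulk B.w mk l k0 (K₁ + k)).out U from hT)
    exact (Finset.card_singleton f).le

end runT

/-! ### `FinM` from `FineAt` -/

section fin

variable {m : ℕ} {c : Cst} {B : Bg ℤ} {P : MPar} {e : Fin m → Bkgx683.EG ℤ}
  {he : ∀ i, B.w (e i).1 (e i).2 ≠ 0} {Λ : Finset (ℤ × ℤ)} {K₁ : ℕ} {A v ε M Ze : ℝ}
  {ebv : Fin m → ℝ}

theorem size_faE (l k0 n : ℕ) (e : Bkgx683.EG ℤ) : size (rr l k0 n) (faE e) ≤ 1 := by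
  rw [PStepx417.size_le_one_iff]
  intro f hf g hg
  exact (JVolx950.faE_diam e f hf g hg).trans (rr_pos l k0 n)

/-- **441's `FinM` for the cut flow** -/
theorem finM_of_fineAt (h : FineAt c B P e he Λ K₁ A v ε M Ze ebv) (hΓ : 1 ≤ c.Γ) {a : ℕ → ℝ}
    (ha : a 0 = A) :
    FinM (flC B P DD ∅ e he c.p c.k0 K₁) (flow0 B P DD ∅ c.p c.k0) Λ K₁ (fun i => faE (e i))
      (zeP B P DD ∅ e he c.p c.k0 K₁) (fun i => 1 - ebv i)
      (fun i => c0D DD B.w c.p c.k0 K₁ (e i)) (fun i => beB B.w (e i))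
      (nmS B.w a (fun n => rr c.p c.k0 (K₁ + n)) (fun _ => ENNReal.ofReal v) 0)
      (WoS (fun n => rr c.p c.k0 (K₁ + n)) (ENNReal.ofReal c.Γ) 0) v ε (c.Γ * M) M Ze where
  v0 := h.v0
  ε0 := h.ε0
  μ0 := mul_nonneg (by linarith) h.M0
  M0 := h.M0
  vac := rfl
  hGS k U := SrcDefx991.GS_cvG _ (flC_GS B P DD ∅ e he c.p c.k0 K₁ k U)
  act := by
    have e1 : ∀ W, (flC B P DD ∅ e he c.p c.k0 K₁).K K₁ W -
        inG m ((flow0 B P DD ∅ c.p c.k0).K K₁ W) -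
        LD (fun i => faE (e i)) (zeP B P DD ∅ e he c.p c.k0 K₁) (fun i => beB B.w (e i)) W =
        ppP B P DD ∅ e he c.p c.k0 K₁ W := by
      intro W
      rw [flC_K B P DD ∅ e he c.p c.k0 K₁ le_rfl, flowP_K, LEAD_LD]
      show inG m _ + LD (fun i => faE (e i)) _ (fun i => beB B.w (e i)) W + _ - _ - _ = _
      abel
    simp only [e1]
    have h1 := h.pp
    rw [← ha] at h1
    exact h1
  hβ i := by
    have hv := h.v0
    have hΓe : (1 : ℝ≥0∞) ≤ ENNReal.ofReal c.Γ := by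
      rw [← ENNReal.ofReal_one]; exact ENNReal.ofReal_le_ofReal hΓ
    have h1 : WoS (fun n => rr c.p c.k0 (K₁ + n)) (ENNReal.ofReal c.Γ) 0 (faE (e i)) ≤
        ENNReal.ofReal c.Γ := by
      unfold WoS
      calc ENNReal.ofReal c.Γ ^ size (rr c.p c.k0 (K₁ + 0)) (faE (e i))
          ≤ ENNReal.ofReal c.Γ ^ 1 := pow_le_pow_right₀ hΓe (size_faE _ _ _ _)
        _ = _ := pow_one _
    have h2 : nmS B.w a (fun n => rr c.p c.k0 (K₁ + n)) (fun _ : Fin m => ENNReal.ofReal v) 0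
        (faE (e i)) (tau i * inG m (beB B.w (e i))) ≤ ENNReal.ofReal M := by
      unfold nmS
      have hw0 : wU B.w (a 0) (rr c.p c.k0 (K₁ + 0)) (faE (e i)) 0 = 0 :=
        SrcLinx336.wU_zero B.w (a 0) _ (faE_nonempty (e i))
      refine (SrcInvx336.pG_tau_inG_le hw0 (fun _ => ENNReal.ofReal_ne_top)
        (fun _ => (ENNReal.ofReal_pos.2 hv).ne') i _).trans ?_
      rw [ha, Nat.add_zero]
      have h3 : pG (wU B.w A (rr c.p c.k0 K₁) (faE (e i))) (beB B.w (e i)) ≤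
          ENNReal.ofReal (M / v ^ 2) := h.hβ i
      calc ENNReal.ofReal v ^ 2 * pG (wU B.w A (rr c.p c.k0 K₁) (faE (e i))) (beB B.w (e i))
          ≤ ENNReal.ofReal (v ^ 2) * ENNReal.ofReal (M / v ^ 2) := by
            rw [ENNReal.ofReal_pow hv.le]
            exact mul_le_mul_right h3 _
        _ = ENNReal.ofReal M := by
            rw [← ENNReal.ofReal_mul (by positivity)]
            congr 1
            field_simp
    calc _ ≤ ENNReal.ofReal c.Γ * ENNReal.ofReal M := mul_le_mul' h1 h2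
      _ = _ := (ENNReal.ofReal_mul (by linarith)).symm
  hζ := h.ze
  hZe := h.hZe
  cst i := by rw [flC_E]; exact h.cst i
  high I hI := by rw [flC_E]; exact h.high I hI
  hc0 := h.hc0

end fin

/-! ### `RunPack` for a large disc -/

section disc

variable {c : Cst} {R : ℕ} {a B : ℝ} {n m : ℕ} {x : Fin n → ℂ} {y : Fin m → ℂ} {j : Fin m → Fin 2}
  {K₁ : ℕ}

/-- **`RunPack` for a large disc** -/
theorem runPack_disc (h : DiscEv c.p c.k0 R a B x y j K₁) (h5 : 5 ≤ c.p * (c.k0 + 1)) {J lam : ℝ}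
    {V : Finset (ℤ × ℤ) → ℝ} {β z : ℝ} (hJ : J ≠ 0) (hV : VHyp R V) (hz : 0 < 1 + z) (N : ℕ)
    {Ze : ℝ} {ebv : Fin m → ℝ} {A v ε M : ℝ} (hΓ : 1 ≤ c.Γ)
    (hw : ∀ z j, |(discBg h).w z j| ≤ 1)
    (hFine : FineAt c (discBg h) (mpar J lam R V β z) (eb a y j) h.ne (Lam B (max R 1) a) K₁ A v ε
      M Ze ebv) {aS : ℕ → ℝ} (ha : aS 0 = A)
    {Jc : ℕ} {C c' : ℝ≥0∞} {t0 C0 : ℝ} (h3 : ScalarT3 Jc c' C t0 C0) (hC0 : 0 ≤ C0) (hCt : C ≠ ∞)
    {b0 : ℝ} (hb0 : 0 < b0) (hbt : b0 ≤ t0)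
    (het : ε * (1 + m * (c.Γ * M)) ≤ t0) (hμt : m * (2 * (c.Γ * M)) ≤ t0)
    {Pc : ℕ → Finset (ℤ × ℤ) → Ge (VS (Fld ℤ) m) → Prop} {q : ℕ → ℝ≥0∞}
    (hT : TailH (tB (discBg h) (mpar J lam R V β z) DD ∅ c.p c.k0 K₁)
      (tD (discBg h) (mpar J lam R V β z) DD ∅ (eb a y j) h.ne c.p c.k0 K₁)
      (tL (discBg h) (mpar J lam R V β z) DD ∅ (eb a y j) h.ne c.p c.k0 K₁ Ze)
      (nmS (discBg h).w aS (fun n => rr c.p c.k0 (K₁ + n)) (fun _ => ENNReal.ofReal v))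
      (WoS (fun n => rr c.p c.k0 (K₁ + n)) (ENNReal.ofReal c.Γ))
      (szS fun n => rr c.p c.k0 (K₁ + n)) (nrS fun n => rr c.p c.k0 (K₁ + n)) Pc C c' q Jc N b0)
    (hA : ∀ k < N, cW0 DD c.p c.k0 (K₁ + k) ≤ aS k) (hN : 1 ≤ K₁ + N)
    {κ' : ℝ} (hκ' : 0 < κ') (hr : κ' * (B / a) ≤ (rr c.p c.k0 (K₁ + N) : ℝ))
    (hAN : 0 < aS N) (hAN' : 7 * √(DD.C / (cPl * κ')) ≤ aS N)
    {ε₁ : ℝ} (hε₁ : 0 ≤ ε₁)
    (hb : ∑ W ∈ nes (Lam B (max R 1) a), pG (grDisc h (K₁ + N))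
      ((flow0 (discBg h) (mpar J lam R V β z) DD ∅ c.p c.k0).K (K₁ + N) W) ≤ ENNReal.ofReal ε₁)
    {A' κ : ℝ} (hk : κ ≤ a * (A' ^ 2 * v ^ 2)) :
    RunPack m (domMom (Metric.ball 0 B) a .plus J lam R V β x y j ebv /
        spm (Metric.ball 0 B) a .plus J lam R V β x)
      (Ze ^ m * (D0c (Metric.ball 0 B) a .plus x y j / spm0 (Metric.ball 0 B) a .plus x))
      a A' (ε₁ + (m + 2 ^ m) * ε + 3 * (C0 * (ε * (1 + m * (c.Γ * M)) + b0)))
      (m * (2 * M) + 3 * (C0 * (m * (2 * (c.Γ * M))))) κ := by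
  have hΓe : (1 : ℝ≥0∞) ≤ ENNReal.ofReal c.Γ := by
    rw [← ENNReal.ofReal_one]; exact ENNReal.ofReal_le_ofReal hΓ
  have hg0 : grDisc h (K₁ + N) 0 = 0 := by
    simp [grDisc, FRDRestx439.gr]
  have hgw : ∀ (U : Finset (ℤ × ℤ)) (x : Fld ℤ), grDisc h (K₁ + N) x ≤
      wU (discBg h).w (aS N) (rr c.p c.k0 (K₁ + N)) U x := by
    intro U l
    rw [h.w_eq]
    exact h.gr_le hN hκ' hr hAN hAN' U l
  have key := finE_flC (discBg h) (mpar J lam R V β z) DD ∅ (eb a y j) h.ne c.p c.k0 K₁ h3 hC0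
    hCt hb0 hbt hΓe (finM_of_fineAt hFine hΓ ha) het hμt hT (by unfold MM; norm_num) hw hA
    (h.gram (K₁ + N)) hg0 hgw hε₁ hb
  exact h.runPack h5 hJ hV hz N Ze ebv key fun _ => hk

end disc

end Crest.Agent.R165.TailDx999
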