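import Crest.Agent.R165.EnPBulk_387
import Crest.Agent.R165.TailD3_999
import Crest.Agent.R165.SrcDiscU_610

/-!
# Row 165 (S0250), sources in large discs: everything which is eventually true (helper387)

* `ev_fin` : the final weight of the disc against the weights at the last scale
* `NumD` : the numbers of a large disc (steps, amplitudes, final weight); `ev_num`
* `RunD` : the flow without sources, its bulk input, the last sum, the tail `TH` for the literal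
  systems `tB`, `tD`, `tL` of `TailD_999`
* `ev_disc_run` : **the combined eventual theorem**
-/

set_option autoImplicit false
set_option linter.unusedSectionVars false

noncomputable section

open Filter Topology
open scoped ENNReal
open Crest.ProbabilityR.IsingModel
open Crest.Agent.R165.Gr0x606 Crest.Agent.R165.Gr1x606 Crest.Agent.R165.GeOpsx337
open Crest.Agent.R165.Latx683 (BW wDom wX wPl Fld)
open Crest.Agent.R165.GDefx387 Crest.Agent.R165.GSysx387 Crest.Agent.R165.KFlowx337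
open Crest.Agent.R165.DefRecx915 Crest.Agent.R165.Compx889 Crest.Agent.R165.NKDefx915
open Crest.Agent.R165.Bkgx683 Crest.Agent.R165.Outx683 Crest.Agent.R165.PEndx683
open Crest.Agent.R165.Constx891 Crest.Agent.R165.StepOKx838 Crest.Agent.R165.DomAcx117
open Crest.Agent.R165.BgIsox432 Crest.Agent.R165.Bridgex915 Crest.Agent.R165.Scalex900
open Crest.Agent.R165.DiscMkx117 Crest.Agent.R165.DiscPhx892 Crest.Agent.R165.DiscKx892
open Crest.Agent.R165.CrudeDx915 Crest.Agent.R165.GeoScx420 Crest.Agent.R165.DeepBgx898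
open Crest.Agent.R165.TorNorm2x583 (PlB)
open Crest.Agent.R165.DiscCompx722 Crest.Agent.R165.TailNAx999
open Crest.Agent.R165.SrcTailx441 (BulkIn shift PT)
open Crest.Agent.R165.EnWx359 (DiscEv discBg grDisc disc_ev)
open Crest.Agent.R165.SRdomAx900 (Lam)
open Crest.Agent.R165.CovPkgx359 (cPl cPl_pos)
open Crest.Agent.R165.J4Geox126 (faE)
open Crest.Agent.R165.JRunSx408 (eb xb)
open Crest.Agent.R165.SrcInsx991 (flow0)
open Crest.Agent.R165.TailDx999 (tB tD tL runT_flC)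
open Crest.Agent.R165.SrcDiscTx610 (PcT RunT)
open Crest.Agent.R165.SrcDiscUx610 (TH AdmT ev_tail rs)
open Crest.Agent.R165.SrcDefx991 (VS)

namespace Crest.Agent.R165.EnPBulkx387

/-! ### the final weight -/

theorem grDisc_zero {p k0 R : ℕ} {a B : ℝ} {n m : ℕ} {x : Fin n → ℂ} {y : Fin m → ℂ}
    {j : Fin m → Fin 2} {K₁ : ℕ} (h : DiscEv p k0 R a B x y j K₁) (N : ℕ) : grDisc h N 0 = 0 := by
  simp [grDisc, FRDRestx439.gr]

/-- the last scale of a disc -/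
theorem kf_lower {c : Cst} (hc : Std c) (cc : ℝ) (P : ℝ × ℝ) :
    cc / 2 ^ c.p * (P.2 / P.1) ≤ (rr c.p c.k0 (kf c.p c.k0 cc P) : ℝ) := by
  have hp : 1 ≤ c.p := by have := hc.p_pos; omega
  have h3 := lt_rr_kf (k0 := c.k0) hp cc P
  rw [rr_succ] at h3
  push_cast at h3
  rw [div_mul_eq_mul_div, div_le_iff₀ (by positivity)]
  have e : cc * P.2 / P.1 = cc * (P.2 / P.1) := by ring
  rw [e] at h3
  linarith

/-- the amplitude of the last scale is large -/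
theorem ev_amp {c : Cst} (hc : Std c) {u v cc : ℝ} (huv : u ≤ v) (hcc : 0 < cc) (X : ℝ) :
    ∀ᶠ P : ℝ × ℝ in dl,
      X ≤ aC c (k1 c.p c.k0 u P.1) (k2 c.p c.k0 v P.1) (kf c.p c.k0 cc P) := by
  have hp : 1 ≤ c.p := by have := hc.p_pos; omega
  exact (aD_tendsto (u := u) (v := v) (c := cc) (A₀ := c.A0) (δ := c.δ) (q := qD c) hp c.k0
    huv hcc (by have := hc.A0_ge; linarith) hc.δ_pos
    (by have := one_le_qD c; linarith)).eventually_ge_atTop X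

/-- **the final weight of a large disc** -/
theorem ev_fin {c : Cst} (hc : Std c) {u v cc : ℝ} (huv : u ≤ v) (hcc : 0 < cc) :
    ∀ᶠ P : ℝ × ℝ in dl, ∀ (R n m : ℕ) (x : Fin n → ℂ) (y : Fin m → ℂ) (j : Fin m → Fin 2)
      (K₁ : ℕ) (h : DiscEv c.p c.k0 R P.1 P.2 x y j K₁) (U : Finset (ℤ × ℤ)) (l : Fld ℤ),
      grDisc h (kf c.p c.k0 cc P) l ≤
        wU (discBg h).w (aC c (k1 c.p c.k0 u P.1) (k2 c.p c.k0 v P.1) (kf c.p c.k0 cc P))
          (rr c.p c.k0 (kf c.p c.k0 cc P)) U l := by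
  have hp : 1 ≤ c.p := by have := hc.p_pos; omega
  filter_upwards [ev_amp hc huv hcc (7 * √(DD.C / (cPl * (cc / 2 ^ c.p)))),
    ev_amp hc huv hcc 1, (kf_tendsto hp c.k0 hcc).eventually_ge_atTop 1] with P h1 h2 h3
  intro R n m x y j K₁ h U l
  rw [h.w_eq]
  exact h.gr_le h3 (by positivity) (kf_lower hc cc P) (by linarith) h1 U l

/-! ### the numbers -/

/-- **the numbers of a large disc**: `K1 ≤ K2 ≤ K`, the amplitudes `aC`, the last scale -/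
structure NumD (c : Cst) (Jn K1 K2 K : ℕ) (κ' a B : ℝ) : Prop where
  h12 : K1 ≤ K2
  hJn : K2 - K1 ≤ Jn
  hJ : qD c ^ (K2 - K1) ≤ 1 + c.δ * K1
  h2K : K2 ≤ K
  h1K : K1 + (K - K1) = K
  K_pos : 1 ≤ K
  K1_pos : 1 ≤ K1
  amp_ge : ∀ k, c.A0 ≤ aC c K1 K2 k
  amp_one : ∀ k, 1 ≤ aC c K1 K2 k
  amp_K1 : aC c K1 K2 K1 = Outx683.amp c K1
  amp_fine : ∀ k, k ≤ K1 → aC c K1 K2 k = Outx683.amp c k
  amp_le : ∀ k, aC c K1 K2 k ≤ Outx683.amp c k
  cW : ∀ n k, W0Sx897.cW0 DD c.p c.k0 n ≤ aC c K1 K2 k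
  c0 : ∀ k, 2 * GSysOKx439.c0 DD.C c.p c.k0 ≤ aC c K1 K2 k
  c0' : ∀ k, GSysOKx439.c0 DD.C c.p c.k0 ≤ aC c K1 K2 k
  κ_pos : 0 < κ'
  last : κ' * (B / a) ≤ (rr c.p c.k0 K : ℝ)
  fin : 7 * √(DD.C / (cPl * κ')) ≤ aC c K1 K2 K
  vol : 8 ≤ B / a

theorem c0_nonneg (C : ℝ) (p k0 : ℕ) : 0 ≤ GSysOKx439.c0 C p k0 := by
  unfold GSysOKx439.c0
  positivity

/-- the numbers are in order, eventually -/
theorem ev_num {c : Cst} (hc : Std c) (hcr : CrOK c) {u v : ℝ} (hu : 0 < u) (huv : u ≤ v) :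
    ∃ Jn : ℕ, ∀ cc : ℝ, 0 < cc → ∀ᶠ P : ℝ × ℝ in dl,
      NumD c Jn (k1 c.p c.k0 u P.1) (k2 c.p c.k0 v P.1) (kf c.p c.k0 cc P) (cc / 2 ^ c.p)
        P.1 P.2 := by
  have hp : 1 ≤ c.p := by have := hc.p_pos; omega
  have hv : 0 < v := hu.trans_le huv
  obtain ⟨Jn, hJn⟩ := exists_J (v := v) hu
  refine ⟨Jn, fun cc hcc => ?_⟩
  filter_upwards [ev_a (ev_hJ hp c.k0 hu hv hc.δ_pos (one_le_qD c)),
    ev_a (ev_div (M := (2 : ℝ) ^ (c.p * c.k0)) hv), ev_pos,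
    ev_amp hc huv hcc (7 * √(DD.C / (cPl * (cc / 2 ^ c.p)))),
    (kf_tendsto hp c.k0 hcc).eventually_ge_atTop 1, k2_le_kf hp c.k0 hcc v,
    (k1_tendsto_dl hp c.k0 hu).eventually_ge_atTop 1,
    ev_divB (c := 1) (M := (8 : ℝ)) one_pos] with P hJ hv2 ha h1 h3 h2K hK1 hB
  have h12 : k1 c.p c.k0 u P.1 ≤ k2 c.p c.k0 v P.1 := k1_le_k2 ha huv
  have hge := aC_ge hc h12 hJ
  have h0 := c0_nonneg DD.C c.p c.k0
  exact
    { h12 := h12
      hJn := hJn c.p c.k0 hp P.1 ha hv2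
      hJ := hJ
      h2K := h2K
      h1K := by omega
      K_pos := h3
      K1_pos := hK1
      amp_ge := hge
      amp_one := fun k => hc.A0_ge.trans (hge k)
      amp_K1 := aD_fine h12 le_rfl
      amp_fine := fun k hk => aD_fine h12 hk
      amp_le := fun k => aC_le hc h12 k
      cW := fun n k => (hcr.hA n).trans (hge k)
      c0 := fun k => hcr.hA2.trans (hge k)
      c0' := fun k => by have := hcr.hA2.trans (hge k); linarith
      κ_pos := by positivity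
      last := kf_lower hc cc P
      fin := h1
      vol := by rw [one_mul] at hB; exact hB }

/-! ### the combined theorem -/

/-- **the flow of a large disc** at the last fine step `K1`: without sources (`Run3` of 722), its
bulk input, the last sum, the tail (`TH` of 610) for the literal systems of `TailD_999` -/
structure RunD (c : Cst) (CF : ℝ≥0∞) (Jn Rm : ℕ) (MP : MPar) (CB : ℝ) (K1 K2 K : ℕ)
    (M0 M t e : ℝ) {a B : ℝ} {n m : ℕ} {x : Fin n → ℂ} {y : Fin m → ℂ} {j : Fin m → Fin 2}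
    (h : DiscEv c.p c.k0 Rm a B x y j K1) : Prop where
  run : Run3 c CF Jn (2 * Rm + 2) (domF c MP h.ok.fin.toFinset .plus (xb a x)) (discBg h).w
    h.ok.fin.toFinset K1 K2 K M0 M t
  bulk : ∀ (m' : ℕ) (v : Fin m' → ℝ≥0∞) (k : ℕ), k < K →
    BulkAt c (flow0 (discBg h) MP DD ∅ c.p c.k0) (discBg h).w (aC c K1 K2) v k
      (ENNReal.ofReal (2 * (max CF (CFcr c)).toReal * M * t * (1 / 2) ^ k))
  hb : ∑ U ∈ KStepx892.nes (Lam B Rm a),
    pG (grDisc h K) ((flow0 (discBg h) MP DD ∅ c.p c.k0).K K U) ≤ ENNReal.ofReal e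
  tail : ∀ (Ze : ℝ) (vv : Fin m → ℝ≥0∞), (∀ i, vv i ≠ ∞) → (∀ i, vv i ≠ 0) → ∀ b0 : ℝ,
    CB * (M * t) * (1 / 2) ^ K1 ≤ b0 →
    TH c (discBg h).w K1 K2 K Jn (tB (discBg h) MP DD ∅ c.p c.k0 K1)
      (tD (discBg h) MP DD ∅ (eb a y j) h.ne c.p c.k0 K1)
      (tL (discBg h) MP DD ∅ (eb a y j) h.ne c.p c.k0 K1 Ze)
      (PcT (fun i => faE (eb a y j i)) fun k => nearR c.p c.k0 (K1 + k)) vv b0

theorem TH.monoJ {c : Cst} {w : BW ℤ} {K₁ K₂ K Jn Jn' : ℕ} {m : ℕ}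
    {B : Sys (ℤ × ℤ) (Fld ℤ)} {D DL : Sys (ℤ × ℤ) (VS (Fld ℤ) m)}
    {Pc : ℕ → Finset (ℤ × ℤ) → Ge (VS (Fld ℤ) m) → Prop} {vv : Fin m → ℝ≥0∞} {b0 : ℝ}
    (h : TH c w K₁ K₂ K Jn B D DL Pc vv b0) (hJ : Jn ≤ Jn') :
    TH c w K₁ K₂ K Jn' B D DL Pc vv b0 := by
  refine ⟨h.step, h.lead, h.rest, h.bulk, fun k hk _ => ?_, fun k hk hk' => h.good k hk
    (hJ.trans hk')⟩
  rcases lt_or_ge k Jn with h1 | h1
  · exact h.crude k hk h1
  · refine (h.good k hk h1).trans (le_trans (ENNReal.inv_le_one.2 (by norm_num)) ?_)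
    norm_num

theorem Run3.monoJ {c : Cst} {CF : ℝ≥0∞} {Jn Jn' q : ℕ} {D : Sys (ℤ × ℤ) (Fld ℤ)} {w : BW ℤ}
    {T : Finset (ℤ × ℤ)} {K1 K2 K : ℕ} {M0 M t : ℝ} (h : Run3 c CF Jn q D w T K1 K2 K M0 M t)
    (hJ : Jn ≤ Jn') : Run3 c CF Jn' q D w T K1 K2 K M0 M t :=
  ⟨⟨h.ctl.str, h.ctl.step, h.ctl.crude, h.ctl.count.trans hJ⟩, h.out⟩

/-- **large discs, everything which is eventually true** -/
theorem ev_disc_run {J : ℝ} {R : ℕ} {V : Finset (ℤ × ℤ) → ℝ} (hpl : PlB J R V) :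
    EvC fun c => Std c ∧ CrOK c ∧ 5 ≤ c.p * (c.k0 + 1) ∧ 1 ≤ (StepGluex897.N3 c.p : ℝ≥0∞) ∧
      ∃ CF : ℝ≥0∞, CF ≠ ∞ ∧ ∃ CB : ℝ, 0 ≤ CB ∧ ∃ c1 : ℝ, 0 < c1 ∧
      ∀ C : ℝ, ∃ ε > 0, ∃ M0 : ℝ, 0 < M0 ∧
      ∀ n : ℕ, Even n → ∀ (m : ℕ) (x : Fin n → ℂ) (y : Fin m → ℂ) (j : Fin m → Fin 2),
      Function.Injective x → Function.Injective y → ∃ u0 v0 : ℝ, 0 < u0 ∧ u0 ≤ v0 ∧
      ∀ u v cc : ℝ, 0 < u → u ≤ u0 → v0 ≤ v → 0 < cc → cc ≤ c1 →
      ∃ (Jn : ℕ) (M : ℝ), M0 ≤ M ∧ ∀ e : ℝ → ℝ, (∀ a, 0 < a → 0 < e a) →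
      ∀ᶠ P : ℝ × ℝ in dl,
        NumD c Jn (k1 c.p c.k0 u P.1) (k2 c.p c.k0 v P.1) (kf c.p c.k0 cc P) (cc / 2 ^ c.p)
          P.1 P.2 ∧
        ∃ h : DiscEv c.p c.k0 (max R 1) P.1 P.2 x y j (k1 c.p c.k0 u P.1),
        ∀ lam β z : ℝ, |lam| < ε → NearP J C lam β z → PF J R V C c lam β z →
          RunD c CF Jn (max R 1) (mpar J lam R V β z) CB (k1 c.p c.k0 u P.1)
            (k2 c.p c.k0 v P.1) (kf c.p c.k0 cc P) M0 M |lam| (e P.1) h := by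
  refine ((ev_disc3c hpl).and (ev_tail (max R 1))).mono ?_
  rintro c ⟨⟨hc, hcr, h5, CF, hCF, C1, H, c1, hc1, hrun⟩, hN3, CB, hCB, c1', hc1', htail⟩
  refine ⟨hc, hcr, h5, hN3, CF, hCF, CB, hCB, min c1 c1', lt_min hc1 hc1', fun C => ?_⟩
  obtain ⟨ε, hε, M0, hM0, hrun⟩ := hrun C
  refine ⟨ε, hε, M0, hM0, fun n hn m x y j hx hy => ?_⟩
  obtain ⟨u0, v0, hu0, huv0, hrun⟩ := hrun n hn x hx
  obtain ⟨u0', v0', hu0', huv0', htail⟩ := htail n hn x hx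
  obtain ⟨cy, hcy, hdisc⟩ := disc_ev x j hy
  have hp : 1 ≤ c.p := by have := hc.p_pos; omega
  have h2p : (0 : ℝ) < 2 ^ c.p := by positivity
  refine ⟨min (min u0 u0') (cy / 2 ^ c.p), max v0 v0', by positivity,
    ((min_le_left _ _).trans (min_le_left _ _)).trans (huv0.trans (le_max_left _ _)), ?_⟩
  intro u v cc hu huu hvv hcc hcc1
  obtain ⟨⟨hu1, hu2⟩, hu3⟩ : (u ≤ u0 ∧ u ≤ u0') ∧ u ≤ cy / 2 ^ c.p := by
    rw [le_min_iff, le_min_iff] at huu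
    exact huu
  obtain ⟨hv1, hv2⟩ := max_le_iff.1 hvv
  obtain ⟨hcc2, hcc3⟩ := le_min_iff.1 hcc1
  have huv : u ≤ v := hu1.trans (huv0.trans hv1)
  obtain ⟨Jr, M, hM, hrun⟩ := hrun u v cc hu hu1 hv1 hcc hcc2
  obtain ⟨Jt, htail⟩ := htail u v cc hu hu2 hv2 hcc hcc3
  obtain ⟨Jm, hnum⟩ := ev_num hc hcr hu huv
  refine ⟨max (max Jr Jt) Jm, M, hM, fun e he => ?_⟩
  have h3 : 2 ^ c.p * u ≤ cy := by
    rw [le_div_iff₀ h2p] at hu3
    linarith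
  filter_upwards [hrun, htail, hnum cc hcc, hdisc c.p c.k0 (max R 1) u hu h3,
    ev_hb hc huv hcc (max R 1) M ε he] with P hP1 hP2 hP3 hP4 hP5
  refine ⟨{ hP3 with hJn := hP3.hJn.trans (le_max_right _ _) }, hP4, ?_⟩
  intro lam β z hlam hnear hPF
  have hT : ((hP4.ok.fin.toFinset : Finset (ℤ × ℤ)) : Set (ℤ × ℤ)) =
      domainSites (Metric.ball (0 : ℂ) P.2) P.1 := hP4.ok.fin.coe_toFinset
  obtain ⟨hG, h12, hJ1, hJ2, hP1⟩ := hP1
  have hR3 := (hP1 lam β z hlam hnear hPF hP4.ok.fin.toFinset hT .plus).1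
  have hM' : 0 ≤ M := hM0.le.trans hM
  have habs := abs_nonneg lam
  refine ⟨Run3.monoJ hR3 ((le_max_left _ _).trans (le_max_left _ _)), fun m' v' k hk =>
    Run3.bulk hCF hR3 v' hk, ?_, ?_⟩
  · refine hP5 (max R 1) n m x y j _ hP4 (flow0 (discBg hP4) (mpar J lam R V β z) DD ∅ c.p c.k0)
      ((hR3.out.np _ le_rfl).trans (ENNReal.ofReal_le_ofReal ?_))
    refine mul_le_mul_of_nonneg_right ?_ (by positivity)
    exact mul_le_mul_of_nonneg_left hlam.le hM'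
  · intro Ze vv hvv1 hvv2 b0 hb0
    have hR1 : 1 ≤ nearR c.p c.k0 0 := by
      have h10 := hcr.h10
      have hr := hcr.hr
      unfold nearR
      rw [rr_succ]
      have : 8 ≤ 2 ^ c.p * rr c.p c.k0 0 := by nlinarith
      omega
    have hRT := fun N => runT_flC (discBg hP4) (mpar J lam R V β z) DD ∅ (eb P.1 y j) hP4.ne c.p
      c.k0 (k1 c.p c.k0 u P.1) hR1 Ze N
    refine TH.monoJ (Jn := Jt) ?_ ((le_max_right _ _).trans (le_max_left _ _))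
    refine hP2 (mpar J lam R V β z) le_rfl hP4.ok.fin.toFinset hT .plus M0 M |lam|
      (by positivity) hR3.out m _ _ _ (fun k U X hX => ⟨hX.1.1, hX.2.2⟩)
      (fun k U => (hRT (k + 1)).lead (Nat.lt_succ_self k) U)
      (fun k U => (hRT (k + 1)).rest (Nat.lt_succ_self k) U) vv hvv1 hvv2 b0 hb0

end Crest.Agent.R165.EnPBulkx387
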