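import Crest.Agent.R165.TailD3_999
import Crest.Agent.R165.SrcDiscU_610
import Crest.Agent.R165.EnPBulk_387
import Crest.Agent.R165.SrcTail3b_999
import Crest.Agent.R165.PlB_117

/-!
# Row 165 (S0250), leaf EnR: energy ratios in the large discs (helper811)

* `ev_cW0` : the amplitudes are above the Gram weights of the slices
* `enP_of` : **`ERP` for all constants** from the fine phase of the large discs (`FineD`)
-/

set_option autoImplicit false
set_option linter.unusedSectionVars false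
set_option linter.unusedVariables false

noncomputable section

namespace Crest.Agent.R165.EnPLimx811

open Finset Filter Topology
open scoped ENNReal
open Crest.ProbabilityR.IsingModel
open Crest.Agent.R165.KStepx892
open Crest.Agent.R165.Gr0x606 Crest.Agent.R165.Gr1x606 Crest.Agent.R165.GeOpsx337
  Crest.Agent.R165.ExpGx337 Crest.Agent.R165.KFlowx337 Crest.Agent.R165.PNormx417
open Crest.Agent.R165.SrcDefx991 (VS Src tau ext0 inG coP vacH vacS GS wS)
open Crest.Agent.R165.Latx683 (BW wDom wX wPl IsCov covS Fld HE)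
open Crest.Agent.R165.GDefx387 Crest.Agent.R165.GSysx387 Crest.Agent.R165.FRDPolyx439
  Crest.Agent.R165.BgIsox432 Crest.Agent.R165.PStepx417
open Crest.Agent.R165.Bkgx683 (MPar mpar Bg cor bondSrc)
open Crest.Agent.R165.J4Geox126 (faE)
open Crest.Agent.R165.JRunSx408 (SrcOK eb xb VolS)
open Crest.Agent.R165.SrcInsx991
open Crest.Agent.R165.SrcDomx697 (c0D)
open Crest.Agent.R165.PEndx683 Crest.Agent.R165.Outx683 Crest.Agent.R165.Constx891
open Crest.Agent.R165.SRx541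
open Crest.Agent.R165.SRdomAx900 (Lam)
open Crest.Agent.R165.SrcTailAllx441 (ScalarT3 TailH)
open Crest.Agent.R165.SrcCmpx441 (RunPack ERP_of_run)
open Crest.Agent.R165.W0Sx897 (cW0 cW0_pos)
open Crest.Agent.R165.StepOKx838 (abs_wX_dom)
open Crest.Agent.R165.EnWx359 (DiscEv discBg grDisc sfDisc flDisc disc_ev)
open Crest.Agent.R165.EnFinex811 Crest.Agent.R165.TailDx999 Crest.Agent.R165.TailNAx999
open Crest.Agent.R165.Centx541 Crest.Agent.R165.Redx541 Crest.Agent.R165.Symx541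
  Crest.Agent.R165.Red2x541 Crest.Agent.R165.Topx683
open Crest.Agent.R165.DiscKx892 Crest.Agent.R165.DiscPhx892 Crest.Agent.R165.DiscCompx722
open Crest.Agent.R165.SrcDiscUx610 (ev_tail TH rs)
open Crest.Agent.R165.EnPBulkx387 (ev_hb)
open Crest.Agent.R165.CovPkgx359 (cPl cPl_pos)
open Crest.Agent.R165.Compx889 (NPc)
open Crest.Agent.R165.DefRecx915 (allP)

/-! ### constants -/

/-- the amplitudes are above the Gram weights of the slices -/
theorem ev_cW0 : EvC fun c => ∀ n, cW0 DD c.p c.k0 n ≤ c.A0 := by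
  refine (ev_A0_ge fun p _ k0 => 7 * √DD.C * (((rr p k0 1 : ℕ) : ℝ) ^ MM + ((2 : ℝ) ^ p) ^ MM)).mono
    fun c hc n => ?_
  refine le_trans ?_ hc
  unfold cW0
  refine mul_le_mul_of_nonneg_left ?_ (by positivity)
  split_ifs
  · exact le_add_of_nonneg_right (by positivity)
  · exact le_add_of_nonneg_left (by positivity)

/-- the choice of the source weight -/
theorem exists_s {X t0 : ℝ} (hX : 0 ≤ X) (ht : 0 < t0) : ∃ s : ℝ, 0 < s ∧ s ≤ 1 ∧ s ^ 2 * X ≤ t0 := by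
  refine ⟨min 1 (t0 / (X + 1)), by positivity, min_le_left _ _, ?_⟩
  set s := min 1 (t0 / (X + 1)) with hs
  have h0 : 0 < s := by positivity
  have h1 : s ≤ 1 := min_le_left _ _
  have h2 : s ≤ t0 / (X + 1) := min_le_right _ _
  have h3 : s ^ 2 ≤ s := by nlinarith
  calc s ^ 2 * X ≤ t0 / (X + 1) * X := by gcongr; exact h3.trans h2
    _ = t0 * (X / (X + 1)) := by ring
    _ ≤ t0 * 1 := by
        gcongr
        rw [div_le_one (by positivity)]
        linarith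
    _ = t0 := mul_one _

/-- `z` is above `-1` -/
theorem z_pos {J C lam β z : ℝ} (h : NearP J C lam β z) (hl : |lam| < 1 / (|C| + 1)) :
    0 < 1 + z := by
  have h1 : |z| ≤ C * |lam| := (le_add_of_nonneg_left (abs_nonneg _)).trans h
  have h2 : C * |lam| ≤ |C| * |lam| := mul_le_mul_of_nonneg_right (le_abs_self C) (abs_nonneg _)
  have h3 : |C| * |lam| ≤ (|C| + 1) * |lam| :=
    mul_le_mul_of_nonneg_right (by linarith) (abs_nonneg _)
  have h4 : (|C| + 1) * |lam| < 1 := by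
    have h5 : 0 < |C| + 1 := by positivity
    calc (|C| + 1) * |lam| < (|C| + 1) * (1 / (|C| + 1)) := by gcongr
      _ = 1 := by field_simp
  have h6 := abs_le.1 (h1.trans (h2.trans h3))
  linarith [h6.1]

/-- the exponential gain against the amplitudes -/
theorem amp_small (c : Cst) {p k0 : ℕ} (hp : 1 ≤ p) {u : ℝ} (hu : 0 < u) {σ : ℝ} (h0 : 0 ≤ σ)
    (h1 : σ < 1) (n : ℕ) :
    Tendsto (fun a => Outx683.amp c (k1 p k0 u a) ^ n * σ ^ k1 p k0 u a) (𝓝[>] 0) (𝓝 0) :=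
  (Compx889.amp_pow_mul_tendsto c.A0 c.δ h0 h1 n).comp (k1_tendsto hp k0 hu)

theorem pow_small {p k0 : ℕ} (hp : 1 ≤ p) {u : ℝ} (hu : 0 < u) {σ : ℝ} (h0 : 0 ≤ σ)
    (h1 : σ < 1) : Tendsto (fun a => σ ^ k1 p k0 u a) (𝓝[>] (0 : ℝ)) (𝓝 0) :=
  (tendsto_pow_atTop_nhds_zero_of_lt_one h0 h1).comp (k1_tendsto hp k0 hu)

theorem small_ev {l : Filter ℝ} {f : ℝ → ℝ} (h : Tendsto f l (𝓝 0)) (X : ℝ) {t : ℝ}
    (ht : 0 < t) : ∀ᶠ a in l, X * f a ≤ t := by
  have := h.const_mul X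
  rw [mul_zero] at this
  exact (this.eventually_lt_const ht).mono fun _ h => h.le

/-- **energy ratios in the large discs**, for all constants, from the fine phase -/
theorem enP_of {J : ℝ} (hJ : 0 < J) {R : ℕ} {V : Finset (ℤ × ℤ) → ℝ} (hV : VHyp R V)
    {Ze : Cst → ℝ → ℝ → ℝ → ℝ} {em : Cst → ℝ → ℝ → ℝ → Fin 2 → ℝ}
    (hF : ForP J (PF J R V) fun c lam β z =>
      FineD J lam R V β z c (Ze c lam β z) (em c lam β z)) :
    ForP J (PF J R V) fun c lam β z => ERP J lam R V β (Ze c lam β z) (em c lam β z) := by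
  refine ev_mono3 (EvC.and hF (ev_disc3c (PlBx117.plB (J := J) hV))) (ev_tail (max R 1)) ev_cW0 ?_
  rintro c ⟨hF, hc, hcr, h5, CF, hCF, C1, hgood, c1, hc1, hD3⟩ ⟨hN3, CB, hCB, c2, hc2, hTail⟩
    hcW C
  obtain ⟨ε1, hε1, hF⟩ := hF C
  obtain ⟨ε2, hε2, M0, hM0, hD3⟩ := hD3 C
  refine ⟨min (min ε1 ε2) (1 / (|C| + 1)), by positivity, ?_⟩
  intro lam β z hlam hnear hPF
  obtain ⟨⟨hl1, hl2⟩, hl3⟩ : (|lam| < ε1 ∧ |lam| < ε2) ∧ |lam| < 1 / (|C| + 1) := by
    rw [lt_min_iff, lt_min_iff] at hlam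
    exact hlam
  have hz := z_pos hnear hl3
  have hFD := hF lam β z hl1 hnear hPF
  have hp : 1 ≤ c.p := by have := hc.p_pos; omega
  have hΓ : 1 ≤ c.Γ := by have := hc.Γ_ge; linarith
  have hA0 : 1 ≤ c.A0 := hc.A0_ge
  have hδ : 0 ≤ c.δ := hc.δ_pos.le
  have hnR : 1 ≤ nearR c.p c.k0 0 := by
    unfold nearR rr
    rw [Nat.le_div_iff_mul_le (by norm_num)]
    calc 1 * 8 ≤ 2 ^ 5 := by norm_num
      _ ≤ 2 ^ (c.p * (c.k0 + (0 + 1))) := Nat.pow_le_pow_right (by norm_num) (by simpa using h5)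
  refine ERP_of_run fun n m hm hn x y j hinj => ?_
  have hx : Function.Injective x := fun i i' h => by
    have := @hinj (Fin.castAdd m i) (Fin.castAdd m i') (by simpa using h)
    simpa using this
  have hy : Function.Injective y := fun i i' h => by
    have := @hinj (Fin.natAdd n i) (Fin.natAdd n i') (by simpa using h)
    simpa using this
  obtain ⟨u1, hu1, hFD⟩ := hFD n m hm hn x y j hinj
  obtain ⟨u0, v0, hu0, huv0, hD3⟩ := hD3 n hn x hx
  obtain ⟨u0', v0', hu0', huv0', hTail⟩ := hTail n hn x hx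
  obtain ⟨cs, hcs, hsep⟩ := disc_ev x j hy
  -- the parameters
  set u := min (min u0 u0') (min u1 (cs / 2 ^ c.p)) with hu_def
  set v := max v0 v0' with hv_def
  set cc := min c1 c2 with hcc_def
  have hu : 0 < u := by positivity
  have hu_0 : u ≤ u0 := (min_le_left _ _).trans (min_le_left _ _)
  have hu_0' : u ≤ u0' := (min_le_left _ _).trans (min_le_right _ _)
  have hu_1 : u ≤ u1 := (min_le_right _ _).trans (min_le_left _ _)
  have hu_s : 2 ^ c.p * u ≤ cs := by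
    have h1 : u ≤ cs / 2 ^ c.p := (min_le_right _ _).trans (min_le_right _ _)
    rwa [le_div_iff₀' (by positivity)] at h1
  have hv_0 : v0 ≤ v := le_max_left _ _
  have hv_0' : v0' ≤ v := le_max_right _ _
  have huv : u ≤ v := hu_0.trans (huv0.trans hv_0)
  have hcc : 0 < cc := lt_min hc1 hc2
  obtain ⟨Jn1, MJ, hMJ, hevD⟩ := hD3 u v cc hu hu_0 hv_0 hcc (min_le_left _ _)
  obtain ⟨Jn, hevT⟩ := hTail u v cc hu hu_0' hv_0' hcc (min_le_right _ _)
  have hevS := hsep c.p c.k0 R u hu hu_s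
  have hevH := ev_hb hc huv hcc (max R 1) MJ |lam|
    (e := fun a => (1 / 2) ^ k1 c.p c.k0 u a) fun a _ => by positivity
  obtain ⟨σ, Ce, M, κ, vs, hσ0, hσ1, hCe, hM, hκ, hevF⟩ := hFD u hu hu_1
  obtain ⟨t0, ht0, C0, hC0, h3⟩ := SrcTailx999.scalarT3 Jn (c := 2 * 3)
    (C := (StepGluex897.N3 c.p : ℝ≥0∞)) (by norm_num) (by norm_num) hN3 (ENNReal.natCast_ne_top _)
  have hC00 : 0 ≤ C0 := by linarith
  obtain ⟨s, hs0, hs1, hsX⟩ := exists_s (X := m * (2 * (c.Γ * M))) (by positivity) ht0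
  have hsM : 0 ≤ s ^ 2 * M := by positivity
  have hMJ0 : 0 ≤ MJ := by linarith
  set Cb := CB * (MJ * |lam|) + 1 with hCb_def
  have hCb : 0 < Cb := by positivity
  set Y := 1 + m * (c.Γ * (s ^ 2 * M)) with hY_def
  have hY : 0 ≤ Y := by positivity
  set κ' := cc / 2 ^ c.p with hκ'_def
  have hκ' : 0 < κ' := by positivity
  have hampT := aD_tendsto (u := u) (v := v) (c := cc) (A₀ := c.A0) (δ := c.δ) (q := qD c) hp c.k0
    huv hcc (by linarith) hc.δ_pos (by have := one_le_qD c; linarith)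
  refine ⟨m * (2 * (s ^ 2 * M)) + 3 * (C0 * (m * (2 * (c.Γ * (s ^ 2 * M))))), s ^ 2 * κ,
    fun a => Outx683.amp c (k1 c.p c.k0 u a), fun a => (1 / 2) ^ k1 c.p c.k0 u a +
      (m + 2 ^ m) * (Ce * σ ^ k1 c.p c.k0 u a) +
      3 * (C0 * (Ce * σ ^ k1 c.p c.k0 u a * Y + Cb * (1 / 2) ^ k1 c.p c.k0 u a)),
    by positivity, Eventually.of_forall fun a => ?_, ?_, ?_⟩
  · show 1 ≤ c.A0 * (1 + c.δ * (k1 c.p c.k0 u a : ℝ))
    have h1 : 0 ≤ c.δ * (k1 c.p c.k0 u a : ℝ) := by positivity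
    nlinarith
  · have h1 := (amp_small c (k0 := c.k0) hp hu (by norm_num : (0 : ℝ) ≤ 1 / 2) (by norm_num)
      (2 * m)).const_mul (1 + 3 * (C0 * Cb))
    have h2 := (amp_small c (k0 := c.k0) hp hu hσ0 hσ1 (2 * m)).const_mul
      ((m + 2 ^ m) * Ce + 3 * (C0 * (Ce * Y)))
    have h4 := h1.add h2
    rw [mul_zero, mul_zero, add_zero] at h4
    refine h4.congr fun a => ?_
    ring
  · -- all events along `dl`
    have hE : ∀ᶠ P : ℝ × ℝ in dl, DiscEv c.p c.k0 R P.1 P.2 x y j (k1 c.p c.k0 u P.1) ∧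
        k1 c.p c.k0 u P.1 ≤ kf c.p c.k0 cc P ∧ 1 ≤ kf c.p c.k0 cc P ∧
        7 * √(DD.C / (cPl * κ')) ≤ aC c (k1 c.p c.k0 u P.1) (k2 c.p c.k0 v P.1)
          (kf c.p c.k0 cc P) ∧
        k1 c.p c.k0 u P.1 ≤ k2 c.p c.k0 v P.1 ∧
        qD c ^ (k2 c.p c.k0 v P.1 - k1 c.p c.k0 u P.1) ≤ 1 + c.δ * k1 c.p c.k0 u P.1 ∧
        (∀ (T : Finset (ℤ × ℤ)), (T : Set (ℤ × ℤ)) =
          domainSites (Metric.ball (0 : ℂ) P.2) P.1 →
          Out3 c (domF c (mpar J lam R V β z) T .plus fun i => meshIndex P.1 (x i))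
            (Bg.dom T .plus fun i => meshIndex P.1 (x i)).w (k1 c.p c.k0 u P.1)
            (k2 c.p c.k0 v P.1) (kf c.p c.k0 cc P) M0 MJ |lam| ∧
          ∀ (D DL : Sys (ℤ × ℤ) (VS (Fld ℤ) m))
            (Pc : ℕ → Finset (ℤ × ℤ) → Ge (VS (Fld ℤ) m) → Prop),
            (∀ j U X, Pc j U X → SrcDiscUx610.AdmT c (k1 c.p c.k0 u P.1) j U X) →
            (∀ j U, Pc j U (DL.K j U)) →
            (∀ j U, Pc j U (SrcTailx441.PT (rs (domF c (mpar J lam R V β z) T .plus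
              fun i => meshIndex P.1 (x i)) (k1 c.p c.k0 u P.1)) D DL j U)) →
            ∀ vv : Fin m → ℝ≥0∞, (∀ i, vv i ≠ ∞) → (∀ i, vv i ≠ 0) →
            TH c (Bg.dom T .plus fun i => meshIndex P.1 (x i)).w (k1 c.p c.k0 u P.1)
              (k2 c.p c.k0 v P.1) (kf c.p c.k0 cc P) Jn
              (rs (domF c (mpar J lam R V β z) T .plus fun i => meshIndex P.1 (x i))
              (k1 c.p c.k0 u P.1)) D DL Pc vv (Cb * (1 / 2) ^ k1 c.p c.k0 u P.1)) ∧
        (∀ (h : DiscEv c.p c.k0 R P.1 P.2 x y j (k1 c.p c.k0 u P.1)) (D : Sys (ℤ × ℤ) (Fld ℤ)),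
          NPc c D (discBg h).w (aC c (k1 c.p c.k0 u P.1) (k2 c.p c.k0 v P.1)) allP
            (kf c.p c.k0 cc P) ≤ ENNReal.ofReal (MJ * |lam| * (1 / 2) ^ kf c.p c.k0 cc P) →
          ∑ U ∈ KStepx892.nes (Lam P.2 (max R 1) P.1),
            pG (grDisc h (kf c.p c.k0 cc P)) (D.K (kf c.p c.k0 cc P) U) ≤
              ENNReal.ofReal ((1 / 2) ^ k1 c.p c.k0 u P.1)) := by
      filter_upwards [hevS, k1_le_kf hp c.k0 hcc u,
        (kf_tendsto hp c.k0 hcc).eventually_ge_atTop 1,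
        hampT.eventually_ge_atTop (7 * √(DD.C / (cPl * κ'))), hevD, hevT, hevH]
        with P e1 e2 e3 e4 e5 e6 e7
      obtain ⟨_, g2, _, g4, g5⟩ := e5
      refine ⟨e1, e2, e3, e4, g2, g4, fun T hT => ?_, fun h D hD => e7 R n m x y j _ h D hD⟩
      have hO := ((g5 lam β z hl2 hnear hPF T hT .plus).1).out
      refine ⟨hO, fun D DL Pc a1 a2 a3 vv a4 a5 => ?_⟩
      refine e6 (mpar J lam R V β z) ?_ T hT .plus M0 MJ |lam| (by positivity) hO m D DL Pc a1 a2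
        a3 vv a4 a5 _ ?_
      · exact le_refl (max R 1)
      · refine mul_le_mul_of_nonneg_right ?_ (by positivity)
        rw [hCb_def]
        linarith
    rw [dl, eventually_curry_iff] at hE
    have hb0 := small_ev (pow_small (k0 := c.k0) hp hu (by norm_num : (0 : ℝ) ≤ 1 / 2)
      (by norm_num)) Cb ht0
    have hb1 := small_ev (pow_small (k0 := c.k0) hp hu hσ0 hσ1) (Ce * Y) ht0
    filter_upwards [hE, hevF, hb0, hb1, self_mem_nhdsWithin] with a hE ⟨hk, hFa⟩ hb0 hb1 ha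
    have ha : 0 < a := ha
    filter_upwards [hE, hFa] with B hE hFa
    obtain ⟨hDE, h1f, h1, hA7, h12, hJq, hTT, hHB⟩ := hE
    set K₁ := k1 c.p c.k0 u a with hK₁
    set K₂ := k2 c.p c.k0 v a with hK₂
    set Kf := kf c.p c.k0 cc (a, B) with hKf
    have hTc : ((hDE.ok.fin.toFinset : Finset (ℤ × ℤ)) : Set (ℤ × ℤ)) =
        domainSites (Metric.ball (0 : ℂ) B) a := hDE.ok.fin.coe_toFinset
    have hvol : VolS hDE.ok.fin.toFinset .plus (max R 1) (eb a y j) (Lam B (max R 1) a) :=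
      SrcDomx697.volS_of_vol (hDE.vol (max R 1))
    have hFine := (hFa hDE.ok.fin.toFinset hTc (Lam B (max R 1) a) hvol hDE.ne).scale hs0 hs1
    obtain ⟨hO, hTH⟩ := hTT hDE.ok.fin.toFinset hTc
    have hN : K₁ + (Kf - K₁) = Kf := Nat.add_sub_cancel' h1f
    have hsv : 0 < s * vs a := hFine.v0
    have hTail := hTH (tD (discBg hDE) (mpar J lam R V β z) DD ∅ (eb a y j) hDE.ne c.p c.k0 K₁)
      (tL (discBg hDE) (mpar J lam R V β z) DD ∅ (eb a y j) hDE.ne c.p c.k0 K₁ (Ze c lam β z))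
      (Pt m c.p c.k0 K₁) (fun j U X h => ⟨h.1, fun _ h0 => (h.2 h0).2⟩)
      (fun j U => tL_P _ _ _ _ _ _ _ _ _ hnR _ j U)
      (fun j U => PT_P _ _ _ _ _ _ _ _ _ hnR _ j U)
      (fun _ => ENNReal.ofReal (s * vs a)) (fun _ => ENNReal.ofReal_ne_top)
      (fun _ => (ENNReal.ofReal_pos.2 hsv).ne')
    have hrr : κ' * (B / a) ≤ (rr c.p c.k0 (K₁ + (Kf - K₁)) : ℝ) := by
      rw [hN]
      have h3 := lt_rr_kf (k0 := c.k0) hp cc (a, B)
      rw [rr_succ] at h3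
      push_cast at h3
      rw [hκ'_def, div_mul_eq_mul_div, div_le_iff₀ (by positivity)]
      have e : cc * B / a = cc * (B / a) := by ring
      have h4 : cc * B / a < 2 ^ c.p * (rr c.p c.k0 Kf : ℝ) := h3
      rw [e] at h4
      linarith
    refine runPack_disc hDE h5 hJ.ne' hV hz (Kf - K₁) hΓ
      (abs_wX_dom hDE.ok.fin.toFinset _ _) hFine
      (aS := fun k => aC c K₁ K₂ (K₁ + k)) ?_ h3 hC00 (ENNReal.natCast_ne_top _)
      (b0 := Cb * (1 / 2) ^ K₁) (by positivity) hb0 ?_ ?_ hTail ?_ (by rw [hN]; exact h1)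
      hκ' hrr ?_ ?_ (ε₁ := (1 / 2) ^ K₁) (by positivity) ?_ ?_
    · show aC c K₁ K₂ (K₁ + 0) = Outx683.amp c K₁
      rw [Nat.add_zero]
      exact aD_fine h12 le_rfl
    · calc Ce * σ ^ K₁ * Y = Ce * Y * σ ^ K₁ := by ring
        _ ≤ t0 := hb1
    · calc (m : ℝ) * (2 * (c.Γ * (s ^ 2 * M))) = s ^ 2 * (m * (2 * (c.Γ * M))) := by ring
        _ ≤ t0 := hsX
    · intro k _
      exact (hcW _).trans (aC_ge hc h12 hJq _)
    · exact (zero_lt_one.trans_le hA0).trans_le (aC_ge hc h12 hJq _)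
    · show 7 * √(DD.C / (cPl * κ')) ≤ aC c K₁ K₂ (K₁ + (Kf - K₁))
      rw [hN]
      exact hA7
    · rw [hN]
      exact hHB hDE (domF c (mpar J lam R V β z) hDE.ok.fin.toFinset .plus
        fun i => meshIndex a (x i)) (hO.np Kf le_rfl)
    · calc s ^ 2 * κ ≤ s ^ 2 * (a * (Outx683.amp c K₁ ^ 2 * vs a ^ 2)) :=
          mul_le_mul_of_nonneg_left hk (by positivity)
        _ = a * (Outx683.amp c K₁ ^ 2 * (s * vs a) ^ 2) := by ring

end Crest.Agent.R165.EnPLimx811
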