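import Crest.Agent.R165.SrcLim_697
import Crest.Agent.R165.DiscK_892

/-!
# Row 165 (S0250), leaf EnR, discs (helper622): numbers at the first crude step `k1`

* `vS_k1` : `t u / 2^p ≤ a A² v²` at `k1`
* `amp_k1_tendsto` : `A^(2m) (C σ^k1) → 0`
* `amp_k1_one` : `1 ≤ A` at `k1`
-/

set_option autoImplicit false
set_option linter.unusedVariables false

noncomputable section

namespace Crest.Agent.R165.EnPNumx622

open Filter Topology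
open Crest.Agent.R165.PEndx683 Crest.Agent.R165.Outx683 Crest.Agent.R165.GSysx387
open Crest.Agent.R165.SrcLimx697 Crest.Agent.R165.DiscKx892

variable {c : Cst} {t : ℝ}

/-- **the weight at the first crude step against the mesh** -/
theorem vS_k1 (ht : 0 < t) (h0 : 0 < c.A0) (hδ : 0 ≤ c.δ) (hp : 1 ≤ c.p) {u a : ℝ} (ha : 0 < a) :
    t * (u / 2 ^ c.p) ≤
      a * (amp c (k1 c.p c.k0 u a) ^ 2 * vS c t (k1 c.p c.k0 u a) ^ 2) := by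
  set N := k1 c.p c.k0 u a with hN
  have h2 := amp_pos h0 hδ N
  have e : amp c N ^ 2 * vS c t N ^ 2 = t * rr c.p c.k0 N := by
    rw [vS_sq ht.le]
    field_simp
  rw [e]
  have h3 : u / a < rr c.p c.k0 (N + 1) := lt_rr_k1 hp u a (by rw [hN]; exact Nat.lt_succ_self _)
  rw [SrcLimx697.rr_succ, div_lt_iff₀ ha] at h3
  have h5 : u / 2 ^ c.p ≤ a * rr c.p c.k0 N := by
    rw [div_le_iff₀ (by positivity)]
    calc u ≤ 2 ^ c.p * (rr c.p c.k0 N : ℝ) * a := h3.le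
      _ = _ := by ring
  calc t * (u / 2 ^ c.p) ≤ t * (a * rr c.p c.k0 N) := mul_le_mul_of_nonneg_left h5 ht.le
    _ = _ := by ring

/-- the same eventually -/
theorem vS_k1_ev (ht : 0 < t) (h0 : 0 < c.A0) (hδ : 0 ≤ c.δ) (hp : 1 ≤ c.p) (u : ℝ) :
    ∀ᶠ a in 𝓝[>] (0 : ℝ), t * (u / 2 ^ c.p) ≤
      a * (amp c (k1 c.p c.k0 u a) ^ 2 * vS c t (k1 c.p c.k0 u a) ^ 2) := by
  filter_upwards [self_mem_nhdsWithin] with a ha
  exact vS_k1 ht h0 hδ hp ha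

/-- **polynomial amplitudes against the geometric gain, at the first crude step** -/
theorem amp_k1_tendsto (c : Cst) (hp : 1 ≤ c.p) {u : ℝ} (hu : 0 < u) {σ : ℝ} (hσ0 : 0 ≤ σ)
    (hσ1 : σ < 1) (m : ℕ) (C : ℝ) :
    Tendsto (fun a : ℝ => amp c (k1 c.p c.k0 u a) ^ (2 * m) * (C * σ ^ k1 c.p c.k0 u a))
      (𝓝[>] 0) (𝓝 0) :=
  amp_pow_comp (k1_tendsto hp c.k0 hu) c hσ0 hσ1 (2 * m) C

/-- the same along the filter of the discs -/
theorem amp_k1_tendsto_dl (c : Cst) (hp : 1 ≤ c.p) {u : ℝ} (hu : 0 < u) {σ : ℝ} (hσ0 : 0 ≤ σ)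
    (hσ1 : σ < 1) (m : ℕ) (C : ℝ) :
    Tendsto (fun P : ℝ × ℝ => amp c (k1 c.p c.k0 u P.1) ^ (2 * m) *
      (C * σ ^ k1 c.p c.k0 u P.1)) dl (𝓝 0) :=
  amp_pow_comp (k1_tendsto_dl hp c.k0 hu) c hσ0 hσ1 (2 * m) C

/-- the amplitude is at least one -/
theorem amp_k1_one (h0 : 1 ≤ c.A0) (hδ : 0 ≤ c.δ) (u a : ℝ) : 1 ≤ amp c (k1 c.p c.k0 u a) :=
  amp_one h0 hδ _

theorem amp_k1_one_ev (h0 : 1 ≤ c.A0) (hδ : 0 ≤ c.δ) (u : ℝ) :
    ∀ᶠ a in 𝓝[>] (0 : ℝ), 1 ≤ amp c (k1 c.p c.k0 u a) :=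
  Eventually.of_forall fun a => amp_k1_one h0 hδ u a

end Crest.Agent.R165.EnPNumx622
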