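import Crest.Agent.R165.InitN_682

/-!
# Row 165 (S0250), leaf INIT-R: the initial activities of the backgrounds of `Bkg_683` (helper682)

`PHyp P θ` : the parameters are bounded by `θ ≤ 1/2`.

* `bhyp`, `shyp_no`   : the hypotheses of `J4K0B_126` for `B.bk P src`
* `bg_NN`, `bg_NN_sub`, `bg_NN_lip`, `bg_NN_lip2` : norms `pG (wU B.w a r₀ U)`, `r₀ = rr l k0 0`
* `bg_NK`, `bg_NK_sub`, `bg_NK_lip`, `bg_NK_lip2` : the same with `NK`
* `bg_src`            : any local sources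
* `exists_init`       : all the bounds with one constant `C = C(R, l, k0, Γ, a)`, uniformly in the
  background
-/

set_option autoImplicit false
set_option linter.unusedSectionVars false

noncomputable section

open Finset
open scoped ENNReal

namespace Crest.Agent.R165.InitBx682

open Crest.Agent.R165.J4Datx126 Crest.Agent.R165.J4Geox126 Crest.Agent.R165.J4K0x126
open Crest.Agent.R165.J4K0Bx126 Crest.Agent.R165.J4K0Lx126
open Crest.Agent.R165.J4Defx653 Crest.Agent.R165.J4Pathx653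
open Crest.Agent.R165.J4RRx653 Crest.Agent.R165.J4RRAx653
open Crest.Agent.R165.Gr0x606 Crest.Agent.R165.Gr1x606
open Crest.Agent.R165.GeOpsx337 Crest.Agent.R165.PNormx417 Crest.Agent.R165.GDefx387
open Crest.Agent.R165.Latx683 (HE Fld BW xc wPl wDom wX)
open Crest.Agent.R165.Quadx897 Crest.Agent.R165.Quad2x897
open Crest.Agent.R165.NSumx915 Crest.Agent.R165.Bridgex915 Crest.Agent.R165.KInitx892
open Crest.Agent.R165.SrcDefx991 Crest.Agent.R165.Bkgx683 Crest.Agent.R165.GSysx387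
open Crest.Agent.R165.InitNx682 Crest.Agent.R165.BgIsox432

/-! ### square roots -/

theorem abs_sqrt_sub_le {z z' : ℝ} (hz : |z| ≤ 1 / 2) (hz' : |z'| ≤ 1 / 2) :
    |Real.sqrt (1 + z) - Real.sqrt (1 + z')| ≤ |z - z'| := by
  have h1 : (0 : ℝ) ≤ 1 + z := by have := (abs_le.1 hz).1; linarith
  have h2 : (0 : ℝ) ≤ 1 + z' := by have := (abs_le.1 hz').1; linarith
  have h3 : (1 : ℝ) / 2 ≤ Real.sqrt (1 + z) := by
    refine Real.le_sqrt_of_sq_le ?_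
    have := (abs_le.1 hz).1; norm_num; linarith
  have h4 : (1 : ℝ) / 2 ≤ Real.sqrt (1 + z') := by
    refine Real.le_sqrt_of_sq_le ?_
    have := (abs_le.1 hz').1; norm_num; linarith
  have e : z - z' = (Real.sqrt (1 + z) - Real.sqrt (1 + z')) *
      (Real.sqrt (1 + z) + Real.sqrt (1 + z')) := by
    have a1 := Real.sq_sqrt h1
    have a2 := Real.sq_sqrt h2
    nlinarith
  rw [e, abs_mul, abs_of_nonneg (by linarith : (0 : ℝ) ≤ Real.sqrt (1 + z) + Real.sqrt (1 + z'))]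
  exact le_mul_of_one_le_right (abs_nonneg _) (by linarith)

theorem abs_sqrt_sub_one_le {z : ℝ} (hz : |z| ≤ 1 / 2) : |Real.sqrt (1 + z) - 1| ≤ |z| := by
  have := abs_sqrt_sub_le hz (z' := 0) (by simp)
  simpa using this

/-! ### the hypotheses of `J4K0B_126` -/

/-- bounds of the parameters -/
structure PHyp (P : MPar) (θ : ℝ) : Prop where
  θ0 : 0 ≤ θ
  θ1 : θ ≤ 1 / 2
  z : |P.z| ≤ θ
  t : ∀ S ∈ Can P.R, Even S.card → |P.t S| ≤ θ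

/-- the difference of the parameters is bounded by `δ` -/
structure DHyp (P P' : MPar) (δ : ℝ) : Prop where
  R : P'.R = P.R
  z : |P.z - P'.z| ≤ δ
  t : ∀ S ∈ Can P.R, Even S.card → |P.t S - P'.t S| ≤ δ

section bk

variable {G : Type} [CommRing G] [DecidableEq G] {B : Bg G} {P P' : MPar} {θ δ : ℝ}
variable {κ : Type} {A : Type*} [CommRing A] [Algebra ℝ A]

theorem bhyp (hw : ∀ z j, |B.w z j| ≤ 1) (hP : PHyp P θ) (src : Srcs κ G A) :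
    BHyp (B.bk P src) θ where
  θ0 := hP.θ0
  θ1 := hP.θ1.trans (by norm_num)
  y e := hw e.1 e.2
  s f := by
    change |B.sc P f - 1| ≤ θ
    unfold Bg.sc
    split_ifs
    · exact (abs_sqrt_sub_one_le (hP.z.trans hP.θ1)).trans hP.z
    · rw [sub_self, abs_zero]; exact hP.θ0
  t := hP.t

theorem same_bk (hD : DHyp P P' δ) (src : Srcs κ G A) : Same (B.bk P src) (B.bk P' src) where
  R := hD.R
  Ys := rfl
  y := rfl
  as := rfl
  Fs := rfl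
  ok := by
    change B.ok P'.R = B.ok P.R
    rw [hD.R]

theorem s_bk (hP : PHyp P θ) (hP' : PHyp P' θ) (hD : DHyp P P' δ) (src : Srcs κ G A)
    (f : G × G) : |(B.bk P src).s f - (B.bk P' src).s f| ≤ δ := by
  change |B.sc P f - B.sc P' f| ≤ δ
  have hδ : 0 ≤ δ := (abs_nonneg _).trans hD.z
  unfold Bg.sc
  split_ifs
  · exact (abs_sqrt_sub_le (hP.z.trans hP.θ1) (hP'.z.trans hP'.θ1)).trans hD.z
  · rw [sub_self, abs_zero]; exact hδ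

theorem shyp_no (B : Bg G) (P : MPar) (nm : Finset (G × G) → A → ℝ≥0∞) (c Γ : ℝ) :
    SHyp (B.bk P (noSrc G A)) nm c Γ 0 (fun _ => 0) (fun _ => 0) where
  αt k := k.elim0
  φt k := k.elim0
  a k := k.elim0
  F k := k.elim0
  card k := k.elim0
  tot f := by simp

end bk

/-! ### the bounds -/

section main

variable {G : Type} [CommRing G] [CN G] [GoodG G] [DecidableEq G]
variable {B : Bg G} {P P' : MPar} {θ δ a Γ : ℝ} {l k0 : ℕ}

/-- the initial activities without sources -/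
abbrev A0 (B : Bg G) (P : MPar) (l k0 : ℕ) : Finset (G × G) → Ge (Fld G) :=
  B.K0 P LinearMap.id (noSrc G (Ge (Fld G))) l k0

/-- their explicit first order part -/
abbrev A01 (B : Bg G) (P : MPar) : Finset (G × G) → Ge (Fld G) :=
  K01 (frG (LinearMap.id : Fld G →ₗ[ℝ] Fld G)) (B.bk P (noSrc G (Ge (Fld G))))

/-- the size of the initial activities -/
def S0 (R l k0 : ℕ) (Γ a θ : ℝ) : ℝ := Kc R Γ (cB a (rr l k0 0)) * θ

/-- the hypotheses on the numbers -/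
structure NumB (R l k0 : ℕ) (Γ a θ : ℝ) : Prop where
  a0 : 0 ≤ a
  Γ3 : 3 ≤ Γ
  r6 : 6 ≤ rr l k0 0
  sm : 4 * S0 R l k0 Γ a θ * m0 R ≤ 1
  sm' : (mI (rr l k0 0) (nearR l k0 0) : ℝ) * (24 * nI (rr l k0 0) * S0 R l k0 Γ a θ) ≤ 1

theorem SS_eq (R l k0 : ℕ) (Γ a θ : ℝ) :
    SS R Γ (cB a (rr l k0 0)) θ 0 = S0 R l k0 Γ a θ := by
  unfold SS S0; rw [add_zero]

theorem NumB.num {R : ℕ} (h : NumB R l k0 Γ a θ) :
    Num R (rr l k0 0) 1 (nearR l k0 0) Γ (cB a (rr l k0 0)) θ 0 where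
  Γ3 := h.Γ3
  R1 := le_rfl
  Rr := by have := h.r6; omega
  εs0 := le_rfl
  sm := by rw [SS_eq]; exact h.sm
  sm' := by rw [SS_eq]; exact h.sm'

theorem bg_NN (hw : ∀ z j, |B.w z j| ≤ 1) (hP : PHyp P θ) (h : NumB P.R l k0 Γ a θ) :
    NN fd (rr l k0 0) (ENNReal.ofReal Γ)
      (fun U => pG (wU B.w a (rr l k0 0) U) (A0 B P l k0 U)) ≤
      ENNReal.ofReal (8 * nI (rr l k0 0) * S0 P.R l k0 Γ a θ) := by
  have := init_NN (nhyp_id B.w h.a0 (rr l k0 0)) (normFam_pG B.w a (rr l k0 0))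
    (bhyp hw hP (noSrc G (Ge (Fld G)))) (shyp_no B P _ _ Γ) (fun k => k.elim0) h.num
  rw [← SS_eq]
  exact this

theorem bg_NN_sub (hw : ∀ z j, |B.w z j| ≤ 1) (hP : PHyp P θ) (h : NumB P.R l k0 Γ a θ) :
    NN fd (rr l k0 0) (ENNReal.ofReal Γ)
      (fun U => pG (wU B.w a (rr l k0 0) U) (A0 B P l k0 U - A01 B P U)) ≤
      ENNReal.ofReal ((36 * mI (rr l k0 0) (nearR l k0 0) * (nI (rr l k0 0)) ^ 2 +
        4 * nI (rr l k0 0) * m0 P.R) * S0 P.R l k0 Γ a θ ^ 2) := by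
  have := init_NN_sub (nhyp_id B.w h.a0 (rr l k0 0)) (normFam_pG B.w a (rr l k0 0))
    (bhyp hw hP (noSrc G (Ge (Fld G)))) (shyp_no B P _ _ Γ) (fun k => k.elim0) h.num
  rw [← SS_eq]
  exact this

theorem bg_NN_lip (hw : ∀ z j, |B.w z j| ≤ 1) (hP : PHyp P θ) (hP' : PHyp P' θ)
    (hD : DHyp P P' δ) (hθ : 0 < θ) (h : NumB P.R l k0 Γ a θ) :
    NN fd (rr l k0 0) (ENNReal.ofReal Γ)
      (fun U => pG (wU B.w a (rr l k0 0) U) (A0 B P l k0 U - A0 B P' l k0 U)) ≤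
      ENNReal.ofReal (42 * nI (rr l k0 0) * S0 P.R l k0 Γ a δ) := by
  have hδ : 0 ≤ δ := (abs_nonneg _).trans hD.z
  have e : δ / θ * S0 P.R l k0 Γ a θ = S0 P.R l k0 Γ a δ := by
    unfold S0; field_simp
  have := init_NN_lip (nhyp_id B.w h.a0 (rr l k0 0)) (normFam_pG B.w a (rr l k0 0))
    (bhyp hw hP (noSrc G (Ge (Fld G)))) (bhyp hw hP' (noSrc G (Ge (Fld G))))
    (shyp_no B P _ _ Γ) (fun k => k.elim0) h.num (same_bk hD _) (s_bk hP hP' hD _) hD.t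
    (η := δ / θ) (by rw [div_mul_cancel₀ _ hθ.ne']) (by positivity)
  refine this.trans (ENNReal.ofReal_le_ofReal (le_of_eq ?_))
  change 42 * (nI (rr l k0 0) : ℝ) * (δ / θ) * SS P.R Γ (cB a (rr l k0 0)) θ 0 = _
  rw [SS_eq, mul_assoc, e]

theorem bg_NN_lip2 (hw : ∀ z j, |B.w z j| ≤ 1) (hP : PHyp P θ) (hP' : PHyp P' θ)
    (hD : DHyp P P' δ) (hθ : 0 < θ) (h : NumB P.R l k0 Γ a θ) :
    NN fd (rr l k0 0) (ENNReal.ofReal Γ)
      (fun U => pG (wU B.w a (rr l k0 0) U)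
        ((A0 B P l k0 U - A01 B P U) - (A0 B P' l k0 U - A01 B P' U))) ≤
      ENNReal.ofReal ((864 * mI (rr l k0 0) (nearR l k0 0) * (nI (rr l k0 0)) ^ 2 +
        12 * nI (rr l k0 0) * m0 P.R) * (S0 P.R l k0 Γ a δ * S0 P.R l k0 Γ a θ)) := by
  have hδ : 0 ≤ δ := (abs_nonneg _).trans hD.z
  have e : δ / θ * S0 P.R l k0 Γ a θ = S0 P.R l k0 Γ a δ := by
    unfold S0; field_simp
  have := init_NN_lip2 (nhyp_id B.w h.a0 (rr l k0 0)) (normFam_pG B.w a (rr l k0 0))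
    (bhyp hw hP (noSrc G (Ge (Fld G)))) (bhyp hw hP' (noSrc G (Ge (Fld G))))
    (shyp_no B P _ _ Γ) (fun k => k.elim0) h.num (same_bk hD _) (s_bk hP hP' hD _) hD.t
    (η := δ / θ) (by rw [div_mul_cancel₀ _ hθ.ne']) (by positivity)
  refine this.trans (ENNReal.ofReal_le_ofReal (le_of_eq ?_))
  change (864 * (mI (rr l k0 0) (nearR l k0 0) : ℝ) * (nI (rr l k0 0)) ^ 2 +
        12 * nI (rr l k0 0) * m0 P.R) * (δ / θ) * SS P.R Γ (cB a (rr l k0 0)) θ 0 ^ 2 = _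
  rw [SS_eq, ← e]
  ring

/-! ### the norms `NK` -/

variable (p : Finset (G × G) → Prop)

/-- **the norm of the initial activities**, every background -/
theorem bg_NK (hw : ∀ z j, |B.w z j| ≤ 1) (hP : PHyp P θ) (h : NumB P.R l k0 Γ a θ) :
    NK B.w a (rr l k0 0) (ENNReal.ofReal Γ) p (fun U => (A0 B P l k0 U : Gr (Fld G))) ≤
      ENNReal.ofReal (8 * nI (rr l k0 0) * S0 P.R l k0 Γ a θ) :=
  (NK_le_NN _ _ _ _ _ _).trans (bg_NN hw hP h)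

theorem bg_NK_sub (hw : ∀ z j, |B.w z j| ≤ 1) (hP : PHyp P θ) (h : NumB P.R l k0 Γ a θ) :
    NK B.w a (rr l k0 0) (ENNReal.ofReal Γ) p
      (fun U => ((A0 B P l k0 U - A01 B P U : Ge (Fld G)) : Gr (Fld G))) ≤
      ENNReal.ofReal ((36 * mI (rr l k0 0) (nearR l k0 0) * (nI (rr l k0 0)) ^ 2 +
        4 * nI (rr l k0 0) * m0 P.R) * S0 P.R l k0 Γ a θ ^ 2) :=
  (NK_le_NN _ _ _ _ _ _).trans (bg_NN_sub hw hP h)

theorem bg_NK_lip (hw : ∀ z j, |B.w z j| ≤ 1) (hP : PHyp P θ) (hP' : PHyp P' θ)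
    (hD : DHyp P P' δ) (hθ : 0 < θ) (h : NumB P.R l k0 Γ a θ) :
    NK B.w a (rr l k0 0) (ENNReal.ofReal Γ) p
      (fun U => ((A0 B P l k0 U - A0 B P' l k0 U : Ge (Fld G)) : Gr (Fld G))) ≤
      ENNReal.ofReal (42 * nI (rr l k0 0) * S0 P.R l k0 Γ a δ) :=
  (NK_le_NN _ _ _ _ _ _).trans (bg_NN_lip hw hP hP' hD hθ h)

theorem bg_NK_lip2 (hw : ∀ z j, |B.w z j| ≤ 1) (hP : PHyp P θ) (hP' : PHyp P' θ)
    (hD : DHyp P P' δ) (hθ : 0 < θ) (h : NumB P.R l k0 Γ a θ) :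
    NK B.w a (rr l k0 0) (ENNReal.ofReal Γ) p
      (fun U => (((A0 B P l k0 U - A01 B P U) - (A0 B P' l k0 U - A01 B P' U) :
        Ge (Fld G)) : Gr (Fld G))) ≤
      ENNReal.ofReal ((864 * mI (rr l k0 0) (nearR l k0 0) * (nI (rr l k0 0)) ^ 2 +
        12 * nI (rr l k0 0) * m0 P.R) * (S0 P.R l k0 Γ a δ * S0 P.R l k0 Γ a θ)) :=
  (NK_le_NN _ _ _ _ _ _).trans (bg_NN_lip2 hw hP hP' hD hθ h)

end main

/-! ### one constant for all backgrounds -/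

section exist

theorem S0_nonneg {R l k0 : ℕ} {Γ a θ : ℝ} (hΓ : 3 ≤ Γ) (hθ : 0 ≤ θ) : 0 ≤ S0 R l k0 Γ a θ :=
  mul_nonneg (Kc_nonneg R (by linarith) (one_le_cB a _)) hθ

/-- the constant -/
def CI (R l k0 : ℕ) (Γ a : ℝ) : ℝ :=
  8 * nI (rr l k0 0) * Kc R Γ (cB a (rr l k0 0)) + 42 * nI (rr l k0 0) * Kc R Γ (cB a (rr l k0 0)) +
    (864 * mI (rr l k0 0) (nearR l k0 0) * (nI (rr l k0 0)) ^ 2 + 12 * nI (rr l k0 0) * m0 R) *
      Kc R Γ (cB a (rr l k0 0)) ^ 2 +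
    (24 * mI (rr l k0 0) (nearR l k0 0) * nI (rr l k0 0) + 4 * m0 R) *
      Kc R Γ (cB a (rr l k0 0)) + 1

theorem CI_parts (R l k0 : ℕ) {Γ : ℝ} (a : ℝ) (hΓ : 3 ≤ Γ) :
    1 ≤ CI R l k0 Γ a ∧
    8 * nI (rr l k0 0) * Kc R Γ (cB a (rr l k0 0)) ≤ CI R l k0 Γ a ∧
    42 * nI (rr l k0 0) * Kc R Γ (cB a (rr l k0 0)) ≤ CI R l k0 Γ a ∧
    (864 * mI (rr l k0 0) (nearR l k0 0) * (nI (rr l k0 0)) ^ 2 + 12 * nI (rr l k0 0) * m0 R) *
      Kc R Γ (cB a (rr l k0 0)) ^ 2 ≤ CI R l k0 Γ a ∧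
    24 * mI (rr l k0 0) (nearR l k0 0) * nI (rr l k0 0) * Kc R Γ (cB a (rr l k0 0)) ≤
      CI R l k0 Γ a ∧
    4 * m0 R * Kc R Γ (cB a (rr l k0 0)) ≤ CI R l k0 Γ a := by
  have hK := Kc_nonneg R (by linarith : (1 : ℝ) ≤ Γ) (one_le_cB a (rr l k0 0))
  have h1 : (0 : ℝ) ≤ 8 * nI (rr l k0 0) * Kc R Γ (cB a (rr l k0 0)) := by positivity
  have h2 : (0 : ℝ) ≤ 42 * nI (rr l k0 0) * Kc R Γ (cB a (rr l k0 0)) := by positivity
  have h3 : (0 : ℝ) ≤ (864 * mI (rr l k0 0) (nearR l k0 0) * (nI (rr l k0 0)) ^ 2 +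
    12 * nI (rr l k0 0) * m0 R) * Kc R Γ (cB a (rr l k0 0)) ^ 2 := by positivity
  have h4 : (0 : ℝ) ≤ 24 * mI (rr l k0 0) (nearR l k0 0) * nI (rr l k0 0) *
    Kc R Γ (cB a (rr l k0 0)) := by positivity
  have h5 : (0 : ℝ) ≤ 4 * m0 R * Kc R Γ (cB a (rr l k0 0)) := by positivity
  unfold CI
  refine ⟨?_, ?_, ?_, ?_, ?_, ?_⟩ <;> nlinarith

theorem numB_of {R l k0 : ℕ} {Γ a θ : ℝ} (ha : 0 ≤ a) (hΓ : 3 ≤ Γ) (hr : 6 ≤ rr l k0 0)
    (hθ : 0 ≤ θ) (hs : CI R l k0 Γ a * θ ≤ 1) : NumB R l k0 Γ a θ := by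
  obtain ⟨h1, -, -, -, h5, h6⟩ := CI_parts R l k0 a hΓ
  refine ⟨ha, hΓ, hr, ?_, ?_⟩
  · refine le_trans ?_ hs
    calc 4 * S0 R l k0 Γ a θ * m0 R = 4 * m0 R * Kc R Γ (cB a (rr l k0 0)) * θ := by
          unfold S0; ring
      _ ≤ _ := mul_le_mul_of_nonneg_right h6 hθ
  · refine le_trans ?_ hs
    calc (mI (rr l k0 0) (nearR l k0 0) : ℝ) * (24 * nI (rr l k0 0) * S0 R l k0 Γ a θ) =
          24 * mI (rr l k0 0) (nearR l k0 0) * nI (rr l k0 0) * Kc R Γ (cB a (rr l k0 0)) * θ := by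
            unfold S0; ring
      _ ≤ _ := mul_le_mul_of_nonneg_right h5 hθ

variable {G : Type} [CommRing G] [CN G] [GoodG G] [DecidableEq G]
variable {B : Bg G} {P P' : MPar} {θ δ a Γ : ℝ} {l k0 : ℕ}

/-- **all the bounds**, with one constant which does not see the background -/
theorem init_all (ha : 0 ≤ a) (hΓ : 3 ≤ Γ) (hr : 6 ≤ rr l k0 0)
    (hw : ∀ z j, |B.w z j| ≤ 1) (hP : PHyp P θ) (hs : CI P.R l k0 Γ a * θ ≤ 1) :
    NN fd (rr l k0 0) (ENNReal.ofReal Γ)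
      (fun U => pG (wU B.w a (rr l k0 0) U) (A0 B P l k0 U)) ≤
      ENNReal.ofReal (CI P.R l k0 Γ a * θ) ∧
    NN fd (rr l k0 0) (ENNReal.ofReal Γ)
      (fun U => pG (wU B.w a (rr l k0 0) U) (A0 B P l k0 U - A01 B P U)) ≤
      ENNReal.ofReal (CI P.R l k0 Γ a * θ ^ 2) := by
  have hn := numB_of (R := P.R) ha hΓ hr hP.θ0 hs
  obtain ⟨h1, h2, h3, h4, h5, h6⟩ := CI_parts P.R l k0 a hΓ
  have hK := Kc_nonneg P.R (by linarith : (1 : ℝ) ≤ Γ) (one_le_cB a (rr l k0 0))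
  refine ⟨(bg_NN hw hP hn).trans (ENNReal.ofReal_le_ofReal ?_),
    (bg_NN_sub hw hP hn).trans (ENNReal.ofReal_le_ofReal ?_)⟩
  · calc 8 * nI (rr l k0 0) * S0 P.R l k0 Γ a θ =
          8 * nI (rr l k0 0) * Kc P.R Γ (cB a (rr l k0 0)) * θ := by unfold S0; ring
      _ ≤ _ := mul_le_mul_of_nonneg_right h2 hP.θ0
  · have h7 : (36 * mI (rr l k0 0) (nearR l k0 0) * (nI (rr l k0 0)) ^ 2 +
        4 * nI (rr l k0 0) * m0 P.R) * Kc P.R Γ (cB a (rr l k0 0)) ^ 2 ≤ CI P.R l k0 Γ a := by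
      refine le_trans (mul_le_mul_of_nonneg_right ?_ (sq_nonneg _)) h4
      have a1 : (0 : ℝ) ≤ mI (rr l k0 0) (nearR l k0 0) * (nI (rr l k0 0)) ^ 2 := by positivity
      have a2 : (0 : ℝ) ≤ nI (rr l k0 0) * m0 P.R := by positivity
      nlinarith
    calc (36 * mI (rr l k0 0) (nearR l k0 0) * (nI (rr l k0 0)) ^ 2 +
        4 * nI (rr l k0 0) * m0 P.R) * S0 P.R l k0 Γ a θ ^ 2 =
          (36 * mI (rr l k0 0) (nearR l k0 0) * (nI (rr l k0 0)) ^ 2 +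
        4 * nI (rr l k0 0) * m0 P.R) * Kc P.R Γ (cB a (rr l k0 0)) ^ 2 * θ ^ 2 := by
            unfold S0; ring
      _ ≤ _ := mul_le_mul_of_nonneg_right h7 (sq_nonneg _)

/-- **all the Lipschitz bounds** -/
theorem init_all_lip (ha : 0 ≤ a) (hΓ : 3 ≤ Γ) (hr : 6 ≤ rr l k0 0)
    (hw : ∀ z j, |B.w z j| ≤ 1) (hP : PHyp P θ) (hP' : PHyp P' θ) (hD : DHyp P P' δ)
    (hθ : 0 < θ) (hs : CI P.R l k0 Γ a * θ ≤ 1) :
    NN fd (rr l k0 0) (ENNReal.ofReal Γ)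
      (fun U => pG (wU B.w a (rr l k0 0) U) (A0 B P l k0 U - A0 B P' l k0 U)) ≤
      ENNReal.ofReal (CI P.R l k0 Γ a * δ) ∧
    NN fd (rr l k0 0) (ENNReal.ofReal Γ)
      (fun U => pG (wU B.w a (rr l k0 0) U)
        ((A0 B P l k0 U - A01 B P U) - (A0 B P' l k0 U - A01 B P' U))) ≤
      ENNReal.ofReal (CI P.R l k0 Γ a * (δ * θ)) := by
  have hn := numB_of (R := P.R) ha hΓ hr hP.θ0 hs
  have hδ : 0 ≤ δ := (abs_nonneg _).trans hD.z
  obtain ⟨h1, h2, h3, h4, h5, h6⟩ := CI_parts P.R l k0 a hΓ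
  refine ⟨(bg_NN_lip hw hP hP' hD hθ hn).trans (ENNReal.ofReal_le_ofReal ?_),
    (bg_NN_lip2 hw hP hP' hD hθ hn).trans (ENNReal.ofReal_le_ofReal ?_)⟩
  · calc 42 * nI (rr l k0 0) * S0 P.R l k0 Γ a δ =
          42 * nI (rr l k0 0) * Kc P.R Γ (cB a (rr l k0 0)) * δ := by unfold S0; ring
      _ ≤ _ := mul_le_mul_of_nonneg_right h3 hδ
  · calc (864 * mI (rr l k0 0) (nearR l k0 0) * (nI (rr l k0 0)) ^ 2 +
        12 * nI (rr l k0 0) * m0 P.R) * (S0 P.R l k0 Γ a δ * S0 P.R l k0 Γ a θ) =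
          (864 * mI (rr l k0 0) (nearR l k0 0) * (nI (rr l k0 0)) ^ 2 +
        12 * nI (rr l k0 0) * m0 P.R) * Kc P.R Γ (cB a (rr l k0 0)) ^ 2 * (δ * θ) := by
            unfold S0; ring
      _ ≤ _ := mul_le_mul_of_nonneg_right h4 (mul_nonneg hδ hP.θ0)

end exist

/-! ### with local sources -/

section src

variable {G : Type} [CommRing G] [CN G] [GoodG G] [DecidableEq G]
variable {B : Bg G} {P : MPar} {θ a Γ : ℝ} {l k0 : ℕ}
variable {V : Type*} [AddCommGroup V] [Module ℝ V] {κ : Type} [DecidableEq κ] [Fintype κ]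

/-- **the norm of the initial activities with local sources** -/
theorem bg_src {ι : Fld G →ₗ[ℝ] V} {W : Finset (G × G) → V → ℝ≥0∞} (ha : 0 ≤ a)
    (hW : ∀ U : Finset (G × G), ∀ f ∈ U, ∀ j : Fin 4,
      W U (ι (Finsupp.single ((f, j) : HE G) 1)) ≤ ENNReal.ofReal (a * Real.sqrt (rr l k0 0)))
    (hanti : ∀ U U' : Finset (G × G), U ⊆ U' → ∀ x, W U' x ≤ W U x)
    (hw : ∀ z j, |B.w z j| ≤ 1) (hP : PHyp P θ) {src : Srcs κ G (Ge V)} {εs : ℝ}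
    {α φ : κ → ℝ≥0∞}
    (hS : SHyp (B.bk P src) (fun U x => pG (W U) x) (cB a (rr l k0 0)) Γ εs α φ) {R₀ : ℕ}
    (hk : ∀ k, Packx915.Conn fd R₀ (src.Ys k))
    (h : Num P.R (rr l k0 0) R₀ (nearR l k0 0) Γ (cB a (rr l k0 0)) θ εs) :
    NN fd (rr l k0 0) (ENNReal.ofReal Γ) (fun U => pG (W U) (B.K0 P ι src l k0 U)) ≤
      ENNReal.ofReal (8 * nI (rr l k0 0) * SS P.R Γ (cB a (rr l k0 0)) θ εs) :=
  init_NN (nhyp ha hW) (normFam_of_anti _ hanti) (bhyp hw hP src) hS hk h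

end src

end Crest.Agent.R165.InitBx682
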