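import Crest.Agent.R165.Bkg_683
import Crest.Agent.R165.J4K0B_126

/-!
# Row 165 (S0250), block INIT: explicit first order part of the initial activities of the plane
(helper871)

* `PB_pr`   : `PB (pr (0,j)) = ep (single (0,j) 1)`
* `anc Y₀ a`: anchored family `U ↦ ∑_{u ∈ U, Y₀ + u = U} a u`
* `K01_pl`  : exact formula of 126's `K01` in the plane
* `Kex`, `Kct`, `par`
* `NI_anc_le`
-/

set_option autoImplicit false
set_option linter.unusedSectionVars false

noncomputable section

open Finset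
open scoped ENNReal
open Crest.ProbabilityR.IsingModel

namespace Crest.Agent.R165.J4K0Px871

open Crest.Agent.R165.J4Actx126
open Crest.Agent.R165.J4Datx126 Crest.Agent.R165.J4Geox126 Crest.Agent.R165.J4K0x126
open Crest.Agent.R165.J4K0Bx126
open Crest.Agent.R165.J4Defx653 Crest.Agent.R165.J4Pathx653
open Crest.Agent.R165.J4RRx653 Crest.Agent.R165.J4RRAx653
open Crest.Agent.R165.J1ax606 (HE EG pe qe pe_zero pe_one qe_zero qe_one)
open Crest.Agent.R165.Bkgx683 (MPar mpar Srcs noSrc Bg)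
open Crest.Agent.R165.Latx683 (xc wPl)
open Crest.Agent.R165.KInitx892

/-! ### the representation of a nearest neighbour pair -/

theorem hull_pr (j : Fin 2) {e : Ed} (he : e ∈ edIn (hull (pr ((0 : ℤ × ℤ), j)))) :
    e = ((0 : ℤ × ℤ), j) := by
  obtain ⟨⟨z1, z2⟩, k⟩ := e
  obtain ⟨h1, h2⟩ := he
  have hu0 : unitVec 0 = (1, 0) := rfl
  have hu1 : unitVec 1 = (0, 1) := rfl
  simp only [hull, pr, Set.mem_ofPred_eq, mem_insert, mem_singleton, exists_eq_or_imp,
    exists_eq_left, zero_add] at h1 h2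
  have hj : j = 0 ∨ j = 1 := by
    fin_cases j
    · exact Or.inl rfl
    · exact Or.inr rfl
  have hk : k = 0 ∨ k = 1 := by
    fin_cases k
    · exact Or.inl rfl
    · exact Or.inr rfl
  rcases hj with rfl | rfl <;> rcases hk with rfl | rfl <;>
    simp only [hu0, hu1, Prod.fst_zero, Prod.snd_zero, Prod.fst_add, Prod.snd_add] at h1 h2
  · have e1 : z1 = 0 := by omega
    have e2 : z2 = 0 := by omega
    subst e1; subst e2; rfl
  · exfalso; omega
  · exfalso; omega
  · have e1 : z1 = 0 := by omega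
    have e2 : z2 = 0 := by omega
    subst e1; subst e2; rfl

theorem mem_RIn_single {E : Type*} {e : E} {F : RR E} (hF : F ∈ RIn ({e} : Set E)) :
    ∃ α β : ℝ, F = α • (1 : RR E) + β • ep (Finsupp.single e 1) := by
  refine RIn_ind (P := fun F => ∃ α β : ℝ, F = α • (1 : RR E) + β • ep (Finsupp.single e 1))
    ⟨0, 0, by simp⟩ ?_ ?_ hF
  · rintro F G ⟨a, b, rfl⟩ ⟨c, d, rfl⟩
    exact ⟨a + c, b + d, by rw [add_smul, add_smul]; abel⟩
  · intro c S hS
    by_cases h0 : S e = 0
    · refine ⟨c, 0, ?_⟩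
      have : S = 0 := by
        ext x
        by_cases hx : x = e
        · rw [hx, h0]; rfl
        · by_contra hne
          exact hx (hS (Finset.mem_coe.2 (Finsupp.mem_support_iff.2 hne)))
      rw [this, ep_zero, zero_smul, add_zero]
    · refine ⟨0, c, ?_⟩
      have h1 : S e = 1 := by
        revert h0
        generalize S e = k
        revert k
        decide
      have : S = Finsupp.single e 1 := by
        ext x
        by_cases hx : x = e
        · rw [hx, h1, Finsupp.single_eq_same]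
        · rw [Finsupp.single_eq_of_ne hx]
          by_contra hne
          exact hx (hS (Finset.mem_coe.2 (Finsupp.mem_support_iff.2 hne)))
      rw [this, zero_smul, zero_add]

theorem even_card_pr (e : Ed) : Even (pr e).card := by
  have hne : e.1 ≠ e.1 + unitVec e.2 := by
    intro h
    have h0 : unitVec e.2 = 0 := by simpa using h.symm
    have hj : e.2 = 0 ∨ e.2 = 1 := by
      generalize e.2 = j
      fin_cases j
      · exact Or.inl rfl
      · exact Or.inr rfl
    rcases hj with hj | hj <;> rw [hj] at h0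
    · have : ((1 : ℤ), (0 : ℤ)) = 0 := h0
      simp at this
    · have : ((0 : ℤ), (1 : ℤ)) = 0 := h0
      simp at this
  rw [pr, Finset.card_pair hne]
  exact even_two

/-- **the representation of a nearest neighbour pair is the bond variable** -/
theorem PB_pr (j : Fin 2) : PB (pr ((0 : ℤ × ℤ), j)) =
    ep (Finsupp.single ((0 : ℤ × ℤ), j) 1) := by
  have h1 := PB_mem (pr ((0 : ℤ × ℤ), j)) (even_card_pr _)
  have h2 : PB (pr ((0 : ℤ × ℤ), j)) ∈ RIn ({((0 : ℤ × ℤ), j)} : Set Ed) :=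
    RIn_mono (fun e he => hull_pr j he) h1
  obtain ⟨α, β, hF⟩ := mem_RIn_single h2
  have h3 : ∀ s : ℤ × ℤ → Bool, α + β * epsE s (0, j) = epsE s (0, j) := by
    intro s
    have h4 := PB_eval (pr ((0 : ℤ × ℤ), j)) (even_card_pr _) s
    rw [hF, map_add, map_smul, map_smul, TH_one, TH_ep,
      Finsupp.support_single _ one_ne_zero, Finset.prod_singleton, sB_pr, smul_eq_mul,
      smul_eq_mul, mul_one] at h4
    exact h4
  have h5 := h3 fun _ => true
  have h6 := h3 fun x => decide (x = 0)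
  have hne : (0 : ℤ × ℤ) + unitVec j ≠ 0 := by
    intro h
    rw [zero_add] at h
    have hj : j = 0 ∨ j = 1 := by
      fin_cases j
      · exact Or.inl rfl
      · exact Or.inr rfl
    rcases hj with hj | hj <;> rw [hj] at h
    · have : ((1 : ℤ), (0 : ℤ)) = 0 := h
      simp at this
    · have : ((0 : ℤ), (1 : ℤ)) = 0 := h
      simp at this
  have e5 : epsE (fun _ => true) ((0 : ℤ × ℤ), j) = 1 := by
    rw [epsE]; exact spinSign_sq true
  have e6 : epsE (fun x => decide (x = 0)) ((0 : ℤ × ℤ), j) = -1 := by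
    rw [epsE]
    simp only [decide_true]
    rw [decide_eq_false hne]
    simp [spinSign]
  rw [e5] at h5
  rw [e6] at h6
  have hα : α = 0 := by linarith
  have hβ : β = 1 := by linarith
  rw [hF, hα, hβ, zero_smul, zero_add, one_smul]

/-! ### anchored families -/

section anc
variable {A : Type*} [CommRing A] [Algebra ℝ A]

/-- anchored family: the support is a translate of `Y₀` -/
def anc (Y₀ : Finset (ℤ × ℤ)) (a : ℤ × ℤ → A) (U : Finset (ℤ × ℤ)) : A :=
  ∑ u ∈ U, if Y₀.image (fz u) = U then a u else 0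

theorem fz_int (u y : ℤ × ℤ) : fz u y = y + u := by
  unfold fz cz
  ext <;> simp [add_comm]

theorem image_fz (Y₀ : Finset (ℤ × ℤ)) (u : ℤ × ℤ) : Y₀.image (fz u) = Y₀.image (· + u) := by
  congr 1
  funext y
  exact fz_int u y

theorem card_image_fz (Y₀ : Finset (ℤ × ℤ)) (u : ℤ × ℤ) : (Y₀.image (fz u)).card = Y₀.card := by
  rw [image_fz]
  exact Finset.card_image_of_injective _ (add_left_injective u)

theorem anc_add (Y₀ : Finset (ℤ × ℤ)) (a b : ℤ × ℤ → A) (U : Finset (ℤ × ℤ)) :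
    anc Y₀ (fun u => a u + b u) U = anc Y₀ a U + anc Y₀ b U := by
  unfold anc
  rw [← Finset.sum_add_distrib]
  refine Finset.sum_congr rfl fun u _ => ?_
  split_ifs
  · rfl
  · rw [add_zero]

theorem anc_sub (Y₀ : Finset (ℤ × ℤ)) (a b : ℤ × ℤ → A) (U : Finset (ℤ × ℤ)) :
    anc Y₀ (fun u => a u - b u) U = anc Y₀ a U - anc Y₀ b U := by
  unfold anc
  rw [← Finset.sum_sub_distrib]
  refine Finset.sum_congr rfl fun u _ => ?_
  split_ifs
  · rfl
  · rw [sub_zero]

theorem anc_smul (Y₀ : Finset (ℤ × ℤ)) (r : ℝ) (a : ℤ × ℤ → A) (U : Finset (ℤ × ℤ)) :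
    anc Y₀ (fun u => r • a u) U = r • anc Y₀ a U := by
  unfold anc
  rw [Finset.smul_sum]
  refine Finset.sum_congr rfl fun u _ => ?_
  split_ifs
  · rfl
  · rw [smul_zero]

theorem anc_congr {Y₀ : Finset (ℤ × ℤ)} {a b : ℤ × ℤ → A} {U : Finset (ℤ × ℤ)}
    (h : ∀ u ∈ U, a u = b u) : anc Y₀ a U = anc Y₀ b U := by
  unfold anc
  exact Finset.sum_congr rfl fun u hu => by rw [h u hu]

theorem anc_empty (Y₀ : Finset (ℤ × ℤ)) (a : ℤ × ℤ → A) : anc Y₀ a ∅ = 0 := by
  unfold anc; rw [Finset.sum_empty]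

/-- a nonzero value of an anchored family has a translate of `Y₀` as support -/
theorem anc_ne {Y₀ : Finset (ℤ × ℤ)} {a : ℤ × ℤ → A} {U : Finset (ℤ × ℤ)} (h : anc Y₀ a U ≠ 0) :
    ∃ u ∈ U, Y₀.image (fz u) = U := by
  by_contra hcon
  push Not at hcon
  refine h (Finset.sum_eq_zero fun u hu => if_neg (hcon u hu))

end anc

/-! ### the formula -/

section formula
variable {A : Type*} [CommRing A] [Algebra ℝ A] (fr : Fr ℤ A)

/-- the plane as a background of 126 -/
abbrev plB (A : Type*) [CommRing A] [Algebra ℝ A] (P : MPar) : Bk ℤ (Fin 0) A :=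
  Bg.pl.bk P (noSrc ℤ A)

theorem plB_y (P : MPar) (e : EG ℤ) : (plB A P).y e = xc := rfl

theorem plB_s {P : MPar} (f : ℤ × ℤ) : (plB A P).s f = Real.sqrt (1 + P.z) := by
  change Bg.sc Bg.pl P f = _
  unfold Bg.sc
  exact if_pos trivial

theorem plB_ss {P : MPar} (hz : 0 ≤ 1 + P.z) (f f' : ℤ × ℤ) :
    (plB A P).s f * (plB A P).s f' = 1 + P.z := by
  rw [plB_s, plB_s, Real.mul_self_sqrt hz]

/-- image of the bond variable -/
def gP (P : MPar) (e : EG ℤ) : A := 1 - (2 * (xc * (1 + P.z))) • fr.b e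

theorem plB_g {P : MPar} (hz : 0 ≤ 1 + P.z) : (plB A P).g fr = gP fr P := by
  funext e
  unfold Bk.g gP
  rw [plB_ss hz, plB_y]

/-- value of a shape -/
def vS (P : MPar) (S : Finset (ℤ × ℤ)) (u : ℤ × ℤ) : A :=
  TH (gP fr P) (em (ez u) (kB (P.t S) S))

/-- **exact formula of the first order part** -/
theorem K01_pl {P : MPar} (hz : 0 ≤ 1 + P.z) (U : Finset (ℤ × ℤ)) :
    K01 fr (plB A P) U = (∑ S ∈ (Can P.R).filter (fun S => Even S.card), anc (Yf S) (vS fr P S) U) +
      anc {0} (fun f => P.z • fr.I4 f + (P.z ^ 2 / 2) • (fr.I4 f * fr.I4 f)) U +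
      ∑ j : Fin 2, anc (faE ((0 : ℤ × ℤ), j)) (fun u => (xc * P.z) • fr.b (u, j)) U := by
  classical
  unfold K01
  rw [Finset.sum_filter]
  unfold Bk.ixs
  rw [Finset.sum_disjSum, Finset.sum_disjSum, Finset.sum_disjSum]
  have hk : ∑ k ∈ (plB A P).srcs U, (if (plB A P).YI (Sum.inr (Sum.inr (Sum.inr k))) = U then
      val fr (plB A P) (Sum.inr (Sum.inr (Sum.inr k))) else 0) = 0 :=
    Finset.sum_eq_zero fun k _ => k.elim0
  rw [hk, add_zero]
  rw [add_assoc]
  congr 1
  · -- shapes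
    unfold Bk.shp
    rw [Finset.sum_filter, Finset.sum_product_right, Finset.sum_filter]
    refine Finset.sum_congr rfl fun S _ => ?_
    by_cases hev : Even S.card
    · rw [if_pos hev]
      unfold anc
      refine Finset.sum_congr rfl fun u _ => ?_
      by_cases hU : (Yf S).image (fz u) = U
      · have h1 : (Even ((u, S) : (ℤ × ℤ) × Finset (ℤ × ℤ)).2.card ∧
            (plB A P).ok ((u, S) : (ℤ × ℤ) × Finset (ℤ × ℤ)).1
              ((u, S) : (ℤ × ℤ) × Finset (ℤ × ℤ)).2) ∧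
            (Yf ((u, S) : (ℤ × ℤ) × Finset (ℤ × ℤ)).2).image
              (fz ((u, S) : (ℤ × ℤ) × Finset (ℤ × ℤ)).1) ⊆ U := ⟨⟨hev, trivial⟩, hU.le⟩
        have h2 : (plB A P).YI (Sum.inl (u, S)) = U := hU
        rw [if_pos h1, if_pos h2, if_pos hU]
        change 1 * TH ((plB A P).g fr) (em (ez u) (kB (P.t S) S)) = _
        rw [one_mul, plB_g fr hz]
        rfl
      · have h2 : ¬ (plB A P).YI (Sum.inl (u, S)) = U := hU
        rw [if_neg h2, if_neg hU, ite_self]
    · rw [if_neg hev]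
      refine Finset.sum_eq_zero fun u _ => ?_
      exact if_neg fun h => hev h.1.1
  · congr 1
    · -- faces
      unfold anc
      refine Finset.sum_congr rfl fun f _ => ?_
      have hI : ({0} : Finset (ℤ × ℤ)).image (fz f) = {f} := by
        rw [Finset.image_singleton, fz_zero]
      rw [hI]
      change (if ({f} : Finset (ℤ × ℤ)) = U then
        (((plB A P).cI f • fr.I4 f + ((plB A P).cI f ^ 2 / 2) • (fr.I4 f * fr.I4 f)) *
          TH ((plB A P).g fr) (1 : RR (EG ℤ))) else 0) = _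
      have hc : (plB A P).cI f = P.z := by
        unfold Bk.cI
        rw [plB_ss hz]; ring
      rw [hc, TH_one, mul_one]
    · -- bonds
      unfold Bk.edg
      rw [Finset.sum_filter, Finset.sum_product_right]
      refine Finset.sum_congr rfl fun j _ => ?_
      unfold anc
      refine Finset.sum_congr rfl fun u _ => ?_
      have hI : (faE ((0 : ℤ × ℤ), j)).image (fz u) = faE (u, j) := by
        rw [← faE_ez]
        unfold ez
        simp
      rw [hI]
      change (if faE (u, j) ⊆ U then (if faE (u, j) = U then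
        (((plB A P).y (u, j) * ((plB A P).s (pe (u, j)).1 * (plB A P).s (qe (u, j)).1 - 1)) •
          fr.b (u, j)) * TH ((plB A P).g fr) (1 : RR (EG ℤ)) else 0) else 0) = _
      rw [TH_one, mul_one, plB_ss hz, plB_y]
      by_cases hU : faE (u, j) = U
      · rw [if_pos hU.le, if_pos hU, if_pos hU]
        congr 2
        ring
      · rw [if_neg hU, if_neg hU, ite_self]

/-! ### the explicit part -/

/-- explicit linear part: `p` = shift of the coupling, `z` = rescaling -/
def Kex (p z : ℝ) (U : Finset (ℤ × ℤ)) : A :=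
  ∑ j : Fin 2, anc (Yf (pr ((0 : ℤ × ℤ), j))) (fun u => (-(2 * xc * p)) • fr.b (u, j)) U +
    z • (anc {0} fr.I4 U +
      ∑ j : Fin 2, anc (faE ((0 : ℤ × ℤ), j)) (fun u => xc • fr.b (u, j)) U)

/-- explicit constants -/
def Kct (A : Type*) [CommRing A] [Algebra ℝ A] (p : ℝ) (U : Finset (ℤ × ℤ)) : A :=
  ∑ j : Fin 2, anc (Yf (pr ((0 : ℤ × ℤ), j))) (fun _ => p • (1 : A)) U

theorem TH_g_single (g : EG ℤ → A) (u : ℤ × ℤ) (j : Fin 2) :
    TH g (em (ez u) (ep (Finsupp.single ((0 : ℤ × ℤ), j) 1))) = g (u, j) := by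
  rw [em_ep, Finsupp.mapDomain_single, TH_ep, Finsupp.support_single _ one_ne_zero,
    Finset.prod_singleton]
  unfold ez
  rw [fz_zero]

/-- value of a nearest neighbour shape -/
theorem vS_pr (P : MPar) (j : Fin 2) (u : ℤ × ℤ) : vS fr P (pr ((0 : ℤ × ℤ), j)) u =
    (Real.cosh (P.t (pr (0, j))) - 1) • (1 : A) + Real.sinh (P.t (pr (0, j))) • gP fr P (u, j) := by
  unfold vS kB
  rw [PB_pr, map_add, map_smul, map_smul, map_one, map_add, map_smul, map_smul, TH_one,
    TH_g_single]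

/-- remainder of a nearest neighbour shape -/
def rN (P : MPar) (p : ℝ) (j : Fin 2) (u : ℤ × ℤ) : A :=
  vS fr P (pr ((0 : ℤ × ℤ), j)) u - (-(2 * xc * p)) • fr.b (u, j) - p • (1 : A)

theorem rN_eq (P : MPar) (p : ℝ) (j : Fin 2) (u : ℤ × ℤ) : rN fr P p j u =
    (Real.exp (P.t (pr (0, j))) - 1 - p) • (1 : A) +
      (-(2 * xc * (Real.sinh (P.t (pr (0, j))) * (1 + P.z) - p))) • fr.b (u, j) := by
  unfold rN
  rw [vS_pr]
  unfold gP
  have h1 : Real.exp (P.t (pr (0, j))) = Real.cosh (P.t (pr (0, j))) + Real.sinh (P.t (pr (0, j))) :=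
    (Real.cosh_add_sinh _).symm
  rw [h1, smul_sub, smul_smul]
  module

open Classical in
/-- sum over the even shapes -/
theorem sum_Can_even {R : ℕ} (hR : 1 ≤ R) {M : Type*} [AddCommMonoid M]
    (F : Finset (ℤ × ℤ) → M) :
    ∑ S ∈ (Can R).filter (fun S => Even S.card), F S =
      ∑ S ∈ ((Can R).filter (fun S => Even S.card)).filter (fun S => ¬ IsNN S), F S +
        ∑ j : Fin 2, F (pr ((0 : ℤ × ℤ), j)) := by
  rw [← Finset.sum_filter_add_sum_filter_not ((Can R).filter (fun S => Even S.card))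
    (fun S => IsNN S), add_comm]
  congr 1
  have : ((Can R).filter (fun S => Even S.card)).filter (fun S => IsNN S) =
      (univ : Finset (Fin 2)).image fun j => pr (0, j) := by
    ext S
    rw [Finset.mem_filter, Finset.mem_filter, Finset.mem_image]
    constructor
    · rintro ⟨⟨h1, _⟩, h2⟩
      obtain ⟨j, rfl⟩ := isNN_Can h1 h2
      exact ⟨j, mem_univ _, rfl⟩
    · rintro ⟨j, _, rfl⟩
      exact ⟨⟨pr_zero_mem_Can hR j, even_card_pr _⟩, _, rfl⟩
  rw [this, Finset.sum_image]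
  intro i _ j _ h
  have := pr_injective h
  simpa using this

open Classical in
/-- even shapes which are not nearest neighbour pairs -/
def evN (R : ℕ) : Finset (Finset (ℤ × ℤ)) :=
  ((Can R).filter (fun S => Even S.card)).filter (fun S => ¬ IsNN S)

theorem mem_evN {R : ℕ} {S : Finset (ℤ × ℤ)} : S ∈ evN R ↔ S ∈ Can R ∧ Even S.card ∧ ¬ IsNN S := by
  classical
  unfold evN
  rw [Finset.mem_filter, Finset.mem_filter, and_assoc]

/-- **the remainder of the first order part** -/
def R1 (P : MPar) (p : ℝ) (U : Finset (ℤ × ℤ)) : A :=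
  K01 fr (plB A P) U - Kex fr p P.z U - Kct A p U

theorem R1_eq {P : MPar} (hz : 0 ≤ 1 + P.z) (hR : 1 ≤ P.R) (p : ℝ) (U : Finset (ℤ × ℤ)) :
    R1 fr P p U = ∑ S ∈ evN P.R, anc (Yf S) (vS fr P S) U +
      ∑ j : Fin 2, anc (Yf (pr ((0 : ℤ × ℤ), j))) (rN fr P p j) U +
      anc {0} (fun f => (P.z ^ 2 / 2) • (fr.I4 f * fr.I4 f)) U := by
  unfold R1
  rw [K01_pl fr hz, sum_Can_even hR]
  unfold Kex Kct
  have e1 : ∀ j : Fin 2, anc (Yf (pr ((0 : ℤ × ℤ), j))) (rN fr P p j) U =
      anc (Yf (pr ((0 : ℤ × ℤ), j))) (vS fr P (pr (0, j))) U -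
        anc (Yf (pr ((0 : ℤ × ℤ), j))) (fun u => (-(2 * xc * p)) • fr.b (u, j)) U -
        anc (Yf (pr ((0 : ℤ × ℤ), j))) (fun _ => p • (1 : A)) U := by
    intro j
    rw [← anc_sub, ← anc_sub]
    rfl
  have e2 : anc {0} (fun f => P.z • fr.I4 f + (P.z ^ 2 / 2) • (fr.I4 f * fr.I4 f)) U =
      P.z • anc {0} fr.I4 U + anc {0} (fun f => (P.z ^ 2 / 2) • (fr.I4 f * fr.I4 f)) U := by
    rw [anc_add, anc_smul]
  have e3 : ∑ j : Fin 2, anc (faE ((0 : ℤ × ℤ), j)) (fun u => (xc * P.z) • fr.b (u, j)) U =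
      P.z • ∑ j : Fin 2, anc (faE ((0 : ℤ × ℤ), j)) (fun u => xc • fr.b (u, j)) U := by
    rw [Finset.smul_sum]
    refine Finset.sum_congr rfl fun j _ => ?_
    rw [← anc_smul]
    refine anc_congr fun u _ => ?_
    rw [smul_smul, mul_comm]
  rw [e2, e3]
  simp only [e1, Finset.sum_sub_distrib]
  unfold evN
  rw [smul_add]
  abel

end formula

end Crest.Agent.R165.J4K0Px871
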