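import Crest.Agent.R165.InitDat_541
import Crest.Agent.R165.DomAc_117
import Crest.Agent.R165.InitB_682
import Crest.Agent.R165.J4K0P_871

/-!
# Row 165 (S0250), P7, step 0: supports of the initial data (helper901)

* `trF_eq_anc`, `kex_eq` : the notations of 541 and of 871 agree
* `anc_conn`, `anc_one` : translates of an anchored support
* `kct_cst`, `kct_conn`, `kct_empty` : fields `cst`, `cconn`, `cemp` of `InitData` for the constants
  `Kct` of 871
* `kpl_empty`, `kpl_conn` : fields `emp`, `conn` of `InitData` for `Kpl`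
-/

set_option autoImplicit false

noncomputable section

open scoped ENNReal
open Crest.ProbabilityR.IsingModel
open Crest.Agent.R165.Gr0x606 Crest.Agent.R165.Gr1x606 Crest.Agent.R165.Latx683
open Crest.Agent.R165.GDefx387 Crest.Agent.R165.GSysx387 Crest.Agent.R165.GeOpsx337
open Crest.Agent.R165.PlaneModesx901 Crest.Agent.R165.Bkgx683 Crest.Agent.R165.PEndx683
open Crest.Agent.R165.J4Geox126 Crest.Agent.R165.J4Defx653
open Crest.Agent.R165.PStepx417 Crest.Agent.R165.PStepIdx901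
open Crest.Agent.R165.Initx541
open Crest.Agent.R165.J4K0Px871 (anc anc_ne anc_empty anc_smul)

namespace Crest.Agent.R165.InitConnx901

/-! ### translates of an anchored support -/

theorem trF_eq_anc {A : Type*} [CommRing A] (Y : Finset Fc) (a : Fc → A) (U : Finset Fc) :
    trF Y a U = anc Y a U := rfl

theorem anc_conn {A : Type*} [CommRing A] [Algebra ℝ A] {R : ℕ} {Y : Finset Fc}
    (hY : ∀ u : Fc, Packx915.Conn fd R (Y.image (fz u)))
    {a : Fc → A} {U : Finset Fc} (h : anc Y a U ≠ 0) : Packx915.Conn fd R U := by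
  obtain ⟨u, -, rfl⟩ := anc_ne h
  exact hY u

theorem anc_one {A : Type*} [CommRing A] [Algebra ℝ A] (Y : Finset Fc) (c : Fc → ℝ)
    (U : Finset Fc) : ∃ r : ℝ, anc Y (fun u => c u • (1 : A)) U = r • (1 : A) := by
  refine ⟨∑ u ∈ U, if Y.image (fz u) = U then c u else 0, ?_⟩
  unfold anc
  rw [Finset.sum_smul]
  refine Finset.sum_congr rfl fun u _ => ?_
  split_ifs
  · rfl
  · rw [zero_smul]

/-- supports of the nearest neighbour shapes -/
theorem conn_nn (j : Fin 2) {R : ℕ} (hR : 1 ≤ R) (u : Fc) :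
    Packx915.Conn fd R ((Yf (pr (0, j))).image (fz u)) :=
  (J4K0Lx126.conn_Yf (Finset.mem_insert_self _ _) u).mono hR

/-- the first order parts of 541 and of 871 -/
theorem kex_eq (p z : ℝ) (U : Finset Fc) : J4K0Px871.Kex frP p z U = Kex p z U := by
  unfold J4K0Px871.Kex Kex Kp Kz
  rw [smul_smul, Finset.smul_sum, Finset.smul_sum]
  congr 1
  · refine Finset.sum_congr rfl fun j _ => ?_
    rw [anc_smul, trF_eq_anc]
    congr 1
    ring
  · congr 2
    refine Finset.sum_congr rfl fun j _ => ?_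
    rw [anc_smul, trF_eq_anc]
    rfl

theorem kex_eq' (p z : ℝ) (U : Finset Fc) :
    J4K0Px871.Kex (frG (LinearMap.id : Fld ℤ →ₗ[ℝ] Fld ℤ)) p z U = Kex p z U :=
  kex_eq p z U

/-! ### the constants of the nearest neighbour shapes -/

/-- the constants of 871 -/
abbrev Kc (p : ℝ) : Finset Fc → Ge (Fld ℤ) := J4K0Px871.Kct (Ge (Fld ℤ)) p

theorem kct_cst (p : ℝ) (U : Finset Fc) : ∃ c : ℝ, Kc p U = c • (1 : Ge (Fld ℤ)) := by
  choose r hr using fun j : Fin 2 =>
    anc_one (A := Ge (Fld ℤ)) (Yf (pr (0, j))) (fun _ => p) U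
  refine ⟨∑ j : Fin 2, r j, ?_⟩
  change ∑ j : Fin 2, anc (Yf (pr (0, j))) (fun _ => p • (1 : Ge (Fld ℤ))) U = _
  rw [Finset.sum_smul]
  exact Finset.sum_congr rfl fun j _ => hr j

theorem kct_conn {R : ℕ} (hR : 1 ≤ R) (p : ℝ) (U : Finset Fc) (h : Kc p U ≠ 0) :
    Packx915.Conn fd R U := by
  change ∑ j : Fin 2, anc (Yf (pr (0, j))) (fun _ => p • (1 : Ge (Fld ℤ))) U ≠ 0 at h
  obtain ⟨j, -, hj⟩ := Finset.exists_ne_zero_of_sum_ne_zero h
  exact anc_conn (conn_nn j hR) hj

theorem kct_empty (p : ℝ) : Kc p ∅ = 0 := by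
  change ∑ j : Fin 2, anc (Yf (pr (0, j))) (fun _ => p • (1 : Ge (Fld ℤ))) ∅ = 0
  exact Finset.sum_eq_zero fun j _ => anc_empty _ _

/-! ### the initial activities of the plane -/

theorem one_le_nearR {l k0 : ℕ} (h : 8 ≤ rr l k0 1) : 1 ≤ nearR l k0 0 := by
  change 1 ≤ rr l k0 1 / 8
  omega

section pl
variable (J : ℝ) (Rg : ℕ) (V : Finset (ℤ × ℤ) → ℝ) (l k0 : ℕ)

theorem kpl_empty (lam p z : ℝ) : Kpl J Rg V l k0 lam p z ∅ = 0 :=
  JVolx950.K0_empty _ _ _ _ _ _

variable {J Rg V l k0}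

/-- **connectedness** of the initial activities, range `nearR l k0 0` -/
theorem kpl_conn (hR : 1 ≤ nearR l k0 0) (lam p z : ℝ) (U : Finset Fc)
    (h : Kpl J Rg V l k0 lam p z U ≠ 0) : Packx915.Conn fd (nearR l k0 0) U :=
  DomAcx117.K0_conn Bg.pl _ LinearMap.id _ hR (fun k => k.elim0) h

/-- the same at every larger range -/
theorem kpl_conn' (hR : 1 ≤ nearR l k0 0) {R : ℕ} (hR' : nearR l k0 0 ≤ R) (lam p z : ℝ)
    (U : Finset Fc) (h : Kpl J Rg V l k0 lam p z U ≠ 0) : Packx915.Conn fd R U :=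
  (kpl_conn hR lam p z U h).mono hR'

end pl

end Crest.Agent.R165.InitConnx901
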