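import Crest.Agent.R165.InitPl_871
import Crest.Agent.R165.InitConn_901
import Crest.Agent.R165.J4K0Sym_126
import Crest.Agent.R165.Top_683

/-!
# Row 165 (S0250), block INIT: the data of the initial activities of the plane (helper871)

* `InitPlx871.initData_pl` : `InitData` of `InitDat_541` for the initial activities of the plane
-/

set_option autoImplicit false
set_option linter.unusedSectionVars false

noncomputable section

open Finset
open scoped ENNReal
open Crest.ProbabilityR.IsingModel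

namespace Crest.Agent.R165.InitPlx871

open Crest.Agent.R165.Gr0x606 Crest.Agent.R165.Gr1x606
open Crest.Agent.R165.GDefx387 Crest.Agent.R165.GSysx387
open Crest.Agent.R165.PlaneModesx901 Crest.Agent.R165.Bkgx683 Crest.Agent.R165.PEndx683
open Crest.Agent.R165.J4Geox126 Crest.Agent.R165.J4Defx653 Crest.Agent.R165.J4K0Bx126
open Crest.Agent.R165.PStepx417 Crest.Agent.R165.PStepIdx901 Crest.Agent.R165.PlaneCoefx901
open Crest.Agent.R165.Latx683 (xc wPl Fld BW)
open Crest.Agent.R165.NSumx915 Crest.Agent.R165.Quad2x897 Crest.Agent.R165.KInitx892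
open Crest.Agent.R165.Bridgex915 Crest.Agent.R165.GeOpsx337
open Crest.Agent.R165.Initx541 Crest.Agent.R165.InitBx682 Crest.Agent.R165.InitNx682
open Crest.Agent.R165.J4K0Px871 (anc anc_smul anc_congr Kct R1 plB evN)
open Crest.Agent.R165.J4K0Qx871

/-- the radius exists -/
theorem exists_dc (R l k0 : ℕ) {a Γ K : ℝ} (ha : 0 ≤ a) (hΓ : 3 ≤ Γ) (hr : 6 ≤ rr l k0 0)
    (hK : 0 ≤ K) : ∃ ρ : ℝ, 0 < ρ ∧ ∀ ρ' : ℝ, 0 < ρ' → ρ' ≤ ρ → Dc R l k0 a Γ K ρ' := by
  have hI : 1 ≤ CI R l k0 Γ a := (CI_parts R l k0 a hΓ).1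
  refine ⟨1 / (6 * (1 + K) * CI R l k0 Γ a), by positivity, fun ρ' h0 h1 => ?_⟩
  have h2 : 6 * (1 + K) * CI R l k0 Γ a * ρ' ≤ 1 := by
    have := (le_div_iff₀' (by positivity : 0 < 6 * (1 + K) * CI R l k0 Γ a)).1 h1
    exact this
  have h3 : 0 ≤ (1 + K) * ρ' := by positivity
  refine ⟨ha, hΓ, hr, hK, h0, ?_, ?_⟩
  · nlinarith [mul_le_mul_of_nonneg_right hI h3]
  · nlinarith [mul_le_mul_of_nonneg_right hI h3]

variable {J : ℝ} {R : ℕ} {V : Finset (ℤ × ℤ) → ℝ}

/-- **the data of the initial activities of the plane** -/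
theorem initData_of (hJ : 0 < J) (hV : Topx683.VHyp R V) : ∃ K : ℝ, 0 ≤ K ∧
    ∀ (l k0 : ℕ) (a Γ ρ : ℝ), Dc (max R 1) l k0 a Γ K ρ → 1 ≤ nearR l k0 0 →
      InitData a (rr l k0 0) (nearR l k0 0) (ENNReal.ofReal Γ) (CC (max R 1) l k0 Γ a K) ρ
        (Kpl J R V l k0) (fun p => Kct (Ge (Fld ℤ)) p) := by
  obtain ⟨K, hK, hcl⟩ := exists_cl hJ R V
  refine ⟨K, hK, fun l k0 a Γ ρ h hn => ?_⟩
  have hρ := h.ρ0
  have hh := h.half
  have cl' : ∀ lam p z s t : ℝ, |lam| ≤ s → |p| ≤ t → |z| ≤ t → s ≤ ρ → t ≤ 2 * ρ →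
      Cl (par J lam R V p z) p t (K * |lam|) ∧
      ∀ p' z' δ : ℝ, |p'| ≤ t → |z'| ≤ t → |p - p'| ≤ δ → |z - z'| ≤ δ →
        Cl2 (par J lam R V p z) (par J lam R V p' z') p p' (K * |lam|) δ := by
    intro lam p z s t h1 h2 h3 hs ht
    have h4 : K * |lam| ≤ K * ρ := mul_le_mul_of_nonneg_left (h1.trans hs) hK
    have h5 : 0 ≤ K * ρ := by positivity
    exact hcl lam t p z h2 h3 (by linarith) (by linarith)
  refine ⟨h.CC0, hρ, fun lam p z => ?_, fun lam p z U hU => InitConnx901.kpl_conn hn lam p z U hU,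
    fun lam p z => InitConnx901.kpl_empty _ _ _ _ _ lam p z, InitConnx901.kct_cst,
    InitConnx901.kct_conn hn, InitConnx901.kct_empty, ?_, ?_, ?_, ?_⟩
  · exact J4K0Symx126.K0_plSym hV.trans hV.range hV.rot hV.refl l k0
  · intro lam p z s h1 h2 h3 hs
    have n1 := abs_nonneg p
    have n2 := abs_nonneg z
    have hc := (cl' lam p z s (|p| + |z|) h1 (by linarith) (by linarith) hs (by linarith)).1
    have := size_gen h (par_R J lam R V p z) hc (by linarith) (abs_nonneg lam) (h1.trans hs)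
    rw [← add_assoc] at this
    exact this
  · intro lam p z p' z' s h1 h2 h3 h2' h3' hs
    have n1 := abs_nonneg (p - p')
    have n2 := abs_nonneg (z - z')
    have hc := cl' lam p z s s h1 h2 h3 hs (by linarith)
    have hc' := cl' lam p' z' s s h1 h2' h3' hs (by linarith)
    exact lip_gen h (par_R J lam R V p z) hc.1 hc'.1
      (hc.2 p' z' _ h2' h3' (by linarith) (by linarith)) hs (h1.trans hs)
  · intro lam p z s h1 h2 h3 hs
    have hc := (cl' lam p z s s h1 h2 h3 hs (by linarith)).1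
    exact rest_gen h (par_R J lam R V p z) hc (abs_nonneg lam) h1 hs
  · intro lam p z p' z' s h1 h2 h3 h2' h3' hs
    have n1 := abs_nonneg (p - p')
    have n2 := abs_nonneg (z - z')
    have hs0 : 0 ≤ s := (abs_nonneg _).trans h2
    rcases hs0.eq_or_lt with rfl | hs1
    · have e1 : p = p' := by rw [abs_nonpos_iff.1 h2, abs_nonpos_iff.1 h2']
      have e2 : z = z' := by rw [abs_nonpos_iff.1 h3, abs_nonpos_iff.1 h3']
      subst e1 e2
      simp only [sub_self]
      exact mx_zero.trans_le zero_le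
    have hc := cl' lam p z s s h1 h2 h3 hs (by linarith)
    have hc' := cl' lam p' z' s s h1 h2' h3' hs (by linarith)
    exact rlip_gen h (par_R J lam R V p z) hc.1 hc'.1
      (hc.2 p' z' _ h2' h3' (by linarith) (by linarith)) (abs_nonneg lam) h1 hs1 hs

/-- **the data of the initial activities of the plane**, final form: one constant and one radius;
the radius can be decreased -/
theorem initData_pl (hJ : 0 < J) (hV : Topx683.VHyp R V) {l k0 : ℕ} {a Γ : ℝ} (ha : 0 ≤ a) (hΓ : 3 ≤ Γ)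
    (hr : 6 ≤ rr l k0 0) (hn : 1 ≤ nearR l k0 0) : ∃ C ρ : ℝ, 0 ≤ C ∧ 0 < ρ ∧
      ∀ ρ' : ℝ, 0 < ρ' → ρ' ≤ ρ → InitData a (rr l k0 0) (nearR l k0 0) (ENNReal.ofReal Γ) C ρ'
        (Kpl J R V l k0) (fun p => Kct (Ge (Fld ℤ)) p) := by
  obtain ⟨K, hK, h⟩ := initData_of hJ hV
  obtain ⟨ρ, hρ, hD⟩ := exists_dc (max R 1) l k0 ha hΓ hr hK
  exact ⟨_, ρ, (hD ρ hρ le_rfl).CC0, hρ, fun ρ' h1 h2 => h l k0 a Γ ρ' (hD ρ' h1 h2) hn⟩

end Crest.Agent.R165.InitPlx871
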