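import Crest.Agent.R165.P7M_337
import Crest.Agent.R165.InitPl2_871

/-!
# Row 165 (S0250), block G, (P7): the leaf `P7L` (helper337)

`p7 (hJ : 0 < J) (hV : VHyp R V) : P7L J R V`, literally the field `p7` of
`PTopx386.Leaves3` / `POpenx641.POpen`.
-/

set_option autoImplicit false

noncomputable section

open scoped ENNReal
open Crest.Agent.R165.GSysx387 Crest.Agent.R165.PStepx417 Crest.Agent.R165.Initx541

namespace Crest.Agent.R165.P7x337

/-- **the leaf `P7L`** : the shooting statement of the plane flow -/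
theorem p7 (J : ℝ) (hJ : 0 < J) (R : ℕ) (V : Finset (ℤ × ℤ) → ℝ) (hV : Topx683.VHyp R V) :
    PTopx386.P7L J R V := by
  refine p7L_of_initData hJ fun l k0 a Γ ha hΓ hΓt hr hn => ?_
  obtain ⟨g, rfl⟩ : ∃ g : ℝ, Γ = ENNReal.ofReal g := ⟨Γ.toReal, (ENNReal.ofReal_toReal hΓt).symm⟩
  have hg : (3 : ℝ) ≤ g := by
    have h3 : ENNReal.ofReal 3 ≤ ENNReal.ofReal g := by simpa using hΓ
    rcases le_or_gt 0 g with h0 | h0
    · exact (ENNReal.ofReal_le_ofReal_iff h0).1 h3
    · exfalso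
      rw [ENNReal.ofReal_of_nonpos h0.le] at h3
      simp at h3
  obtain ⟨C, ρ, -, h1, h2⟩ := InitPlx871.initData_pl (a := a) hJ hV (by linarith) hg hr hn
  exact ⟨C, ρ, _, h2 ρ h1 le_rfl⟩

end Crest.Agent.R165.P7x337
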