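import Crest.Agent.R165.SpPL_67
import Crest.Agent.R165.PlB_117

/-!
# Row 165 (S0250): the leaf `SpPL` without hypotheses (helper67)

* `spp` : field `spp` of `PTop3_386.Leaves3`
-/

set_option autoImplicit false

noncomputable section

open Crest.Agent.R165.Topx683 Crest.Agent.R165.PTopx386

namespace Crest.Agent.R165.SpPLx67

/-- **the leaf `SpPL`**, no hypotheses (field `spp` of `Leaves3`) -/
theorem spp (J : ℝ) (hJ : 0 < J) (R : ℕ) (V : Finset (ℤ × ℤ) → ℝ) (hV : VHyp R V) :
    SpPL J R V := spPL hJ hV (PlBx117.plB hV)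

end Crest.Agent.R165.SpPLx67
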