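import Crest.Agent.R165.Eta3_576
import Crest.Agent.R165.U3Loc1_67
import Crest.Agent.R165.U3Loc2_67
import Crest.Agent.R165.U3Vil_719
import Crest.Agent.R165.MacV_610
import Crest.Agent.R165.UB3_641

/-!
# Row 165 (S0250), block U4 (helper576): the spinor with source at a branch vertex

* `l2_unique` : uniqueness of local `L²` limits
* `glue` : the limits for all radii define a spinor `g` with source at `x j`
* `exists_brn` : `IsBrN D x j g` and `ColLim` with amplitude `s_j kp e8 g / rX`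
-/

set_option autoImplicit false
set_option linter.unusedVariables false
set_option linter.unusedSimpArgs false

noncomputable section

open MeasureTheory Filter Topology Set Metric
open Crest.ProbabilityR.IsingModel
open Crest.Agent.R165.Tr1x40 Crest.Agent.R165.RIfx891 Crest.Agent.R165.Embx622
open Crest.Agent.R165.Upx622
open Crest.Agent.R165.Mac0x622 Crest.Agent.R165.Mac1x622 Crest.Agent.R165.Mac3x622
open Crest.Agent.R165.MacIx622
open Crest.Agent.R165.Eta1x576 Crest.Agent.R165.Eta2x576 Crest.Agent.R165.Eta3x576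
open Crest.Agent.R165.U3x719 (IsSpin IsBr e8 db)
open Crest.Agent.R165.MacSx610 (om8 om8_sq om8_ne)
open Crest.Agent.R165.UB3x641 (gsrc gsrc_sq IsBrN)

namespace Crest.Agent.R165.Eta4x576

variable {n : ℕ}

/-! ### uniqueness of limits -/

theorem l2_unique {B : Set ℂ} {u : ℕ → ℂ → ℝ} {U W : ℂ → ℝ}
    (hu : ∀ k, Measurable (u k)) (hU : AEMeasurable U (volume.restrict B))
    (hW : AEMeasurable W (volume.restrict B))
    (h1 : Tendsto (fun k => ∫⁻ z in B, ENNReal.ofReal ((u k z - U z) ^ 2)) atTop (𝓝 0))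
    (h2 : Tendsto (fun k => ∫⁻ z in B, ENNReal.ofReal ((u k z - W z) ^ 2)) atTop (𝓝 0)) :
    ∀ᵐ z ∂volume.restrict B, U z = W z := by
  have hL2 := ENNReal.Tendsto.const_mul (a := (2 : ENNReal)) h1 (Or.inr (by simp))
  have hE2 := ENNReal.Tendsto.const_mul (a := (2 : ENNReal)) h2 (Or.inr (by simp))
  have hsum := hL2.add hE2
  simp only [mul_zero, add_zero] at hsum
  have hle : ∀ k, ∫⁻ z in B, ENNReal.ofReal ((U z - W z) ^ 2) ≤
      2 * (∫⁻ z in B, ENNReal.ofReal ((u k z - U z) ^ 2)) +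
        2 * ∫⁻ z in B, ENNReal.ofReal ((u k z - W z) ^ 2) := by
    intro k
    have hmul : ∀ f : ℂ → ENNReal, 2 * ∫⁻ u in B, f u = ∫⁻ u in B, 2 * f u :=
      fun f => (lintegral_const_mul' _ _ (by simp)).symm
    have hmeas : AEMeasurable (fun z => (2 : ENNReal) * ENNReal.ofReal ((u k z - W z) ^ 2))
        (volume.restrict B) :=
      (((((hu k).aemeasurable.sub hW).pow_const 2).ennreal_ofReal).const_mul _)
    simp only [hmul]
    rw [← lintegral_add_right' _ hmeas]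
    refine lintegral_mono fun z => ?_
    rw [show (2 : ENNReal) = ENNReal.ofReal 2 by simp, ← ENNReal.ofReal_mul (by norm_num),
      ← ENNReal.ofReal_mul (by norm_num), ← ENNReal.ofReal_add (by positivity) (by positivity)]
    apply ENNReal.ofReal_le_ofReal
    nlinarith [sq_nonneg ((u k z - U z) + (u k z - W z))]
  have h0 : ∫⁻ z in B, ENNReal.ofReal ((U z - W z) ^ 2) = 0 :=
    le_antisymm (ge_of_tendsto' hsum hle) (zero_le)
  have h0' := (lintegral_eq_zero_iff' (((hU.sub hW).pow_const 2).ennreal_ofReal)).1 h0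
  filter_upwards [h0'] with z hz
  have h3 : (U z - W z) ^ 2 ≤ 0 := ENNReal.ofReal_eq_zero.1 hz
  have h4 : U z - W z = 0 := by
    have := le_antisymm h3 (sq_nonneg _)
    exact pow_eq_zero_iff (two_ne_zero) |>.1 this
  linarith

/-- null sets, locally -/
theorem ae_of_local {O : Set ℂ} (hO : IsOpen O) {p : ℂ → Prop}
    (h : ∀ z ∈ O, ∃ ρ > 0, ∀ᵐ u ∂volume.restrict (ball z ρ), p u) :
    ∀ᵐ u ∂volume.restrict O, p u := by
  rw [ae_restrict_iff' hO.measurableSet, ae_iff]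
  have key : volume ({u | ¬ p u} ∩ O) = 0 := by
    refine measure_null_of_locally_null _ fun z hz => ?_
    obtain ⟨ρ, hρ, h1⟩ := h z hz.2
    refine ⟨{u | ¬ p u} ∩ ball z ρ, ?_, ?_⟩
    · rw [mem_nhdsWithin]
      exact ⟨ball z ρ, isOpen_ball, mem_ball_self hρ, fun u hu => ⟨hu.2.1, hu.1⟩⟩
    · rw [ae_restrict_iff' measurableSet_ball, ae_iff] at h1
      refine measure_mono_null (fun u hu => ?_) h1
      exact fun hc => hu.1 (hc hu.2)
  refine measure_mono_null (fun u hu => ?_) key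
  rw [mem_ofPred_eq, Classical.not_imp] at hu
  exact ⟨hu.2, hu.1⟩

theorem colLim_unique {O : Set ℂ} (hO : IsOpen O) {x : Fin n → ℂ} {j : Fin n} {a : ℕ → ℝ} {w : ℕ → Fld}
    {V : ℕ → Fin n → Face} {S : ℕ → Face × Fin 4 → Face × Fin 4 → ℝ} {E E' : ℂ → ℂ}
    (hE : AEMeasurable E) (hE' : AEMeasurable E')
    (h1 : ColLim O x j a w V S E) (h2 : ColLim O x j a w V S E') :
    ∀ᵐ z ∂volume.restrict O, E z = E' z := by
  refine ae_of_local hO fun z₀ hz₀ => ?_
  obtain ⟨ρ1, hρ1, k1⟩ := h1 z₀ hz₀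
  obtain ⟨ρ2, hρ2, k2⟩ := h2 z₀ hz₀
  refine ⟨min ρ1 ρ2, by positivity, ?_⟩
  have key : ∀ h : Fin 4, ∀ᵐ z ∂volume.restrict (ball z₀ (min ρ1 ρ2)), lv (E z) h = lv (E' z) h := by
    intro h
    have e1 := tendsto_of_tendsto_of_tendsto_of_le_of_le tendsto_const_nhds (k1 h)
      (fun _ => zero_le) fun k => lintegral_mono_set (ball_subset_ball (min_le_left ρ1 ρ2))
    have e2 := tendsto_of_tendsto_of_tendsto_of_le_of_le tendsto_const_nhds (k2 h)
      (fun _ => zero_le) fun k => lintegral_mono_set (ball_subset_ball (min_le_right ρ1 ρ2))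
    exact l2_unique (fun k => emb_measurable _ _)
      ((lv_continuous h).measurable.comp_aemeasurable hE.restrict)
      ((lv_continuous h).measurable.comp_aemeasurable hE'.restrict) e1 e2
  filter_upwards [key 1, key 3] with z h1 h3
  exact lv_inj h1 h3

theorem ColLim.congr {O : Set ℂ} (hO : IsOpen O) {x : Fin n → ℂ} {j : Fin n} {a : ℕ → ℝ}
    {w : ℕ → Fld} {V : ℕ → Fin n → Face} {S : ℕ → Face × Fin 4 → Face × Fin 4 → ℝ} {E E' : ℂ → ℂ}
    (h : ColLim O x j a w V S E) (hE : ∀ᵐ z ∂volume.restrict O, E z = E' z) :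
    ColLim O x j a w V S E' := by
  intro z₀ hz₀
  obtain ⟨ρ1, hρ1, k1⟩ := h z₀ hz₀
  obtain ⟨ρ2, hρ2, h2⟩ := Metric.isOpen_iff.1 hO z₀ hz₀
  refine ⟨min ρ1 ρ2, by positivity, fun h => ?_⟩
  have e1 := tendsto_of_tendsto_of_tendsto_of_le_of_le tendsto_const_nhds (k1 h)
    (fun _ => zero_le) fun k => lintegral_mono_set (ball_subset_ball (min_le_left ρ1 ρ2))
  refine e1.congr fun k => ?_
  refine lintegral_congr_ae ?_
  have h3 : ball z₀ (min ρ1 ρ2) ⊆ O := (ball_subset_ball (min_le_right _ _)).trans h2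
  filter_upwards [ae_restrict_of_ae_restrict_of_subset h3 hE] with z hz
  rw [hz]

/-! ### the spinor from the limits -/

theorem om8_e8 : om8 * e8 = 1 := by
  unfold om8 e8
  rw [← Complex.exp_add, neg_add_cancel, Complex.exp_zero]

theorem om8_I : om8 * Complex.I = e8 := by
  have h1 : e8 ^ 2 = Complex.I := UB3x641.e8_sq
  calc om8 * Complex.I = (om8 * e8) * e8 := by rw [← h1]; ring
    _ = e8 := by rw [om8_e8, one_mul]

/-- `-1` to the number of rays through `x j` -/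
def sj (x : Fin n → ℂ) (j : Fin n) : ℝ := by
  classical exact ∏ l ∈ Finset.univ.erase j,
    if (x l).im = (x j).im ∧ (x l).re < (x j).re then -1 else 1

theorem sj_sq (x : Fin n → ℂ) (j : Fin n) : sj x j ^ 2 = 1 := by
  classical
  unfold sj
  rw [← Finset.prod_pow]
  refine Finset.prod_eq_one fun i _ => ?_
  split_ifs <;> norm_num

theorem gsrc_eq (x : Fin n → ℂ) (j : Fin n) : gsrc x j = sj x j * (e8 * hj x j (x j)) := by
  classical
  unfold gsrc sj hj
  rw [Finset.prod_mul_distrib]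
  have e : ∏ l ∈ Finset.univ.erase j, (((if rel (x l) (x j) ∧ (x l).im < (x j).im then (-1 : ℝ)
      else 1 : ℝ) : ℂ) * (x l - x j) ^ (1 / 2 : ℂ)) =
      ∏ l ∈ Finset.univ.erase j, (x l - x j) ^ (1 / 2 : ℂ) := by
    refine Finset.prod_congr rfl fun l _ => ?_
    rw [if_neg]
    · push_cast; ring
    · rintro ⟨h1, h2⟩
      exact absurd h1.1 h2.ne
  have e2 : ((∏ l ∈ Finset.univ.erase j, (if (x l).im = (x j).im ∧ (x l).re < (x j).re
      then (-1 : ℝ) else 1) : ℝ) : ℂ) = ∏ l ∈ Finset.univ.erase j,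
      (if (x l).im = (x j).im ∧ (x l).re < (x j).re then (-1 : ℂ) else 1) := by
    rw [Complex.ofReal_prod]
    refine Finset.prod_congr rfl fun l _ => ?_
    split_ifs <;> simp
  rw [e, e2]
  ring

/-- the limits for all radii -/
structure Lims (D : Set ℂ) (x : Fin n → ℂ) (j : Fin n) (ρ : ℝ) (E : ℂ → ℂ) : Prop where
  rad : Rad D x j ρ
  lim : ∀ r, 0 < r → r ≤ ρ → ∃ (F : ℂ → ℂ) (χ : ℂ → ℝ), Cut (x j) r χ ∧
    IsSpin D x (Anr (x j) r) (fun z => om8 * F z) ∧
    ∀ᵐ z ∂volume.restrict D, E z = F z + ba x j χ z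

theorem ba_zero {x : Fin n → ℂ} {j : Fin n} {r : ℝ} {χ : ℂ → ℝ} (hχ : Cut (x j) r χ) {z : ℂ}
    (hz : 3 * r / 4 ≤ ‖z - x j‖) : ba x j χ z = 0 := by
  unfold ba
  rw [hχ.zero z hz]
  simp

theorem ae_ne_tip (x : Fin n → ℂ) (s : Set ℂ) : ∀ᵐ z ∂(volume : Measure ℂ).restrict s,
    ∀ i, x i ≠ z := by
  refine ae_restrict_of_ae ?_
  rw [ae_all_iff]
  intro i
  rw [ae_iff]
  simp

theorem rX_same (x : Fin n → ℂ) (z : ℂ) : rX x z = U3x719.rX x z := rfl

/-- the holomorphic function `om8 E rX` -/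
theorem exists_gT {D : Set ℂ} (hD : IsOpen D) {x : Fin n → ℂ} {j : Fin n} {ρ : ℝ}
    {E : ℂ → ℂ} (L : Lims D x j ρ E) :
    ∃ (g G : ℂ → ℂ), DifferentiableOn ℂ g D ∧
      (∀ᵐ z ∂volume.restrict D, om8 * E z * rX x z = g z) ∧
      (∃ F : ℂ → ℂ, IsSpin D x (Anr (x j) ρ) (fun z => om8 * F z) ∧
        DifferentiableOn ℂ G (D \ Anr (x j) ρ) ∧
        ∀ᵐ z ∂volume.restrict (D \ Anr (x j) ρ), om8 * F z * rX x z = G z) ∧
      g (x j) = G (x j) + Br5x644.kp * (e8 * hj x j (x j)) := by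
  classical
  have hρ := L.rad.pos
  obtain ⟨F1, χ1, hχ1, hS1, hE1⟩ := L.lim (ρ / 8) (by positivity) (by linarith)
  obtain ⟨F2, χ2, hχ2, hS2, hE2⟩ := L.lim ρ hρ le_rfl
  obtain ⟨G1, hG1, hG1a⟩ := U3Covx67.IsSpin.removable hD (Anr_closed _ _) hS1
  obtain ⟨G2, hG2, hG2a⟩ := U3Covx67.IsSpin.removable hD (Anr_closed _ _) hS2
  set g2 : ℂ → ℂ := fun z => G2 z + Br5x644.kp * (e8 * hj x j z) with hg2
  set g : ℂ → ℂ := fun z => if ‖z - x j‖ < ρ / 4 then g2 z else G1 z with hg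
  -- the two regions
  set U1 : Set ℂ := D ∩ {z | ρ / 8 < ‖z - x j‖} with hU1
  set U2 : Set ℂ := ball (x j) (ρ / 4) with hU2
  have oU1 : IsOpen U1 :=
    hD.inter (isOpen_lt continuous_const (continuous_id.sub continuous_const).norm)
  have sU1 : U1 ⊆ D \ Anr (x j) (ρ / 8) := fun z hz => ⟨hz.1, fun h => absurd h.2 (not_le.2 hz.2)⟩
  have sU2 : U2 ⊆ D \ Anr (x j) ρ := by
    intro z hz
    rw [hU2, mem_ball, dist_eq_norm] at hz
    refine ⟨L.rad.sub (by rw [mem_closedBall, dist_eq_norm]; linarith), fun h => ?_⟩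
    exact absurd h.1 (not_le.2 hz)
  have a1 : ∀ᵐ z ∂volume.restrict U1, om8 * E z * rX x z = G1 z := by
    have h1 := ae_restrict_of_ae_restrict_of_subset sU1 hG1a
    have h2 := ae_restrict_of_ae_restrict_of_subset (sU1.trans sdiff_subset) hE1
    filter_upwards [h1, h2, ae_restrict_mem oU1.measurableSet] with z h1 h2 h3
    rw [h2, ba_zero hχ1 (by have := h3.2; rw [mem_ofPred_eq] at this; linarith), add_zero, ← h1]
    rfl
  have a2 : ∀ᵐ z ∂volume.restrict U2, om8 * E z * rX x z = g2 z := by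
    have h1 := ae_restrict_of_ae_restrict_of_subset sU2 hG2a
    have h2 := ae_restrict_of_ae_restrict_of_subset (sU2.trans sdiff_subset) hE2
    filter_upwards [h1, h2, ae_restrict_mem measurableSet_ball, ae_ne_tip x U2] with z h1 h2 h3 h4
    rw [mem_ball, dist_eq_norm] at h3
    have h5 : χ2 z = 1 := hχ2.one z (by linarith)
    have h6 := bc_rX x j (u := z) (h4 j).symm
    rw [h2, hg2]
    simp only
    rw [← h1]
    unfold ba
    rw [h5, ← om8_I]
    have : om8 * (F2 z + ((1 : ℝ) : ℂ) * ((gc x (x j) z : ℂ) * bc (z - x j))) * rX x z =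
        om8 * F2 z * rX x z + om8 * (((gc x (x j) z : ℂ) * bc (z - x j)) * rX x z) := by
      push_cast; ring
    rw [this, h6, rX_same]
    ring
  have hg2d : DifferentiableOn ℂ g2 U2 := by
    refine (hG2.mono sU2).add ?_
    refine DifferentiableOn.const_mul (DifferentiableOn.const_mul ?_ _) _
    exact L.rad.hol.mono (ball_subset_ball (by linarith))
  have hG1d : DifferentiableOn ℂ G1 U1 := hG1.mono sU1
  -- the overlap
  have hov : EqOn G1 g2 (U1 ∩ U2) := by
    refine Measure.eqOn_open_of_ae_eq (μ := volume) ?_ (oU1.inter isOpen_ball)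
      (hG1d.continuousOn.mono inter_subset_left) (hg2d.continuousOn.mono inter_subset_right)
    filter_upwards [ae_restrict_of_ae_restrict_of_subset inter_subset_left a1,
      ae_restrict_of_ae_restrict_of_subset inter_subset_right a2] with z h1 h2
    rw [← h1, ← h2]
  have hgU1 : EqOn g G1 U1 := by
    intro z hz
    rw [hg]
    by_cases h : ‖z - x j‖ < ρ / 4
    · simp only [if_pos h]
      exact (hov ⟨hz, by rw [hU2, mem_ball, dist_eq_norm]; exact h⟩).symm
    · simp only [if_neg h]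
  have hgU2 : EqOn g g2 U2 := by
    intro z hz
    rw [hU2, mem_ball, dist_eq_norm] at hz
    rw [hg]
    simp only [if_pos hz]
  have hcov : ∀ z ∈ D, z ∈ U1 ∨ z ∈ U2 := by
    intro z hz
    by_cases h : ρ / 8 < ‖z - x j‖
    · exact Or.inl ⟨hz, h⟩
    · right
      rw [hU2, mem_ball, dist_eq_norm]
      push Not at h
      linarith
  refine ⟨g, G2, ?_, ?_, ⟨F2, hS2, hG2, hG2a⟩, ?_⟩
  · intro z hz
    rcases hcov z hz with h | h
    · exact ((hG1d.congr hgU1).differentiableAt (oU1.mem_nhds h)).differentiableWithinAt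
    · exact ((hg2d.congr hgU2).differentiableAt (isOpen_ball.mem_nhds h)).differentiableWithinAt
  · have b1 : ∀ᵐ z ∂volume.restrict U1, om8 * E z * rX x z = g z := by
      filter_upwards [a1, ae_restrict_mem oU1.measurableSet] with z h1 h2
      rw [h1, hgU1 h2]
    have b2 : ∀ᵐ z ∂volume.restrict U2, om8 * E z * rX x z = g z := by
      filter_upwards [a2, ae_restrict_mem measurableSet_ball] with z h1 h2
      rw [h1, hgU2 h2]
    have b3 := (ae_restrict_union_iff U1 U2 _).2 ⟨b1, b2⟩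
    exact ae_restrict_of_ae_restrict_of_subset (fun z hz => hcov z hz) b3
  · have : x j ∈ U2 := mem_ball_self (by positivity)
    rw [hgU2 this]

theorem IsSpin.congr {D : Set ℂ} {x : Fin n → ℂ} {K : Set ℂ} {F F' : ℂ → ℂ} (h : IsSpin D x K F)
    (he : ∀ᵐ z ∂volume.restrict D, F z = F' z) : IsSpin D x K F' where
  l2 U hU hK := (memLp_congr_ae (ae_restrict_of_ae_restrict_of_subset sdiff_subset he)).1
    (h.l2 U hU hK)
  holo := by
    obtain ⟨g, hg, hae⟩ := h.holo
    refine ⟨g, hg, ?_⟩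
    filter_upwards [hae, ae_restrict_of_ae_restrict_of_subset sdiff_subset he] with z h1 h2
    rw [← h2, h1]
  curl χ h1 h2 h3 h4 := by
    rw [← h.curl χ h1 h2 h3 h4]
    refine integral_congr_ae ?_
    filter_upwards [he] with z hz
    rw [hz]
  div χ h1 h2 h3 h4 h5 := by
    refine le_trans (le_of_eq ?_) (h.div χ h1 h2 h3 h4 h5)
    refine integral_congr_ae ?_
    filter_upwards [he] with z hz
    rw [hz]

theorem Anr_sub {y : ℂ} {r r0 : ℝ} (h : r < r0) : Anr y r ⊆ ball y r0 := by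
  intro z hz
  rw [mem_ball, dist_eq_norm]
  exact hz.2.trans_lt h

/-- the spinor with source at `x j` -/
theorem spin_of_lims {D : Set ℂ} (hD : IsOpen D) {x : Fin n → ℂ} {j : Fin n} {ρ : ℝ}
    {E : ℂ → ℂ} (L : Lims D x j ρ E) : IsSpin D x {x j} (fun z => om8 * E z) where
  l2 U hU hK := by
    have hρ := L.rad.pos
    obtain ⟨r0, hr0, hsub⟩ := Metric.isOpen_iff.1 hU _ (hK rfl)
    obtain ⟨F, χ, hχ, hS, hE⟩ := L.lim (min ρ (r0 / 2)) (by positivity) (min_le_left _ _)
    have hr : min ρ (r0 / 2) ≤ r0 / 2 := min_le_right _ _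
    have h1 := hS.l2 (ball (x j) r0) isOpen_ball (Anr_sub (by linarith))
    have h2 : MemLp (fun z => om8 * F z) 2 (volume.restrict (D \ U)) :=
      h1.mono_measure (Measure.restrict_mono (sdiff_subset_sdiff_right hsub) le_rfl)
    refine (memLp_congr_ae ?_).1 h2
    filter_upwards [ae_restrict_of_ae_restrict_of_subset sdiff_subset hE,
      ae_restrict_mem (hD.measurableSet.diff hU.measurableSet)] with z h3 h4
    have h5 : r0 ≤ ‖z - x j‖ := by
      by_contra hc
      exact h4.2 (hsub (by rw [mem_ball, dist_eq_norm]; exact not_le.1 hc))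
    rw [h3, ba_zero hχ (by linarith), add_zero]
  holo := by
    obtain ⟨g, G, hg, hga, -, -⟩ := exists_gT hD L
    refine ⟨g, hg.mono sdiff_subset, ?_⟩
    filter_upwards [ae_restrict_of_ae_restrict_of_subset sdiff_subset hga] with z hz
    rw [← hz]
    rfl
  curl χ' h1 h2 h3 h4 := by
    have hρ := L.rad.pos
    have hx : x j ∉ tsupport χ' := fun h => Set.disjoint_left.1 h4 h rfl
    obtain ⟨r0, hr0, hsub⟩ := Metric.isOpen_iff.1 (isClosed_tsupport χ').isOpen_compl _ hx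
    obtain ⟨F, χ, hχ, hS, hE⟩ := L.lim (min ρ (r0 / 2)) (by positivity) (min_le_left _ _)
    have hr : min ρ (r0 / 2) ≤ r0 / 2 := min_le_right _ _
    have hdis : Disjoint (tsupport χ') (Anr (x j) (min ρ (r0 / 2))) := by
      rw [Set.disjoint_left]
      exact fun z hz hz' => hsub (Anr_sub (by linarith) hz') hz
    rw [← hS.curl χ' h1 h2 h3 hdis]
    refine integral_congr_ae ?_
    filter_upwards [hE] with z hz
    by_cases hzt : z ∈ tsupport χ'
    · have h5 : r0 ≤ ‖z - x j‖ := by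
        by_contra hc
        exact hsub (by rw [mem_ball, dist_eq_norm]; exact not_le.1 hc) hzt
      rw [hz, ba_zero hχ (by linarith), add_zero]
    · rw [U3x719.db_of_notMem hzt, mul_zero, mul_zero]
  div χ' h1 h2 h3 h4 h5 := by
    have hρ := L.rad.pos
    have hx : x j ∉ tsupport χ' := fun h => Set.disjoint_left.1 h4 h rfl
    obtain ⟨r0, hr0, hsub⟩ := Metric.isOpen_iff.1 (isClosed_tsupport χ').isOpen_compl _ hx
    obtain ⟨F, χ, hχ, hS, hE⟩ := L.lim (min ρ (r0 / 2)) (by positivity) (min_le_left _ _)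
    have hr : min ρ (r0 / 2) ≤ r0 / 2 := min_le_right _ _
    have hdis : Disjoint (tsupport χ') (Anr (x j) (min ρ (r0 / 2))) := by
      rw [Set.disjoint_left]
      exact fun z hz hz' => hsub (Anr_sub (by linarith) hz') hz
    refine le_trans (le_of_eq ?_) (hS.div χ' h1 h2 h3 hdis h5)
    refine integral_congr_ae ?_
    filter_upwards [hE] with z hz
    by_cases hzt : z ∈ tsupport χ'
    · have h5 : r0 ≤ ‖z - x j‖ := by
        by_contra hc
        exact hsub (by rw [mem_ball, dist_eq_norm]; exact not_le.1 hc) hzt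
      rw [hz, ba_zero hχ (by linarith), add_zero]
    · rw [U3x719.db_of_notMem hzt, mul_zero, mul_zero]

theorem kp_ne : Br5x644.kp ≠ 0 := by
  intro h
  have := Br5x644.kp_sq
  rw [h] at this
  norm_num at this

theorem wX_ne {x : Fin n → ℂ} (hx : Function.Injective x) (j : Fin n) : U3x719.wX x j ≠ 0 := by
  unfold U3x719.wX
  rw [Finset.prod_ne_zero_iff]
  intro i hi
  rw [Finset.mem_erase] at hi
  exact sub_ne_zero.2 fun h => hi.1 (hx h)

/-- the local coefficient of the regular part vanishes -/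
theorem no_reg {p s W : ℂ} (hW : W ≠ 0) {k t : ℝ} (hk : 0 ≤ k) (h1 : p ^ 2 = -Complex.I * W * k)
    (h2 : (p + s) ^ 2 = Complex.I * W * t) (h3 : s ^ 2 = Complex.I * W) : p = 0 := by
  have hI := Complex.I_sq
  have h4 : 2 * p * s = Complex.I * W * ((t - 1 + k : ℝ) : ℂ) := by
    push_cast
    linear_combination h2 - h1 - h3
  have h5 : (2 * p * s) ^ 2 = 4 * W ^ 2 * k := by
    calc (2 * p * s) ^ 2 = 4 * p ^ 2 * s ^ 2 := by ring
      _ = 4 * W ^ 2 * k := by rw [h1, h3]; linear_combination (-4 * W ^ 2 * k) * hI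
  rw [h4] at h5
  have h6 : W ^ 2 * ((-(t - 1 + k) ^ 2 : ℝ) : ℂ) = W ^ 2 * ((4 * k : ℝ) : ℂ) := by
    push_cast at h5 ⊢
    linear_combination h5 - (W ^ 2 * (t - 1 + k) ^ 2) * hI
  have h7 := mul_left_cancel₀ (pow_ne_zero 2 hW) h6
  have h8 : -(t - 1 + k) ^ 2 = 4 * k := by exact_mod_cast h7
  have h9 : k = 0 := by nlinarith [sq_nonneg (t - 1 + k)]
  rw [h9] at h1
  simp only [Complex.ofReal_zero, mul_zero] at h1
  exact pow_eq_zero_iff (two_ne_zero) |>.1 h1

/-- **the limits define the normalised spinor** -/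
theorem brn_of_lims {D : Set ℂ} (hD : IsOpen D) (hb : Bornology.IsBounded D) {x : Fin n → ℂ}
    (hx : Function.Injective x) {j : Fin n} (hj : x j ∈ D) {ρ : ℝ} {E : ℂ → ℂ}
    (L : Lims D x j ρ E) : ∃ g : ℂ → ℂ, IsBrN D x j g ∧
      ∀ᵐ z ∂volume.restrict D, E z = ((sj x j * Br5x644.kp : ℝ) : ℂ) * (e8 * (g z / rX x z)) := by
  obtain ⟨g0, G, hg0, hg0a, ⟨F, hF, hG, hGa⟩, hval⟩ := exists_gT hD L
  have hs := sj_sq x j
  have hk := kp_ne
  have hkC : (Br5x644.kp : ℂ) ≠ 0 := by exact_mod_cast hk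
  have hsC : (sj x j : ℂ) ^ 2 = 1 := by exact_mod_cast hs
  set c : ℝ := sj x j / Br5x644.kp with hc
  set g : ℂ → ℂ := fun z => (c : ℂ) * g0 z with hg
  have hgd : DifferentiableOn ℂ g D := hg0.const_mul _
  have hrX : ∀ᵐ z ∂volume.restrict D, rX x z ≠ 0 := by
    filter_upwards [ae_ne_tip x D] with z hz
    exact rX_ne hz
  have hspin : IsSpin D x {x j} (fun z => g z / U3x719.rX x z) := by
    refine IsSpin.congr ((U3Covx67.IsSpin.smul (spin_of_lims hD L) c)) ?_
    filter_upwards [hg0a, hrX] with z h1 h2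
    rw [← rX_same, hg]
    simp only
    rw [← h1]
    field_simp
  have hxj : x j ∉ Anr (x j) ρ := by
    intro h
    have := h.1
    rw [sub_self, norm_zero] at this
    have := L.rad.pos
    linarith
  obtain ⟨k, hk0, hk1⟩ := U3Covx67.local_sign hD (Anr_closed _ _) hF hx hG
    (by simpa only [rX_same] using hGa) hj hxj
  obtain ⟨t, ht0, ht1⟩ := U3Covx67.residue_sign hD hb hspin hx hj hgd
  have hnrm : g (x j) = gsrc x j := by
    have h1 : g (x j) = (c : ℂ) * G (x j) + gsrc x j := by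
      rw [hg]
      simp only
      rw [hval, gsrc_eq, hc]
      push_cast
      field_simp
    have h2 : ((c : ℂ) * G (x j)) ^ 2 = -Complex.I * U3x719.wX x j * ((c ^ 2 * k : ℝ) : ℂ) := by
      rw [mul_pow, hk1]
      push_cast
      ring
    rw [h1] at ht1
    have h3 := no_reg (wX_ne hx j) (mul_nonneg (sq_nonneg c) hk0) h2 ht1 (gsrc_sq x j)
    rw [h1, h3, zero_add]
  refine ⟨g, ⟨⟨hgd, hspin, ?_⟩, hnrm⟩, ?_⟩
  · rw [hnrm, gsrc_sq]
  · filter_upwards [hg0a, hrX] with z h1 h2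
    rw [hg]
    simp only
    rw [← h1, hc]
    have h8 := om8_e8
    push_cast
    field_simp
    linear_combination (-(E z)) * hsC - (E z * (sj x j : ℂ) ^ 2) * h8

/-! ### from `ResConv` -/

/-- **source at the branch vertex `x j`** -/
theorem exists_brn {D : Set ℂ} (hD : IsOpen D) (hb : Bornology.IsBounded D) {x : Fin n → ℂ}
    (hx : Function.Injective x) (hxD : ∀ i, x i ∈ D)
    (hRC : ResConv (Om D x) x (LatSeq D x) (MacVx610.Q D x))
    (hseq : ∃ a w V, LatSeq D x a w V ∧ ∃ S : ℕ → Face × Fin 4 → Face × Fin 4 → ℝ,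
      ∀ᶠ k in atTop, Cov40 (w k) (S k)) (j : Fin n) :
    ∃ g : ℂ → ℂ, IsBrN D x j g ∧ ∀ a w V, LatSeq D x a w V →
      ∀ S : ℕ → Face × Fin 4 → Face × Fin 4 → ℝ, (∀ᶠ k in atTop, Cov40 (w k) (S k)) →
      ColLim (Om D x) x j a w V S
        (fun z => ((sj x j * Br5x644.kp : ℝ) : ℂ) * (e8 * (g z / rX x z))) := by
  obtain ⟨ρ, hρ⟩ := exists_rad hD hx j (hxD j)
  obtain ⟨a, w, V, H, S, hS⟩ := hseq
  have hO : IsOpen (Om D x) := hD.sdiff (finite_range x).isClosed
  have hae : ∀ {p : ℂ → Prop}, (∀ᵐ z ∂volume.restrict (Om D x), p z) →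
      ∀ᵐ z ∂volume.restrict D, p z := by
    intro p h
    rw [ae_restrict_iff' hO.measurableSet] at h
    rw [ae_restrict_iff' hD.measurableSet]
    have h2 := ae_ne_tip x (univ : Set ℂ)
    rw [Measure.restrict_univ] at h2
    filter_upwards [h, h2] with z h1 h2 h3
    exact h1 ⟨h3, fun ⟨i, hi⟩ => h2 i hi⟩
  -- the limits
  have key : ∀ r, 0 < r → r ≤ ρ → ∃ (F : ℂ → ℂ) (χ : ℂ → ℝ), Cut (x j) r χ ∧
      MacVx610.Q D x (Anr (x j) r) F ∧ ∀ a w V, LatSeq D x a w V →
        ∀ S : ℕ → Face × Fin 4 → Face × Fin 4 → ℝ, (∀ᶠ k in atTop, Cov40 (w k) (S k)) →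
        ColLim (Om D x) x j a w V S (fun z => F z + ba x j χ z) := by
    intro r hr0 hr
    obtain ⟨χ, hχ⟩ := exists_cut (x j) hr0
    obtain ⟨F, hQ, -, hF⟩ := eta_lim hRC (hρ.mono hr0 hr) hχ
    exact ⟨F, χ, hχ, hQ, hF⟩
  obtain ⟨F0, χ0, hχ0, hQ0, hF0⟩ := key ρ hρ.pos le_rfl
  have hmeas : ∀ {r : ℝ} {χ : ℂ → ℝ} {F : ℂ → ℂ}, Cut (x j) r χ → MemLp F 2 →
      AEMeasurable (fun z => F z + ba x j χ z) := fun hχ hF =>
    hF.aestronglyMeasurable.aemeasurable.add (ba_measurable x j hχ).aemeasurable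
  have L : Lims D x j ρ (fun z => F0 z + ba x j χ0 z) := by
    refine ⟨hρ, fun r hr0 hr => ?_⟩
    obtain ⟨F, χ, hχ, hQ, hF⟩ := key r hr0 hr
    exact ⟨F, χ, hχ, hQ.2, hae (colLim_unique hO (hmeas hχ0 hQ0.1) (hmeas hχ hQ.1)
      (hF0 a w V H S hS) (hF a w V H S hS))⟩
  obtain ⟨g, hg, hE⟩ := brn_of_lims hD hb hx (hxD j) L
  refine ⟨g, hg, fun a w V H S hS => ?_⟩
  exact ColLim.congr hO (hF0 a w V H S hS)
    (ae_restrict_of_ae_restrict_of_subset sdiff_subset hE)

end Crest.Agent.R165.Eta4x576
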