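import Crest.Agent.R165.FrFin_887
import Crest.Agent.R165.StarApp_583
import Crest.Agent.R165.MacI_622
import Crest.Agent.R165.GeoE_65
import Crest.Agent.R165.GeoCh_416

/-!
# Row 165 (S0250): the concrete plus backgrounds are `LatSeq` (helper416)

Bridge `toF : BW ℤ → Fld` of `FrFin_887`.

* `toF_wX`            : `toF (wX W X) f h = rays X f h * toF W f h`
* `WApp D W a`        : bond weights `W k` on the mesh `a k` approximating the domain `D`
* `latSeq_of`         : `WApp D W a` ⟹ `LatSeq D x a (toF (wX (W k) (V k))) V`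
* `WApp.dom`, `WApp.star` : `wDom (T (a k)) false` and the starred background `wSt (T (a k))` of a
                        family `LatApp D T` (`T = TT D`, `T = starT (TT D ·)`)
* `latSeq_TT`, `latSeq_starT`, `latSeq_wSt` : the instances
* `volume_frontier`   : the frontier of a C² Jordan domain is a null set
-/

set_option autoImplicit false

noncomputable section

open Filter Topology Set Metric MeasureTheory
open Crest.ProbabilityR.IsingModel
open Crest.Agent.R165.Tr1x40 Crest.Agent.R165.RIfx891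
open Crest.Agent.R165.Mac0x622 Crest.Agent.R165.MacIx622
open Crest.Agent.R165.Latx683 (BW HE Aop wX wDom ray)
open Crest.Agent.R165.FrFinx887 (toF sym_toF A_toF cur wSt)
open Crest.Agent.R165.USpinx641 (LatApp latApp_TT)
open Crest.Agent.R165.U5Px422 (TT)
open Crest.Agent.R165.Kw5x871 (starT)

namespace Crest.Agent.R165.LatSeqx416

/-! ### the rays -/

theorem ray_eq_S {n : ℕ} (X : Fin n → ℤ × ℤ) (f : Face) : ray X f 0 = rays X f 0 := by
  unfold ray rays rayw
  refine Finset.prod_congr rfl fun i _ => ?_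
  by_cases h : (X i).2 = f.2 ∧ (X i).1 ≤ f.1
  · rw [if_pos ⟨rfl, h⟩, if_pos (Or.inl ⟨rfl, h.1.symm, h.2⟩)]
  · rw [if_neg fun hc => h hc.2, if_neg]
    rintro (hc | hc)
    · exact h ⟨hc.2.1.symm, hc.2.2⟩
    · exact absurd hc.1 (by decide)

theorem ray_eq_N {n : ℕ} (X : Fin n → ℤ × ℤ) (f : Face) :
    ray X (f.1, f.2 + 1) 0 = rays X f 2 := by
  unfold ray rays rayw
  refine Finset.prod_congr rfl fun i _ => ?_
  by_cases h : (X i).2 = f.2 + 1 ∧ (X i).1 ≤ f.1
  · rw [if_pos ⟨rfl, h⟩, if_pos (Or.inr ⟨rfl, h.1.symm, h.2⟩)]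
  · rw [if_neg fun hc => h hc.2, if_neg]
    rintro (hc | hc)
    · exact absurd hc.1 (by decide)
    · exact h ⟨hc.2.1.symm, hc.2.2⟩

theorem rays_E {n : ℕ} (X : Fin n → ℤ × ℤ) (f : Face) : rays X f 1 = 1 := by
  unfold rays rayw
  refine Finset.prod_eq_one fun i _ => ?_
  rw [if_neg]
  rintro (hc | hc)
  · exact absurd hc.1 (by decide)
  · exact absurd hc.1 (by decide)

theorem rays_W {n : ℕ} (X : Fin n → ℤ × ℤ) (f : Face) : rays X f 3 = 1 := by
  unfold rays rayw
  refine Finset.prod_eq_one fun i _ => ?_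
  rw [if_neg]
  rintro (hc | hc)
  · exact absurd hc.1 (by decide)
  · exact absurd hc.1 (by decide)

/-- **the insertions in the conventions of `Tr1_40`** -/
theorem toF_wX {n : ℕ} (W : BW ℤ) (X : Fin n → ℤ × ℤ) (f : Face) (h : Fin 4) :
    toF (wX W X) f h = rays X f h * toF W f h := by
  fin_cases h
  · show ray X f 0 * W f 0 = rays X f 0 * W f 0
    rw [ray_eq_S]
  · show ray X (f.1 + 1, f.2) 1 * W (f.1 + 1, f.2) 1 = rays X f 1 * W (f.1 + 1, f.2) 1
    rw [FrFinx887.ray_one, rays_E]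
  · show ray X (f.1, f.2 + 1) 0 * W (f.1, f.2 + 1) 0 = rays X f 2 * W (f.1, f.2 + 1) 0
    rw [ray_eq_N]
  · show ray X f 1 * W f 1 = rays X f 3 * W f 1
    rw [FrFinx887.ray_one, rays_W]

theorem rays_sq {n : ℕ} (X : Fin n → ℤ × ℤ) (f : Face) (h : Fin 4) : rays X f h ^ 2 = 1 := by
  unfold rays
  rw [← Finset.prod_pow]
  exact Finset.prod_eq_one fun i _ => rayw_sq _ _ _

/-- the bond below the half-edge `h` of the face `f` starts at a vertex of the face -/
theorem toF_eq (W : BW ℤ) (f : Face) (h : Fin 4) :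
    ∃ (z : ℤ × ℤ) (j : Fin 2), toF W f h = W z j ∧ |z.1 - f.1| ≤ 1 ∧ |z.2 - f.2| ≤ 1 := by
  fin_cases h
  · exact ⟨f, 0, rfl, by simp, by simp⟩
  · exact ⟨(f.1 + 1, f.2), 1, rfl, by simp, by simp⟩
  · exact ⟨(f.1, f.2 + 1), 0, rfl, by simp, by simp⟩
  · exact ⟨f, 1, rfl, by simp, by simp⟩

/-! ### backgrounds approximating a domain -/

/-- the bond weights `W k` on the mesh `a k` approximate the plus background of the domain `D` -/
structure WApp (D : Set ℂ) (W : ℕ → BW ℤ) (a : ℕ → ℝ) : Prop where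
  val : ∀ k z j, W k z j = xc ∨ W k z j = 0
  inn : ∀ K : Set ℂ, IsCompact K → K ⊆ D → ∀ᶠ k in atTop, ∀ z, meshPoint (a k) z ∈ K →
    ∀ j, W k z j = xc
  out : ∀ K : Set ℂ, IsClosed K → Disjoint K (closure D) → ∀ᶠ k in atTop, ∀ z,
    meshPoint (a k) z ∈ K → ∀ j, W k z j = 0
  fin : ∀ k, {z | ∃ j, W k z j ≠ 0}.Finite

theorem dist_mesh_le {a : ℝ} (ha : 0 < a) {u v : ℤ × ℤ} (h1 : |u.1 - v.1| ≤ 1)
    (h2 : |u.2 - v.2| ≤ 1) : dist (meshPoint a u) (meshPoint a v) ≤ 2 * a :=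
  StarAppx583.norm_mesh_le ha h1 h2

theorem ev_small {a : ℕ → ℝ} (hl : Tendsto a atTop (𝓝 0)) {δ : ℝ} (hδ : 0 < δ) :
    ∀ᶠ k in atTop, 2 * a k < δ := by
  have h : Tendsto (fun k => 2 * a k) atTop (𝓝 (2 * 0)) := hl.const_mul 2
  rw [mul_zero] at h
  exact h.eventually (Iio_mem_nhds hδ)

/-- **the sequences of backgrounds of a domain are `LatSeq`** -/
theorem latSeq_of {D : Set ℂ} (hD : IsOpen D) (hb : Bornology.IsBounded D) {W : ℕ → BW ℤ}
    {a : ℕ → ℝ} (H : WApp D W a) (ha : ∀ k, 0 < a k) (hl : Tendsto a atTop (𝓝 0)) {n : ℕ}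
    {x : Fin n → ℂ} {V : ℕ → Fin n → ℤ × ℤ}
    (hV : ∀ i, Tendsto (fun k => meshPoint (a k) (V k i)) atTop (𝓝 (x i))) :
    LatSeq D x a (fun k => toF (wX (W k) (V k))) V where
  pos := ha
  lim := hl
  sym k := sym_toF _
  plus k f h := by
    rw [toF_wX, mul_pow, rays_sq, one_mul]
    obtain ⟨z, j, he, -, -⟩ := toF_eq (W k) f h
    rw [he]
    rcases H.val k z j with h1 | h1
    · left; rw [h1]
    · right; rw [h1, mul_zero]
  tip := hV
  ins K hK hKD := by
    obtain ⟨δ, hδ, hKδ⟩ := hK.exists_cthickening_subset_open hD hKD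
    filter_upwards [H.inn _ hK.cthickening hKδ, ev_small hl hδ] with k h1 h2 f hf h
    rw [toF_wX]
    obtain ⟨z, j, he, hz1, hz2⟩ := toF_eq (W k) f h
    rw [he, h1 z (mem_cthickening_of_dist_le _ _ δ K hf
      ((dist_mesh_le (ha k) hz1 hz2).trans h2.le)) j]
  out K hK hKD := by
    obtain ⟨δ, hδ, hKδ⟩ := hK.exists_cthickening_subset_open isClosed_closure.isOpen_compl
      (subset_compl_iff_disjoint_right.2 hKD)
    filter_upwards [H.out _ isClosed_cthickening (subset_compl_iff_disjoint_right.1 hKδ),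
      ev_small hl hδ] with k h1 h2 f hf h
    rw [toF_wX]
    obtain ⟨z, j, he, hz1, hz2⟩ := toF_eq (W k) f h
    rw [he, h1 z (mem_cthickening_of_dist_le _ _ δ K hf
      ((dist_mesh_le (ha k) hz1 hz2).trans h2.le)) j, mul_zero]
  bdd := by
    -- for large `k` the bound comes from `out`, for each `k` from the finite support
    have hk : ∀ k, ∃ R : ℝ, ∀ f : Face, R ≤ ‖meshPoint (a k) f‖ →
        ∀ h, toF (wX (W k) (V k)) f h = 0 := by
      intro k
      have hfin : (⋃ z ∈ {z | ∃ j, W k z j ≠ 0}, ({z, (z.1 - 1, z.2), (z.1, z.2 - 1)} :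
          Set (ℤ × ℤ))).Finite := (H.fin k).biUnion fun z _ => by
        exact ((finite_singleton _).insert _).insert _
      obtain ⟨R, hR⟩ := (hfin.image fun f => ‖meshPoint (a k) f‖).bddAbove
      refine ⟨R + 1, fun f hf h => ?_⟩
      rw [toF_wX]
      by_contra hc
      have hc' : toF (W k) f h ≠ 0 := fun h0 => hc (by rw [h0, mul_zero])
      have hm : f ∈ ⋃ z ∈ {z | ∃ j, W k z j ≠ 0}, ({z, (z.1 - 1, z.2), (z.1, z.2 - 1)} :
          Set (ℤ × ℤ)) := by
        rw [mem_iUnion₂]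
        fin_cases h
        · exact ⟨f, ⟨0, hc'⟩, by simp⟩
        · exact ⟨(f.1 + 1, f.2), ⟨1, hc'⟩, by simp⟩
        · exact ⟨(f.1, f.2 + 1), ⟨0, hc'⟩, by simp⟩
        · exact ⟨f, ⟨1, hc'⟩, by simp⟩
      have := hR (mem_image_of_mem _ hm)
      linarith
    obtain ⟨R₀, hR₀⟩ := hb.closure.subset_closedBall (0 : ℂ)
    have hev : ∀ᶠ k in atTop, ∀ f : Face, R₀ + 2 ≤ ‖meshPoint (a k) f‖ →
        ∀ h, toF (wX (W k) (V k)) f h = 0 := by
      have hcl : IsClosed (ball (0 : ℂ) (R₀ + 1))ᶜ := isOpen_ball.isClosed_compl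
      have hdis : Disjoint (ball (0 : ℂ) (R₀ + 1))ᶜ (closure D) := by
        rw [disjoint_left]
        intro z hz hzD
        have h1 := hR₀ hzD
        rw [mem_closedBall] at h1
        exact hz (by rw [mem_ball]; linarith)
      filter_upwards [H.out _ hcl hdis, ev_small hl one_pos] with k h1 h2 f hf h
      rw [toF_wX]
      obtain ⟨z, j, he, hz1, hz2⟩ := toF_eq (W k) f h
      have h3 := dist_mesh_le (ha k) hz1 hz2
      rw [he, h1 z ?_ j, mul_zero]
      intro hc
      rw [mem_ball, dist_zero_right] at hc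
      have h4 := norm_sub_norm_le (meshPoint (a k) f) (meshPoint (a k) z)
      rw [← dist_eq_norm, dist_comm] at h4
      linarith
    obtain ⟨N, hN⟩ := eventually_atTop.1 hev
    choose R hR using hk
    obtain ⟨R₁, hR₁⟩ := ((Finset.range N).finite_toSet.image R).bddAbove
    refine ⟨max R₁ (R₀ + 2), fun k f hf h => ?_⟩
    rcases lt_or_ge k N with hkN | hkN
    · refine hR k f ?_ h
      exact ((hR₁ (mem_image_of_mem R (Finset.mem_coe.2 (Finset.mem_range.2 hkN)))).trans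
        (le_max_left _ _)).trans hf
    · exact hN k hkN f ((le_max_right _ _).trans hf) h

/-! ### the two kinds of backgrounds -/

theorem tendsto_pos {a : ℕ → ℝ} (ha : ∀ k, 0 < a k) (hl : Tendsto a atTop (𝓝 0)) :
    Tendsto a atTop (𝓝[>] 0) :=
  tendsto_nhdsWithin_iff.2 ⟨hl, Eventually.of_forall ha⟩

theorem norm_mesh_shift {a : ℝ} (ha : 0 < a) (z : ℤ × ℤ) (j : Fin 2) :
    dist (meshPoint a (z + unitVec j)) (meshPoint a z) ≤ 2 * a := by
  refine dist_mesh_le ha ?_ ?_ <;> fin_cases j <;> simp [unitVec]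

/-- a closed set away from a bounded one stays away after thickening -/
theorem exists_thick {D K : Set ℂ} (hb : Bornology.IsBounded D) (hK : IsClosed K)
    (hKD : Disjoint K (closure D)) : ∃ δ > 0, Disjoint (cthickening δ K) (closure D) := by
  have hc : IsCompact (closure D) := hb.isCompact_closure
  obtain ⟨δ, hδ, h⟩ := hKD.symm.exists_cthickenings hc hK
  exact ⟨δ, hδ, (h.mono_left (self_subset_cthickening _)).symm⟩

/-- **the plus background of a family of site sets** -/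
theorem WApp.dom {D : Set ℂ} (hb : Bornology.IsBounded D) {T : ℝ → Finset (ℤ × ℤ)} (h : LatApp D T) {a : ℕ → ℝ}
    (ha : ∀ k, 0 < a k) (hl : Tendsto a atTop (𝓝 0)) :
    WApp D (fun k => wDom (T (a k) : Set (ℤ × ℤ)) false) a where
  val k z j := by
    unfold wDom
    simp only [Bool.false_eq_true, if_false]
    split_ifs
    · left; rfl
    · right; rfl
  inn K hK hKD := by
    filter_upwards [(tendsto_pos ha hl).eventually (h.inn K hK hKD)] with k hk z hz j
    unfold wDom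
    simp only [Bool.false_eq_true, if_false]
    rw [if_pos (Or.inl (Finset.mem_coe.2 (hk z hz)))]
    rfl
  out K hK hKD := by
    obtain ⟨δ, hδ, hdis⟩ := exists_thick hb hK hKD
    filter_upwards [(tendsto_pos ha hl).eventually (h.out _ isClosed_cthickening hdis),
      ev_small hl hδ] with k h1 h2 z hz j
    unfold wDom
    simp only [Bool.false_eq_true, if_false]
    rw [if_neg]
    rintro (hc | hc)
    · exact h1 z (self_subset_cthickening _ hz) (Finset.mem_coe.1 hc)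
    · exact h1 _ (mem_cthickening_of_dist_le _ _ δ K hz
        ((norm_mesh_shift (ha k) z j).trans h2.le)) (Finset.mem_coe.1 hc)
  fin k := by
    refine ((T (a k)).finite_toSet.union (((T (a k)).finite_toSet.image fun z => z - unitVec 0).union
      ((T (a k)).finite_toSet.image fun z => z - unitVec 1))).subset ?_
    rintro z ⟨j, hj⟩
    unfold wDom at hj
    simp only [Bool.false_eq_true, if_false, ne_eq, ite_eq_right_iff, Classical.not_imp] at hj
    rcases hj.1 with h1 | h1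
    · exact Or.inl h1
    · right
      fin_cases j
      · exact Or.inl ⟨_, h1, by simp⟩
      · exact Or.inr ⟨_, h1, by simp⟩

/-- **the starred background of a family of site sets** -/
theorem WApp.star {D : Set ℂ} (hD : IsOpen D) {T : ℝ → Finset (ℤ × ℤ)} (h : LatApp D T)
    {a : ℕ → ℝ} (ha : ∀ k, 0 < a k) (hl : Tendsto a atTop (𝓝 0)) :
    WApp D (fun k => wSt (T (a k) : Set (ℤ × ℤ))) a where
  val k z j := by
    unfold wSt
    split_ifs
    · left; rfl
    · right; rfl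
    · left; rfl
    · right; rfl
  inn K hK hKD := by
    obtain ⟨δ, hδ, hKδ⟩ := hK.exists_cthickening_subset_open hD hKD
    filter_upwards [(tendsto_pos ha hl).eventually (h.inn _ hK.cthickening hKδ), ev_small hl hδ]
      with k h1 h2 z hz j
    have key : ∀ v : ℤ × ℤ, |v.1 - z.1| ≤ 1 → |v.2 - z.2| ≤ 1 →
        v ∈ (T (a k) : Set (ℤ × ℤ)) := fun v hv1 hv2 =>
      Finset.mem_coe.2 (h1 v (mem_cthickening_of_dist_le _ _ δ K hz
        ((dist_mesh_le (ha k) hv1 hv2).trans h2.le)))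
    unfold wSt
    by_cases hj : j = 0
    · rw [if_pos hj, if_pos ⟨key _ (by simp) (by simp), key z (by simp) (by simp)⟩]
    · rw [if_neg hj, if_pos ⟨key _ (by simp) (by simp), key z (by simp) (by simp)⟩]
  out K hK hKD := by
    filter_upwards [(tendsto_pos ha hl).eventually (h.out K hK hKD)] with k hk z hz j
    have h0 : z ∉ (T (a k) : Set (ℤ × ℤ)) := fun hc => hk z hz (Finset.mem_coe.1 hc)
    unfold wSt
    by_cases hj : j = 0
    · rw [if_pos hj, if_neg fun hc => h0 hc.2]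
    · rw [if_neg hj, if_neg fun hc => h0 hc.2]
  fin k := by
    refine (T (a k)).finite_toSet.subset ?_
    rintro z ⟨j, hj⟩
    by_contra hc
    refine hj ?_
    unfold wSt
    by_cases hj : j = 0
    · rw [if_pos hj, if_neg fun hc' => hc hc'.2]
    · rw [if_neg hj, if_neg fun hc' => hc hc'.2]

theorem dist_mesh_add {a : ℝ} (ha : 0 < a) (z v : ℤ × ℤ) :
    dist (meshPoint a (z + v)) (meshPoint a z) ≤ a * (|(v.1 : ℝ)| + |(v.2 : ℝ)|) := by
  rw [dist_eq_norm]
  refine (Complex.norm_le_abs_re_add_abs_im _).trans ?_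
  have e1 : (meshPoint a (z + v) - meshPoint a z).re = a * (v.1 : ℝ) := by
    simp [meshPoint]; ring
  have e2 : (meshPoint a (z + v) - meshPoint a z).im = a * (v.2 : ℝ) := by
    simp [meshPoint]; ring
  rw [e1, e2, abs_mul, abs_mul, abs_of_pos ha]
  linarith

/-- translation of a background by a fixed vector -/
theorem WApp.shift {D : Set ℂ} (hD : IsOpen D) (hb : Bornology.IsBounded D) {W : ℕ → BW ℤ}
    {a : ℕ → ℝ} (H : WApp D W a) (ha : ∀ k, 0 < a k) (hl : Tendsto a atTop (𝓝 0)) (v : ℤ × ℤ) :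
    WApp D (fun k z j => W k (z + v) j) a where
  val k z j := H.val k _ j
  inn K hK hKD := by
    obtain ⟨δ, hδ, hKδ⟩ := hK.exists_cthickening_subset_open hD hKD
    have h2 : ∀ᶠ k in atTop, a k * (|(v.1 : ℝ)| + |(v.2 : ℝ)|) < δ := by
      have h := hl.mul_const (|(v.1 : ℝ)| + |(v.2 : ℝ)|)
      rw [zero_mul] at h
      exact h.eventually (Iio_mem_nhds hδ)
    filter_upwards [H.inn _ hK.cthickening hKδ, h2] with k h1 h2 z hz j
    exact h1 _ (mem_cthickening_of_dist_le _ _ δ K hz ((dist_mesh_add (ha k) z v).trans h2.le)) j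
  out K hK hKD := by
    obtain ⟨δ, hδ, hdis⟩ := exists_thick hb hK hKD
    have h2 : ∀ᶠ k in atTop, a k * (|(v.1 : ℝ)| + |(v.2 : ℝ)|) < δ := by
      have h := hl.mul_const (|(v.1 : ℝ)| + |(v.2 : ℝ)|)
      rw [zero_mul] at h
      exact h.eventually (Iio_mem_nhds hδ)
    filter_upwards [H.out _ isClosed_cthickening hdis, h2] with k h1 h2 z hz j
    exact h1 _ (mem_cthickening_of_dist_le _ _ δ K hz ((dist_mesh_add (ha k) z v).trans h2.le)) j
  fin k := by
    refine ((H.fin k).image fun z => z - v).subset ?_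
    rintro z ⟨j, hj⟩
    exact ⟨z + v, ⟨j, hj⟩, by simp⟩

/-! ### instances for `C²` Jordan domains -/

theorem latApp_seq {D : Set ℂ} (hD : IsC2JordanDomain D) {T : ℝ → Finset (ℤ × ℤ)}
    (h : LatApp D T) {a : ℕ → ℝ} (ha : ∀ k, 0 < a k) (hl : Tendsto a atTop (𝓝 0)) {n : ℕ}
    {x : Fin n → ℂ} {V : ℕ → Fin n → ℤ × ℤ}
    (hV : ∀ i, Tendsto (fun k => meshPoint (a k) (V k i)) atTop (𝓝 (x i))) :
    LatSeq D x a (fun k => toF (wX (wDom (T (a k) : Set (ℤ × ℤ)) false) (V k))) V :=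
  latSeq_of (Red2x541.isOpen_of_C2 hD) (Redx541.bounded_of_C2 hD)
    (WApp.dom (Redx541.bounded_of_C2 hD) h ha hl) ha hl hV

theorem coe_TT {D : Set ℂ} (hb : Bornology.IsBounded D) {a : ℝ} (ha : 0 < a) :
    (TT D a : Set (ℤ × ℤ)) = domainSites D a := by
  ext z
  rw [Finset.mem_coe, U5Px422.mem_TT hb ha]
  rfl

/-- **domains**: `wX (wDom (domainSites D (a k)) false) (V k)` -/
theorem latSeq_dom {D : Set ℂ} (hD : IsC2JordanDomain D) {a : ℕ → ℝ} (ha : ∀ k, 0 < a k)
    (hl : Tendsto a atTop (𝓝 0)) {n : ℕ} {x : Fin n → ℂ} {V : ℕ → Fin n → ℤ × ℤ}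
    (hV : ∀ i, Tendsto (fun k => meshPoint (a k) (V k i)) atTop (𝓝 (x i))) :
    LatSeq D x a (fun k => toF (wX (wDom (domainSites D (a k)) false) (V k))) V := by
  have h := latApp_seq hD (latApp_TT hD) ha hl hV
  simpa only [coe_TT (Redx541.bounded_of_C2 hD) (ha _)] using h

/-- the same, `TT` -/
theorem latSeq_TT {D : Set ℂ} (hD : IsC2JordanDomain D) {a : ℕ → ℝ} (ha : ∀ k, 0 < a k)
    (hl : Tendsto a atTop (𝓝 0)) {n : ℕ} {x : Fin n → ℂ} {V : ℕ → Fin n → ℤ × ℤ}
    (hV : ∀ i, Tendsto (fun k => meshPoint (a k) (V k i)) atTop (𝓝 (x i))) :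
    LatSeq D x a (fun k => toF (wX (wDom (TT D (a k) : Set (ℤ × ℤ)) false) (V k))) V :=
  latApp_seq hD (latApp_TT hD) ha hl hV

/-- **star lattices**: plus background of `starT (TT D a)` -/
theorem latSeq_starT {D : Set ℂ} (hD : IsC2JordanDomain D) {a : ℕ → ℝ} (ha : ∀ k, 0 < a k)
    (hl : Tendsto a atTop (𝓝 0)) {n : ℕ} {x : Fin n → ℂ} {V : ℕ → Fin n → ℤ × ℤ}
    (hV : ∀ i, Tendsto (fun k => meshPoint (a k) (V k i)) atTop (𝓝 (x i))) :
    LatSeq D x a (fun k => toF (wX (wDom (starT (TT D (a k)) : Set (ℤ × ℤ)) false) (V k))) V :=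
  latApp_seq hD (StarAppx583.latApp_starT hD) ha hl hV

/-- **starred backgrounds** of `FrFin_887`, any family of site sets -/
theorem latSeq_wSt {D : Set ℂ} (hD : IsC2JordanDomain D) {T : ℝ → Finset (ℤ × ℤ)}
    (h : LatApp D T) {a : ℕ → ℝ} (ha : ∀ k, 0 < a k) (hl : Tendsto a atTop (𝓝 0)) {n : ℕ}
    {x : Fin n → ℂ} {V : ℕ → Fin n → ℤ × ℤ}
    (hV : ∀ i, Tendsto (fun k => meshPoint (a k) (V k i)) atTop (𝓝 (x i))) :
    LatSeq D x a (fun k => toF (wX (wSt (T (a k) : Set (ℤ × ℤ))) (V k))) V :=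
  latSeq_of (Red2x541.isOpen_of_C2 hD) (Redx541.bounded_of_C2 hD)
    (WApp.star (Red2x541.isOpen_of_C2 hD) h ha hl) ha hl hV

/-- the tips translated by a fixed vector -/
theorem tip_shift {n : ℕ} {x : Fin n → ℂ} {a : ℕ → ℝ} (ha : ∀ k, 0 < a k)
    (hl : Tendsto a atTop (𝓝 0)) {V : ℕ → Fin n → ℤ × ℤ}
    (hV : ∀ i, Tendsto (fun k => meshPoint (a k) (V k i)) atTop (𝓝 (x i))) (v : ℤ × ℤ) (i : Fin n) :
    Tendsto (fun k => meshPoint (a k) (V k i + v)) atTop (𝓝 (x i)) := by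
  refine (hV i).congr_dist ?_
  refine squeeze_zero (fun _ => dist_nonneg) (fun k => ?_)
    (by simpa using hl.mul_const (|(v.1 : ℝ)| + |(v.2 : ℝ)|))
  rw [dist_comm]
  exact dist_mesh_add (ha k) _ v

/-- **translates**: background `W k (· + v)` with tips `V k - v` -/
theorem latSeq_shift {D : Set ℂ} (hD : IsC2JordanDomain D) {W : ℕ → BW ℤ} {a : ℕ → ℝ}
    (H : WApp D W a) (ha : ∀ k, 0 < a k) (hl : Tendsto a atTop (𝓝 0)) {n : ℕ}
    {x : Fin n → ℂ} {V : ℕ → Fin n → ℤ × ℤ}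
    (hV : ∀ i, Tendsto (fun k => meshPoint (a k) (V k i)) atTop (𝓝 (x i))) (v v' : ℤ × ℤ) :
    LatSeq D x a (fun k => toF (wX (fun z j => W k (z + v) j) fun i => V k i + v'))
      (fun k i => V k i + v') :=
  latSeq_of (Red2x541.isOpen_of_C2 hD) (Redx541.bounded_of_C2 hD)
    (H.shift (Red2x541.isOpen_of_C2 hD) (Redx541.bounded_of_C2 hD) ha hl v) ha hl
    (fun i => tip_shift ha hl hV v' i)

/-! ### tips -/

/-- tips along a sequence from `LApp` -/
theorem tip_of_lapp {n : ℕ} {u : ℝ → Fin n → ℤ × ℤ} {x : Fin n → ℂ} (h : U5Px422.LApp u x)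
    {a : ℕ → ℝ} (ha : ∀ k, 0 < a k) (hl : Tendsto a atTop (𝓝 0)) (i : Fin n) :
    Tendsto (fun k => meshPoint (a k) (u (a k) i)) atTop (𝓝 (x i)) :=
  (h i).comp (tendsto_pos ha hl)

/-- the tips `meshIndex a (x i)` -/
theorem lapp_meshIndex {n : ℕ} (x : Fin n → ℂ) :
    U5Px422.LApp (fun a i => meshIndex a (x i)) x := by
  intro i
  refine tendsto_iff_norm_sub_tendsto_zero.2 ?_
  refine squeeze_zero' (Eventually.of_forall fun _ => norm_nonneg _)
    (g := fun a : ℝ => 2 * a) ?_ ?_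
  · filter_upwards [self_mem_nhdsWithin] with a ha
    rw [← norm_neg, neg_sub]
    exact Geo.norm_le_of_sup (Geo.meshIndex_close ha (x i)).1 (Geo.meshIndex_close ha (x i)).2
  · have h : Tendsto (fun a : ℝ => 2 * a) (𝓝 0) (𝓝 (2 * 0)) := tendsto_id.const_mul 2
    rw [mul_zero] at h
    exact h.mono_left nhdsWithin_le_nhds

/-- **the literal class of `KerK`/`LimD`**: `fun k => toF (wX (wDom (domainSites D (a k)) false)
(fun i => meshIndex (a k) (x i)))` -/
theorem latSeq_mesh {D : Set ℂ} (hD : IsC2JordanDomain D) {n : ℕ} (x : Fin n → ℂ) {a : ℕ → ℝ}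
    (ha : ∀ k, 0 < a k) (hl : Tendsto a atTop (𝓝 0)) :
    LatSeq D x a (fun k => toF (wX (wDom (domainSites D (a k)) false)
      fun i => meshIndex (a k) (x i))) (fun k i => meshIndex (a k) (x i)) :=
  latSeq_dom hD ha hl (tip_of_lapp (lapp_meshIndex x) ha hl)

/-- **the frontier of a `C²` Jordan domain is a null set** -/
theorem volume_frontier {D : Set ℂ} (hD : IsC2JordanDomain D) : volume (frontier D) = 0 := by
  rcases D.eq_empty_or_nonempty with rfl | hne
  · simp
  · obtain ⟨r, M, h⟩ := GeoCx65.exists_CD hD hne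
    exact GeoDx65.volume_frontier h

end Crest.Agent.R165.LatSeqx416
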