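import Crest.Agent.R165.PlOut2_304
import Crest.Agent.R165.Mac7_622
import Crest.Agent.R165.MacU_610

/-!
# Row 165 (S0250), block U, leaf MAC (helper304): assembly of `MacLeaf`

* `exists_cs_dom` : the class `LatSeq D x` with covariances is not empty
* `macLeaf` : `Comp` (943) and `UniqL2` (719) give `MacLeaf` (641)
-/

set_option autoImplicit false

noncomputable section

open MeasureTheory Filter Topology Set Metric
open Crest.ProbabilityR.IsingModel
open Crest.Agent.R165.Tr1x40 Crest.Agent.R165.RIfx891 Crest.Agent.R165.Embx622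
open Crest.Agent.R165.Mac0x622 Crest.Agent.R165.MacIx622
open Crest.Agent.R165.Mac4x622 (CS)
open Crest.Agent.R165.MacOx622
open Crest.Agent.R165.Latx683 (BW HE hp hq wDom wPl ray wX IsCov)
open Crest.Agent.R165.UKerx420 (edir hb kap fpt cB wD KerD tendsto_mesh)
open Crest.Agent.R165.FrFinx887 (toF cur sym_toF A_toF)
open Crest.Agent.R165.UKerPlx304 Crest.Agent.R165.MacWx304 Crest.Agent.R165.PlOutx304
open Crest.Agent.R165.PlOut2x304
open Crest.Agent.R165.ConfTopx641 (Conf)

namespace Crest.Agent.R165.MacLfx304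

variable {n : ℕ} {x : Fin n → ℂ} {D : Set ℂ}

/-- sequences of plus domains with covariances -/
theorem exists_cs_dom (hD : IsC2JordanDomain D) (x : Fin n → ℂ) :
    ∃ a w V S, CS (LatSeq D x) a w V S := by
  classical
  have hDo : IsOpen D := Red2x541.isOpen_of_C2 hD
  have hb := Redx541.bounded_of_C2 hD
  obtain ⟨K, hK⟩ := famIn_of_bgFam (x := x) hDo hb (UB3x641.bgFam_dom hD)
    (U5Px422.lapp_meshIndex x) _ tendsto_mesh0
  have h1 := exCov_dom hD x
  set u : ℕ → ℝ := fun k => (1 : ℝ) / (((k + K : ℕ) : ℝ) + 1) with hu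
  have hut : Tendsto u atTop (𝓝[>] 0) := tendsto_mesh0.comp (tendsto_add_atTop_nat K)
  have h2 := hut.eventually h1
  refine ⟨_, _, _, fun k => if h : ∃ S, IsCov (wD false D (u k)
    (fun i => meshIndex (u k) (x i))) S then h.choose else fun _ _ => 0, hK, ?_⟩
  filter_upwards [h2] with k hk
  have h3 : IsCov (wD false D (u k) (fun i => meshIndex (u k) (x i))) hk.choose :=
    hk.choose_spec
  rw [dif_pos hk]
  exact cov40_of_isCov h3

/-- **`MacLeaf` of 641** -/
theorem macLeaf (hc : ∀ D : Set ℂ, IsC2JordanDomain D → MacIx610.Comp D)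
    (hu : ∀ D : Set ℂ, IsC2JordanDomain D → MacIx610.UniqL2 D) : UB3x641.MacLeaf :=
  macLeaf_of fun D hD n x hx =>
    Mac7x622.mac_out (Red2x541.isOpen_of_C2 hD)
      (MacUx610.resConv (Red2x541.isOpen_of_C2 hD) (hc D hD) (hu D hD) hx.2 hx.1)
      (exists_cs_dom hD x)

end Crest.Agent.R165.MacLfx304
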