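import Crest.Agent.R165.Eta5_644
import Crest.Agent.R165.Eta4_576
import Crest.Agent.R165.MacLf_304
import Crest.Agent.R165.MacV_610
import Crest.Agent.R165.U3Uniq_719
import Crest.Agent.R165.MacC6_943
import Crest.Agent.R165.LatSeq_416

/-!
# Row 165 (S0250), block U4 (helper644): **the branch leaf, closed**

`brLeafK : LogEx813.BrLeafK` from `Eta4x576.exists_brn` (576), `MacUx610.resConv` (610),
`MacC6x943.comp'` (943), `U3x719.uniqL2` (719) and `Eta5x644.brLeafK_of`
-/

set_option autoImplicit false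

noncomputable section

open MeasureTheory Set Filter Topology Metric
open Crest.ProbabilityR.IsingModel

namespace Crest.Agent.R165.Eta6x644

open Crest.Agent.R165.Mac0x622 (rel)

/-- uniqueness of `L²` spinors (719) in `C²` domains -/
theorem uniqL2 (D : Set ℂ) (hD : IsC2JordanDomain D) : MacIx610.UniqL2 D := by
  rcases D.eq_empty_or_nonempty with rfl | hne
  · intro n x _ _ K _ _ F₁ F₂ _ _ _ _ d _ _
    have : (volume.restrict (∅ : Set ℂ)) = 0 := Measure.restrict_empty
    rw [this, ae_zero]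
    exact Filter.eventually_bot
  · obtain ⟨r, M, h⟩ := GeoCx65.exists_CD hD hne
    exact U3x719.uniqL2 h

/-- compactness of the lattice resolvents (943) in `C²` domains -/
theorem comp (D : Set ℂ) (hD : IsC2JordanDomain D) : MacIx610.Comp D :=
  MacC6x943.comp' (Red2x541.isOpen_of_C2 hD) (Redx541.bounded_of_C2 hD)
    (LatSeqx416.volume_frontier hD)

theorem sgn_sj {n : ℕ} (x : Fin n → ℂ) (j : Fin n) : Mac6x622.sgn x (x j) = Eta4x576.sj x j := by
  classical
  unfold Mac6x622.sgn Eta4x576.sj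
  rw [← Finset.mul_prod_erase Finset.univ _ (Finset.mem_univ j)]
  have h0 : ¬ rel (x j) (x j) := fun h => lt_irrefl _ h.2
  rw [if_neg h0, one_mul]
  refine Finset.prod_congr rfl fun i _ => ?_
  unfold rel
  congr

/-- the limit of the columns -/
theorem colLeaf : Eta5x644.ColLeaf := by
  intro D hD n x hx i
  obtain ⟨a, w, V, S, H, hS⟩ := MacLfx304.exists_cs_dom hD x
  obtain ⟨g, hg, hcol⟩ := Eta4x576.exists_brn (Red2x541.isOpen_of_C2 hD)
    (Redx541.bounded_of_C2 hD) hx.2 hx.1 (MacVx610.resConv_of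
      (MacUx610.resConv (Red2x541.isOpen_of_C2 hD) (comp D hD) (uniqL2 D hD) hx.2 hx.1))
    ⟨a, w, V, H, S, hS⟩ i
  refine ⟨g, hg, fun a w V H S hS => ?_⟩
  have h := hcol a w V H S hS
  have e : (fun z => (Mac6x622.sgn x (x i) : ℂ) * (Br5x644.kp * U3x719.e8 *
      (g z / Mac0x622.rX x z))) =
      fun z => ((Eta4x576.sj x i * Br5x644.kp : ℝ) : ℂ) * (U3x719.e8 * (g z / U3x719.rX x z)) := by
    funext z
    rw [sgn_sj, Mac6x622.rX_eq]
    push_cast; ring
  rw [e]
  exact h

/-- **the branch leaf** -/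
theorem brLeafK : LogEx813.BrLeafK := Eta5x644.brLeafK_of colLeaf

/-- **the branch leaf of 641** -/
theorem brLeaf : UB3x641.BrLeaf := LogEx813.brLeaf_of brLeafK

/-- **the logarithmic derivatives of 641** -/
theorem ldLeaf : UB3x641.LdLeaf := LogEx813.ldLeaf_of brLeafK U3x719.uniq

end Crest.Agent.R165.Eta6x644
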