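import Crest.Agent.R165.UOpen_641
import Crest.Agent.R165.Eta6_644

/-!
# Row 165 (S0250): BLOCK U IS CLOSED (helper641)

`uLimB : ULimB` : the unperturbed scaling limits (domains, plane, two-point function, covariance).
-/

set_option autoImplicit false

noncomputable section

namespace Crest.Agent.R165.UAllx641

/-- **the unperturbed scaling limits** -/
theorem uLimB : Red2x541.ULimB := UOpenx641.uLim ⟨Eta6x644.brLeafK⟩

end Crest.Agent.R165.UAllx641
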