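import Crest.Agent.R165.SpDAll_67
import Crest.Agent.R165.SpPLAll_67
import Crest.Agent.R165.UAll_641

/-!
# Row 165 (S0250): the leaf `SpDL` without hypotheses (helper67)

* `uLeaves`, `spinLeaf` : the U-leaf, closed
* `spd'` : field `spd` of `Leaves3` / `POpen`, no hypotheses
-/

set_option autoImplicit false

noncomputable section

open Crest.Agent.R165.Topx683 Crest.Agent.R165.PTopx386

namespace Crest.Agent.R165.SpPLx67

/-- the leaves of block U, all closed -/
theorem uLeaves : UFreex641.ULeaves3 :=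
  ⟨UOpenx641.comp, UOpenx641.uniqL2, LogEx813.brLeaf_of Eta6x644.brLeafK,
    LogEx813.ldLeaf_of Eta6x644.brLeafK U3x719.uniq, U3x719.uniq, UPlanex641.resPl,
    PlLdx817.plLd_of UPlanex641.resPl⟩

/-- the spin limits of the unperturbed model -/
theorem spinLeaf : UFinx420.SpinLeaf := UFreex641.spinLeaf uLeaves

/-- **the leaf `SpDL`**, no hypotheses (field `spd` of `Leaves3`) -/
theorem spd' (J : ℝ) (hJ : 0 < J) (R : ℕ) (V : Finset (ℤ × ℤ) → ℝ) (hV : VHyp R V) :
    SpDL J R V := spd spinLeaf J hJ R V hV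

end Crest.Agent.R165.SpPLx67
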