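import Crest.Agent.R165.SpinDom_432
import Crest.Agent.R165.P10a_930
import Crest.Agent.R165.PTop_386
import Crest.Agent.R165.JVol_950
import Crest.Agent.R165.XBd_915
import Crest.Agent.R165.Const_891

/-!
# Row 165 (S0250), block F: the contribution of one branch point (helper930)

* `fl_conn` : connectedness of the activities of the flow of any background without sources
* `farB_cc` : polymers avoiding the branch point see the plane
* `BrPlNorm` : the norm bounds of the constants for one branch point and for the plane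
* `zetaL_of : BrPlNorm J R V → ZetaL J R V`
-/

set_option autoImplicit false
set_option linter.unusedSectionVars false

noncomputable section

open Filter Topology
open scoped ENNReal
open Crest.ProbabilityR.IsingModel
open Crest.Agent.R165.Gr0x606 Crest.Agent.R165.Gr1x606 Crest.Agent.R165.GeOpsx337
open Crest.Agent.R165.Latx683 Crest.Agent.R165.GDefx387 Crest.Agent.R165.GSysx387
open Crest.Agent.R165.KFlowx337 Crest.Agent.R165.Telx337
open Crest.Agent.R165.BgIsox432 Crest.Agent.R165.CmpBgx432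
open Crest.Agent.R165.Bkgx683 Crest.Agent.R165.PEndx683 Crest.Agent.R165.Outx683
open Crest.Agent.R165.SDatax900 Crest.Agent.R165.Spinx930 Crest.Agent.R165.NSumx915
open Crest.Agent.R165.SpinSysx892 Crest.Agent.R165.DiscDatax892 Crest.Agent.R165.SpinDomx432
open Crest.Agent.R165.PTopx386 Crest.Agent.R165.Constx891 Crest.Agent.R165.P10ax930

namespace Crest.Agent.R165.Zetax930

/-- **connectedness of the activities** of the flow of a background without sources -/
theorem fl_conn {G : Type} [CommRing G] [CN G] [CNZ G] [DecidableEq G] (c : Cst) (P : MPar)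
    (B : Bg G) (hR : 2 * P.R + 1 ≤ nearR c.p c.k0 0) (k : ℕ) {U : Finset (G × G)}
    (hU : (fl c P B).K k U ≠ 0) :
    U.Nonempty ∧ Packx915.Conn fd (nearR c.p c.k0 k) U := by
  have h := XBdx915.ac_sys DD (w := B.w) (mk := ∅) (l := c.p) (k0 := c.k0)
    (K0 := B.K0 P LinearMap.id (noSrc G (Ge (Fld G))) c.p c.k0) (Λ := Set.univ)
    (fun U hU => ⟨?_, JVolx950.K0_conn B P LinearMap.id (noSrc G (Ge (Fld G))) hR
      (fun k => k.elim0) hU, Set.subset_univ _⟩) k U hU
  · exact ⟨h.1, h.2.1⟩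
  · rw [Finset.nonempty_iff_ne_empty]
    intro he
    rw [he] at hU
    exact hU (bgK0_empty B P c.p c.k0)

/-- the constants -/
theorem cc_conn {G : Type} [CommRing G] [CN G] [CNZ G] [DecidableEq G] (c : Cst) (P : MPar)
    (B : Bg G) (hR : 2 * P.R + 1 ≤ nearR c.p c.k0 0) (k : ℕ) {U : Finset (G × G)}
    (hU : cc (fl c P B) k U ≠ 0) :
    U.Nonempty ∧ Packx915.Conn fd (nearR c.p c.k0 k) U :=
  fl_conn c P B hR k fun h => hU (by rw [cc, Sys.H, h, map_zero, map_zero])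

theorem rhoH_le {l k0 k : ℕ} : rhoH l k0 k ≤ s2 * rr l k0 (k + 1) := by
  unfold rhoH
  have h1 : rr l k0 k ≤ rr l k0 (k + 1) := rr_mono l k0 (Nat.le_succ k)
  have h2 : s2 = 128 := rfl
  rw [h2]
  omega

/-- **far from the branch point the plane is seen** -/
theorem farB_cc (c : Cst) (P : MPar) (h5 : 5 ≤ c.p * (c.k0 + 1)) (hp : 1 ≤ c.p) (x : ℤ × ℤ)
    (k : ℕ) {U : Finset (ℤ × ℤ)} (hne : U.Nonempty)
    (hU : Avoids fd (s2 * rr c.p c.k0 (k + 1)) x U) :
    cc (brF c P x) k U = cc (plF c P) k U := by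
  obtain ⟨b, hb⟩ := idIso_avoid1 (wPl ℤ) x hne hU
  have h := cc_fl (B := Bg.br x) (B' := Bg.pl) b c P h5 hp (by norm_num) (fun _ _ => Iff.rfl)
    (fun _ _ _ _ _ _ => Iff.rfl) k hne (nbhd_mono rhoH_le)
  rw [h]
  congr 1
  ext f
  rw [Finset.mem_image]
  constructor
  · rintro ⟨g, hg, rfl⟩
    rwa [hb]
  · intro hf
    exact ⟨f, hf, hb f⟩

variable (J : ℝ) (R : ℕ) (V : Finset (ℤ × ℤ) → ℝ)

/-- the norms of the constants for one branch point and for the plane -/
def BrPlNorm : Prop :=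
  EvC fun c => ∀ C : ℝ, ∃ ε > 0, ∃ C' : ℝ, ∀ lam β z : ℝ, |lam| < ε → NearP J C lam β z →
    PF J R V C c lam β z → ∀ k,
      NN fd (rr c.p c.k0 (k + 1)) (ENNReal.ofReal c.Γ)
          (fun U => ENNReal.ofReal |cc (brF c (mpar J lam R V β z) 0) k U|) ≤
        ENNReal.ofReal (C' * |lam| * (1 / 2) ^ k) ∧
      NN fd (rr c.p c.k0 (k + 1)) (ENNReal.ofReal c.Γ)
          (fun U => ENNReal.ofReal |cc (plF c (mpar J lam R V β z)) k U|) ≤
        ENNReal.ofReal (C' * |lam| * (1 / 2) ^ k)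

variable {J R V}

/-- the touching range of the first step is larger than the range of the potential -/
theorem ev_nearR (N : ℕ) : EvC fun c => N ≤ nearR c.p c.k0 0 := by
  refine ((ev_p_ge 1).and (ev_k0_ge fun _ _ => N + 3)).mono fun c hc => ?_
  obtain ⟨h1, h2⟩ := hc
  unfold nearR rr
  rw [Nat.le_div_iff_mul_le (by norm_num)]
  have h3 : N + 3 ≤ c.p * (c.k0 + (0 + 1)) := by nlinarith
  calc N * 8 ≤ 2 ^ N * 8 := Nat.mul_le_mul_right _ Nat.lt_two_pow_self.le
    _ = 2 ^ (N + 3) := by rw [pow_add]; norm_num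
    _ ≤ 2 ^ (c.p * (c.k0 + (0 + 1))) := Nat.pow_le_pow_right (by norm_num) h3

/-- **size of the contribution of one branch point** -/
theorem zetaL_of (h : BrPlNorm J R V) : ZetaL J R V := by
  refine ev_mono3 h ((ev_std.and (ev_Γ_ge 4)).and (ev_nearR (2 * (max R 1) + 1)))
    (ev_k0_ge fun _ _ => 1) fun c hc hs hk C => ?_
  obtain ⟨⟨hs, hΓ⟩, hR⟩ := hs
  obtain ⟨ε, hε, C', h1⟩ := hc C
  refine ⟨ε, hε, 4 * gA s2 * |C'|, fun lam β z hl hn hp k => ?_⟩
  have hp4 := hs.p_pos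
  have hp1 : 1 ≤ c.p := by omega
  have h5 : 5 ≤ c.p * (c.k0 + 1) := by nlinarith
  have hΓ4 : (4 : ℝ≥0∞) ≤ ENNReal.ofReal c.Γ := by
    rw [show (4 : ℝ≥0∞) = ENNReal.ofReal 4 by norm_num]
    exact ENNReal.ofReal_le_ofReal hΓ
  have hE0 : ∀ k : ℕ, 0 ≤ |C'| * |lam| * (1 / 2) ^ k := fun k => by positivity
  have hE : Summable fun k : ℕ => |C'| * |lam| * (1 / 2 : ℝ) ^ k :=
    (summable_geometric_of_lt_one (by norm_num) (by norm_num)).mul_left _
  have hmono : ∀ k : ℕ, ENNReal.ofReal (C' * |lam| * (1 / 2) ^ k) ≤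
      ENNReal.ofReal (|C'| * |lam| * (1 / 2) ^ k) := fun k => by
    refine ENNReal.ofReal_le_ofReal ?_
    gcongr
    exact le_abs_self C'
  have hb := h1 lam β z hl hn hp
  set P := mpar J lam R V β z with hP
  have hB : Bd (brF c P 0) fd (gScale (G := ℤ) c.p c.k0 s2 hΓ4 ENNReal.ofReal_ne_top hE0 hE).r
      (nearR c.p c.k0) (ENNReal.ofReal c.Γ) (fun k => |C'| * |lam| * (1 / 2) ^ k) (k + 1) :=
    ⟨fun j _ => (hb j).1.trans (hmono j), fun j _ U hU => cc_conn c P (Bg.br 0) hR j hU⟩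
  have hPl : Bd (plF c P) fd (gScale (G := ℤ) c.p c.k0 s2 hΓ4 ENNReal.ofReal_ne_top hE0 hE).r
      (nearR c.p c.k0) (ENNReal.ofReal c.Γ) (fun k => |C'| * |lam| * (1 / 2) ^ k) (k + 1) :=
    ⟨fun j _ => (hb j).2.trans (hmono j), fun j _ U hU => cc_conn c P Bg.pl hR j hU⟩
  have h2 := (zeta_le (gScale (G := ℤ) c.p c.k0 s2 hΓ4 ENNReal.ofReal_ne_top hE0 hE)
    (Nat.lt_succ_self k) hB hPl (0 : ℤ × ℤ) fun U hne hU => farB_cc c P h5 hp1 0 k hne hU).2
  calc |zetaK c P k| ≤ 4 * gA s2 * (|C'| * |lam| * (1 / 2) ^ k) := h2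
    _ = 4 * gA s2 * |C'| * |lam| * (1 / 2) ^ k := by ring

end Crest.Agent.R165.Zetax930
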