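import Crest.Agent.R165.FlN_387
import Crest.Agent.R165.StepOK_838
import Crest.Agent.R165.DeepBg_898
import Crest.Agent.R165.Zeta_930

/-!
# Row 165 (S0250), block F: the leaf `ZetaL` (helper387)

* `ctl_br`, `ctl_pl` : the flows of one branch point / of the plane are controlled (`Comp4_889.Ctl`)
* `brPlNorm : BrPlNorm J R V`, `zetaL : ZetaL J R V`
-/

set_option autoImplicit false
set_option linter.unusedSectionVars false

noncomputable section

open Filter Topology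
open scoped ENNReal
open Crest.ProbabilityR.IsingModel
open Crest.Agent.R165.Gr0x606 Crest.Agent.R165.Gr1x606 Crest.Agent.R165.GeOpsx337
open Crest.Agent.R165.Latx683 Crest.Agent.R165.GDefx387 Crest.Agent.R165.GSysx387
open Crest.Agent.R165.KFlowx337 Crest.Agent.R165.FRDPolyx439 Crest.Agent.R165.BgIsox432
open Crest.Agent.R165.Packx915 Crest.Agent.R165.NSumx915
open Crest.Agent.R165.DefRecx915 Crest.Agent.R165.XBdx915 Crest.Agent.R165.Bridgex915
open Crest.Agent.R165.Bkgx683 Crest.Agent.R165.PEndx683 Crest.Agent.R165.Outx683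
open Crest.Agent.R165.Compx889 Crest.Agent.R165.Constx891 Crest.Agent.R165.StepOKx838
open Crest.Agent.R165.J4K0Nx126 Crest.Agent.R165.DeepBgx898 Crest.Agent.R165.FlNx387
open Crest.Agent.R165.PTopx386 Crest.Agent.R165.Zetax930

namespace Crest.Agent.R165.FlNx387

/-- the polymers of the flow -/
abbrev acU (c : Cst) (n : ℕ) : Finset (ℤ × ℤ) → Prop := acS fd (nearR c.p c.k0 n) Set.univ

/-- the plane-like polymers of a background without marks -/
abbrev emU (w : BW ℤ) (c : Cst) (n : ℕ) : Finset (ℤ × ℤ) → Prop :=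
  emM w ((∅ : Finset (ℤ × ℤ)) : Set (ℤ × ℤ)) (rr c.p c.k0 n)

/-- the amplitude `A₀` -/
abbrev aK (c : Cst) : ℕ → ℝ := fun _ => c.A0

section ctl

variable {c : Cst} {CF : ℝ≥0∞} {C1 : ℕ} {P : MPar}

/-- **the flow of one branch point is controlled** -/
theorem ctl_br (H : Good c CF C1) (h5 : 5 ≤ c.p * (c.k0 + 1)) (hp : 1 ≤ c.p) (hΓ : 1 ≤ c.Γ)
    (hR : 2 * P.R + 1 ≤ nearR c.p c.k0 0) (x : ℤ × ℤ) (K : ℕ) :
    Ctl c CF (aK c) (brF c P x) (Bg.br x).w (acU c) (emU (Bg.br x).w c) K where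
  str := str_fl hp hΓ (Bg.br x) hR K
  step k _ := H.pl 1 ![x] ∅ _ (FarBx900.fl_OK h5 P (Bg.br x)) k c.A0 c.A0 (acU c k)
    ⟨fun i j hij => absurd (Subsingleton.elim i j) hij, fun z hz => absurd hz (by simp)⟩
    (by rw [Finset.coe_empty]; exact MkOK.empty _ _) (fun _ h => h.2.1) (fun _ h => h.1) le_rfl le_rfl
    (by linarith [H.A0])

/-- **the flow of the plane is controlled** -/
theorem ctl_pl (H : Good c CF C1) (h5 : 5 ≤ c.p * (c.k0 + 1)) (hp : 1 ≤ c.p) (hΓ : 1 ≤ c.Γ)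
    (hR : 2 * P.R + 1 ≤ nearR c.p c.k0 0) (K : ℕ) :
    Ctl c CF (aK c) (plF c P) (wPl ℤ) (acU c) (emU (wPl ℤ) c) K where
  str := str_fl hp hΓ Bg.pl hR K
  step k _ := H.plane ∅ _ (FarBx900.fl_OK h5 P Bg.pl) k c.A0 c.A0 (acU c k)
    (by rw [Finset.coe_empty]; exact MkOK.empty _ _) (fun _ h => h.2.1) (fun _ h => h.1) le_rfl le_rfl
    (by linarith [H.A0])

end ctl

/-- the bounds of the constants of one background from the bounds of the plane -/
theorem nc_of_ctl (J : ℝ) (R : ℕ) (V : Finset (ℤ × ℤ) → ℝ) {c : Cst} {CF : ℝ≥0∞} (hCF : CF ≠ ∞)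
    (h5 : 5 ≤ c.p * (c.k0 + 1)) (hΓ : 3 ≤ c.Γ) (hA : 0 ≤ c.A0)
    (h6 : 4 * (2 * max R 1 + 1) + 2 ≤ rr c.p c.k0 0) (C : ℝ) :
    ∃ ε > 0, ∃ M : ℝ, 0 < M ∧ ∀ lam β z : ℝ, |lam| < ε → NearP J C lam β z →
      PF J R V C c lam β z → ∀ B : Bg ℤ, PlOK B → (∀ z j, |B.w z j| ≤ 1) → ∀ K : ℕ,
      Ctl c CF (aK c) (fl c (mpar J lam R V β z) B) B.w (acU c) (emU B.w c) K →
      (∀ k, k ≤ K → NPc c (fl c (mpar J lam R V β z) B) B.w (aK c) allP k ≤
        ENNReal.ofReal (M * |lam| * (1 / 2) ^ k)) ∧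
      (∀ k, k < K → NCc c (fl c (mpar J lam R V β z) B) k ≤
        ENNReal.ofReal (M * |lam| * (1 / 2) ^ k)) := by
  obtain ⟨ε1, hε1, N, hN0, hN⟩ := k0_bound J R V hΓ hA h6 C
  obtain ⟨M, ε2, hM, hε2, hb⟩ := Ctl.bound c hCF (max |C| N)
  refine ⟨min ε1 ε2, lt_min hε1 hε2, M, hM, fun lam β z hl hn hp B hB hw K hc => ?_⟩
  refine hb ℤ _ _ _ _ _ K |lam| hc (abs_nonneg _) (hl.le.trans (min_le_right _ _))
    (fun k hk => ?_) ?_
  · have h1 := NP_fl (K := K) hB h5 (PlBd.of_PF hp K) (a := aK c) (fun _ _ => le_rfl) k hk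
    have h2 : NPc c (fl c (mpar J lam R V β z) B) B.w (aK c) (emU B.w c k) k =
        NP (fl c (mpar J lam R V β z) B) B.w (aK c) (rr c.p c.k0) (ENNReal.ofReal c.Γ)
          (emM B.w ∅ (rr c.p c.k0 k)) k := by
      unfold emU
      rw [Finset.coe_empty]
    rw [h2]
    refine h1.trans (ENNReal.ofReal_le_ofReal ?_)
    have h3 : C ≤ max |C| N := (le_abs_self C).trans (le_max_left _ _)
    have h4 : (0 : ℝ) ≤ max |C| N := (abs_nonneg C).trans (le_max_left _ _)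
    gcongr
    norm_num
  · exact (hN lam β z (hl.trans_le (min_le_left _ _)) hn ℤ B hw _).trans
      (ENNReal.ofReal_le_ofReal (mul_le_mul_of_nonneg_right (le_max_right _ _) (abs_nonneg _)))

/-- **the norms of the constants for one branch point and for the plane** -/
theorem brPlNorm (J : ℝ) (R : ℕ) (V : Finset (ℤ × ℤ) → ℝ) : BrPlNorm J R V := by
  refine (((stepOK_ev.and (ev_nearR (2 * max R 1 + 1))).and ((ev_Γ_ge 3).and ev_std)).and
    ((ev_rr_ge fun _ _ => 4 * (2 * max R 1 + 1) + 2).and (ev_k0_ge fun _ _ => 1))).mono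
    fun c hc C => ?_
  obtain ⟨⟨⟨⟨CF, hCF, C1, H⟩, hR⟩, hΓ, hs⟩, hr, hk⟩ := hc
  have hp4 := hs.p_pos
  have hp1 : 1 ≤ c.p := by omega
  have h5 : 5 ≤ c.p * (c.k0 + 1) := by nlinarith
  obtain ⟨ε, hε, M, hM, h⟩ := nc_of_ctl J R V hCF h5 hΓ H.A0.le (hr 0) C
  refine ⟨ε, hε, M, fun lam β z hl hn hp k => ⟨?_, ?_⟩⟩
  · exact (h lam β z hl hn hp (Bg.br 0) (plOK_br 0) (abs_wX_pl ![0]) (k + 1)
      (ctl_br H h5 hp1 (by linarith) hR 0 (k + 1))).2 k (Nat.lt_succ_self k)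
  · exact (h lam β z hl hn hp Bg.pl plOK_pl wPl_le (k + 1)
      (ctl_pl H h5 hp1 (by linarith) hR (k + 1))).2 k (Nat.lt_succ_self k)

/-- **the leaf `ZetaL`** -/
theorem zetaL (J : ℝ) (R : ℕ) (V : Finset (ℤ × ℤ) → ℝ) : ZetaL J R V := zetaL_of (brPlNorm J R V)

end Crest.Agent.R165.FlNx387
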