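import Crest.Agent.R165.PTop4_683
import Crest.Agent.R165.ZetaL_387
import Crest.Agent.R165.P7N_337
import Crest.Agent.R165.SpDCl_67
import Crest.Agent.R165.C0R_583

/-!
# Row 165 (S0250): the two open leaves of the universality half (helper641)

`Open2` : `en` (energies) and `tor` (torus);  `pFlow2 : Open2 → PFlow`.
-/

set_option autoImplicit false

noncomputable section

open Crest.ProbabilityR.IsingModel

namespace Crest.Agent.R165.POpenx641

open Crest.Agent.R165.Topx683 Crest.Agent.R165.PEndx683 Crest.Agent.R165.PTopx386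

/-- the leaves of the universality half which are still open -/
structure Open2 : Prop where
  /-- energies (441, 541, 54, 697, 811, 484) -/
  en : ∀ J : ℝ, 0 < J → ∀ (R : ℕ) (V : Finset (ℤ × ℤ) → ℝ), VHyp R V →
    ∃ (Ze : Cst → ℝ → ℝ → ℝ → ℝ) (eb : Cst → ℝ → ℝ → ℝ → Fin 2 → ℝ), EnR J R V Ze eb
  /-- torus (599, 583, 723) -/
  tor : ∀ J : ℝ, 0 < J → ∀ (R : ℕ) (V : Finset (ℤ × ℤ) → ℝ), VHyp R V → PTop4x683.TorL3 J R V

/-- **the universality half** from the two open leaves -/
theorem pFlow2 (H : Open2) : SRx541.PFlow :=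
  PTop4x683.pflow_of_leaves4 ⟨P7x337.p7, fun J _ R V _ => FlNx387.zetaL J R V, SpPLx67.spd',
    SpPLx67.spp, H.en, H.tor, fun _ hJ _ _ hV => C0Rx583.disL3 hJ hV⟩

end Crest.Agent.R165.POpenx641
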