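import Crest.Agent.R165.Stair_408
import Crest.Agent.R165.Lat_683
import Crest.Agent.R165.UJ2_420
import Crest.Agent.R165.U5Props_422

/-!
# Row 165 (S0250), block U, B1 (ii): the exact STEP identity (helper470)

For a kernel `S` which solves the rows `S, E, N` of `A S = -1` at the face `f` (any background `w`):
* `diag_ins` : `E_S[(1 - 2 w b)(bottom) (1 - 2 w b)(right) X] = - E_S[l_SW(f) l_NE(f) X]`
* `anti_ins` : `E_S[(1 - 2 w b)(top) (1 - 2 w b)(right) X] = E_S[l_NW(f) l_SE(f) X]`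
* `unit`     : `E_S[1 - 2 w b] = 1 - 2 w S(hp, hq)`

Probability (`GB b T`, any finite `T`, `b` plus or free, `wTX b T X` = background of `T` with insertions
`X`, `S` antisymmetric with the rows `S, E, N` of the face and `J2Set T (wTX b T X) (covS S hS)`):
* `GB_eq` : `GB b T u` as a ratio of `Nsum`s for every finite `T`
* `GB_move` : one spin moved along any finite set of bonds
* `step_diag, step_anti, step_unit` (product forms, both directions)
* `ratio_NE, ratio_SW, ratio_SE, ratio_NW, ratio_unit, ratio_unit'`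
* `formS_SW_NE, formS_NW_SE` : the forms as combinations of values of `S`
-/

set_option autoImplicit false
set_option linter.unusedSectionVars false

noncomputable section

open Crest.ProbabilityR.IsingModel

namespace Crest.Agent.R165.Stepx470

open Gr0x606 Latx683 Stairx408

section abstr

variable {V : Type*} [AddCommGroup V] [Module ℝ V]

/-- **two edges of a face around the other corner** (mirror image of `corner2`): `top` and `right` -/
theorem corner2' (S : Cov V) (s n' e w nn s' : V) (dS dE dN : Module.Dual ℝ V) (yb yr yt : ℝ)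
    (h1 : S.b (e + s + yb • n' - yr • w) = dE - dS)
    (h2 : S.b (nn + e + yr • w + yt • s') = dN - dE)
    (aN : dS nn = 0) (aS' : dS s' = 0)
    (bN : dE nn = 0) (bS' : dE s' = 0) (bE : dE e = 1) (bW : dE w = 0)
    (cN : dN nn = 1) (cS' : dN s' = 0) (cE : dN e = 0) (cW : dN w = 0)
    (G : Gr V) (hS : dd dS G = 0) (hE : dd dE G = 0) (hN : dd dN G = 0) :
    EE S ((1 - (2 * yt) • (fi s' * fi nn)) * (1 - (2 * yr) • (fi e * fi w)) * G)
      = EE S (fi (nn - yt • s') * fi (s + yb • n') * G) := by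
  obtain ⟨p, hp⟩ : ∃ p, p = fi (nn - yt • s') := ⟨_, rfl⟩
  obtain ⟨q, hq⟩ : ∃ q, q = fi (nn + yt • s') := ⟨_, rfl⟩
  obtain ⟨u, hu⟩ : ∃ u, u = fi (e - yr • w) := ⟨_, rfl⟩
  obtain ⟨v, hv⟩ : ∃ v, v = fi (e + yr • w) := ⟨_, rfl⟩
  have hpq : p * q = (2 * yt) • (fi nn * fi s') := by rw [hp, hq, corner_mul]
  have huv : u * v = (2 * yr) • (fi e * fi w) := by rw [hu, hv, corner_mul]
  have hpq' : 1 - (2 * yt) • (fi s' * fi nn) = 1 + p * q := by
    rw [hpq, fi_anti s' nn, smul_neg, sub_neg_eq_add]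
  rw [hpq', ← huv, ← hp]
  have hqq : q * q = 0 := by rw [hq, fi_mul_self]
  have hpp : p * p = 0 := by rw [hp, fi_mul_self]
  have huu : u * u = 0 := by rw [hu, fi_mul_self]
  have hqu : q * u = -(u * q) := by rw [hq, hu, fi_anti]
  have hpu : p * u = -(u * p) := by rw [hp, hu, fi_anti]
  have hvu : v * u = -(u * v) := by rw [hv, hu, fi_anti]
  have hevpq : IsEv (1 + p * q) := isEv_one.add (by rw [hp, hq]; exact isEv_fi_fi _ _)
  -- integration by parts for `v`
  have hvx : ∀ X : Gr V, EE S (v * X) = -EE S (q * X) + EE S (dd dN X) - EE S (dd dE X) := by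
    intro X
    have : v = -q + fi (nn + e + yr • w + yt • s') := by
      rw [hv, hq, ← fi_neg, ← fi_add]; congr 1; abel
    rw [this, add_mul, map_add, neg_mul, map_neg, EE_fi_mul, h2]
    have hd : dd (dN - dE) X = dd dN X - dd dE X := by
      rw [sub_eq_add_neg, dd_add_left, dd_neg_left, ← sub_eq_add_neg]
    rw [hd, map_sub]; ring
  have hdN_pq : dd dN (1 + p * q) = q - p := by
    rw [map_add, dd_one, hp, dd_fi_mul, ← hp, hq, dd_fi, ← hq]
    simp only [map_sub, map_add, map_smul, cN, cS', smul_zero, sub_zero, add_zero, one_smul,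
      map_one, mul_one, zero_add]
  have hdE_pq : dd dE (1 + p * q) = 0 := by
    rw [map_add, dd_one, hp, dd_fi_mul, ← hp, hq, dd_fi, ← hq]
    simp only [map_sub, map_add, map_smul, bN, bS', smul_zero, sub_zero, add_zero, zero_smul,
      map_zero, mul_zero]
  have hY_N : dd dN ((1 + p * q) * G) = (q - p) * G := by
    rw [dd_mul, hdN_pq, hN, mul_zero, add_zero]
  have hY_E : dd dE ((1 + p * q) * G) = 0 := by
    rw [dd_mul, hdE_pq, hE, mul_zero, add_zero, zero_mul]
  have hX_N : dd dN (u * ((1 + p * q) * G)) = -(u * ((q - p) * G)) := by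
    rw [hu, dd_fi_mul, ← hu, hY_N]
    simp only [map_sub, map_smul, cE, cW, smul_zero, sub_zero, zero_smul, zero_sub]
  have hX_E : dd dE (u * ((1 + p * q) * G)) = (1 + p * q) * G := by
    rw [hu, dd_fi_mul, ← hu, hY_E]
    simp only [map_sub, map_smul, bE, bW, smul_zero, sub_zero, one_smul, mul_zero]
  have hqX : q * (u * ((1 + p * q) * G)) = q * u * G := by
    have h3 : q * (u * (p * q * G)) = 0 := by
      have e1 : q * (u * (p * q * G)) = -(u * ((q * (p * q)) * G)) := by
        rw [← mul_assoc, hqu]; noncomm_ring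
      have e2 : q * (p * q) = 0 := by
        rw [← mul_assoc]
        have : q * p = -(p * q) := by rw [hq, hp, fi_anti]
        rw [this, neg_mul, mul_assoc, hqq, mul_zero, neg_zero]
      rw [e1, e2]; simp
    rw [add_mul, one_mul, mul_add, mul_add, h3, add_zero, mul_assoc]
  have hA : EE S (u * v * ((1 + p * q) * G)) = -EE S (u * p * G) + EE S ((1 + p * q) * G) := by
    have e0 : u * v * ((1 + p * q) * G) = -(v * (u * ((1 + p * q) * G))) := by
      rw [← mul_assoc v u, hvu, neg_mul, neg_neg]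
    rw [e0, map_neg, hvx, hqX, hX_E, hX_N]
    have e1 : u * ((q - p) * G) = u * q * G - u * p * G := by noncomm_ring
    rw [e1, hqu, neg_mul, map_neg, map_neg, map_sub]
    ring
  have hL : EE S ((1 + p * q) * (1 - u * v) * G) = EE S (u * p * G) := by
    have e1 : (1 + p * q) * (1 - u * v) * G = (1 + p * q) * G - u * v * ((1 + p * q) * G) := by
      rw [mul_sub, mul_one, hevpq.comm (u * v), sub_mul, mul_assoc (u * v)]
    rw [e1, map_sub, hA]; ring
  rw [hL]
  have hR : EE S (p * fi (s + yb • n') * G) = -EE S (p * u * G) := by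
    have e1 : fi (s + yb • n') = -u + fi (e + s + yb • n' - yr • w) := by
      rw [hu, ← fi_neg, ← fi_add]; congr 1; abel
    have e2 : p * fi (e + s + yb • n' - yr • w) = -(fi (e + s + yb • n' - yr • w) * p) := by
      rw [hp, fi_anti]
    rw [e1, mul_add, e2, add_mul, map_add, neg_mul, map_neg,
      mul_assoc (fi (e + s + yb • n' - yr • w)) p G, EE_fi_mul, h1]
    have hd : dd (dE - dS) (p * G) = 0 := by
      rw [sub_eq_add_neg, dd_add_left, dd_neg_left, hp, dd_fi_mul, dd_fi_mul, hE, hS]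
      simp [aN, aS', bN, bS']
    rw [hd, map_zero, neg_zero, add_zero, mul_neg, neg_mul, map_neg]
  rw [hR, hpu, neg_mul, map_neg]
  ring

end abstr

/-! ### half-edge form -/

section face

variable {G : Type} [CommRing G] [DecidableEq G]

/-- the row `g` of the equation `A S = -1` -/
def Row (w : BW G) (S : HE G → HE G → ℝ) (g : HE G) : Prop :=
  ∀ h', Aop w (fun h => S h h') g = -(Pi.single h' 1 : HE G → ℝ) g

/-- the rows `S`, `E`, `N` of the face `f` -/
def Row3 (w : BW G) (S : HE G → HE G → ℝ) (f : G × G) : Prop :=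
  Row w S (f, 0) ∧ Row w S (f, 1) ∧ Row w S (f, 2)

theorem IsCov.row3 {w : BW G} {S : HE G → HE G → ℝ} (h : IsCov w S) (f : G × G) : Row3 w S f :=
  ⟨h.inv _, h.inv _, h.inv _⟩

/-- south west corner form of the face `f`: `S_f - y N_{f-e2}` -/
def lSW (w : BW G) (f : G × G) : Fld G :=
  Finsupp.single (f, 0) 1 - yN w (f.1, f.2 - 1) • Finsupp.single ((f.1, f.2 - 1), 2) 1
/-- north east corner form of the face `f`: `N_f + y S_{f+e2}` -/
def lNE (w : BW G) (f : G × G) : Fld G :=
  Finsupp.single (f, 2) 1 + yN w f • Finsupp.single ((f.1, f.2 + 1), 0) 1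
/-- north west corner form of the face `f`: `N_f - y S_{f+e2}` -/
def lNW (w : BW G) (f : G × G) : Fld G :=
  Finsupp.single (f, 2) 1 - yN w f • Finsupp.single ((f.1, f.2 + 1), 0) 1
/-- south east corner form of the face `f`: `S_f + y N_{f-e2}` -/
def lSE (w : BW G) (f : G × G) : Fld G :=
  Finsupp.single (f, 0) 1 + yN w (f.1, f.2 - 1) • Finsupp.single ((f.1, f.2 - 1), 2) 1

theorem rel1 {w : BW G} {S : HE G → HE G → ℝ} {f : G × G} (h : Row3 w S f) (h' : HE G) :
    S (f, 1) h' + S (f, 0) h' + yN w (f.1, f.2 - 1) * S ((f.1, f.2 - 1), 2) h'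
      - yE w f * S ((f.1 + 1, f.2), 3) h'
      = (Pi.single h' 1 : HE G → ℝ) (f, 1) - (Pi.single h' 1 : HE G → ℝ) (f, 0) := by
  have e0 := h.1 h'
  have e1 := h.2.1 h'
  rw [Aop_S] at e0
  rw [Aop_E] at e1
  linear_combination e0 - e1

theorem rel2 {w : BW G} {S : HE G → HE G → ℝ} {f : G × G} (h : Row3 w S f) (h' : HE G) :
    S (f, 2) h' + S (f, 1) h' + yE w f * S ((f.1 + 1, f.2), 3) h'
      + yN w f * S ((f.1, f.2 + 1), 0) h'
      = (Pi.single h' 1 : HE G → ℝ) (f, 2) - (Pi.single h' 1 : HE G → ℝ) (f, 1) := by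
  have e1 := h.2.1 h'
  have e2 := h.2.2 h'
  rw [Aop_E] at e1
  rw [Aop_N] at e2
  linear_combination e1 - e2

theorem single_pi (g h' : HE G) :
    (Pi.single h' 1 : HE G → ℝ) g = (Finsupp.single h' (1 : ℝ) : Fld G) g := by
  rw [Finsupp.single_eq_pi_single]

theorem form1 {w : BW G} {S : HE G → HE G → ℝ} {f : G × G} (h : Row3 w S f) :
    formS S (Finsupp.single (f, 1) 1 + Finsupp.single (f, 0) 1
      + yN w (f.1, f.2 - 1) • Finsupp.single ((f.1, f.2 - 1), 2) 1
      - yE w f • Finsupp.single ((f.1 + 1, f.2), 3) 1)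
      = (Finsupp.lapply (f, 1) : Fld G →ₗ[ℝ] ℝ) - Finsupp.lapply (f, 0) := by
  apply Finsupp.lhom_ext'
  intro h'
  apply LinearMap.ext_ring
  rw [LinearMap.comp_apply, LinearMap.comp_apply, Finsupp.lsingle_apply, map_sub, map_add, map_add,
    map_smul, map_smul]
  simp only [LinearMap.sub_apply, LinearMap.add_apply, LinearMap.smul_apply, smul_eq_mul,
    formS_single, Finsupp.lapply_apply]
  rw [rel1 h h', single_pi, single_pi]

theorem form2 {w : BW G} {S : HE G → HE G → ℝ} {f : G × G} (h : Row3 w S f) :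
    formS S (Finsupp.single (f, 2) 1 + Finsupp.single (f, 1) 1
      + yE w f • Finsupp.single ((f.1 + 1, f.2), 3) 1
      + yN w f • Finsupp.single ((f.1, f.2 + 1), 0) 1)
      = (Finsupp.lapply (f, 2) : Fld G →ₗ[ℝ] ℝ) - Finsupp.lapply (f, 1) := by
  apply Finsupp.lhom_ext'
  intro h'
  apply LinearMap.ext_ring
  rw [LinearMap.comp_apply, LinearMap.comp_apply, Finsupp.lsingle_apply, map_add, map_add, map_add,
    map_smul, map_smul]
  simp only [LinearMap.sub_apply, LinearMap.add_apply, LinearMap.smul_apply, smul_eq_mul,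
    formS_single, Finsupp.lapply_apply]
  rw [rel2 h h', single_pi, single_pi]

/-- the bottom side `(f, 0)` of the face `f` -/
theorem yN_bot (w : BW G) (f : G × G) : yN w (f.1, f.2 - 1) = w f 0 := by
  simp [yN]

theorem bb_bot (f : G × G) : bb f 0 = ph (f, 0) * ph ((f.1, f.2 - 1), 2) := rfl
theorem bb_top (f : G × G) : bb (f.1, f.2 + 1) 0 = ph ((f.1, f.2 + 1), 0) * ph (f, 2) := by
  rw [bb, hp_zero, hq_zero]
  simp only [add_sub_cancel_right]
theorem bb_right (f : G × G) : bb (f.1 + 1, f.2) 1 = ph (f, 1) * ph ((f.1 + 1, f.2), 3) := by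
  rw [bb, hp_one, hq_one]
  simp only [add_sub_cancel_right]

/-- the bond factor `1 - 2 w b` -/
def Bf (w : BW G) (z : G × G) (j : Fin 2) : Gr (Fld G) := 1 - (2 * w z j) • bb z j

omit [DecidableEq G] in
theorem Bf_ev (w : BW G) (z : G × G) (j : Fin 2) : IsEv (Bf w z j) :=
  isEv_one.sub ((isEv_fi_fi _ _).smul _)

variable [Nontrivial G]

/-- **STEP, `SW → NE` of the face `f`**, with an insertion -/
theorem diag_ins (w : BW G) (S : HE G → HE G → ℝ) (hS : ∀ h h', S h h' = -S h' h) (f : G × G)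
    (h : Row3 w S f) (X : Gr (Fld G)) (h0 : dd (Finsupp.lapply (f, 0)) X = 0)
    (h1 : dd (Finsupp.lapply (f, 1)) X = 0) (h2 : dd (Finsupp.lapply (f, 2)) X = 0) :
    EE (covS S hS) (Bf w f 0 * Bf w (f.1 + 1, f.2) 1 * X)
      = -EE (covS S hS) (fi (lSW w f) * fi (lNE w f) * X) := by
  have key := corner2 (covS S hS) (Finsupp.single (f, 0) 1) (Finsupp.single ((f.1, f.2 - 1), 2) 1)
    (Finsupp.single (f, 1) 1) (Finsupp.single ((f.1 + 1, f.2), 3) 1) (Finsupp.single (f, 2) 1)
    (Finsupp.single ((f.1, f.2 + 1), 0) 1) (Finsupp.lapply (f, 0)) (Finsupp.lapply (f, 1))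
    (Finsupp.lapply (f, 2)) (yN w (f.1, f.2 - 1)) (yE w f) (yN w f) (form1 h) (form2 h)
    (by simp) (by simp) (by simp) (by simp) (by simp) (by simp) (by simp) (by simp)
    (by simp) (by
      have : ((f.1, f.2 - 1) : G × G) ≠ f := by
        intro hc
        have := congrArg Prod.snd hc
        simp at this
      simp [this]) X h0 h1 h2
  rw [Bf, Bf, bb_bot, bb_right, ← yN_bot w f]
  exact key

/-- **STEP, `NW → SE` of the face `f`**, with an insertion -/
theorem anti_ins (w : BW G) (S : HE G → HE G → ℝ) (hS : ∀ h h', S h h' = -S h' h) (f : G × G)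
    (h : Row3 w S f) (X : Gr (Fld G)) (h0 : dd (Finsupp.lapply (f, 0)) X = 0)
    (h1 : dd (Finsupp.lapply (f, 1)) X = 0) (h2 : dd (Finsupp.lapply (f, 2)) X = 0) :
    EE (covS S hS) (Bf w (f.1, f.2 + 1) 0 * Bf w (f.1 + 1, f.2) 1 * X)
      = EE (covS S hS) (fi (lNW w f) * fi (lSE w f) * X) := by
  have key := corner2' (covS S hS) (Finsupp.single (f, 0) 1) (Finsupp.single ((f.1, f.2 - 1), 2) 1)
    (Finsupp.single (f, 1) 1) (Finsupp.single ((f.1 + 1, f.2), 3) 1) (Finsupp.single (f, 2) 1)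
    (Finsupp.single ((f.1, f.2 + 1), 0) 1) (Finsupp.lapply (f, 0)) (Finsupp.lapply (f, 1))
    (Finsupp.lapply (f, 2)) (yN w (f.1, f.2 - 1)) (yE w f) (yN w f) (form1 h) (form2 h)
    (by simp) (by
      have : ((f.1, f.2 + 1) : G × G) ≠ f := by
        intro hc
        have := congrArg Prod.snd hc
        simp at this
      simp [this]) (by simp) (by simp) (by simp) (by simp) (by simp) (by simp) (by simp) (by simp)
    X h0 h1 h2
  rw [Bf, Bf, bb_top, bb_right]
  exact key

theorem lap_one (g : HE G) : dd (Finsupp.lapply g) (1 : Gr (Fld G)) = 0 := dd_one _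

/-- **STEP, `SW → NE` of the face `f`** -/
theorem diag (w : BW G) (S : HE G → HE G → ℝ) (hS : ∀ h h', S h h' = -S h' h) (f : G × G)
    (h : Row3 w S f) :
    EE (covS S hS) (Bf w f 0 * Bf w (f.1 + 1, f.2) 1) = -formS S (lSW w f) (lNE w f) := by
  have := diag_ins w S hS f h 1 (lap_one _) (lap_one _) (lap_one _)
  rw [mul_one, mul_one, EE_fi_fi] at this
  exact this

/-- **STEP, `NW → SE` of the face `f`** -/
theorem anti (w : BW G) (S : HE G → HE G → ℝ) (hS : ∀ h h', S h h' = -S h' h) (f : G × G)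
    (h : Row3 w S f) :
    EE (covS S hS) (Bf w (f.1, f.2 + 1) 0 * Bf w (f.1 + 1, f.2) 1) = formS S (lNW w f) (lSE w f) := by
  have := anti_ins w S hS f h 1 (lap_one _) (lap_one _) (lap_one _)
  rw [mul_one, mul_one, EE_fi_fi] at this
  exact this

omit [DecidableEq G] [Nontrivial G] in
/-- **unit step** -/
theorem unit (w : BW G) (S : HE G → HE G → ℝ) (hS : ∀ h h', S h h' = -S h' h) (z : G × G)
    (j : Fin 2) : EE (covS S hS) (Bf w z j) = 1 - 2 * w z j * S (hp z j) (hq z j) := by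
  rw [Bf, map_sub, map_smul, bb, EE_ph_ph, smul_eq_mul]
  congr 1
  rw [EE_apply]
  simp

end face

/-! ### spin correlations -/

open Crest.Agent.R165.UDomCx420 Crest.Agent.R165.UJ2x420 Crest.Agent.R165.U5Px422
open Crest.Agent.R165.Gk1x422 (sp)

section spins

/-- spin correlations on a finite set as ratios of sums over sets of minus spins -/
theorem GB_eq (b : BoundaryCondition) (hb : b ≠ .minus) (T : Finset (ℤ × ℤ)) {n : ℕ}
    (u : Fin n → ℤ × ℤ) :
    GB b T u = Nsum T (wDom (T : Set (ℤ × ℤ)) (decide (b = .free))) (sp u) /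
      Nsum T (wDom (T : Set (ℤ × ℤ)) (decide (b = .free))) (fun _ => 1) := by
  set D : Set ℂ := (meshPoint 1) '' (T : Set (ℤ × ℤ)) with hD
  have hinj : Function.Injective (meshPoint 1) := by
    intro z z' h
    have h1 := congrArg Complex.re h
    have h2 := congrArg Complex.im h
    simp only [meshPoint, one_mul] at h1 h2
    exact Prod.ext (by exact_mod_cast h1) (by exact_mod_cast h2)
  have hb' : Bornology.IsBounded D := (T.finite_toSet.image _).isBounded
  have hs : domainSites D 1 = (T : Set (ℤ × ℤ)) := by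
    ext z
    simp only [domainSites, Set.mem_ofPred_eq, hD, Set.mem_image]
    constructor
    · rintro ⟨z', h1, h2⟩
      rw [← hinj h2]; exact h1
    · intro h; exact ⟨z, h, rfl⟩
  have hf : (domainSites D 1).Finite := by rw [hs]; exact T.finite_toSet
  have hT : hf.toFinset = T := by
    apply Finset.coe_injective
    rw [hf.coe_toFinset, hs]
  have hTT : TT D 1 = T := by
    unfold TT; rw [dif_pos hf, hT]
  have h1 := domainExpect_GB D hb' one_pos b hb u
  rw [hTT] at h1
  rw [← h1, domainExpect_N D 1 hf b hb, hT, hs]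

theorem wDom_nonneg (T : Set (ℤ × ℤ)) (fr : Bool) (z : ℤ × ℤ) (j : Fin 2) : 0 ≤ wDom T fr z j := by
  have hx : 0 ≤ xc := by
    unfold xc
    have : (1 : ℝ) ≤ Real.sqrt 2 := by
      rw [show (1 : ℝ) = Real.sqrt 1 by simp]
      exact Real.sqrt_le_sqrt (by norm_num)
    linarith
  unfold wDom
  split_ifs <;> first | exact hx | norm_num

/-- the partition function is positive -/
theorem Nsum_pos (T : Finset (ℤ × ℤ)) (U : Set (ℤ × ℤ)) (fr : Bool) :
    0 < Nsum T (wDom U fr) (fun _ => 1) := by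
  unfold Nsum
  refine Finset.sum_pos' (fun N _ => ?_) ⟨∅, Finset.empty_mem_powerset _, ?_⟩
  · rw [one_mul]
    exact Finset.prod_nonneg fun e _ => wDom_nonneg _ _ _ _
  · rw [one_mul]
    have : Crest.Agent.R165.J1bx606.walls (∅ : Finset (ℤ × ℤ)) = ∅ := by
      ext e
      rw [Crest.Agent.R165.J1bx606.mem_walls]
      simp
    rw [this, Finset.prod_empty]
    norm_num

/-- moving one spin -/
theorem sp_update {n : ℕ} (X : Fin n → ℤ × ℤ) (i : Fin n) (y : ℤ × ℤ) (s : ℤ × ℤ → Bool) :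
    sp (Function.update X i y) s = sp X s * (spinSign (s (X i)) * spinSign (s y)) := by
  unfold sp
  rw [← Finset.mul_prod_erase Finset.univ (fun j => spinSign (s (Function.update X i y j)))
    (Finset.mem_univ i), ← Finset.mul_prod_erase Finset.univ (fun j => spinSign (s (X j)))
    (Finset.mem_univ i), Function.update_self]
  have h1 : ∏ j ∈ Finset.univ.erase i, spinSign (s (Function.update X i y j)) =
      ∏ j ∈ Finset.univ.erase i, spinSign (s (X j)) := by
    refine Finset.prod_congr rfl fun j hj => ?_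
    rw [Function.update_of_ne (Finset.ne_of_mem_erase hj)]
  rw [h1]
  have h2 := UDomAx420.spinSign_sq (s (X i))
  linear_combination (-(spinSign (s y) * ∏ j ∈ Finset.univ.erase i, spinSign (s (X j)))) * h2

/-- **moving one spin along a set of bonds** -/
theorem GB_move (b : BoundaryCondition) (hb : b ≠ .minus) (T : Finset (ℤ × ℤ)) {n : ℕ}
    (X : Fin n → ℤ × ℤ) (S : Cov (Fld ℤ))
    (hJ : J2Set T (wX (wDom (T : Set (ℤ × ℤ)) (decide (b = .free))) X) S) (i : Fin n)
    (y : ℤ × ℤ) (A : Finset (J1ax606.EG ℤ))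
    (hA : ∀ s : ℤ × ℤ → Bool, spinSign (s (X i)) * spinSign (s y) = ∏ e ∈ A, UDomAx420.eps s e) :
    GB b T (Function.update X i y) = GB b T X *
      EE S ((∏ e ∈ A, (1 - (2 * wX (wDom (T : Set (ℤ × ℤ)) (decide (b = .free))) X e.1 e.2) •
        J1ax606.bb e) : Gr1x606.Ge (Gr1x606.VI (HE ℤ))) : Gr (Gr1x606.VI (HE ℤ))) := by
  rw [GB_eq b hb, GB_eq b hb]
  have h1 : sp (Function.update X i y) = fun s => (∏ i, spinSign (s (X i))) *
      ∏ e ∈ A, UDomAx420.eps s e := by
    funext s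
    rw [sp_update, hA]; rfl
  have h2 : sp X = fun s => (∏ i, spinSign (s (X i))) * 1 := by
    funext s; rw [mul_one]; rfl
  rw [h1, h2, Nsum_ray, Nsum_ray, hJ A]
  ring

variable (b : BoundaryCondition) (hb : b ≠ .minus) (T : Finset (ℤ × ℤ)) {n : ℕ}
  (X : Fin n → ℤ × ℤ) (S : HE ℤ → HE ℤ → ℝ) (hS : ∀ h h', S h h' = -S h' h)

/-- background of `T` with spin insertions `X` -/
def wTX (b : BoundaryCondition) (T : Finset (ℤ × ℤ)) {n : ℕ} (X : Fin n → ℤ × ℤ) : BW ℤ :=
  wX (wDom (T : Set (ℤ × ℤ)) (decide (b = .free))) X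

theorem coe_fac (w : BW ℤ) (e : J1ax606.EG ℤ) :
    (((1 - (2 * w e.1 e.2) • J1ax606.bb e : Gr1x606.Ge (Gr1x606.VI (HE ℤ)))) :
      Gr (Gr1x606.VI (HE ℤ))) = Bf w e.1 e.2 := by
  rw [Gr1x606.Ge.coe_sub, Gr1x606.Ge.coe_one, Gr1x606.Ge.coe_smul, J1ax606.coe_bb, pe_eq, qe_eq]
  rfl

theorem GB_one (hJ : J2Set T (wTX b T X) (covS S hS)) (i : Fin n) (y z : ℤ × ℤ) (j : Fin 2)
    (hb : b ≠ .minus)
    (h : ∀ s : ℤ × ℤ → Bool, spinSign (s (X i)) * spinSign (s y) = UDomAx420.eps s (z, j)) :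
    GB b T (Function.update X i y) = GB b T X * EE (covS S hS) (Bf (wTX b T X) z j) := by
  have := GB_move b hb T X (covS S hS) hJ i y {(z, j)} (by simpa using h)
  rw [Finset.prod_singleton] at this
  rw [this, ← coe_fac (wTX b T X) (z, j)]
  rfl

theorem GB_two (hJ : J2Set T (wTX b T X) (covS S hS)) (i : Fin n) (y z z' : ℤ × ℤ) (j j' : Fin 2)
    (hb : b ≠ .minus) (hne : (z, j) ≠ (z', j'))
    (h : ∀ s : ℤ × ℤ → Bool, spinSign (s (X i)) * spinSign (s y) =
      UDomAx420.eps s (z, j) * UDomAx420.eps s (z', j')) :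
    GB b T (Function.update X i y) =
      GB b T X * EE (covS S hS) (Bf (wTX b T X) z j * Bf (wTX b T X) z' j') := by
  have := GB_move b hb T X (covS S hS) hJ i y {(z, j), (z', j')} (by
    intro s; rw [h s, Finset.prod_pair hne])
  rw [Finset.prod_pair hne, Gr1x606.Ge.coe_mul] at this
  rw [this, ← coe_fac (wTX b T X) (z, j), ← coe_fac (wTX b T X) (z', j')]
  rfl

/-- **STEP along the diagonal of the face `f`** (`SW ↔ NE`), both directions, product form -/
theorem step_diag (hb : b ≠ .minus) (hJ : J2Set T (wTX b T X) (covS S hS)) (i : Fin n)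
    (y f : ℤ × ℤ) (hrow : Row3 (wTX b T X) S f)
    (h : (X i = f ∧ y = (f.1 + 1, f.2 + 1)) ∨ (X i = (f.1 + 1, f.2 + 1) ∧ y = f)) :
    GB b T (Function.update X i y) =
      -formS S (lSW (wTX b T X) f) (lNE (wTX b T X) f) * GB b T X := by
  have hv : ∀ s : ℤ × ℤ → Bool, UDomAx420.eps s (f, 0) * UDomAx420.eps s ((f.1 + 1, f.2), 1) =
      spinSign (s f) * spinSign (s (f.1 + 1, f.2 + 1)) := by
    intro s
    have e1 : UDomAx420.tip (f, (0 : Fin 2)) = (f.1 + 1, f.2) := by
      simp [UDomAx420.tip, unitVec, Prod.ext_iff]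
    have e2 : UDomAx420.tip ((f.1 + 1, f.2), (1 : Fin 2)) = (f.1 + 1, f.2 + 1) := by
      simp [UDomAx420.tip, unitVec]
    unfold UDomAx420.eps
    rw [e1, e2]
    have h2 := UDomAx420.spinSign_sq (s (f.1 + 1, f.2))
    linear_combination (spinSign (s f) * spinSign (s (f.1 + 1, f.2 + 1))) * h2
  rw [GB_two b T X S hS hJ i y f (f.1 + 1, f.2) 0 1 hb (by simp) (by
    intro s
    rw [hv s]
    rcases h with ⟨h1, h2⟩ | ⟨h1, h2⟩
    · rw [h1, h2]
    · rw [h1, h2, mul_comm]), diag _ S hS f hrow]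
  ring

/-- **STEP along the antidiagonal of the face `f`** (`NW ↔ SE`), both directions, product form -/
theorem step_anti (hb : b ≠ .minus) (hJ : J2Set T (wTX b T X) (covS S hS)) (i : Fin n)
    (y f : ℤ × ℤ) (hrow : Row3 (wTX b T X) S f)
    (h : (X i = (f.1, f.2 + 1) ∧ y = (f.1 + 1, f.2)) ∨
      (X i = (f.1 + 1, f.2) ∧ y = (f.1, f.2 + 1))) :
    GB b T (Function.update X i y) =
      formS S (lNW (wTX b T X) f) (lSE (wTX b T X) f) * GB b T X := by
  have hv : ∀ s : ℤ × ℤ → Bool, UDomAx420.eps s ((f.1, f.2 + 1), 0) *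
      UDomAx420.eps s ((f.1 + 1, f.2), 1) =
      spinSign (s (f.1, f.2 + 1)) * spinSign (s (f.1 + 1, f.2)) := by
    intro s
    have e1 : UDomAx420.tip ((f.1, f.2 + 1), (0 : Fin 2)) = (f.1 + 1, f.2 + 1) := by
      simp [UDomAx420.tip, unitVec]
    have e2 : UDomAx420.tip ((f.1 + 1, f.2), (1 : Fin 2)) = (f.1 + 1, f.2 + 1) := by
      simp [UDomAx420.tip, unitVec]
    unfold UDomAx420.eps
    rw [e1, e2]
    have h2 := UDomAx420.spinSign_sq (s (f.1 + 1, f.2 + 1))
    linear_combination (spinSign (s (f.1, f.2 + 1)) * spinSign (s (f.1 + 1, f.2))) * h2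
  rw [GB_two b T X S hS hJ i y (f.1, f.2 + 1) (f.1 + 1, f.2) 0 1 hb (by simp) (by
    intro s
    rw [hv s]
    rcases h with ⟨h1, h2⟩ | ⟨h1, h2⟩
    · rw [h1, h2]
    · rw [h1, h2, mul_comm]), anti _ S hS f hrow]
  ring

/-- **unit STEP** along the bond `(z, j)`, both directions, product form -/
theorem step_unit (hb : b ≠ .minus) (hJ : J2Set T (wTX b T X) (covS S hS)) (i : Fin n)
    (y z : ℤ × ℤ) (j : Fin 2)
    (h : (X i = z ∧ y = z + unitVec j) ∨ (X i = z + unitVec j ∧ y = z)) :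
    GB b T (Function.update X i y) =
      (1 - 2 * wTX b T X z j * S (hp z j) (hq z j)) * GB b T X := by
  rw [GB_one b T X S hS hJ i y z j hb (by
    intro s
    unfold UDomAx420.eps UDomAx420.tip
    rcases h with ⟨h1, h2⟩ | ⟨h1, h2⟩
    · rw [h1, h2]
    · rw [h1, h2, mul_comm]), unit _ S hS z j]
  ring

/-! ### the eight steps as ratios -/

variable (hb : b ≠ .minus) (hJ : J2Set T (wTX b T X) (covS S hS)) (i : Fin n)
  (h0 : GB b T X ≠ 0)
include hb hJ h0

/-- `v = (1, 1)`: the face is `X i` -/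
theorem ratio_NE (hrow : Row3 (wTX b T X) S (X i)) :
    GB b T (Function.update X i (X i + (1, 1))) / GB b T X =
      -formS S (lSW (wTX b T X) (X i)) (lNE (wTX b T X) (X i)) := by
  rw [div_eq_iff h0]
  exact step_diag b T X S hS hb hJ i _ _ hrow (Or.inl ⟨rfl, rfl⟩)

/-- `v = (-1, -1)`: the face is `X i - (1, 1)` -/
theorem ratio_SW (hrow : Row3 (wTX b T X) S (X i - (1, 1))) :
    GB b T (Function.update X i (X i - (1, 1))) / GB b T X =
      -formS S (lSW (wTX b T X) (X i - (1, 1))) (lNE (wTX b T X) (X i - (1, 1))) := by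
  rw [div_eq_iff h0]
  exact step_diag b T X S hS hb hJ i _ _ hrow (Or.inr ⟨by simp, rfl⟩)

/-- `v = (1, -1)`: the face is `X i - (0, 1)` -/
theorem ratio_SE (hrow : Row3 (wTX b T X) S (X i - (0, 1))) :
    GB b T (Function.update X i (X i + (1, -1))) / GB b T X =
      formS S (lNW (wTX b T X) (X i - (0, 1))) (lSE (wTX b T X) (X i - (0, 1))) := by
  rw [div_eq_iff h0]
  exact step_anti b T X S hS hb hJ i _ _ hrow (Or.inl ⟨by simp, by
    refine Prod.ext ?_ ?_ <;> simp [sub_eq_add_neg]⟩)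

/-- `v = (-1, 1)`: the face is `X i - (1, 0)` -/
theorem ratio_NW (hrow : Row3 (wTX b T X) S (X i - (1, 0))) :
    GB b T (Function.update X i (X i + (-1, 1))) / GB b T X =
      formS S (lNW (wTX b T X) (X i - (1, 0))) (lSE (wTX b T X) (X i - (1, 0))) := by
  rw [div_eq_iff h0]
  exact step_anti b T X S hS hb hJ i _ _ hrow (Or.inr ⟨by simp, by
    refine Prod.ext ?_ ?_ <;> simp [sub_eq_add_neg]⟩)

/-- `v = unitVec j` -/
theorem ratio_unit (j : Fin 2) :
    GB b T (Function.update X i (X i + unitVec j)) / GB b T X =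
      1 - 2 * wTX b T X (X i) j * S (hp (X i) j) (hq (X i) j) := by
  rw [div_eq_iff h0]
  exact step_unit b T X S hS hb hJ i _ _ j (Or.inl ⟨rfl, rfl⟩)

/-- `v = -unitVec j` -/
theorem ratio_unit' (j : Fin 2) :
    GB b T (Function.update X i (X i - unitVec j)) / GB b T X =
      1 - 2 * wTX b T X (X i - unitVec j) j * S (hp (X i - unitVec j) j) (hq (X i - unitVec j) j) := by
  rw [div_eq_iff h0]
  exact step_unit b T X S hS hb hJ i _ _ j (Or.inr ⟨by simp, rfl⟩)

end spins

/-! ### explicit values -/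

section expl

variable {G : Type} [CommRing G] [DecidableEq G]

theorem formS_SW_NE (w : BW G) (S : HE G → HE G → ℝ) (f : G × G) :
    formS S (lSW w f) (lNE w f) = S (f, 0) (f, 2) + yN w f * S (f, 0) ((f.1, f.2 + 1), 0)
      - yN w (f.1, f.2 - 1) * (S ((f.1, f.2 - 1), 2) (f, 2)
        + yN w f * S ((f.1, f.2 - 1), 2) ((f.1, f.2 + 1), 0)) := by
  unfold lSW lNE
  simp only [map_sub, map_add, map_smul, LinearMap.sub_apply, LinearMap.smul_apply, smul_eq_mul,
    formS_single]
  ring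

theorem formS_NW_SE (w : BW G) (S : HE G → HE G → ℝ) (f : G × G) :
    formS S (lNW w f) (lSE w f) = S (f, 2) (f, 0) + yN w (f.1, f.2 - 1) * S (f, 2) ((f.1, f.2 - 1), 2)
      - yN w f * (S ((f.1, f.2 + 1), 0) (f, 0)
        + yN w (f.1, f.2 - 1) * S ((f.1, f.2 + 1), 0) ((f.1, f.2 - 1), 2)) := by
  unfold lNW lSE
  simp only [map_sub, map_add, map_smul, LinearMap.sub_apply, LinearMap.smul_apply, smul_eq_mul,
    formS_single]
  ring

end expl

end Crest.Agent.R165.Stepx470
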