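import Crest.Agent.R165.J2c_606
import Crest.Agent.R165.UDomC_420
import Crest.Agent.R165.GeoCh_416
import Crest.Agent.R165.NoHole_65
import Crest.Agent.R165.Red2_541
import Crest.Agent.R165.UKer_420

/-!
# Row 165 (S0250) (helper420): strict positivity of the critical spin sums

First Griffiths inequality with strictness, in the language of sets of minus spins:
* `nsum_pos` : `0 < Σ_{N ⊆ T} σ_X(N) Π_{e ∈ walls N} w_e` when the walls weights are `x` on `E`, `1`
  elsewhere and some set `F ⊆ E` of bonds has `ε_F = σ_X`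
* `pos_plus`, `pos_free` : plus boundary conditions (every `X`), free (connected `T`, even number of spins)
* `ev_pos` : for `C²` domains, small mesh.
-/

set_option autoImplicit false

noncomputable section

open Filter Topology Finset
open Crest.ProbabilityR.IsingModel

namespace Crest.Agent.R165.UZsx420

open Crest.Agent.R165.UDomAx420 Crest.Agent.R165.UDomCx420
open Crest.Agent.R165.J1ax606 Crest.Agent.R165.J1bx606 Crest.Agent.R165.J1cx606
open Crest.Agent.R165.Latx683 (BW wDom ray wX)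
open Crest.Agent.R165.Geo
open Crest.Agent.R165.Topx683 Crest.Agent.R165.Redx541 Crest.Agent.R165.Red2x541

/-- character sums are nonnegative -/
theorem char_nonneg (T : Finset (ℤ × ℤ)) (s : EG ℤ → ℝ) (hs : ∀ e, s e * s e = 1) :
    0 ≤ ∑ N ∈ T.powerset, ∏ e ∈ walls N, s e := by
  have h1 : ∀ N ∈ T.powerset, ∏ e ∈ walls N, s e =
      ∏ v ∈ N, (s (v - (1, 0), 0) * s (v, 1) * s (v, 0) * s (v - (0, 1), 1)) :=
    fun N _ => J2cx606.prod_walls s hs N
  rw [Finset.sum_congr rfl h1, ← Finset.prod_one_add]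
  refine Finset.prod_nonneg fun v _ => ?_
  have h2 : ∀ e, s e = 1 ∨ s e = -1 := fun e => mul_self_eq_one_iff.1 (hs e)
  rcases h2 (v - (1, 0), 0) with h | h <;> rcases h2 (v, 1) with h' | h' <;>
    rcases h2 (v, 0) with h'' | h'' <;> rcases h2 (v - (0, 1), 1) with h''' | h''' <;>
    rw [h, h', h'', h'''] <;> norm_num

theorem eps_conf (N : Finset (ℤ × ℤ)) (e : EG ℤ) :
    eps (conf N) e = if e ∈ walls N then -1 else 1 := by
  unfold eps
  rw [spinSign_mul]
  by_cases h : conf N e.1 = conf N (tip e)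
  · rw [if_pos h, if_neg]
    rw [mem_walls_conf]
    exact fun h' => h' h
  · rw [if_neg h, if_pos]
    rw [mem_walls_conf]
    exact h

theorem prod_eps_conf (N : Finset (ℤ × ℤ)) (B : Finset (EG ℤ)) :
    ∏ e ∈ B, eps (conf N) e = ∏ e ∈ walls N, if e ∈ B then -1 else 1 := by
  simp only [eps_conf]
  rw [Finset.prod_ite_mem, Finset.prod_ite_mem, Finset.inter_comm]

/-- products of spins and bonds sum to something nonnegative -/
theorem corr_nonneg (T : Finset (ℤ × ℤ)) {n : ℕ} (X : Fin n → ℤ × ℤ) (B : Finset (EG ℤ)) :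
    0 ≤ ∑ N ∈ T.powerset, (∏ i, spinSign (conf N (X i))) * ∏ e ∈ B, eps (conf N) e := by
  have h1 : ∀ N ∈ T.powerset, (∏ i, spinSign (conf N (X i))) * ∏ e ∈ B, eps (conf N) e =
      ∏ e ∈ walls N, (ray X e.1 e.2 * if e ∈ B then -1 else 1) := by
    intro N _
    rw [← prod_ray, prod_eps_conf, ← Finset.prod_mul_distrib]
  rw [Finset.sum_congr rfl h1]
  refine char_nonneg T _ fun e => ?_
  have h2 : ray X e.1 e.2 * ray X e.1 e.2 = 1 := by
    unfold ray
    rw [← Finset.prod_mul_distrib]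
    refine Finset.prod_eq_one fun i _ => ?_
    split_ifs <;> norm_num
  split_ifs
  · linear_combination h2
  · linear_combination h2

/-- **strict Griffiths inequality** -/
theorem nsum_pos (T : Finset (ℤ × ℤ)) (w : BW ℤ) {n : ℕ} (X : Fin n → ℤ × ℤ) (E : Finset (EG ℤ))
    {x : ℝ} (h0 : 0 < x) (h1 : x < 1)
    (hw : ∀ N ⊆ T, ∏ e ∈ walls N, w e.1 e.2 = ∏ e ∈ E ∩ walls N, x)
    (F : Finset (EG ℤ)) (hF : F ⊆ E)
    (hX : ∀ N ⊆ T, ∏ e ∈ F, eps (conf N) e = ∏ i, spinSign (conf N (X i))) :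
    0 < Nsum T w (fun s => ∏ i, spinSign (s (X i))) := by
  have e1 : ∀ N : Finset (ℤ × ℤ), ∏ e ∈ E ∩ walls N, x =
      ∑ B ∈ E.powerset, (∏ e ∈ B, eps (conf N) e) *
        (((1 - x) / 2) ^ B.card * ((1 + x) / 2) ^ (E \ B).card) := by
    intro N
    have h2 : ∏ e ∈ E ∩ walls N, x = ∏ e ∈ E, ((1 - x) / 2 * eps (conf N) e + (1 + x) / 2) := by
      rw [← Finset.prod_ite_mem]
      refine Finset.prod_congr rfl fun e _ => ?_
      rw [eps_conf]
      split_ifs <;> ring
    rw [h2, Finset.prod_add]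
    refine Finset.sum_congr rfl fun B _ => ?_
    rw [Finset.prod_mul_distrib, Finset.prod_const, Finset.prod_const]
    ring
  have e2 : Nsum T w (fun s => ∏ i, spinSign (s (X i))) =
      ∑ B ∈ E.powerset, (((1 - x) / 2) ^ B.card * ((1 + x) / 2) ^ (E \ B).card) *
        ∑ N ∈ T.powerset, (∏ i, spinSign (conf N (X i))) * ∏ e ∈ B, eps (conf N) e := by
    unfold Nsum
    rw [Finset.sum_congr rfl fun N hN => by
      rw [hw N (Finset.mem_powerset.1 hN), e1 N, Finset.mul_sum]]
    rw [Finset.sum_comm]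
    refine Finset.sum_congr rfl fun B _ => ?_
    rw [Finset.mul_sum]
    refine Finset.sum_congr rfl fun N _ => ?_
    ring
  rw [e2]
  have hp : 0 < (1 - x) / 2 := by linarith
  have hq : 0 < (1 + x) / 2 := by linarith
  refine Finset.sum_pos' (fun B _ => mul_nonneg (by positivity) (corr_nonneg T X B))
    ⟨F, Finset.mem_powerset.2 hF, mul_pos (by positivity) ?_⟩
  have e3 : ∀ N ∈ T.powerset, (∏ i, spinSign (conf N (X i))) * ∏ e ∈ F, eps (conf N) e = 1 := by
    intro N hN
    rw [hX N (Finset.mem_powerset.1 hN), ← Finset.prod_mul_distrib]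
    exact Finset.prod_eq_one fun i _ => spinSign_sq _
  rw [Finset.sum_congr rfl e3]
  simp

theorem xc_lt : UDomAx420.xc < 1 := by
  unfold UDomAx420.xc
  have : Real.sqrt 2 < 2 := by
    rw [show (2 : ℝ) = Real.sqrt 4 by
      rw [show (4 : ℝ) = 2 ^ 2 by norm_num, Real.sqrt_sq (by norm_num)]]
    exact Real.sqrt_lt_sqrt (by norm_num) (by
      rw [show (4 : ℝ) = 2 ^ 2 by norm_num, Real.sqrt_sq (by norm_num)]; norm_num)
  linarith

theorem xc_pos' : 0 < UDomAx420.xc := by
  unfold UDomAx420.xc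
  have : Real.sqrt 1 < Real.sqrt 2 := Real.sqrt_lt_sqrt (by norm_num) (by norm_num)
  rw [Real.sqrt_one] at this
  linarith

/-- plus boundary conditions: all spin correlations are positive -/
theorem pos_plus (T : Finset (ℤ × ℤ)) {n : ℕ} (X : Fin n → ℤ × ℤ) :
    0 < Nsum T (wDom (T : Set (ℤ × ℤ)) false) (fun s => ∏ i, spinSign (s (X i))) := by
  refine nsum_pos T _ X (touch T) xc_pos' xc_lt ?_ ((touch T).filter fun e => ray X e.1 e.2 = -1)
    (Finset.filter_subset _ _) ?_
  · intro N hN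
    have h1 : touch T ∩ walls N = walls N := Finset.inter_eq_right.2 (walls_subset_touch hN)
    rw [h1]
    refine Finset.prod_congr rfl fun e he => ?_
    exact wDom_plus (mem_touch.1 (walls_subset_touch hN he))
  · intro N hN
    rw [prod_eps_conf, ← prod_ray]
    refine Finset.prod_congr rfl fun e he => ?_
    have h1 : ray X e.1 e.2 * ray X e.1 e.2 = 1 := by
      unfold ray
      rw [← Finset.prod_mul_distrib]
      refine Finset.prod_eq_one fun i _ => ?_
      split_ifs <;> norm_num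
    rcases mul_self_eq_one_iff.1 h1 with h | h
    · rw [h, if_neg]
      rw [Finset.mem_filter, h]
      norm_num
    · rw [h, if_pos]
      exact Finset.mem_filter.2 ⟨walls_subset_touch hN he, h⟩

/-- a set of bonds inside `T` with product `σ_u σ_v` -/
theorem exists_bonds {T : Finset (ℤ × ℤ)} {u v : ℤ × ℤ} (h : JoinIn (T : Set (ℤ × ℤ)) u v) :
    ∃ F ⊆ EFree T, ∀ N : Finset (ℤ × ℤ), ∏ e ∈ F, eps (conf N) e =
      spinSign (conf N u) * spinSign (conf N v) := by
  induction h with
  | refl => exact ⟨∅, Finset.empty_subset _, fun N => by rw [Finset.prod_empty, spinSign_sq]⟩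
  | @tail b c _ h2 ih =>
    obtain ⟨F, hF, hF'⟩ := ih
    obtain ⟨e, he⟩ := NoHolex65.nn_edge h2.2.2
    refine ⟨symmDiff F {e}, ?_, fun N => ?_⟩
    · intro e' he'
      rw [Finset.mem_symmDiff] at he'
      rcases he' with ⟨h3, -⟩ | ⟨h3, -⟩
      · exact hF h3
      · rw [Finset.mem_singleton] at h3
        subst h3
        rw [mem_EFree]
        have hb : b ∈ T := Finset.mem_coe.1 h2.1
        have hc : c ∈ T := Finset.mem_coe.1 h2.2.1
        rcases he with ⟨h4, h5⟩ | ⟨h4, h5⟩
        · exact ⟨h4 ▸ hb, by rw [show tip e' = c from h5]; exact hc⟩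
        · exact ⟨h4 ▸ hc, by rw [show tip e' = b from h5]; exact hb⟩
    · rw [J2cx606.prod_symmDiff_single (eps (conf N)) (fun e => by
        rw [eps_conf]; split_ifs <;> norm_num) F e, hF' N]
      have h6 : eps (conf N) e = spinSign (conf N b) * spinSign (conf N c) := by
        unfold eps
        rcases he with ⟨h4, h5⟩ | ⟨h4, h5⟩
        · rw [h4, show tip e = c from h5]
        · rw [h4, show tip e = b from h5, mul_comm]
      rw [h6]
      have := spinSign_sq (conf N b)
      linear_combination (spinSign (conf N u) * spinSign (conf N c)) * this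

/-- products of two sets of bonds -/
theorem bonds_mul {T : Finset (ℤ × ℤ)} {F F' : Finset (EG ℤ)} (h : F ⊆ EFree T) (h' : F' ⊆ EFree T) :
    ∃ F'' ⊆ EFree T, ∀ N : Finset (ℤ × ℤ), ∏ e ∈ F'', eps (conf N) e =
      (∏ e ∈ F, eps (conf N) e) * ∏ e ∈ F', eps (conf N) e := by
  refine ⟨symmDiff F F', ?_, fun N => ?_⟩
  · intro e he
    rcases Finset.mem_symmDiff.1 he with ⟨h1, -⟩ | ⟨h1, -⟩
    · exact h h1
    · exact h' h1
  · rw [prod_eps_conf, prod_eps_conf, prod_eps_conf, ← Finset.prod_mul_distrib]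
    refine Finset.prod_congr rfl fun e _ => ?_
    by_cases h1 : e ∈ F <;> by_cases h2 : e ∈ F' <;> simp [Finset.mem_symmDiff, h1, h2]

/-- an even number of sites of a connected set is a product of bonds -/
theorem exists_bonds_even {T : Finset (ℤ × ℤ)}
    (hT : ∀ u ∈ T, ∀ v ∈ T, JoinIn (T : Set (ℤ × ℤ)) u v) (k : ℕ) (X : Fin (k + k) → ℤ × ℤ)
    (hX : ∀ i, X i ∈ T) :
    ∃ F ⊆ EFree T, ∀ N : Finset (ℤ × ℤ), ∏ e ∈ F, eps (conf N) e = ∏ i, spinSign (conf N (X i)) := by
  have h1 : ∀ X : Fin k × Fin 2 → ℤ × ℤ, (∀ i, X i ∈ T) →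
      ∀ s : Finset (Fin k), ∃ F ⊆ EFree T, ∀ N : Finset (ℤ × ℤ), ∏ e ∈ F, eps (conf N) e =
        ∏ i ∈ s, (spinSign (conf N (X (i, 0))) * spinSign (conf N (X (i, 1)))) := by
    intro X hX s
    induction s using Finset.induction_on with
    | empty => exact ⟨∅, Finset.empty_subset _, fun N => by simp⟩
    | insert i s hi ih =>
      obtain ⟨F, hF, hF'⟩ := ih
      obtain ⟨F1, hF1, hF1'⟩ := exists_bonds (hT _ (hX (i, 0)) _ (hX (i, 1)))
      obtain ⟨F2, hF2, hF2'⟩ := bonds_mul hF1 hF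
      refine ⟨F2, hF2, fun N => ?_⟩
      rw [hF2', hF1', hF', Finset.prod_insert hi]
  obtain ⟨F, hF, hF'⟩ := h1 (fun p => if p.2 = 0 then X (Fin.castAdd k p.1) else X (Fin.natAdd k p.1))
    (fun p => by split_ifs <;> exact hX _) Finset.univ
  refine ⟨F, hF, fun N => ?_⟩
  rw [hF' N, Finset.prod_mul_distrib, Fin.prod_univ_add]
  simp

/-- free boundary conditions, connected `T`, even number of spins -/
theorem pos_free (T : Finset (ℤ × ℤ)) (hT : ∀ u ∈ T, ∀ v ∈ T, JoinIn (T : Set (ℤ × ℤ)) u v)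
    {n : ℕ} (hn : Even n) (X : Fin n → ℤ × ℤ) (hX : ∀ i, X i ∈ T) :
    0 < Nsum T (wDom (T : Set (ℤ × ℤ)) true) (fun s => ∏ i, spinSign (s (X i))) := by
  obtain ⟨k, rfl⟩ := hn
  obtain ⟨F, hF, hF'⟩ := exists_bonds_even hT k X hX
  refine nsum_pos T _ X (EFree T) xc_pos' xc_lt ?_ F hF fun N _ => hF' N
  intro N _
  rw [Finset.inter_comm, ← Finset.prod_ite_mem]
  exact Finset.prod_congr rfl fun e _ => wDom_free T e

/-- **`C²` domains, small mesh, `b = +` or (`b` free and `n` even)** -/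
theorem ev_pos (b : BoundaryCondition) (n : ℕ) (hR : Rel b n) {D : Set ℂ} (hD : IsC2JordanDomain D)
    (x : Fin n → ℂ) (hx : ∀ i, x i ∈ D) :
    ∀ᶠ a in 𝓝[>] (0 : ℝ), ∀ h : (domainSites D a).Finite,
      0 < Nsum h.toFinset (wDom (domainSites D a) (decide (b = BoundaryCondition.free)))
        (fun s => ∏ i, spinSign (s (meshIndex a (x i)))) := by
  rcases hR with rfl | ⟨rfl, hn⟩
  · refine Eventually.of_forall fun a h => ?_
    have := pos_plus h.toFinset (fun i => meshIndex a (x i))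
    rwa [h.coe_toFinset] at this
  · rcases D.eq_empty_or_nonempty with he | hne
    · rcases Nat.eq_zero_or_pos n with rfl | hn0
      · refine Eventually.of_forall fun a h => ?_
        have := pos_free h.toFinset (fun u hu v hv => ?_) hn (fun i => meshIndex a (x i))
          (fun i => i.elim0)
        · rwa [h.coe_toFinset] at this
        · rw [Set.Finite.mem_toFinset, he] at hu
          exact absurd hu (by simp [domainSites])
      · exact absurd (hx ⟨0, hn0⟩) (by simp [he])
    · obtain ⟨r, M, hCD⟩ := Crest.Agent.R165.GeoCx65.exists_CD hD hne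
      obtain ⟨C, hC⟩ := hCD.join
      have hm : ∀ i, ∀ᶠ a in 𝓝[>] (0 : ℝ), meshIndex a (x i) ∈ domainSites D a := by
        intro i
        simpa using UKerx420.eventually_mem (isOpen_of_C2 hD) (hx i) 0
      filter_upwards [hC, eventually_all.2 hm] with a ha hm h
      have := pos_free h.toFinset (fun u hu v hv => ?_) hn (fun i => meshIndex a (x i))
        (fun i => h.mem_toFinset.2 (hm i))
      · rwa [h.coe_toFinset] at this
      · obtain ⟨k, -, hk⟩ := ha u (h.mem_toFinset.1 hu) v (h.mem_toFinset.1 hv)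
        rw [h.coe_toFinset]
        exact hk.joinIn

end Crest.Agent.R165.UZsx420
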