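import Crest.Agent.R165.SR_541
import Crest.Agent.R165.UZs_420
import Crest.Agent.R165.Step_470

/-!
# Row 165 (S0250): positivity of the unperturbed spin moments (helper894)

`sPos : SRx541.SPos` (Griffiths, from `UZs_420`), and the top theorem with the hypotheses
`ULimB`, `PFlow` only (`top_of`).
-/

set_option autoImplicit false

noncomputable section

open Filter Topology Finset
open Crest.ProbabilityR.IsingModel

namespace Crest.Agent.R165.SPosx894

open Crest.Agent.R165.Centx541 Crest.Agent.R165.Redx541 Crest.Agent.R165.Red2x541
open Crest.Agent.R165.UDomAx420 Crest.Agent.R165.UDomCx420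
open Crest.Agent.R165.SRx541
open Crest.Agent.R165.Latx683 (BW wDom)

/-- spin moments as ratios of sums over minus sets -/
theorem spm0_eq_N (D : Set ℂ) (a : ℝ) (h : (domainSites D a).Finite) (b : BoundaryCondition)
    (hb : b ≠ BoundaryCondition.minus) {n : ℕ} (x : Fin n → ℂ) :
    spm0 D a b x =
      Nsum h.toFinset (wDom (domainSites D a) (decide (b = BoundaryCondition.free)))
        (fun s => ∏ i, spinSign (s (meshIndex a (x i)))) /
      Nsum h.toFinset (wDom (domainSites D a) (decide (b = BoundaryCondition.free)))
        (fun _ => 1) := by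
  unfold spm0 spm domMom
  rw [domainExpect_N D a h b hb 0 (fun _ => 0)]
  congr 1
  unfold obs
  simp

/-- the spin moments do not vanish where the numerator is positive -/
theorem spm0_pos (D : Set ℂ) (a : ℝ) (h : (domainSites D a).Finite) (b : BoundaryCondition)
    (hb : b ≠ BoundaryCondition.minus) {n : ℕ} (x : Fin n → ℂ)
    (hp : 0 < Nsum h.toFinset (wDom (domainSites D a) (decide (b = BoundaryCondition.free)))
        (fun s => ∏ i, spinSign (s (meshIndex a (x i))))) :
    0 < spm0 D a b x := by
  rw [spm0_eq_N D a h b hb]
  exact div_pos hp (Stepx470.Nsum_pos _ _ _)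

/-- **the unperturbed spin moments do not vanish** -/
theorem sPos : SPos where
  dom D hD b n hR x hx _ := by
    have hb : b ≠ BoundaryCondition.minus := by
      rcases hR with h | ⟨h, -⟩ <;> rw [h] <;> decide
    filter_upwards [UZsx420.ev_pos b n hR hD x hx, self_mem_nhdsWithin] with a ha ha0
    have h := domainSites_finite (bounded_of_C2 hD) ha0
    exact (spm0_pos D a h b hb x (ha h)).ne'
  pl n _ x _ := by
    filter_upwards [self_mem_nhdsWithin] with a ha0
    refine Eventually.of_forall fun B => ?_
    have h := domainSites_finite (D := Metric.ball (0 : ℂ) B) Metric.isBounded_ball ha0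
    refine (spm0_pos _ a h .plus (by decide) x ?_).ne'
    have := UZsx420.pos_plus h.toFinset (fun i => meshIndex a (x i))
    rwa [h.coe_toFinset] at this

/-- unperturbed leaves + flow outputs imply everything -/
theorem all_of' (hU : ULimB) (h : PFlow) : Topx683.ULim ∧ Topx683.PRatio := all_of hU sPos h

end Crest.Agent.R165.SPosx894
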