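import Crest.Agent.R165.TorTop_599
import Crest.Agent.R165.C0Src_806
import Crest.Agent.R165.PTop4_683
import Crest.Agent.R165.SrcReal_583
import Crest.Agent.R165.PlB_117

/-!
# Row 165 (S0250): the leaf `TorL3` (helper583, from 599's `tor_top` and 806's `c0_src_ev`)
-/

set_option autoImplicit false

noncomputable section

open Filter Topology
open scoped ENNReal
open Crest.Agent.R165.Topx683 (VHyp)
open Crest.Agent.R165.Bkgx683 Crest.Agent.R165.Bkg3x683 Crest.Agent.R165.PEndx683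
open Crest.Agent.R165.Outx683 Crest.Agent.R165.NSumx915

namespace Crest.Agent.R165.TorLx583

theorem abs_le_one_of_sq {x : ℝ} (h : x * x = 1) : |x| ≤ 1 := by
  rw [abs_le]; constructor <;> nlinarith

/-- **the initial activities of the tori with a real source are small** -/
theorem c0T (J : ℝ) (R : ℕ) (V : Finset (ℤ × ℤ) → ℝ) : TorTopx599.C0T J R V := by
  refine (PEndx683.EvC.and (C0Srcx806.c0_src_ev J R V) Constx891.ev_std).mono fun c hc C => ?_
  obtain ⟨hc, hS⟩ := hc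
  obtain ⟨ε, hε, m, hm, H⟩ := hc C
  refine ⟨ε, hε, m, hm, fun Y S _ hY => ?_⟩
  obtain ⟨mS, hmS, t0, ht0, H⟩ := H Y.card S.card
  refine ⟨t0, ht0, mS, hmS, fun lam β z hl hn t ht htt L ε₁ ε₂ h₁ h₂ src hs => ?_⟩
  have h := H lam β z t hl hn (by rw [abs_of_nonneg ht]; exact htt.le) (ZMod (L + 1))
    (Bg.tor (L + 1) ε₁ ε₂) (C0ax950.W1_tor _ (abs_le_one_of_sq h₁) (abs_le_one_of_sq h₂)) src _ _ hs Finset.card_image_le
    Finset.card_image_le (SrcRealx583.conn_image (fun x y => TorTopx599.fd_pr_le L x y) hY)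
    (TorChartx723.wTor (L + 1) ε₁ ε₂) c.A0 (by linarith [hS.A0_ge]) (fun _ => True)
  rwa [abs_of_nonneg ht] at h

/-- **the leaf `TorL3`** -/
theorem torL3 {J : ℝ} (hJ : 0 < J) {R : ℕ} {V : Finset (ℤ × ℤ) → ℝ} (hV : VHyp R V) :
    PTop4x683.TorL3 J R V := by
  refine PTopx386.ForP.imp (TorTopx599.tor_top hJ hV (PlBx117.plB hV) (c0T J R V))
    fun c lam β z H S => ?_
  obtain ⟨t0, ht0, H⟩ := H (boxS S) S (zero_mem_boxS S) (faE_boxS S) (boxS_conn S)
  exact ⟨t0, ht0, fun t ht ht' => H t ht ht' _ _ (isReal_box _ S t) (isReal_box _ S 0)⟩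

end Crest.Agent.R165.TorLx583
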