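import Crest.Agent.R165.SrcDomG_697
import Crest.Agent.R165.SRdom_900
import Crest.Agent.R165.SpDCl_67
import Crest.Agent.R165.Comp7_889

/-!
# Row 165 (S0250), leaf P11: `ERD` from the fine phase of the `C²` domains (helper697)

* `FineC2 J R V Ze em` : the fine phase `FineAt` at the last scale `KK c.p c.k0 d a` of every `C²`
  Jordan domain
* `ev_basicE` : the elementary conditions on the constants
* `enD_of : FineC2 J R V Ze em → ForP J (PF J R V) (ERD ..)`
-/

set_option autoImplicit false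
set_option linter.unusedSectionVars false
set_option linter.unusedVariables false

noncomputable section

namespace Crest.Agent.R165.SrcDomx697

open Finset Filter Topology
open scoped ENNReal
open Crest.ProbabilityR.IsingModel
open Crest.Agent.R165.KStepx892 Crest.Agent.R165.PNormx417 Crest.Agent.R165.FinBx900
open Crest.Agent.R165.Gr0x606 Crest.Agent.R165.Gr1x606 Crest.Agent.R165.GeOpsx337
  Crest.Agent.R165.ExpGx337 Crest.Agent.R165.KFlowx337
open Crest.Agent.R165.SrcDefx991 (VS Src tau ext0 inG coP wS vacS GS)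
open Crest.Agent.R165.SrcCmpx441
open Crest.Agent.R165.Latx683 (BW wDom wX IsCov covS Fld HE Aop)
open Crest.Agent.R165.GDefx387 Crest.Agent.R165.GSysx387 Crest.Agent.R165.FRDPolyx439
  Crest.Agent.R165.BgIsox432 Crest.Agent.R165.PStepx417
open Crest.Agent.R165.Bkgx683 (MPar mpar Bg cor bondSrc)
open Crest.Agent.R165.Outx683 (DD amp PF)
open Crest.Agent.R165.PEndx683 (Cst ForP NearP EvC EvC.mono EvC.and)
open Crest.Agent.R165.J4Geox126 (faE)
open Crest.Agent.R165.JRunSx408 (SrcOK eb xb q_run q0_run VolS)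
open Crest.Agent.R165.Fin2x315 Crest.Agent.R165.Fin4x315
open Crest.Agent.R165.SrcInsx991
open Crest.Agent.R165.SrcLimx697
open Crest.Agent.R165.GeoScx420 (KK KK_tendsto)
open Crest.Agent.R165.SrcGeox485 (DomEv domEv)
open Crest.Agent.R165.EnFinex811 (FineAt)
open Crest.Agent.R165.SRdomAx900 (Lam)
open Crest.Agent.R165.SRdomx900 (Basic ev_basic amp_tendsto)
open Crest.Agent.R165.U5Px422 (TT)
open Crest.Agent.R165.Centx541 Crest.Agent.R165.Redx541 Crest.Agent.R165.Symx541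
  Crest.Agent.R165.Red2x541 Crest.Agent.R165.Topx683 Crest.Agent.R165.SRx541

/-- **the fine phase of the `C²` domains**: at the last scale of the domain, remainder, energy factor,
bond means, with error `Ce σ ^ KK` and source weight `vS c t KK` -/
def FineC2 (J : ℝ) (R : ℕ) (V : Finset (ℤ × ℤ) → ℝ) (Ze : Cst → ℝ → ℝ → ℝ → ℝ)
    (em : Cst → ℝ → ℝ → ℝ → Fin 2 → ℝ) : Prop :=
  ForP J (PF J R V) fun c lam β z => ∀ m : ℕ, 1 ≤ m → ∃ C0 : ℕ, ∀ C1 : ℕ, C0 ≤ C1 →
    ∀ D : Set ℂ, IsC2JordanDomain D → ∀ (b : BoundaryCondition) (n : ℕ), Rel b n →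
      ∀ (x : Fin n → ℂ) (y : Fin m → ℂ) (j : Fin m → Fin 2),
        (∀ i, x i ∈ D) → (∀ k, y k ∈ D) → Function.Injective (Fin.append x y) →
        ∀ Cg Cv : ℝ, 0 < Cg → 0 < Cv →
        ∃ t > 0, ∃ d2 > 0, ∃ σ Ce M : ℝ, 0 ≤ σ ∧ σ < 1 ∧ ∀ d : ℝ, 0 < d → d ≤ d2 →
          ∀ᶠ a : ℝ in 𝓝[>] 0, ∀ h : DomEv c (max R 1) C1 D b x y j Cg Cv d a,
            FineAt c (Bg.dom (TT D a) b (xb a x)) (mpar J lam R V β z) (eb a y j) h.he
              (Lam (Cv - (max R 1 : ℕ) - 3) (max R 1) a) (KK c.p c.k0 d a)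
              (amp c (KK c.p c.k0 d a)) (vS c t (KK c.p c.k0 d a))
              (Ce * σ ^ KK c.p c.k0 d a) M (Ze c lam β z) (fun i => em c lam β z (j i))

/-- the elementary conditions on the constants -/
theorem ev_A0 : EvC fun c => 1 ≤ c.A0 := by
  filter_upwards with p
  filter_upwards with Γ
  filter_upwards with k0
  filter_upwards [eventually_ge_atTop (1 : ℝ)] with A0 hA
  filter_upwards with δ
  exact hA

/-- positivity of `1 + z` -/
theorem one_add_pos {J C lam β z : ℝ} (hn : NearP J C lam β z) (hl : |lam| < 1 / (|C| + 1)) :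
    0 < 1 + z := by
  have h3 : |z| < 1 := by
    have h4 : |z| ≤ C * |lam| := by
      have := hn
      unfold NearP at this
      linarith [abs_nonneg (β - criticalBeta J)]
    have h5 : C * |lam| ≤ |C| * |lam| := mul_le_mul_of_nonneg_right (le_abs_self C) (abs_nonneg _)
    rw [lt_div_iff₀ (by positivity)] at hl
    nlinarith [abs_nonneg lam, abs_nonneg C]
  linarith [(abs_lt.1 h3).1]

theorem inj_x {n m : ℕ} {x : Fin n → ℂ} {y : Fin m → ℂ}
    (h : Function.Injective (Fin.append x y)) : Function.Injective x := by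
  intro i i' hi
  have h1 : Fin.append x y (Fin.castAdd m i) = Fin.append x y (Fin.castAdd m i') := by
    rw [Fin.append_left, Fin.append_left, hi]
  exact Fin.castAdd_injective n m (h h1)

/-- **`ERD` from the fine phase of the `C²` domains** -/
theorem enD_of {J : ℝ} (hJ : 0 < J) {R : ℕ} {V : Finset (ℤ × ℤ) → ℝ} (hV : VHyp R V)
    {Ze : Cst → ℝ → ℝ → ℝ → ℝ} {em : Cst → ℝ → ℝ → ℝ → Fin 2 → ℝ}
    (hF : FineC2 J R V Ze em) :
    ForP J (PF J R V) fun c lam β z => ERD J lam R V β (Ze c lam β z) (em c lam β z) := by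
  unfold FineC2 ForP at hF
  unfold ForP
  refine (EvC.and (EvC.and hF (Compx889.dom_bd (SpPLx67.symL (J := J) hV)))
    (EvC.and (ev_basic R) ev_A0)).mono fun c hc C => ?_
  obtain ⟨⟨hc1, hc2⟩, bas, hA0⟩ := hc
  obtain ⟨ε₁, hε₁, h1⟩ := hc1 C
  obtain ⟨ε₂, hε₂, Mb, hMb, h2⟩ := hc2 C
  refine ⟨min (min ε₁ ε₂) (1 / (|C| + 1)), by positivity, fun lam β z hl hn hp => ?_⟩
  have hl1 : |lam| < ε₁ := hl.trans_le ((min_le_left _ _).trans (min_le_left _ _))
  have hl2 : |lam| < ε₂ := hl.trans_le ((min_le_left _ _).trans (min_le_right _ _))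
  have hz := one_add_pos hn (hl.trans_le (min_le_right _ _))
  have hfin := h1 lam β z hl1 hn hp
  have hdom := h2 lam β z hl2 hn hp
  refine erd_of_last hJ.ne' hV hz bas.h5 bas.p1 hA0 bas.δ0.le
    fun D hD b n m hm hR x y j hx hy hinj => ?_
  obtain ⟨C0, hC0⟩ := hfin m hm
  set C1 : ℕ := max C0 (2 ^ c.p + 4) with hC1
  obtain ⟨Cg, hCg, Cv, hCv, d1, hd1, hev⟩ := domEv SpPLx67.spinLeaf (c := c) bas.p1 (max R 1)
    (C1 := C1) (((by norm_num : 1 ≤ 4).trans (Nat.le_add_left 4 (2 ^ c.p))).trans (le_max_right _ _)) hD hR hx hy hinj j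
  obtain ⟨t, ht, d2, hd2, σ, Ce, M, hσ0, hσ1, hfi⟩ :=
    hC0 C1 (le_max_left _ _) D hD b n hR x y j hx hy hinj Cg Cv hCg hCv
  obtain ⟨d3, hd3, hbd⟩ := hdom D hD b n x hx (inj_x hinj)
  clear hdom hfin hC0 h1 h2 hc1 hc2 hF
  set d : ℝ := min d1 (min d2 d3) with hd
  have hd0 : 0 < d := lt_min hd1 (lt_min hd2 hd3)
  set σ' : ℝ := max σ (1 / 2) with hσ'
  have hs0 : 0 ≤ σ' := hσ0.trans (le_max_left _ _)
  have hs1 : σ' < 1 := max_lt hσ1 (by norm_num)
  refine ⟨t, d, σ', cntK (d / 2 ^ c.p) Cv * (Mb * |lam|) + |Ce|, |M|, ht, hd0, hs0, hs1, ?_⟩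
  have hK := KK_tendsto (k0 := c.k0) bas.p1 hd0
  have hA : ∀ᶠ a : ℝ in 𝓝[>] 0, ampK DD.C (d / 2 ^ c.p) Cg ≤ amp c (KK c.p c.k0 d a) :=
    hK.eventually ((amp_tendsto bas.A0 bas.δ0).eventually_ge_atTop _)
  filter_upwards [hev d hd0 (min_le_left _ _),
    hfi d hd0 ((min_le_right _ _).trans (min_le_left _ _)),
    hbd d hd0 ((min_le_right _ _).trans (min_le_right _ _)), hA] with a h3 h4 h5 h6
  have h7 := h4 h3
  set K := KK c.p c.k0 d a with hKa
  have hσK : σ ^ K ≤ σ' ^ K := pow_le_pow_left₀ hσ0 (le_max_left _ _) K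
  have hsK : 0 ≤ σ' ^ K := pow_nonneg hs0 K
  have hle : Ce * σ ^ K ≤ |Ce| * σ' ^ K :=
    (mul_le_mul_of_nonneg_right (le_abs_self _) (pow_nonneg hσ0 K)).trans
      (mul_le_mul_of_nonneg_left hσK (abs_nonneg _))
  have h8 := h7.mono hle (le_abs_self M)
  have h9 := h5.nk K (le_of_eq (by rw [hKa, GeoScx420.KK, div_eq_mul_inv]))
  have h10 : NK (Bg.dom (TT D a) b (xb a x)).w (amp c K) (rr c.p c.k0 K) (ENNReal.ofReal c.Γ)
      (fun _ => True) (fun U => (((flow0 (Bg.dom (TT D a) b (xb a x)) (mpar J lam R V β z) DD ∅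
        c.p c.k0).K K U : Ge (Fld ℤ)) : Gr (Fld ℤ))) ≤
      ENNReal.ofReal (Mb * |lam| * σ' ^ K) := by
    refine le_trans h9 (ENNReal.ofReal_le_ofReal ?_)
    exact mul_le_mul_of_nonneg_left (pow_le_pow_left₀ (by norm_num) (le_max_right _ _) K)
      (by positivity)
  have h11 := lastOK_of (em := em c lam β z) h3 hCg hCv hd0 bas.p1 (by linarith [bas.Γ4])
    (le_max_right _ _) h6 (by positivity) h8 h10
  have e1 : (cntK (d / 2 ^ c.p) Cv * (Mb * |lam|) + |Ce|) * σ' ^ K =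
      cntK (d / 2 ^ c.p) Cv * (Mb * |lam| * σ' ^ K) + |Ce| * σ' ^ K := by ring
  rw [e1]
  exact h11

end Crest.Agent.R165.SrcDomx697
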