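import Crest.Agent.R165.ZeB_915
import Crest.Agent.R165.SrcDomH_697
import Crest.Agent.R165.EnPLim_811
import Crest.Agent.R165.Fin3_641

/-!
# Row 165 (S0250), the leaf `en` (energy sources), assembly (helper441)

* `enR_of` : `EnR` on 922's names from the fine phases `FineC2` (domains) and `FineD` (large discs)
* `enAll_of` : the last leaf of `S0250`
-/

set_option autoImplicit false

noncomputable section

open Filter Topology
open scoped ENNReal
open Crest.ProbabilityR.IsingModel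
open Crest.Agent.R165.Bkgx683 Crest.Agent.R165.PEndx683 Crest.Agent.R165.Outx683
open Crest.Agent.R165.Redx541 Crest.Agent.R165.Red2x541 Crest.Agent.R165.SRx541
open Crest.Agent.R165.Topx683 Crest.Agent.R165.PTopx386

namespace Crest.Agent.R165.EnRx441

/-- **the leaf `en`** from the two fine phases -/
theorem enR_of {J : ℝ} (hJ : 0 < J) {R : ℕ} {V : Finset (ℤ × ℤ) → ℝ} (hV : VHyp R V)
    (hD : SrcDomx697.FineC2 J R V (ZeEbx922.Ze J R V) (ZeEbx922.eb J R V))
    (hP : ForP J (PF J R V) fun c lam β z => EnFinex811.FineD J lam R V β z c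
      (ZeEbx922.Ze J R V c lam β z) (ZeEbx922.eb J R V c lam β z)) :
    EnR J R V (ZeEbx922.Ze J R V) (ZeEbx922.eb J R V) :=
  ⟨ZeEbx922.oneP_Ze (ZeAx915.zA_all hV).inc, SrcDomx697.enD_of hJ hV hD, EnPLimx811.enP_of hJ hV hP⟩

/-- **the last leaf** from the two fine phases -/
theorem enAll_of
    (hD : ∀ J : ℝ, 0 < J → ∀ (R : ℕ) (V : Finset (ℤ × ℤ) → ℝ), VHyp R V →
      SrcDomx697.FineC2 J R V (ZeEbx922.Ze J R V) (ZeEbx922.eb J R V))
    (hP : ∀ J : ℝ, 0 < J → ∀ (R : ℕ) (V : Finset (ℤ × ℤ) → ℝ), VHyp R V →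
      ForP J (PF J R V) fun c lam β z => EnFinex811.FineD J lam R V β z c
        (ZeEbx922.Ze J R V c lam β z) (ZeEbx922.eb J R V c lam β z)) :
    Finx641.EnAll := fun J hJ R V hV =>
  ⟨ZeEbx922.Ze J R V, ZeEbx922.eb J R V, enR_of hJ hV (hD J hJ R V hV) (hP J hJ R V hV)⟩

end Crest.Agent.R165.EnRx441
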