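import Crest.Agent.R165.Eta4_576

/-!
# Row 165 (S0250), block U4 (helper576): pointwise limits and bounds of the columns

* `Phi` : scaled column; `phi_tendsto` : pointwise limit; `phi_tendsto_ae` : along `meshIndex`
* `phi_bdd` : bound on compact subsets of `Om`
* `pair_exact` : the exact pairing with the corner vector at `x j`
-/

set_option autoImplicit false
set_option linter.unusedVariables false
set_option linter.unusedSimpArgs false

noncomputable section

open MeasureTheory Filter Topology Set Metric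
open Crest.ProbabilityR.IsingModel
open Crest.Agent.R165.Tr1x40 Crest.Agent.R165.RIfx891 Crest.Agent.R165.Embx622
open Crest.Agent.R165.Upx622
open Crest.Agent.R165.Mac0x622 Crest.Agent.R165.Mac1x622 Crest.Agent.R165.Mac3x622
open Crest.Agent.R165.MacIx622
open Crest.Agent.R165.Eta1x576 Crest.Agent.R165.Eta2x576 Crest.Agent.R165.Eta3x576
open Crest.Agent.R165.Eta4x576

namespace Crest.Agent.R165.Eta5x576

variable {n : ℕ}

/-- the scaled column with source at the insertion `i` -/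
def Phi (x : Fin n → ℂ) (i : Fin n) (a : ℝ) (w : Fld) (V : Fin n → Face)
    (S : Face × Fin 4 → Face × Fin 4 → ℝ) : Fld := fun f h =>
  gz x (x i) V (V i) * (a ^ (-(1/2) : ℝ) * col w S (V i) f h)

theorem colLim_comp {O : Set ℂ} {x : Fin n → ℂ} {j : Fin n} {a : ℕ → ℝ}
    {w : ℕ → Fld} {V : ℕ → Fin n → Face} {S : ℕ → Face × Fin 4 → Face × Fin 4 → ℝ} {E : ℂ → ℂ}
    (h : ColLim O x j a w V S E) {θ : ℕ → ℕ} (hθ : Tendsto θ atTop atTop) :
    ColLim O x j (a ∘ θ) (w ∘ θ) (V ∘ θ) (S ∘ θ) E := by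
  intro z₀ hz₀
  obtain ⟨ρ, hρ, k⟩ := h z₀ hz₀
  exact ⟨ρ, hρ, fun h => (k h).comp hθ⟩

/-- **pointwise limit of the scaled columns** -/
theorem phi_tendsto {O : Set ℂ} {x : Fin n → ℂ} {i : Fin n} {a : ℕ → ℝ} {w : ℕ → Fld}
    {V : ℕ → Fin n → Face} (H : OmSeq O x a w V) (hO : IsOpen O) (hx : ∀ i, x i ∉ O)
    {S : ℕ → Face × Fin 4 → Face × Fin 4 → ℝ} (hS : ∀ᶠ k in atTop, Cov40 (w k) (S k)) {E : ℂ → ℂ}
    (hL : ColLim O x i a w V S E) {g : ℂ → ℂ} (hg : ContinuousOn g O)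
    (hE : ∀ z ∈ O, E z * rX x z = g z) {z₀ : ℂ} (hz : z₀ ∈ O)
    {f : ℕ → Face} (hf : Tendsto (fun k => meshPoint (a k) (f k)) atTop (𝓝 z₀)) (h : Fin 4) :
    Tendsto (fun k => gz x z₀ (V k) (f k) * Phi x i (a k) (w k) (V k) (S k) (f k) h) atTop
      (𝓝 (lv (E z₀) h)) := by
  obtain ⟨ρ, hρ, hk⟩ := hL z₀ hz
  have hne : x i ≠ z₀ := fun h => hx i (h ▸ hz)
  have hd : 0 < ‖z₀ - x i‖ := norm_pos_iff.2 (sub_ne_zero.2 hne.symm)
  set r := min ρ (‖z₀ - x i‖ / 2) with hr
  have hr0 : 0 < r := by positivity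
  refine exact_pt H hO hx hz (φ := fun k => Phi x i (a k) (w k) (V k) (S k)) hr0 ?_ ?_ ?_ hf h
  · -- equation
    have ea : ∀ᶠ k in atTop, a k < ‖z₀ - x i‖ / 8 := H.lim.eventually (eventually_lt_nhds (by
      positivity))
    have et : ∀ᶠ k in atTop, ‖meshPoint (a k) (V k i) - x i‖ < ‖z₀ - x i‖ / 8 := by
      have := tendsto_iff_norm_sub_tendsto_zero.1 (H.tip i)
      exact this.eventually (eventually_lt_nhds (by positivity))
    filter_upwards [hS, ea, et] with k h1 h2 h3 f hf h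
    have e : A (w k) (Phi x i (a k) (w k) (V k) (S k)) f h =
        gz x (x i) (V k) (V k i) * a k ^ (-(1/2) : ℝ) * A (w k) (col (w k) (S k) (V k i)) f h := by
      rw [← Tr2x40.A_smul]
      congr 1
      funext f h
      unfold Phi
      ring
    rw [e, A_col h1]
    have hfar : ∀ v : Face, ‖meshPoint (a k) v - x i‖ < ‖z₀ - x i‖ / 2 → f ≠ v := by
      intro v hv hc
      rw [hc] at hf
      have h4 : ‖z₀ - x i‖ ≤ ‖z₀ - meshPoint (a k) v‖ + ‖meshPoint (a k) v - x i‖ :=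
        norm_sub_le_norm_sub_add_norm_sub _ _ _
      rw [norm_sub_rev z₀ (meshPoint (a k) v)] at h4
      have h5 := min_le_right ρ (‖z₀ - x i‖ / 2)
      linarith
    have hV := hfar (V k i) (by linarith)
    have hV2 : f ≠ ((V k i).1, (V k i).2 - 1) := by
      refine hfar _ ?_
      have h0 := abs_le.1 (nb_norm (a k) (H.pos k) (V k i) 0 (x i))
      simp only [nb_zero] at h0
      linarith
    unfold lvec
    rw [if_neg (fun hc => hV hc.1), if_neg (fun hc => hV2 hc.1)]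
    ring
  · refine gc_mul_continuousAt (fun l hl => hx l (by rw [hl]; exact hz)) (hg.continuousAt (hO.mem_nhds hz)) ?_
    filter_upwards [hO.mem_nhds hz] with u hu
    exact hE u hu
  · intro h'
    exact tendsto_of_tendsto_of_tendsto_of_le_of_le tendsto_const_nhds (hk h') (fun _ => zero_le)
      fun k => lintegral_mono_set (ball_subset_ball (min_le_left _ _))

/-- **bound on compact sets** -/
theorem phi_bdd {O : Set ℂ} {x : Fin n → ℂ} {i : Fin n} {a : ℕ → ℝ} {w : ℕ → Fld}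
    {V : ℕ → Fin n → Face} (H : OmSeq O x a w V) (hO : IsOpen O) (hx : ∀ i, x i ∉ O)
    {S : ℕ → Face × Fin 4 → Face × Fin 4 → ℝ} (hS : ∀ᶠ k in atTop, Cov40 (w k) (S k)) {E : ℂ → ℂ}
    (hL : ColLim O x i a w V S E) {g : ℂ → ℂ} (hg : ContinuousOn g O)
    (hE : ∀ z ∈ O, E z * rX x z = g z) {K : Set ℂ} (hK : IsCompact K) (hKO : K ⊆ O) :
    ∃ C : ℝ, ∀ᶠ k in atTop, ∀ f : Face, meshPoint (a k) f ∈ K → ∀ h,
      |Phi x i (a k) (w k) (V k) (S k) f h| ≤ C := by
  have one : ∀ h, ∃ C : ℝ, ∀ᶠ k in atTop, ∀ f : Face, meshPoint (a k) f ∈ K →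
      |Phi x i (a k) (w k) (V k) (S k) f h| ≤ C := by
    intro h
    by_contra hc
    have hc' : ∀ m : ℕ, ∃ᶠ k in atTop, ∃ f : Face, meshPoint (a k) f ∈ K ∧
        (m : ℝ) < |Phi x i (a k) (w k) (V k) (S k) f h| := by
      intro m hm
      apply hc
      refine ⟨m, ?_⟩
      filter_upwards [hm] with k hk f hf
      by_contra h2
      exact hk ⟨f, hf, not_le.1 h2⟩
    obtain ⟨θ, hθ, hk⟩ := extraction_forall_of_frequently hc'
    choose f hfK hfm using hk
    obtain ⟨z₀, hz₀, η, hη, hlim⟩ := hK.tendsto_subseq hfK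
    have hθη : StrictMono (θ ∘ η) := hθ.comp hη
    have h1 := phi_tendsto (H.comp hθη) hO hx (hθη.tendsto_atTop.eventually hS)
      (colLim_comp hL hθη.tendsto_atTop) hg hE (hKO hz₀) (f := fun k => f (η k)) hlim h
    have h2 := h1.abs
    have h3 : Tendsto (fun k : ℕ => ((η k : ℕ) : ℝ)) atTop atTop :=
      tendsto_natCast_atTop_atTop.comp hη.tendsto_atTop
    have h4 : ∀ k, ((η k : ℕ) : ℝ) ≤ |gz x z₀ ((V ∘ θ ∘ η) k) (f (η k)) *
        Phi x i ((a ∘ θ ∘ η) k) ((w ∘ θ ∘ η) k) ((V ∘ θ ∘ η) k) ((S ∘ θ ∘ η) k) (f (η k)) h| := by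
      intro k
      rw [abs_mul, gz_abs, one_mul]
      exact (hfm (η k)).le
    have h5 := tendsto_atTop_mono h4 h3
    exact not_tendsto_nhds_of_tendsto_atTop h5 _ h2
  choose C hC using one
  refine ⟨Finset.univ.sup' Finset.univ_nonempty C, ?_⟩
  filter_upwards [eventually_all.2 hC] with k hk f hf h
  exact (hk h f hf).trans (Finset.le_sup' C (Finset.mem_univ h))

/-- limit at a generic point -/
theorem phi_tendsto_gen {O : Set ℂ} {x : Fin n → ℂ} {i : Fin n} {a : ℕ → ℝ} {w : ℕ → Fld}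
    {V : ℕ → Fin n → Face} (H : OmSeq O x a w V) (hO : IsOpen O) (hx : ∀ i, x i ∉ O)
    {S : ℕ → Face × Fin 4 → Face × Fin 4 → ℝ} (hS : ∀ᶠ k in atTop, Cov40 (w k) (S k)) {E : ℂ → ℂ}
    (hL : ColLim O x i a w V S E) {g : ℂ → ℂ} (hg : ContinuousOn g O)
    (hE : ∀ z ∈ O, E z * rX x z = g z) {u : ℂ} (hz : u ∈ O) (hu : ∀ i, (x i).im ≠ u.im)
    (h : Fin 4) :
    Tendsto (fun k => emb (a k) (fun f => Phi x i (a k) (w k) (V k) (S k) f h) u) atTop
      (𝓝 (lv (E u) h)) := by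
  have hP : Tendsto (fun k => meshPoint (a k) (meshIndex (a k) u)) atTop (𝓝 u) := by
    rw [tendsto_iff_norm_sub_tendsto_zero]
    refine squeeze_zero (fun _ => norm_nonneg _) (fun k => norm_mesh_sub (H.pos k) u) ?_
    simpa using H.lim.const_mul 2
  have h1 := phi_tendsto H hO hx hS hL hg hE hz hP h
  refine h1.congr fun k => ?_
  have : gz x u (V k) (meshIndex (a k) u) = 1 := by
    classical
    unfold gz
    refine Finset.prod_eq_one fun l _ => ?_
    rw [if_neg fun hc => hu l hc.1.1]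
  rw [this, one_mul]
  rfl

/-! ### the exact pairing -/

theorem sum_lvec (w φ : Fld) (V : Face) (K' : Finset Face) (h1 : V ∈ K')
    (h2 : (V.1, V.2 - 1) ∈ K') :
    ∑ f ∈ K', ∑ h, φ f h * lvec w V f h = φ V 0 - w V 0 * φ (V.1, V.2 - 1) 2 := by
  have hne : V ≠ (V.1, V.2 - 1) := by
    intro hc
    have := congrArg Prod.snd hc
    simp only at this
    omega
  have key : ∀ f, ∑ h, φ f h * lvec w V f h = (if f = V then φ V 0 else 0) +
      (if f = (V.1, V.2 - 1) then -(w V 0 * φ (V.1, V.2 - 1) 2) else 0) := by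
    intro f
    rw [Fin.sum_univ_four]
    unfold lvec
    by_cases c1 : f = V
    · subst c1
      have : ¬ (f = (f.1, f.2 - 1)) := hne
      simp [this]
    · by_cases c2 : f = (V.1, V.2 - 1)
      · subst c2
        have : ¬ ((V.1, V.2 - 1) = V) := fun h => hne h.symm
        simp [this]
        ring
      · simp [c1, c2]
  simp only [key]
  rw [Finset.sum_add_distrib, Finset.sum_ite_eq', Finset.sum_ite_eq', if_pos h1, if_pos h2]
  ring

/-- finite set containing the neighbours -/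
theorem exists_nbhd (K : Finset Face) : ∃ K' : Finset Face, K ⊆ K' ∧ ∀ f ∈ K, ∀ h, nb f h ∈ K' := by
  classical
  refine ⟨K ∪ K.biUnion fun f => Finset.univ.image fun h => nb f h, Finset.subset_union_left,
    fun f hf h => ?_⟩
  refine Finset.mem_union_right _ (Finset.mem_biUnion.2 ⟨f, hf, Finset.mem_image.2
    ⟨h, Finset.mem_univ h, rfl⟩⟩)

/-- **exact pairing**: `φ` solves the equation near the support of the cut-off `c` around the
insertion at `V` -/
theorem pair_exact {w φ : Fld} (hw : Sym w) {c γ : Face → ℝ} (hγ : ∀ f, γ f ^ 2 = 1) {V : Face}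
    (hc : {f | c f ≠ 0}.Finite)
    (hw' : ∀ f h, (c f ≠ 0 ∨ c (nb f h) ≠ 0) → w f h = γ f * γ (nb f h) * (rayw V f h * xc))
    (h1 : c V = 1) (h2 : c (V.1, V.2 - 1) = 1) (hφ : ∀ f, c f ≠ 0 → ∀ h, A w φ f h = 0)
    {a : ℝ} (ha : 0 < a) :
    γ V * (φ V 0 - w V 0 * φ (V.1, V.2 - 1) 2) =
      -(a * a ^ (1/2 : ℝ)) * ∑' f, ∑ h, gt a c γ V f h * φ f h := by
  classical
  set u : Fld := fun f h => c f * (γ f * psS V f h) with hu
  obtain ⟨K', hK', hnb⟩ := exists_nbhd hc.toFinset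
  have hsupp : Supp hc.toFinset u := by
    intro f hf
    have : c f = 0 := by
      by_contra h
      exact hf (by simpa using h)
    funext h
    simp [hu, this]
  have hA := A_antisymm hw φ u hc.toFinset K' hK' hsupp hnb
  have hL : ∑ f ∈ hc.toFinset, ∑ h, A w φ f h * u f h = 0 := by
    refine Finset.sum_eq_zero fun f hf => Finset.sum_eq_zero fun h _ => ?_
    rw [hφ f (by simpa using hf) h, zero_mul]
  rw [hL] at hA
  have hV : V ∈ K' := hK' (by simp [h1])
  have hV2 : (V.1, V.2 - 1) ∈ K' := hK' (by simp [h2])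
  have e1 : ∀ f h, A w u f h = -(γ V * lvec w V f h) - (a * a ^ (1/2 : ℝ)) * gt a c γ V f h := by
    intro f h
    rw [hu, cut_tip hγ hw' h1 h2]
    unfold gt
    have h3 : a ^ (1/2 : ℝ) * a ^ (-(1/2) : ℝ) = 1 := by
      rw [← Real.rpow_add ha]; norm_num
    have ha' := ha.ne'
    have e : -(a * a ^ (1/2 : ℝ)) * -(a⁻¹ * (c (nb f h) - c f) *
        (γ f * (a ^ (-(1/2) : ℝ) * Y (wT V) (psS V) f h))) =
        (a * a⁻¹) * (a ^ (1/2 : ℝ) * a ^ (-(1/2) : ℝ)) * ((c (nb f h) - c f) *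
          (γ f * Y (wT V) (psS V) f h)) := by ring
    have e' : (c (nb f h) - c f) * (γ f * Y (wT V) (psS V) f h) = -(a * a ^ (1/2 : ℝ)) *
        -(a⁻¹ * (c (nb f h) - c f) * (γ f * (a ^ (-(1/2) : ℝ) * Y (wT V) (psS V) f h))) := by
      rw [e, h3, mul_inv_cancel₀ ha']; ring
    rw [e']
    ring
  have e2 : ∑ f ∈ K', ∑ h, φ f h * A w u f h = -(γ V * ∑ f ∈ K', ∑ h, φ f h * lvec w V f h) -
      (a * a ^ (1/2 : ℝ)) * ∑ f ∈ K', ∑ h, gt a c γ V f h * φ f h := by
    rw [Finset.mul_sum, Finset.mul_sum, ← Finset.sum_neg_distrib, ← Finset.sum_sub_distrib]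
    refine Finset.sum_congr rfl fun f _ => ?_
    rw [Finset.mul_sum, Finset.mul_sum, ← Finset.sum_neg_distrib, ← Finset.sum_sub_distrib]
    refine Finset.sum_congr rfl fun h _ => ?_
    rw [e1]
    ring
  have e3 : ∑' f, ∑ h, gt a c γ V f h * φ f h = ∑ f ∈ K', ∑ h, gt a c γ V f h * φ f h := by
    refine tsum_eq_sum fun f hf => Finset.sum_eq_zero fun h _ => ?_
    have hcf : c f = 0 := by
      by_contra hh
      exact hf (hK' (by simpa using hh))
    have hcn : c (nb f h) = 0 := by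
      by_contra hh
      have := hnb (nb f h) (by simpa using hh) (op h)
      rw [nb_nb_op] at this
      exact hf this
    unfold gt
    rw [hcf, hcn]
    ring
  rw [e2, sum_lvec w φ V K' hV hV2] at hA
  rw [e3]
  linarith

end Crest.Agent.R165.Eta5x576
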