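import Crest.Agent.R165.ResInt_439
import Crest.Agent.R165.UB3_641
import Crest.Agent.R165.Gr3_813
import Crest.Agent.R165.Br8_644

/-!
# Row 165 (S0250), block U4 (helper644): continuum evaluation of the pairings at a branch point

* `pc χ c z d` : limit of the commutator `[A, χ_a] Ψ` at direction `d` if `Ψ → lv (c z)`
* `sum_pc` : `∑_d pc χ c z d * lv u d = x_c Re (i (χ_x + i χ_y) c u)`
* `pair_eval` : integrated form
* `lsg`, `Rloc` : local sign and local branch of `∏_{j ≠ i} (x_j - z)^{1/2}` near `x_i`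
* `eval_N` : pairing with `c = k zt z / z` : `2 π x_c kp Re (k 2 i A_i)`, in particular
  `Re ((1 + i) A_i)` for `k = kp (1 - i) / 2`
* `eval_S` : pairing with `c = - kp zt z` : `Re (g (x_j) / (i gsrc_j))`
-/

set_option autoImplicit false

noncomputable section

open MeasureTheory Set Filter Topology Metric Complex
open scoped ComplexConjugate

namespace Crest.Agent.R165.Evalx644

open Crest.Agent.R165.RIfx891 (lv)
open Crest.Agent.R165.UKerx420 (edir kap fpt)
open Crest.Agent.R165.U3x719 (rX rXa e8 IsBr Ai)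
open Crest.Agent.R165.UB3x641 (gsrc IsBrN kapX e8_sq)
open Crest.Agent.R165.Gr2x813 (sgd opd)
open Crest.Agent.R165.Br5x644 (zt kp kp_sq)
open Crest.Agent.R165.Latx683 (xc)

/-- the directions `S, E, N, W` -/
def dir (d : Fin 4) : ℂ := if d = 0 then -I else if d = 1 then 1 else if d = 2 then I else -1

/-- limit of the commutator with the cut-off `χ` of a field of amplitude `c` -/
def pc (χ : ℂ → ℝ) (c : ℂ → ℂ) (z : ℂ) (d : Fin 4) : ℝ :=
  fderiv ℝ χ z (dir d) * (sgd d * (xc * lv (c z) (opd d)))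

theorem lv_eq (c : ℂ) (d : Fin 4) : lv c d = (edir d * c).re := by
  have h2 : Real.sqrt 2 ≠ 0 := by positivity
  have e : ∀ a : ℝ, a / Real.sqrt 2 = a * Real.sqrt 2 / 2 := fun a => by
    rw [div_eq_div_iff h2 two_ne_zero, mul_assoc, Real.mul_self_sqrt (by norm_num)]
  fin_cases d
  · simp only [Fin.zero_eta, Fin.isValue, lv, edir, if_true, mul_re, e]; ring
  · simp [lv, edir]
  · simp only [Fin.reduceFinMk, Fin.isValue, lv, edir, Fin.reduceEq, if_false, if_true, mul_re, e]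
    ring
  · simp [lv, edir]

/-- product of two field values -/
theorem lv_mul (c u : ℂ) (d e : Fin 4) : lv c d * lv u e =
    (edir d * edir e * (c * u) + edir d * conj (edir e) * (c * conj u)).re / 2 := by
  rw [lv_eq, lv_eq]
  simp only [mul_re, add_re, mul_im, conj_re, conj_im]
  ring

theorem sum_pc (χ : ℂ → ℝ) (c : ℂ → ℂ) (z u : ℂ) :
    ∑ d, pc χ c z d * lv u d = xc * (I * (U3x719.db χ z * (c z * u))).re := by
  have h2 : Real.sqrt 2 ≠ 0 := by positivity
  have h3 : Real.sqrt 2 * Real.sqrt 2 = 2 := Real.mul_self_sqrt (by norm_num)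
  have e : ∀ a b : ℝ, (a / Real.sqrt 2) * (b / Real.sqrt 2) = a * b / 2 := fun a b => by
    rw [div_mul_div_comm, h3]
  have e0 : pc χ c z 0 * lv u 0 = (fderiv ℝ χ z I) * xc * (((c z).im - (c z).re) * (u.re + u.im) / 2) := by
    simp only [pc, dir, sgd, Gr2x813.opd_zero, lv, if_true, map_neg, Fin.isValue, true_or]
    have := e ((c z).im - (c z).re) (-(u.re + u.im))
    linear_combination (-(fderiv ℝ χ z I) * xc) * this
  have e1 : pc χ c z 1 * lv u 1 = (fderiv ℝ χ z 1) * xc * (-(c z).im * u.re) := by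
    simp only [pc, dir, sgd, Gr2x813.opd_one, lv, if_true, Fin.isValue, or_true, one_ne_zero,
      if_false]
    ring
  have e2 : pc χ c z 2 * lv u 2 = (fderiv ℝ χ z I) * xc * (((c z).re + (c z).im) * (u.im - u.re) / 2) := by
    simp only [pc, dir, sgd, Gr2x813.opd_two, lv, if_true, Fin.isValue, Fin.reduceEq, if_false,
      or_self]
    have := e (-((c z).re + (c z).im)) (u.im - u.re)
    linear_combination (-(fderiv ℝ χ z I) * xc) * this
  have e3 : pc χ c z 3 * lv u 3 = (fderiv ℝ χ z 1) * xc * (-(c z).re * u.im) := by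
    simp only [pc, dir, sgd, Gr2x813.opd_three, lv, Fin.isValue, Fin.reduceEq, if_false,
      or_self, map_neg]
    ring
  rw [Fin.sum_univ_four, e0, e1, e2, e3]
  simp only [U3x719.db, mul_re, mul_im, add_re, add_im, I_re, I_im, ofReal_re, ofReal_im]
  ring

/-! ### integration -/

/-- the cut-off around `x0`, complex valued -/
def chs (χ : ℂ → ℝ) (x0 : ℂ) (z : ℂ) : ℂ := (χ (z - x0) : ℂ)

theorem chs_contDiff {χ : ℂ → ℝ} (hχ : ContDiff ℝ 1 χ) (x0 : ℂ) : ContDiff ℝ 1 (chs χ x0) := by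
  unfold chs
  exact ofRealCLM.contDiff.comp (hχ.comp (contDiff_id.sub contDiff_const))

theorem fderiv_chs {χ : ℂ → ℝ} (hχ : ContDiff ℝ 1 χ) (x0 z v : ℂ) :
    fderiv ℝ (chs χ x0) z v = ((fderiv ℝ χ (z - x0) v : ℝ) : ℂ) := by
  have h1 : HasFDerivAt χ (fderiv ℝ χ (z - x0)) (z - x0) :=
    (hχ.differentiable one_ne_zero _).hasFDerivAt
  have h2 : HasFDerivAt (fun z : ℂ => z - x0) (ContinuousLinearMap.id ℝ ℂ) z :=
    (hasFDerivAt_id z).sub_const x0
  have h3 : HasFDerivAt (chs χ x0) (ofRealCLM.comp ((fderiv ℝ χ (z - x0)).comp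
      (ContinuousLinearMap.id ℝ ℂ))) z :=
    ofRealCLM.hasFDerivAt.comp z (HasFDerivAt.comp (f := fun z : ℂ => z - x0) z h1 h2)
  rw [h3.fderiv]
  rfl

theorem db_chs {χ : ℂ → ℝ} (hχ : ContDiff ℝ 1 χ) (x0 z : ℂ) :
    ResIntx439.db (chs χ x0) z = U3x719.db χ (z - x0) := by
  unfold ResIntx439.db U3x719.db
  rw [fderiv_chs hχ, fderiv_chs hχ]

theorem tsupport_chs {χ : ℂ → ℝ} {x0 : ℂ} {r : ℝ} (hs : tsupport χ ⊆ ball 0 r) :
    tsupport (chs χ x0) ⊆ ball x0 r := by
  have h1 : Function.support (chs χ x0) ⊆ (fun z => z - x0) ⁻¹' (tsupport χ) := by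
    intro z hz
    have : χ (z - x0) ≠ 0 := by
      intro h; apply hz; unfold chs; rw [h, ofReal_zero]
    exact subset_tsupport χ this
  have h2 : IsClosed ((fun z : ℂ => z - x0) ⁻¹' (tsupport χ)) :=
    (isClosed_tsupport χ).preimage (by fun_prop)
  intro z hz
  have h3 := hs (closure_minimal h1 h2 hz)
  rw [mem_ball, dist_zero_right] at h3
  rwa [mem_ball, dist_eq_norm]

theorem chs_one {χ : ℂ → ℝ} {x0 : ℂ} (h1 : χ =ᶠ[𝓝 0] fun _ => 1) :
    chs χ x0 =ᶠ[𝓝 x0] fun _ => 1 := by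
  have h2 : Tendsto (fun z : ℂ => z - x0) (𝓝 x0) (𝓝 0) := by
    have : Continuous fun z : ℂ => z - x0 := by fun_prop
    have h3 := this.tendsto x0
    rwa [sub_self] at h3
  filter_upwards [h2.eventually h1] with z hz
  unfold chs
  rw [hz, ofReal_one]

/-- partial derivatives vanish where the cut-off is locally constant -/
theorem tsupport_fderiv_chs {χ : ℂ → ℝ} {x0 : ℂ} {r : ℝ}
    (hs : tsupport χ ⊆ ball 0 r) (h1 : χ =ᶠ[𝓝 0] fun _ => 1) (v : ℂ) :
    tsupport (fun z => fderiv ℝ (chs χ x0) z v) ⊆ ball x0 r \ {x0} := by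
  have hcl : IsClosed (tsupport (chs χ x0)) := isClosed_tsupport _
  intro z hz
  constructor
  · have : Function.support (fun z => fderiv ℝ (chs χ x0) z v) ⊆ tsupport (chs χ x0) := fun w hw => by
      by_contra hcon
      apply hw
      have h2 : chs χ x0 =ᶠ[𝓝 w] fun _ => 0 := notMem_tsupport_iff_eventuallyEq.1 hcon
      show fderiv ℝ (chs χ x0) w v = 0
      rw [h2.fderiv_eq]
      simp
    exact tsupport_chs hs (closure_minimal this hcl hz)
  · rw [mem_singleton_iff]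
    rintro rfl
    have h4 : (fun w => fderiv ℝ (chs χ z) w v) =ᶠ[𝓝 z] fun _ => 0 := by
      filter_upwards [(chs_one (x0 := z) h1).eventuallyEq_nhds] with w hw
      rw [hw.fderiv_eq]
      simp
    exact (notMem_tsupport_iff_eventuallyEq.2 h4) hz

/-- **pairing of the commutator with a column** -/
theorem pair_eval {x0 : ℂ} {r : ℝ} {χ : ℂ → ℝ} (hχ : ContDiff ℝ 1 χ)
    (hs : tsupport χ ⊆ ball 0 r) (h1 : χ =ᶠ[𝓝 0] fun _ => 1) {c u P1 P2 : ℂ → ℂ}
    (hP1 : ContinuousOn P1 (ball x0 r \ {x0})) (hP2 : ContinuousOn P2 (ball x0 r \ {x0}))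
    (e1 : ∀ᵐ z, z ∈ ball x0 r → z ≠ x0 → c (z - x0) * u z = P1 z)
    (e2 : ∀ᵐ z, z ∈ ball x0 r → z ≠ x0 → c (z - x0) * conj (u z) = P2 z) :
    (∀ d, Integrable fun z => pc χ c (z - x0) d * lv (u z) d) ∧
    ∑ d, ∫ z, pc χ c (z - x0) d * lv (u z) d =
      xc * (I * ∫ z, ResIntx439.db (chs χ x0) z * P1 z).re := by
  have hopen : IsOpen (ball x0 r \ {x0}) := isOpen_ball.sdiff isClosed_singleton
  have hint : ∀ d, Integrable fun z => pc χ c (z - x0) d * lv (u z) d := by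
    intro d
    have hc1 : Continuous fun z => fderiv ℝ (chs χ x0) z (dir d) :=
      ((chs_contDiff hχ x0).continuous_fderiv one_ne_zero).clm_apply continuous_const
    have hts := tsupport_fderiv_chs (x0 := x0) hs h1 (dir d)
    have hcs : HasCompactSupport fun z => fderiv ℝ (chs χ x0) z (dir d) :=
      ResIntx439.hcs_of_tsupport_ball (hts.trans sdiff_subset)
    set F : ℂ → ℂ := fun z => ((sgd d * xc / 2 : ℝ) : ℂ) *
      (edir (opd d) * edir d * P1 z + edir (opd d) * conj (edir d) * P2 z) with hF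
    have hFc : ContinuousOn F (ball x0 r \ {x0}) := by
      exact continuousOn_const.mul ((continuousOn_const.mul hP1).add (continuousOn_const.mul hP2))
    have hi : Integrable fun z => fderiv ℝ (chs χ x0) z (dir d) * F z :=
      ResIntx439.integrable_mul_of hc1 hcs fun z hz => hFc.continuousAt (hopen.mem_nhds (hts hz))
    refine hi.re.congr ?_
    filter_upwards [e1, e2] with z h2 h3
    by_cases hz : z ∈ ball x0 r ∧ z ≠ x0
    · have h4 := h2 hz.1 hz.2
      have h5 := h3 hz.1 hz.2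
      simp only [hF, ← h4, ← h5, fderiv_chs hχ, pc]
      have h6 := lv_mul (c (z - x0)) (u z) (opd d) d
      have h7 : ∀ (p q : ℝ) (w : ℂ), RCLike.re ((p : ℂ) * ((q : ℂ) * w)) = p * (q * w.re) := by
        intro p q w
        change ((p : ℂ) * ((q : ℂ) * w)).re = _
        rw [re_ofReal_mul, re_ofReal_mul]
      rw [h7]
      linear_combination (-(fderiv ℝ χ (z - x0) (dir d)) * sgd d * xc) * h6
    · have hz' : z ∉ ball x0 r \ {x0} := fun h => hz ⟨h.1, h.2⟩
      have h4 : fderiv ℝ (chs χ x0) z (dir d) = 0 := by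
        have := mt (fun h => hts h) hz'
        exact image_eq_zero_of_notMem_tsupport (f := fun z => fderiv ℝ (chs χ x0) z (dir d)) this
      have h5 := h4
      rw [fderiv_chs hχ, ofReal_eq_zero] at h5
      simp only [h4, zero_mul, pc, h5, map_zero]
  refine ⟨hint, ?_⟩
  rw [← integral_finsetSum _ fun d _ => hint d]
  have hi2 : Integrable fun z => ResIntx439.db (chs χ x0) z * P1 z :=
    ResIntx439.integrable_db_mul hP1 (chs_contDiff hχ x0) (tsupport_chs hs) (chs_one h1)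
  have e3 : (fun z => ∑ d, pc χ c (z - x0) d * lv (u z) d) =ᵐ[volume]
      fun z => xc * (I * (ResIntx439.db (chs χ x0) z * P1 z)).re := by
    filter_upwards [e1] with z h2
    rw [sum_pc, db_chs hχ]
    by_cases hz : z ∈ ball x0 r ∧ z ≠ x0
    · rw [h2 hz.1 hz.2]
    · have hz' : z ∉ ball x0 r \ {x0} := fun h => hz ⟨h.1, h.2⟩
      have h4 : ∀ v, fderiv ℝ χ (z - x0) v = 0 := by
        intro v
        have := mt (fun h => (tsupport_fderiv_chs (x0 := x0) hs h1 v) h) hz'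
        have h5 := image_eq_zero_of_notMem_tsupport (f := fun z => fderiv ℝ (chs χ x0) z v) this
        rwa [fderiv_chs hχ, ofReal_eq_zero] at h5
      have h5 : U3x719.db χ (z - x0) = 0 := by
        unfold U3x719.db
        rw [h4, h4]
        simp
      rw [h5]
      simp
  rw [integral_congr_ae e3, integral_const_mul]
  congr 1
  have e4 : ∫ z, (I * (ResIntx439.db (chs χ x0) z * P1 z)).re =
      (∫ z, I * (ResIntx439.db (chs χ x0) z * P1 z)).re := by
    have := integral_re (𝕜 := ℂ) (hi2.const_mul I)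
    exact this
  rw [e4, integral_const_mul]

/-! ### local sign and local square root -/

section loc

variable {n : ℕ}

/-- local sign near `x_i` -/
def lsg (x : Fin n → ℂ) (i : Fin n) (z : ℂ) : ℝ := by
  classical
  exact ∏ j, if (x j).im = (x i).im ∧ (x j).re < (x i).re ∧ z.im < (x i).im then (-1 : ℝ) else 1

/-- branch of `∏_{j ≠ i} (x_j - z)^{1/2}` near `x_i` -/
def Rloc (x : Fin n → ℂ) (i : Fin n) (z : ℂ) : ℂ := by
  classical
  exact ∏ j ∈ Finset.univ.erase i, if (x j).im = (x i).im ∧ (x j).re < (x i).re then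
    -I * (z - x j) ^ (1 / 2 : ℂ) else (x j - z) ^ (1 / 2 : ℂ)

/-- separation radius -/
def Sep (x : Fin n → ℂ) (i : Fin n) (r : ℝ) : Prop :=
  ∀ j, j ≠ i → ((x j).im = (x i).im → r ≤ |(x j).re - (x i).re|) ∧
    ((x j).im ≠ (x i).im → r ≤ |(x j).im - (x i).im|)

theorem Sep.mono {x : Fin n → ℂ} {i : Fin n} {r r' : ℝ} (h : Sep x i r) (hr : r' ≤ r) :
    Sep x i r' := fun j hj => ⟨fun h1 => hr.trans ((h j hj).1 h1), fun h1 => hr.trans ((h j hj).2 h1)⟩

theorem exists_sep {x : Fin n → ℂ} (hx : Function.Injective x) (i : Fin n) :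
    ∃ r : ℝ, 0 < r ∧ Sep x i r := by
  have h1 : ∀ j, ∃ δ : ℝ, 0 < δ ∧ (j ≠ i → ((x j).im = (x i).im → δ ≤ |(x j).re - (x i).re|) ∧
      ((x j).im ≠ (x i).im → δ ≤ |(x j).im - (x i).im|)) := by
    intro j
    by_cases hj : j = i
    · exact ⟨1, one_pos, fun h => absurd hj h⟩
    by_cases him : (x j).im = (x i).im
    · have hre : (x j).re ≠ (x i).re := fun h => hj (hx (Complex.ext h him))
      exact ⟨_, abs_pos.2 (sub_ne_zero.2 hre), fun _ => ⟨fun _ => le_rfl, fun h => absurd him h⟩⟩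
    · exact ⟨_, abs_pos.2 (sub_ne_zero.2 him), fun _ => ⟨fun h => absurd h him, fun _ => le_rfl⟩⟩
  choose δ hδ hδ' using h1
  have hne : (Finset.univ : Finset (Fin n)).Nonempty := ⟨i, Finset.mem_univ i⟩
  have h2 : ∀ j, Finset.univ.inf' hne δ ≤ δ j := fun j => Finset.inf'_le _ (Finset.mem_univ j)
  exact ⟨Finset.univ.inf' hne δ, (Finset.lt_inf'_iff hne).2 fun j _ => hδ j, fun j hj =>
    ⟨fun h => (h2 j).trans ((hδ' j hj).1 h), fun h => (h2 j).trans ((hδ' j hj).2 h)⟩⟩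

theorem sqrt_above {w : ℂ} (h : 0 < w.im) : (-w) ^ (1 / 2 : ℂ) = -I * w ^ (1 / 2 : ℂ) := by
  have hw : w ≠ 0 := by rintro rfl; simp at h
  rw [cpow_def_of_ne_zero (neg_ne_zero.2 hw), cpow_def_of_ne_zero hw, Complex.log, Complex.log,
    norm_neg, arg_neg_eq_arg_sub_pi_of_im_pos h]
  have e : ((Real.log ‖w‖ : ℂ) + ((w.arg - Real.pi : ℝ) : ℂ) * I) * (1 / 2) =
      ((Real.log ‖w‖ : ℂ) + (w.arg : ℂ) * I) * (1 / 2) + -(Real.pi / 2 * I) := by
    push_cast; ring
  rw [e, Complex.exp_add, Complex.exp_neg, exp_pi_div_two_mul_I, inv_I]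
  ring

theorem sqrt_below {w : ℂ} (h : w.im < 0) : (-w) ^ (1 / 2 : ℂ) = I * w ^ (1 / 2 : ℂ) := by
  have hw : w ≠ 0 := by rintro rfl; simp at h
  rw [cpow_def_of_ne_zero (neg_ne_zero.2 hw), cpow_def_of_ne_zero hw, Complex.log, Complex.log,
    norm_neg, arg_neg_eq_arg_add_pi_of_im_neg h]
  have e : ((Real.log ‖w‖ : ℂ) + ((w.arg + Real.pi : ℝ) : ℂ) * I) * (1 / 2) =
      ((Real.log ‖w‖ : ℂ) + (w.arg : ℂ) * I) * (1 / 2) + (Real.pi / 2 * I) := by
    push_cast; ring
  rw [e, Complex.exp_add, exp_pi_div_two_mul_I]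
  ring

theorem sqrt_on {w : ℂ} (h : w.im = 0) (h' : 0 < w.re) :
    (-w) ^ (1 / 2 : ℂ) = I * w ^ (1 / 2 : ℂ) := by
  have hw : w ≠ 0 := by rintro rfl; simp at h'
  have h1 : w = (w.re : ℂ) := Complex.ext (by simp) (by simp [h])
  have h2 : arg w = 0 := by rw [h1]; exact arg_ofReal_of_nonneg h'.le
  have h3 : arg (-w) = Real.pi := by
    rw [h1, ← ofReal_neg]; exact arg_ofReal_of_neg (by linarith)
  rw [cpow_def_of_ne_zero (neg_ne_zero.2 hw), cpow_def_of_ne_zero hw, Complex.log, Complex.log,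
    norm_neg, h2, h3]
  have e : ((Real.log ‖w‖ : ℂ) + (Real.pi : ℂ) * I) * (1 / 2) =
      ((Real.log ‖w‖ : ℂ) + ((0 : ℝ) : ℂ) * I) * (1 / 2) + (Real.pi / 2 * I) := by
    push_cast; ring
  rw [e, Complex.exp_add, exp_pi_div_two_mul_I]
  ring

theorem sq_half (w : ℂ) : (w ^ (1 / 2 : ℂ)) ^ 2 = w := by
  rw [← Complex.cpow_nat_mul]
  norm_num

theorem lsg_sq (x : Fin n → ℂ) (i : Fin n) (z : ℂ) : lsg x i z * lsg x i z = 1 := by
  unfold lsg
  rw [← Finset.prod_mul_distrib]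
  refine Finset.prod_eq_one fun j _ => ?_
  split_ifs <;> norm_num

/-- off the line through `x_i` -/
theorem lsg_mul_rX (x : Fin n → ℂ) (i : Fin n) {z : ℂ} (hz : z.im ≠ (x i).im) :
    (lsg x i z : ℂ) * rX x z = (x i - z) ^ (1 / 2 : ℂ) * Rloc x i z := by
  classical
  unfold lsg rX Rloc
  rw [ofReal_prod, ← Finset.prod_mul_distrib,
    ← Finset.mul_prod_erase Finset.univ _ (Finset.mem_univ i)]
  congr 1
  · rw [if_neg (fun h => absurd h.2.1 (lt_irrefl _))]; simp
  · refine Finset.prod_congr rfl fun j _ => ?_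
    by_cases hc : (x j).im = (x i).im ∧ (x j).re < (x i).re
    · rw [if_pos hc]
      have e : x j - z = -(z - x j) := by ring
      rcases lt_or_gt_of_ne hz with h | h
      · rw [if_pos ⟨hc.1, hc.2, h⟩, e, sqrt_below (by rw [sub_im, hc.1]; linarith)]
        push_cast; ring
      · rw [if_neg (fun h' => absurd h'.2.2 (not_lt.2 h.le)), e,
          sqrt_above (by rw [sub_im, hc.1]; linarith)]
        push_cast; ring
    · rw [if_neg hc, if_neg (fun h => hc ⟨h.1, h.2.1⟩)]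
      push_cast; ring

theorem Rloc_sq (x : Fin n → ℂ) (i : Fin n) (z : ℂ) :
    Rloc x i z ^ 2 = ∏ j ∈ Finset.univ.erase i, (x j - z) := by
  classical
  unfold Rloc
  rw [← Finset.prod_pow]
  refine Finset.prod_congr rfl fun j _ => ?_
  split_ifs
  · rw [mul_pow, sq_half, neg_sq, I_sq]; ring
  · exact sq_half _

theorem e8_Rloc (x : Fin n → ℂ) (i : Fin n) : e8 * Rloc x i (x i) = gsrc x i := by
  classical
  unfold Rloc gsrc
  congr 1
  refine Finset.prod_congr rfl fun j _ => ?_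
  by_cases hc : (x j).im = (x i).im ∧ (x j).re < (x i).re
  · rw [if_pos hc, if_pos hc]
    have e : x j - x i = -(x i - x j) := by ring
    rw [e, sqrt_on (by rw [sub_im, hc.1, sub_self]) (by rw [sub_re]; linarith [hc.2])]
    ring
  · rw [if_neg hc, if_neg hc, one_mul]

theorem sep_ne {x : Fin n → ℂ} {i : Fin n} {r : ℝ} (hr : Sep x i r) {z : ℂ} (hz : z ∈ ball (x i) r)
    {j : Fin n} (hj : j ≠ i) : x j - z ≠ 0 := by
  intro h
  have h1 : x j = z := sub_eq_zero.1 h
  rw [mem_ball, dist_eq_norm, ← h1] at hz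
  have hre := (abs_re_le_norm _).trans_lt hz
  have him := (abs_im_le_norm _).trans_lt hz
  rw [sub_re] at hre
  rw [sub_im] at him
  by_cases h2 : (x j).im = (x i).im
  · exact absurd ((hr j hj).1 h2) (not_le.2 hre)
  · exact absurd ((hr j hj).2 h2) (not_le.2 him)

theorem Rloc_ne {x : Fin n → ℂ} {i : Fin n} {r : ℝ} (hr : Sep x i r) {z : ℂ}
    (hz : z ∈ ball (x i) r) : Rloc x i z ≠ 0 := by
  intro h
  have h1 := Rloc_sq x i z
  rw [h, zero_pow two_ne_zero] at h1
  exact (Finset.prod_ne_zero_iff.2 fun j hj => sep_ne hr hz (Finset.ne_of_mem_erase hj)) h1.symm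

theorem Rloc_diff {x : Fin n → ℂ} {i : Fin n} {r : ℝ} (hr : Sep x i r) :
    DifferentiableOn ℂ (Rloc x i) (ball (x i) r) := by
  classical
  unfold Rloc
  refine DifferentiableOn.fun_finsetProd fun j hj => ?_
  have hj := Finset.ne_of_mem_erase hj
  obtain ⟨ha, hb⟩ := hr j hj
  intro z hz
  rw [mem_ball, dist_eq_norm] at hz
  have hre := (abs_re_le_norm _).trans_lt hz
  have him := (abs_im_le_norm _).trans_lt hz
  rw [sub_re, abs_lt] at hre
  rw [sub_im, abs_lt] at him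
  by_cases hc : (x j).im = (x i).im ∧ (x j).re < (x i).re
  · simp only [if_pos hc]
    have h1 := ha hc.1
    rw [abs_of_neg (by linarith [hc.2])] at h1
    have hs : z - x j ∈ slitPlane := Or.inl (by rw [sub_re]; linarith)
    exact (DifferentiableAt.const_mul ((differentiableAt_id.sub_const _).cpow_const hs)
      _).differentiableWithinAt
  · simp only [if_neg hc]
    have hs : x j - z ∈ slitPlane := by
      by_cases h2 : (x j).im = (x i).im
      · have h3 : (x i).re ≤ (x j).re := not_lt.1 fun h => hc ⟨h2, h⟩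
        have h1 := ha h2
        rw [abs_of_nonneg (by linarith)] at h1
        exact Or.inl (by rw [sub_re]; linarith)
      · refine Or.inr ?_
        have h1 := hb h2
        rw [sub_im]
        intro h3
        rcases le_total (x j).im (x i).im with h4 | h4
        · rw [abs_of_nonpos (by linarith)] at h1; linarith
        · rw [abs_of_nonneg (by linarith)] at h1; linarith
    exact (((differentiableAt_const _).sub differentiableAt_id).cpow_const hs).differentiableWithinAt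

/-- the logarithmic derivative in terms of `m = g / Rloc` -/
theorem Ai_eq {x : Fin n → ℂ} {i : Fin n} {r : ℝ} (hr0 : 0 < r) (hr : Sep x i r) {g : ℂ → ℂ}
    (hg : DifferentiableOn ℂ g (ball (x i) r)) (hgi : g (x i) = gsrc x i) :
    e8 * deriv (fun z => g z / Rloc x i z) (x i) = 2 * I * Ai x i g := by
  have hm : DifferentiableAt ℂ (fun z => g z / Rloc x i z) (x i) :=
    ((hg.div (Rloc_diff hr) fun z hz => Rloc_ne hr hz).differentiableAt
      (isOpen_ball.mem_nhds (mem_ball_self hr0)))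
  have e1 : (fun z => -I * g z ^ 2 / ∏ j ∈ Finset.univ.erase i, (x j - z)) =
      fun z => -I * (g z / Rloc x i z) ^ 2 := by
    funext z
    rw [← Rloc_sq, div_pow, mul_div_assoc]
  have e2 : g (x i) / Rloc x i (x i) = e8 := by
    rw [hgi, ← e8_Rloc, mul_div_cancel_right₀ _ (Rloc_ne hr (mem_ball_self hr0))]
  unfold Ai
  rw [e1]
  have h3 : HasDerivAt (fun z => -I * (g z / Rloc x i z) ^ 2)
      (-I * (((2 : ℕ) : ℂ) * (g (x i) / Rloc x i (x i)) ^ (2 - 1) *
        deriv (fun z => g z / Rloc x i z) (x i))) (x i) :=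
    (hm.hasDerivAt.pow 2).const_mul (-I)
  rw [h3.deriv, e2]
  have := I_mul_I
  norm_num
  linear_combination (e8 * deriv (fun z => g z / Rloc x i z) (x i)) * this

/-! ### the column near `x_i` -/

/-- amplitude of the column (source at an insertion, spinor `g`) in the local gauge at `x_i` -/
def ucol (x : Fin n → ℂ) (i : Fin n) (g : ℂ → ℂ) (z : ℂ) : ℂ :=
  (lsg x i z : ℂ) * ((kp : ℂ) * (e8 * (g z / rXa x z)))

theorem lv_ucol (x : Fin n → ℂ) (i : Fin n) (g : ℂ → ℂ) (z : ℂ) (d : Fin 4) :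
    lv (ucol x i g z) d = lsg x i z * (kp * (edir d * e8 * (g z / rXa x z)).re) := by
  rw [lv_eq, ucol]
  have : edir d * ((lsg x i z : ℂ) * ((kp : ℂ) * (e8 * (g z / rXa x z)))) =
      (lsg x i z : ℂ) * ((kp : ℂ) * (edir d * e8 * (g z / rXa x z))) := by ring
  rw [this, re_ofReal_mul, re_ofReal_mul]

theorem ae_im_ne (c : ℝ) : ∀ᵐ z : ℂ, z.im ≠ c := by
  have h1 : volume {z : ℂ | z.im = c} = 0 := by
    have h2 : ∀ᵐ p : ℝ × ℝ ∂(volume.prod volume), p.2 ≠ c := by
      have h3 : ∀ᵐ y : ℝ, y ≠ c := by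
        rw [ae_iff]; simp
      exact (Measure.quasiMeasurePreserving_snd (μ := (volume : Measure ℝ)) (ν := (volume : Measure ℝ))).ae h3
    have h4 := Complex.volume_preserving_equiv_real_prod.quasiMeasurePreserving.ae h2
    rw [ae_iff] at h4
    simpa using h4
  rw [ae_iff]
  simpa using h1

theorem rXa_eq {x : Fin n → ℂ} {z : ℂ} (hz : ∀ j, z.im ≠ (x j).im) : rXa x z = rX x z := by
  classical
  unfold rXa
  rw [Finset.prod_eq_one fun j _ => if_neg fun h => hz j h.1.symm, one_mul]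

/-- the column is `kp e8 m (x_i - z)^{-1/2}` -/
theorem ucol_eq {x : Fin n → ℂ} {i : Fin n} {g : ℂ → ℂ} {z : ℂ} (hz : ∀ j, z.im ≠ (x j).im) :
    ucol x i g z = (kp : ℂ) * e8 * (g z / Rloc x i z) * (x i - z) ^ (-(1/2) : ℂ) := by
  have h1 := lsg_mul_rX x i (hz i)
  have h2 : ((lsg x i z : ℝ) : ℂ) * (lsg x i z : ℂ) = 1 := by
    rw [← ofReal_mul, lsg_sq, ofReal_one]
  have h3 : (lsg x i z : ℂ) ≠ 0 := left_ne_zero_of_mul_eq_one h2
  have h4 : (lsg x i z : ℂ) / rX x z = 1 / ((lsg x i z : ℂ) * rX x z) := by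
    by_cases h : rX x z = 0
    · rw [h]; simp
    · rw [div_eq_div_iff h (mul_ne_zero h3 h)]
      linear_combination (rX x z) * h2
  rw [ucol, rXa_eq hz, cpow_neg]
  calc (lsg x i z : ℂ) * ((kp : ℂ) * (e8 * (g z / rX x z)))
      = (kp : ℂ) * e8 * g z * ((lsg x i z : ℂ) / rX x z) := by ring
    _ = _ := by rw [h4, h1, one_div, mul_inv]; ring

theorem zt_sub (x0 z : ℂ) : zt (z - x0) = -I * (x0 - z) ^ (-(1/2) : ℂ) := by
  unfold zt; rw [neg_sub]

theorem half_mul (w : ℂ) (hw : w ≠ 0) :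
    w ^ (-(1/2) : ℂ) * w ^ (-(1/2) : ℂ) = w⁻¹ := by
  rw [← cpow_add _ _ hw, ← cpow_neg_one]
  norm_num

theorem half_conj (w : ℂ) :
    w ^ (-(1/2) : ℂ) * conj (w ^ (-(1/2) : ℂ)) = ((‖w‖ ^ (-(1/2) : ℝ)) ^ 2 : ℝ) := by
  rw [mul_conj, normSq_eq_norm_sq]
  have := Complex.norm_cpow_real w (-(1/2) : ℝ)
  push_cast at this ⊢
  rw [this]

/-- `∏ g / Rloc` is continuous near `x_i` -/
theorem m_diff {x : Fin n → ℂ} {i : Fin n} {r : ℝ} (hr : Sep x i r) {g : ℂ → ℂ}
    (hg : DifferentiableOn ℂ g (ball (x i) r)) :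
    DifferentiableOn ℂ (fun z => g z / Rloc x i z) (ball (x i) r) :=
  hg.div (Rloc_diff hr) fun _ hz => Rloc_ne hr hz

theorem cont_norm (x0 : ℂ) (r : ℝ) :
    ContinuousOn (fun z : ℂ => (((‖x0 - z‖ ^ (-(1/2) : ℝ)) ^ 2 : ℝ) : ℂ)) (ball x0 r \ {x0}) := by
  refine continuous_ofReal.comp_continuousOn (ContinuousOn.pow ?_ 2)
  refine ContinuousOn.rpow_const (by fun_prop) fun z hz => Or.inl ?_
  rw [norm_ne_zero_iff, sub_ne_zero]
  exact fun h => hz.2 h.symm

/-- **evaluation, double pole** (diagonal steps) -/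
theorem eval_gen {x : Fin n → ℂ} {i : Fin n} {r : ℝ} (hr0 : 0 < r) (hr : Sep x i r)
    {g : ℂ → ℂ} (hg : DifferentiableOn ℂ g (ball (x i) r)) (hgi : g (x i) = gsrc x i)
    {χ : ℂ → ℝ} (hχ : ContDiff ℝ 1 χ) (hs : tsupport χ ⊆ ball 0 r) (h1 : χ =ᶠ[𝓝 0] fun _ => 1)
    (k : ℂ) :
    (∀ d, Integrable fun z => pc χ (fun w => k * (zt w / w)) (z - x i) d * lv (ucol x i g z) d) ∧
    ∑ d, ∫ z, pc χ (fun w => k * (zt w / w)) (z - x i) d * lv (ucol x i g z) d =
      2 * Real.pi * xc * kp * (k * (2 * I) * Ai x i g).re := by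
  set m : ℂ → ℂ := fun z => g z / Rloc x i z with hm
  have hmd := m_diff hr hg
  have hae : ∀ᵐ z : ℂ, ∀ j, z.im ≠ (x j).im := ae_all_iff.2 fun j => ae_im_ne _
  set K : ℂ := k * kp * e8 * I with hK
  have hmc : ContinuousOn m (ball (x i) r \ {x i}) := hmd.continuousOn.mono sdiff_subset
  obtain ⟨ha, hb⟩ := pair_eval (x0 := x i) hχ hs h1 (c := fun w => k * (zt w / w))
    (u := ucol x i g) (P1 := fun z => K * m z / (z - x i) ^ 2)
    (P2 := fun z => k * kp * (-I) * ((((‖x i - z‖ ^ (-(1/2) : ℝ)) ^ 2 : ℝ) : ℂ)) * conj (e8 * m z)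
      / (z - x i))
    ((continuousOn_const.mul hmc).div (by fun_prop) fun z hz =>
      pow_ne_zero 2 (sub_ne_zero.2 hz.2))
    (((continuousOn_const.mul (cont_norm _ _)).mul
      (continuous_conj.comp_continuousOn (continuousOn_const.mul hmc))).div (by fun_prop)
        fun z hz => sub_ne_zero.2 hz.2)
    (by
      filter_upwards [hae] with z hz _ hzx
      have h2 : z - x i ≠ 0 := sub_ne_zero.2 hzx
      have h3 : x i - z ≠ 0 := sub_ne_zero.2 (Ne.symm hzx)
      rw [ucol_eq hz, zt_sub]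
      have h4 := half_mul (x i - z) h3
      have h5 : (x i - z)⁻¹ = -(z - x i)⁻¹ := by rw [← neg_sub, neg_inv]
      rw [h5] at h4
      simp only [hm, hK]
      calc k * (-I * (x i - z) ^ (-(1/2) : ℂ) / (z - x i)) *
            ((kp : ℂ) * e8 * (g z / Rloc x i z) * (x i - z) ^ (-(1/2) : ℂ))
          = k * kp * e8 * (-I) * (g z / Rloc x i z) / (z - x i) *
            ((x i - z) ^ (-(1/2) : ℂ) * (x i - z) ^ (-(1/2) : ℂ)) := by ring
        _ = _ := by rw [h4]; field_simp)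
    (by
      filter_upwards [hae] with z hz _ hzx
      rw [ucol_eq hz, zt_sub]
      have h4 := half_conj (x i - z)
      rw [← h4]
      simp only [map_mul, conj_ofReal, hm]
      ring)
  refine ⟨ha, ?_⟩
  rw [hb]
  have e1 := ResIntx439.integral_db_pole2 (x := x i) hr0 (H := fun z => K * m z / (z - x i) ^ 2)
    (g := fun z => K * m z) (hmd.const_mul K) (fun z _ hzx => by
      have : (z - x i) ^ 2 ≠ 0 := pow_ne_zero 2 (sub_ne_zero.2 hzx)
      field_simp) (chs_contDiff hχ (x i)) (tsupport_chs hs) (chs_one h1)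
  rw [e1]
  have hmi : DifferentiableAt ℂ m (x i) := hmd.differentiableAt (isOpen_ball.mem_nhds (mem_ball_self hr0))
  rw [deriv_const_mul K hmi]
  have e2 := Ai_eq hr0 hr hg hgi
  have e3 : I * (-(2 * Real.pi) * (K * deriv m (x i))) =
      ((2 * Real.pi * kp : ℝ) : ℂ) * (k * (2 * I) * Ai x i g) := by
    have := I_mul_I
    rw [mul_assoc k, ← e2, hK]
    push_cast
    linear_combination (-(2 * Real.pi * (k * kp * e8) * deriv m (x i))) * this
  rw [e3, re_ofReal_mul]
  ring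

/-- step `(1, 1)` -/
theorem eval_N {x : Fin n → ℂ} {i : Fin n} {r : ℝ} (hr0 : 0 < r) (hr : Sep x i r)
    {g : ℂ → ℂ} (hg : DifferentiableOn ℂ g (ball (x i) r)) (hgi : g (x i) = gsrc x i)
    {χ : ℂ → ℝ} (hχ : ContDiff ℝ 1 χ) (hs : tsupport χ ⊆ ball 0 r) (h1 : χ =ᶠ[𝓝 0] fun _ => 1) :
    ∑ d, ∫ z, pc χ (fun w => kp * ((1 - I) / 2) * (zt w / w)) (z - x i) d * lv (ucol x i g z) d =
      ((1 + I) * Ai x i g).re := by
  rw [(eval_gen hr0 hr hg hgi hχ hs h1 _).2]
  have h2 := kp_sq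
  have e : (kp : ℂ) * ((1 - I) / 2) * (2 * I) * Ai x i g = (kp : ℂ) * ((1 + I) * Ai x i g) := by
    have := I_mul_I
    linear_combination (-(kp : ℂ) * Ai x i g) * this
  rw [e, re_ofReal_mul]
  calc 2 * Real.pi * xc * kp * (kp * ((1 + I) * Ai x i g).re)
      = (2 * Real.pi * Crest.Agent.R165.Latx683.xc * kp ^ 2) * ((1 + I) * Ai x i g).re := by ring
    _ = _ := by
      have h3 : 2 * Real.pi * Crest.Agent.R165.Latx683.xc * kp ^ 2 = 1 := h2
      rw [h3, one_mul]

/-- step `(1, -1)` -/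
theorem eval_N2 {x : Fin n → ℂ} {i : Fin n} {r : ℝ} (hr0 : 0 < r) (hr : Sep x i r)
    {g : ℂ → ℂ} (hg : DifferentiableOn ℂ g (ball (x i) r)) (hgi : g (x i) = gsrc x i)
    {χ : ℂ → ℝ} (hχ : ContDiff ℝ 1 χ) (hs : tsupport χ ⊆ ball 0 r) (h1 : χ =ᶠ[𝓝 0] fun _ => 1) :
    ∑ d, ∫ z, pc χ (fun w => kp * ((1 + I) / 2) * (zt w / w)) (z - x i) d * lv (ucol x i g z) d =
      -((1 - I) * Ai x i g).re := by
  rw [(eval_gen hr0 hr hg hgi hχ hs h1 _).2]
  have h2 := kp_sq
  have e : (kp : ℂ) * ((1 + I) / 2) * (2 * I) * Ai x i g = (kp : ℂ) * (-((1 - I) * Ai x i g)) := by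
    have := I_mul_I
    linear_combination ((kp : ℂ) * Ai x i g) * this
  rw [e, re_ofReal_mul, neg_re]
  calc 2 * Real.pi * xc * kp * (kp * -((1 - I) * Ai x i g).re)
      = (2 * Real.pi * Crest.Agent.R165.Latx683.xc * kp ^ 2) * -((1 - I) * Ai x i g).re := by ring
    _ = _ := by
      have h3 : 2 * Real.pi * Crest.Agent.R165.Latx683.xc * kp ^ 2 = 1 := h2
      rw [h3, one_mul]

/-- **evaluation, simple pole** (two insertions) -/
theorem eval_S {x : Fin n → ℂ} {j : Fin n} {r : ℝ} (hr0 : 0 < r) (hr : Sep x j r)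
    {g : ℂ → ℂ} (hg : DifferentiableOn ℂ g (ball (x j) r))
    {χ : ℂ → ℝ} (hχ : ContDiff ℝ 1 χ) (hs : tsupport χ ⊆ ball 0 r) (h1 : χ =ᶠ[𝓝 0] fun _ => 1) :
    (∀ d, Integrable fun z => pc χ (fun w => -(kp : ℂ) * zt w) (z - x j) d * lv (ucol x j g z) d) ∧
    ∑ d, ∫ z, pc χ (fun w => -(kp : ℂ) * zt w) (z - x j) d * lv (ucol x j g z) d =
      (g (x j) / (I * gsrc x j)).re := by
  set m : ℂ → ℂ := fun z => g z / Rloc x j z with hm
  have hmd := m_diff hr hg
  have hae : ∀ᵐ z : ℂ, ∀ j, z.im ≠ (x j).im := ae_all_iff.2 fun j => ae_im_ne _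
  set K : ℂ := -(kp : ℂ) * kp * e8 * I with hK
  have hmc : ContinuousOn m (ball (x j) r \ {x j}) := hmd.continuousOn.mono sdiff_subset
  obtain ⟨ha, hb⟩ := pair_eval (x0 := x j) hχ hs h1 (c := fun w => -(kp : ℂ) * zt w)
    (u := ucol x j g) (P1 := fun z => K * m z / (z - x j))
    (P2 := fun z => kp * kp * I * ((((‖x j - z‖ ^ (-(1/2) : ℝ)) ^ 2 : ℝ) : ℂ)) * conj (e8 * m z))
    ((continuousOn_const.mul hmc).div (by fun_prop) fun z hz => sub_ne_zero.2 hz.2)
    ((continuousOn_const.mul (cont_norm _ _)).mul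
      (continuous_conj.comp_continuousOn (continuousOn_const.mul hmc)))
    (by
      filter_upwards [hae] with z hz _ hzx
      have h2 : z - x j ≠ 0 := sub_ne_zero.2 hzx
      have h3 : x j - z ≠ 0 := sub_ne_zero.2 (Ne.symm hzx)
      rw [ucol_eq hz, zt_sub]
      have h4 := half_mul (x j - z) h3
      have h5 : (x j - z)⁻¹ = -(z - x j)⁻¹ := by rw [← neg_sub, neg_inv]
      rw [h5] at h4
      simp only [hm, hK]
      calc -(kp : ℂ) * (-I * (x j - z) ^ (-(1/2) : ℂ)) *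
            ((kp : ℂ) * e8 * (g z / Rloc x j z) * (x j - z) ^ (-(1/2) : ℂ))
          = kp * kp * e8 * I * (g z / Rloc x j z) *
            ((x j - z) ^ (-(1/2) : ℂ) * (x j - z) ^ (-(1/2) : ℂ)) := by ring
        _ = _ := by rw [h4]; field_simp)
    (by
      filter_upwards [hae] with z hz _ hzx
      rw [ucol_eq hz, zt_sub]
      have h4 := half_conj (x j - z)
      rw [← h4]
      simp only [map_mul, conj_ofReal, hm]
      ring)
  refine ⟨ha, ?_⟩
  rw [hb]
  have e1 := ResIntx439.integral_db_pole (x := x j) hr0 (H := fun z => K * m z / (z - x j))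
    (g := fun z => K * m z) (hmd.const_mul K) (fun z _ hzx => by
      have : z - x j ≠ 0 := sub_ne_zero.2 hzx
      field_simp) (chs_contDiff hχ (x j)) (tsupport_chs hs) (chs_one h1)
  rw [e1]
  have hR := Rloc_ne hr (mem_ball_self hr0)
  have h8 : e8 ≠ 0 := by unfold e8; exact Complex.exp_ne_zero _
  have hgs : gsrc x j ≠ 0 := by rw [← e8_Rloc]; exact mul_ne_zero h8 hR
  have e3 : I * (-(2 * Real.pi) * (K * m (x j))) =
      ((2 * Real.pi * kp ^ 2 : ℝ) : ℂ) * (g (x j) / (I * gsrc x j)) := by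
    have hI := I_mul_I
    have h8s := e8_sq
    rw [hK, hm, ← e8_Rloc]
    push_cast
    have hI0 := I_ne_zero
    have e4 : g (x j) / (I * (e8 * Rloc x j (x j))) = -e8 * (g (x j) / Rloc x j (x j)) := by
      rw [div_eq_iff (mul_ne_zero hI0 (mul_ne_zero h8 hR))]
      have : -e8 * (g (x j) / Rloc x j (x j)) * (I * (e8 * Rloc x j (x j))) =
          -(e8 ^ 2 * I) * (g (x j) / Rloc x j (x j) * Rloc x j (x j)) := by ring
      rw [this, div_mul_cancel₀ _ hR, h8s, hI]; ring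
    rw [e4]
    linear_combination (2 * Real.pi * kp * kp * e8 * (g (x j) / Rloc x j (x j))) * hI
  rw [e3, re_ofReal_mul]
  have h2 : 2 * Real.pi * Crest.Agent.R165.Latx683.xc * kp ^ 2 = 1 := kp_sq
  calc xc * (2 * Real.pi * kp ^ 2 * (g (x j) / (I * gsrc x j)).re)
      = (2 * Real.pi * Crest.Agent.R165.Latx683.xc * kp ^ 2) * (g (x j) / (I * gsrc x j)).re := by
        ring
    _ = _ := by rw [h2, one_mul]

/-! ### gauge signs along the lattice approximation -/

/-- off the lines through the insertions -/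
theorem ev_kap {ι : Type*} {l : Filter ι} {a : ι → ℝ} {X : ι → Fin n → ℤ × ℤ} {f : ι → ℤ × ℤ}
    {x : Fin n → ℂ} {z : ℂ} (ha : ∀ᶠ k in l, 0 < a k)
    (hX : ∀ j, Tendsto (fun k => fpt (a k) (X k j)) l (𝓝 (x j)))
    (hf : Tendsto (fun k => fpt (a k) (f k)) l (𝓝 z)) (hz : ∀ j, z.im ≠ (x j).im) (i : Fin n) :
    ∀ᶠ k in l, kap x (X k) (x i) (f k) = lsg x i z ∧ kap x (X k) z (f k) = 1 := by
  have h1 : ∀ j, ∀ᶠ k in l, (z.im < (x j).im → (f k).2 < (X k j).2) ∧
      ((x j).im < z.im → (X k j).2 < (f k).2) := by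
    intro j
    have hfi : Tendsto (fun k => a k * ((f k).2 : ℝ)) l (𝓝 z.im) :=
      (continuous_im.tendsto z).comp hf
    have hXi : Tendsto (fun k => a k * ((X k j).2 : ℝ)) l (𝓝 (x j).im) :=
      (continuous_im.tendsto (x j)).comp (hX j)
    rcases lt_or_gt_of_ne (hz j) with h | h
    · filter_upwards [hfi.eventually_lt hXi h, ha] with k h2 h3
      refine ⟨fun _ => ?_, fun h' => absurd h' (not_lt.2 h.le)⟩
      exact_mod_cast lt_of_mul_lt_mul_left h2 h3.le
    · filter_upwards [hXi.eventually_lt hfi h, ha] with k h2 h3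
      refine ⟨fun h' => absurd h' (not_lt.2 h.le), fun _ => ?_⟩
      exact_mod_cast lt_of_mul_lt_mul_left h2 h3.le
  filter_upwards [eventually_all.2 h1] with k hk
  constructor
  · rw [Gr3x813.kap_eq_prod]
    unfold lsg
    refine Finset.prod_congr rfl fun j _ => ?_
    by_cases hc : (x j).im = (x i).im ∧ (x j).re < (x i).re
    · rcases lt_or_gt_of_ne (hz j) with h | h
      · rw [if_pos ⟨hc.1, hc.2, (hk j).1 h⟩, if_pos ⟨hc.1, hc.2, hc.1 ▸ h⟩]
      · have h2 := (hk j).2 h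
        have h3 : ¬ z.im < (x i).im := by rw [← hc.1]; exact not_lt.2 h.le
        rw [if_neg (fun h' => absurd h'.2.2 (not_lt.2 h2.le)), if_neg (fun h' => h3 h'.2.2)]
    · rw [if_neg (fun h => hc ⟨h.1, h.2.1⟩), if_neg (fun h => hc ⟨h.1, h.2.1⟩)]
  · rw [Gr3x813.kap_eq_prod]
    exact Finset.prod_eq_one fun j _ => if_neg fun h => hz j h.1.symm

end loc

end Crest.Agent.R165.Evalx644
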