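import Crest.Agent.R165.LogD2_813
import Crest.Agent.R165.LogG_813
import Crest.Agent.R165.Eval_644
import Crest.Agent.R165.PairSm_470
import Crest.Agent.R165.Step3_470
import Crest.Agent.R165.UB3_641
import Crest.Agent.R165.U3Cov2_67

/-!
# Row 165 (S0250), block U4 (helper813): the logarithmic derivatives, plus boundary conditions

* `joint_of_fam` : convergence along all families is joint convergence
* `cS_eq` : `cS` (corner field) is the column of `l_S`
* `Sc`, `dat_plus`, `eta_plus`, `small_plus` : the local data along `NF x`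
* `ldLeaf_of : BrLeafK → Uniq → LdLeaf`
-/

set_option autoImplicit false
set_option linter.unusedVariables false

noncomputable section

open Filter Topology Set MeasureTheory
open Crest.ProbabilityR.IsingModel

namespace Crest.Agent.R165.LogEx813

open Crest.Agent.R165.Latx683 Crest.Agent.R165.Br1x644 Crest.Agent.R165.Gr2x813
open Crest.Agent.R165.Gr3x813 Crest.Agent.R165.PsiLx375 Crest.Agent.R165.LogDx813
open Crest.Agent.R165.PathIntx641 (mc sh)
open Crest.Agent.R165.PathSeqx641 (NF nf_fst nf_mc nf_pos UC qv tendsto_nf_iff)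
open Crest.Agent.R165.UKerx420 (kap kap_sq edir fpt)
open Crest.Agent.R165.UB3x641
open Crest.Agent.R165.U3x719 (rX rXa e8 IsBr Ai Uniq)
open Crest.Agent.R165.U5Px422 (GB TT LApp)
open Crest.Agent.R165.ConfTopx641 Crest.Agent.R165.USpinx641
open Crest.Agent.R165.Evalx644 (ucol lsg Sep exists_sep lv_ucol ev_kap eval_N eval_N2)
open Crest.Agent.R165.RIfx891 (lv)
open Crest.Agent.R165.Br5x644 (kp)

/-! ### families and joint limits -/

/-- convergence along all families is joint convergence -/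
theorem joint_of_fam {β E : Type*} [PseudoMetricSpace E] {m : ℝ → β → E} {e : E} {φ0 : ℝ → β}
    (h0 : Tendsto (fun a => m a (φ0 a)) (𝓝[>] 0) (𝓝 e)) {q : ℝ → β → ℝ} {L : ℝ}
    (h : ∀ φ : ℝ → β, Tendsto (fun a => m a (φ a)) (𝓝[>] 0) (𝓝 e) →
      Tendsto (fun a => q a (φ a)) (𝓝[>] 0) (𝓝 L)) {ε : ℝ} (hε : 0 < ε) :
    ∃ δ > 0, ∀ a, 0 < a → a < δ → ∀ b, dist (m a b) e < δ → |q a b - L| < ε := by
  classical
  by_contra hc
  push Not at hc
  have hc' : ∀ j : ℕ, ∃ a : ℝ, 0 < a ∧ a < 1 / ((j : ℝ) + 1) ∧ ∃ b, dist (m a b) e < 1 / ((j : ℝ) + 1) ∧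
      ε ≤ |q a b - L| := by
    intro j
    obtain ⟨a, h1, h2, b, h3, h4⟩ := hc (1 / ((j : ℝ) + 1)) (by positivity)
    exact ⟨a, h1, h2, b, h3, h4⟩
  choose A hA0 hA1 B hB1 hB2 using hc'
  let φ : ℝ → β := fun a => if hj : ∃ j, A j = a then B hj.choose else φ0 a
  have hAlim : Tendsto A atTop (𝓝[>] 0) := by
    refine tendsto_nhdsWithin_iff.2 ⟨?_, Eventually.of_forall hA0⟩
    exact squeeze_zero (fun j => (hA0 j).le) (fun j => (hA1 j).le) tendsto_one_div_add_atTop_nhds_zero_nat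
  have hφ : Tendsto (fun a => m a (φ a)) (𝓝[>] 0) (𝓝 e) := by
    rw [Metric.tendsto_nhds]
    intro η hη
    obtain ⟨J, hJ⟩ := exists_nat_one_div_lt hη
    have h1 : ∀ᶠ a in 𝓝[>] (0 : ℝ), ∀ j ∈ Finset.range J, a < A j := by
      rw [Filter.eventually_all_finset]
      intro j _
      exact mem_nhdsWithin_of_mem_nhds (Iio_mem_nhds (hA0 j))
    have h2 := (Metric.tendsto_nhds.1 h0) η hη
    filter_upwards [h1, h2] with a h1 h2
    by_cases hj : ∃ j, A j = a
    · have e1 : φ a = B hj.choose := dif_pos hj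
      have e2 : A hj.choose = a := hj.choose_spec
      have e3 : J ≤ hj.choose := by
        by_contra hlt
        have := h1 hj.choose (Finset.mem_range.2 (not_le.1 hlt))
        rw [e2] at this
        exact lt_irrefl _ this
      have e4 := hB1 hj.choose
      rw [e2] at e4
      rw [e1]
      refine e4.trans (lt_of_le_of_lt ?_ hJ)
      apply one_div_le_one_div_of_le (by positivity)
      have : (J : ℝ) ≤ hj.choose := by exact_mod_cast e3
      linarith
    · have e1 : φ a = φ0 a := dif_neg hj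
      rw [e1]; exact h2
  have h3 := (h φ hφ).comp hAlim
  obtain ⟨j, hj⟩ := (Metric.tendsto_nhds.1 h3 ε hε).exists
  have hex : ∃ i, A i = A j := ⟨j, rfl⟩
  have e1 : φ (A j) = B hex.choose := dif_pos hex
  have e2 : A hex.choose = A j := hex.choose_spec
  have e3 := hB2 hex.choose
  rw [e2] at e3
  simp only [Function.comp, e1, Real.dist_eq] at hj
  linarith

/-! ### the column of the corner -/

/-- `cS` is the column of `l_S` -/
theorem cS_eq {w : BW ℤ} {S : HE ℤ → HE ℤ → ℝ} (hS : IsCov w S) {X : ℤ × ℤ} {h : HE ℤ}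
    (hh : h ≠ (X, 0)) : cS S h X = col S (lS w X) h := by
  have h1 := hS.inv (X, 0) h
  rw [Aop_S, Pi.single_apply, if_neg (Ne.symm hh), neg_zero] at h1
  unfold cS col
  rw [pr_lS, Fin.sum_univ_four]
  have s1 := hS.skew h (X, 1)
  have s2 := hS.skew h (X, 2)
  have s3 := hS.skew h (X, 3)
  have s4 := hS.skew h ((X.1, X.2 - 1), 2)
  rw [s1, s2, s3, s4]
  linear_combination -h1

/-- `l_S` at the half-edge `(X, S)` -/
theorem col_lS_X {w : BW ℤ} {S : HE ℤ → HE ℤ → ℝ} (hS : IsCov w S) (X : ℤ × ℤ) :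
    col S (lS w X) (X, 0) = -(w X 0 * S (hp X 0) (hq X 0)) := by
  unfold col
  rw [pr_lS]
  have h1 := hS.skew (X, 0) (X, 0)
  have h2 : S (X, 0) (X, 0) = 0 := by linarith
  have h3 : yN w (X.1, X.2 - 1) = w X 0 := by
    unfold yN; simp
  rw [h2, h3, hp_zero, hq_zero]; ring

theorem lSW_eq (w : BW ℤ) (f : ℤ × ℤ) : Stepx470.lSW w f = lS w f := by
  unfold Stepx470.lSW lS
  rw [Finsupp.smul_single, smul_eq_mul, mul_one]

theorem lNE_eq (w : BW ℤ) (f : ℤ × ℤ) : Stepx470.lNE w f = lN w f := by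
  unfold Stepx470.lNE lN
  rw [Finsupp.smul_single, smul_eq_mul, mul_one]

theorem lNW_eq (w : BW ℤ) (X : ℤ × ℤ) : Stepx470.lNW w (X - (0, 1)) = lS2 w X := by
  unfold Stepx470.lNW lS2
  have e1 : X - (0, 1) = (X.1, X.2 - 1) := by ext <;> simp
  rw [Finsupp.smul_single, smul_eq_mul, mul_one, e1]
  simp

theorem lSE_eq (w : BW ℤ) (X : ℤ × ℤ) : Stepx470.lSE w (X - (0, 1)) = lN2 w X := by
  unfold Stepx470.lSE lN2
  have e1 : X - (0, 1) = (X.1, X.2 - 1) := by ext <;> simp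
  rw [Finsupp.smul_single, smul_eq_mul, mul_one, e1]
  have e2 : (X.2 - 1 - 1 : ℤ) = X.2 - 2 := by ring
  simp only [e2]

/-! ### the data along `NF x` -/

variable {n : ℕ}

/-- the covariance of the plus background -/
def Sc (T : ℝ → Finset (ℤ × ℤ)) (p : ℝ × (Fin n → ℤ × ℤ)) : HE ℤ → HE ℤ → ℝ :=
  (Covx359.exists_isCov_plus (T p.1) p.2).choose

theorem Sc_cov (T : ℝ → Finset (ℤ × ℤ)) (p : ℝ × (Fin n → ℤ × ℤ)) :
    IsCov (wX (wDom (T p.1 : Set (ℤ × ℤ)) false) p.2) (Sc T p) :=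
  (Covx359.exists_isCov_plus (T p.1) p.2).choose_spec.1

/-- the branch leaf with explicit constants -/
def BrLeafK : Prop :=
  ∀ D : Set ℂ, IsC2JordanDomain D → ∀ (n : ℕ) (x : Fin n → ℂ), x ∈ Conf n D →
    ∃ g : Fin n → ℂ → ℂ, (∀ i, IsBrN D x i (g i)) ∧
      ∀ (w : ℝ → BW ℤ) (X : ℝ → Fin n → ℤ × ℤ), BgFam D w → LApp X x → BrF kp 1 D x w X g

theorem kp_ne : kp ≠ 0 := by
  intro h
  have := Crest.Agent.R165.Br5x644.kp_sq
  rw [h] at this
  simp at this

theorem brLeaf_of (h : BrLeafK) : BrLeaf := ⟨kp, 1, kp_ne, by norm_num, h⟩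

/-- joint limit of the column -/
theorem eta_joint {D : Set ℂ} {T : ℝ → Finset (ℤ × ℤ)} {x : Fin n → ℂ} {g : Fin n → ℂ → ℂ}
    (hT : BgFam D fun a => wDom (T a : Set (ℤ × ℤ)) false)
    (hB : ∀ (w : ℝ → BW ℤ) (X : ℝ → Fin n → ℤ × ℤ), BgFam D w → LApp X x → BrF kp 1 D x w X g)
    {z : ℂ} (hz : z ∈ D) (hxz : ∀ i, x i ≠ z) (i : Fin n) (d : Fin 4) {ε : ℝ} (hε : 0 < ε) :
    ∃ δ > 0, ∀ a : ℝ, 0 < a → a < δ → ∀ (u : Fin n → ℤ × ℤ) (f : ℤ × ℤ), dist (mc a u) x < δ →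
      dist (meshPoint a f) z < δ →
      |a ^ (-(1 : ℝ) / 2) * (kap x u z f * kapX x u i * cS (Sc T (a, u)) (f, d) (u i)) -
        kp * (edir d * e8 * (g i z / rXa x z)).re| < ε := by
  have h0 : Tendsto (fun a : ℝ => (fun (a : ℝ) (b : (Fin n → ℤ × ℤ) × (ℤ × ℤ)) =>
      (mc a b.1, meshPoint a b.2)) a ((fun a => (fun i => meshIndex a (x i), meshIndex a z)) a))
      (𝓝[>] 0) (𝓝 (x, z)) := by
    refine Tendsto.prodMk_nhds ?_ (Pairx599.tendsto_meshPoint tendsto_id z)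
    rw [tendsto_pi_nhds]
    exact fun j => U5Px422.lapp_meshIndex x j
  have h1 : ∀ φ : ℝ → (Fin n → ℤ × ℤ) × (ℤ × ℤ),
      Tendsto (fun a => (fun (a : ℝ) (b : (Fin n → ℤ × ℤ) × (ℤ × ℤ)) =>
        (mc a b.1, meshPoint a b.2)) a (φ a)) (𝓝[>] 0) (𝓝 (x, z)) →
      Tendsto (fun a => (fun (a : ℝ) (b : (Fin n → ℤ × ℤ) × (ℤ × ℤ)) => a ^ (-(1 : ℝ) / 2) *
        (kap x b.1 z b.2 * kapX x b.1 i * cS (Sc T (a, b.1)) (b.2, d) (b.1 i))) a (φ a)) (𝓝[>] 0)
        (𝓝 (kp * (edir d * e8 * (g i z / rXa x z)).re)) := by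
    intro φ hφ
    rw [nhds_prod_eq] at hφ
    have h1 := tendsto_fst.comp hφ
    have h2 := tendsto_snd.comp hφ
    have hX : LApp (fun a => (φ a).1) x := fun j => tendsto_pi_nhds.1 h1 j
    exact (hB _ _ hT hX).eta (fun a => Sc T (a, (φ a).1))
      (Eventually.of_forall fun a => Sc_cov T (a, (φ a).1)) z hz hxz i d (fun a => (φ a).2) h2
  obtain ⟨δ, hδ, h⟩ := joint_of_fam
    (m := fun (a : ℝ) (b : (Fin n → ℤ × ℤ) × (ℤ × ℤ)) => (mc a b.1, meshPoint a b.2))
    (φ0 := fun a => (fun i => meshIndex a (x i), meshIndex a z)) h0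
    (q := fun (a : ℝ) (b : (Fin n → ℤ × ℤ) × (ℤ × ℤ)) => a ^ (-(1 : ℝ) / 2) *
        (kap x b.1 z b.2 * kapX x b.1 i * cS (Sc T (a, b.1)) (b.2, d) (b.1 i))) h1 hε
  refine ⟨δ, hδ, fun a ha haδ u f hu hf => ?_⟩
  exact h a ha haδ (u, f) (by rw [Prod.dist_eq]; exact max_lt hu hf)

/-- the local data along `NF x` -/
theorem dat_plus {D : Set ℂ} (hD : IsOpen D) {T : ℝ → Finset (ℤ × ℤ)}
    (hT : BgFam D fun a => wDom (T a : Set (ℤ × ℤ)) false) {x : Fin n → ℂ} (hx : x ∈ Conf n D)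
    (i : Fin n) : ∃ δ : ℝ, 0 < δ ∧ (∀ z, ‖z - x i‖ < δ → z ∈ D) ∧ Sep x i δ ∧
      Dat (NF x) (fun p => p.1) (fun p => wX (wDom (T p.1 : Set (ℤ × ℤ)) false) p.2)
        (fun p => p.2 i) (fun p => kap x p.2 (x i)) (Sc T) (x i) δ := by
  obtain ⟨δ1, hδ1, hgood⟩ := ev_good hx.2 i
  obtain ⟨δ2, hδ2, hsep⟩ := exists_sep hx.2 i
  obtain ⟨δ3, hδ3, hball⟩ := Metric.nhds_basis_closedBall.mem_iff.1 (hD.mem_nhds (hx.1 i))
  have hin := hT.inn (Metric.closedBall (x i) δ3) (isCompact_closedBall _ _) hball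
  have hm : 0 < min δ1 (min δ2 (δ3 / 2)) := lt_min hδ1 (lt_min hδ2 (half_pos hδ3))
  refine ⟨min δ1 (min δ2 (δ3 / 2)), hm, fun z hz => hball ?_,
    hsep.mono ((min_le_right _ _).trans (min_le_left _ _)), ?_⟩
  · rw [Metric.mem_closedBall, dist_eq_norm]
    have := (min_le_right δ1 (min δ2 (δ3 / 2))).trans (min_le_right δ2 (δ3 / 2))
    linarith
  refine ⟨nf_fst x, tendsto_pi_nhds.1 (nf_mc x) i, fun p f => kap_sq x p.2 (x i) f, hm, ?_,
    Eventually.of_forall fun p => Sc_cov T p⟩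
  have hin' := (nf_fst x).eventually hin
  have hsm : ∀ᶠ p : ℝ × (Fin n → ℤ × ℤ) in NF x, p.1 < δ3 / 2 :=
    ((nf_fst x).mono_right nhdsWithin_le_nhds).eventually (gt_mem_nhds (half_pos hδ3))
  filter_upwards [hgood, hin', hsm, nf_pos x] with p h1 h2 h3 h4 f hf
  refine locAt_wX ?_ (h1 f (hf.trans_le (min_le_left _ _)))
  have hf3 : ‖meshPoint p.1 f - x i‖ < δ3 / 2 :=
    hf.trans_le ((min_le_right _ _).trans (min_le_right _ _))
  have key : ∀ g : ℤ × ℤ, ‖meshPoint p.1 g - meshPoint p.1 f‖ ≤ p.1 →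
      meshPoint p.1 g ∈ Metric.closedBall (x i) δ3 := by
    intro g hg
    rw [Metric.mem_closedBall, dist_eq_norm]
    have e : meshPoint p.1 g - x i =
      (meshPoint p.1 g - meshPoint p.1 f) + (meshPoint p.1 f - x i) := by ring
    rw [e]
    exact (norm_add_le _ _).trans (by linarith)
  have k0 := key f (by rw [sub_self, norm_zero]; exact h4.le)
  have k1 := key (f.1 + 1, f.2) (by
    have e : meshPoint p.1 (f.1 + 1, f.2) - meshPoint p.1 f = (p.1 : ℂ) := by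
      apply Complex.ext <;> simp [meshPoint]
      ring
    rw [e, Complex.norm_real, Real.norm_eq_abs, abs_of_pos h4])
  have k2 := key (f.1, f.2 + 1) (by
    have e : meshPoint p.1 (f.1, f.2 + 1) - meshPoint p.1 f = (p.1 : ℂ) * Complex.I := by
      apply Complex.ext <;> simp [meshPoint]
      ring
    rw [e, norm_mul, Complex.norm_I, mul_one, Complex.norm_real, Real.norm_eq_abs, abs_of_pos h4])
  intro d
  fin_cases d
  · have h5 := h2 f 0 k0
    change ew _ f 0 = _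
    rw [ew_zero]
    unfold yN
    simp only [sub_add_cancel]
    exact h5
  · exact h2 _ _ k1
  · exact h2 _ _ k2
  · have h5 := h2 f 1 k0
    change ew _ f 3 = _
    rw [ew_three]
    unfold yE
    simp only [sub_add_cancel]
    exact h5

theorem abs_kap (x : Fin n → ℂ) (u : Fin n → ℤ × ℤ) (z : ℂ) (f : ℤ × ℤ) : |kap x u z f| = 1 :=
  abs_sq (kap_sq x u z f)

/-- uniform bound of the column on compacts -/
theorem eta_bdd {D : Set ℂ} {T : ℝ → Finset (ℤ × ℤ)} {x : Fin n → ℂ} {g : Fin n → ℂ → ℂ}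
    (hT : BgFam D fun a => wDom (T a : Set (ℤ × ℤ)) false)
    (hB : ∀ (w : ℝ → BW ℤ) (X : ℝ → Fin n → ℤ × ℤ), BgFam D w → LApp X x → BrF kp 1 D x w X g)
    (i : Fin n) {K : Set ℂ} (hK : IsCompact K) (hKD : K ⊆ D) (hKx : ∀ j, x j ∉ K) :
    ∃ C δ : ℝ, 0 < δ ∧ ∀ a : ℝ, 0 < a → a < δ → ∀ (u : Fin n → ℤ × ℤ) (f : ℤ × ℤ),
      dist (mc a u) x < δ → meshPoint a f ∈ K → ∀ d : Fin 4,
      |cS (Sc T (a, u)) (f, d) (u i)| ≤ C * a ^ (1 / 2 : ℝ) := by
  have hK' : IsCompact K := hK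
  refine hK.induction_on (p := fun s => ∃ C δ : ℝ, 0 < δ ∧ ∀ a : ℝ, 0 < a → a < δ →
      ∀ (u : Fin n → ℤ × ℤ) (f : ℤ × ℤ), dist (mc a u) x < δ → meshPoint a f ∈ s → ∀ d : Fin 4,
      |cS (Sc T (a, u)) (f, d) (u i)| ≤ C * a ^ (1 / 2 : ℝ)) ?_ ?_ ?_ ?_
  · exact ⟨0, 1, one_pos, fun a _ _ u f _ hf => absurd hf (Set.notMem_empty _)⟩
  · rintro s t hst ⟨C, δ, hδ, h⟩
    exact ⟨C, δ, hδ, fun a ha haδ u f hu hf => h a ha haδ u f hu (hst hf)⟩
  · rintro s t ⟨C, δ, hδ, h⟩ ⟨C', δ', hδ', h'⟩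
    refine ⟨max C C', min δ δ', lt_min hδ hδ', fun a ha haδ u f hu hf d => ?_⟩
    have hp := Real.rpow_pos_of_pos ha (1 / 2 : ℝ)
    rcases hf with hf | hf
    · exact (h a ha (haδ.trans_le (min_le_left _ _)) u f (hu.trans_le (min_le_left _ _)) hf d).trans
        (mul_le_mul_of_nonneg_right (le_max_left _ _) hp.le)
    · exact (h' a ha (haδ.trans_le (min_le_right _ _)) u f (hu.trans_le (min_le_right _ _)) hf d).trans
        (mul_le_mul_of_nonneg_right (le_max_right _ _) hp.le)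
  · intro z hz
    have h1 : ∀ d : Fin 4, ∃ δ > 0, ∀ a : ℝ, 0 < a → a < δ → ∀ (u : Fin n → ℤ × ℤ) (f : ℤ × ℤ),
        dist (mc a u) x < δ → dist (meshPoint a f) z < δ →
        |a ^ (-(1 : ℝ) / 2) * (kap x u z f * kapX x u i * cS (Sc T (a, u)) (f, d) (u i)) -
        kp * (edir d * e8 * (g i z / rXa x z)).re| < 1 := fun d =>
      eta_joint hT hB (hKD hz) (fun j hj => hKx j (hj ▸ hz)) i d one_pos
    choose δ hδ hδ' using h1
    obtain ⟨ε, hε, hεδ⟩ : ∃ ε : ℝ, 0 < ε ∧ ∀ d, ε ≤ δ d :=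
      ⟨Finset.univ.inf' ⟨0, Finset.mem_univ _⟩ δ, (Finset.lt_inf'_iff _).2 fun d _ => hδ d,
        fun d => Finset.inf'_le _ (Finset.mem_univ d)⟩
    refine ⟨Metric.ball z ε, mem_nhdsWithin_of_mem_nhds (Metric.ball_mem_nhds z hε),
      1 + ∑ d, |kp * (edir d * e8 * (g i z / rXa x z)).re|, ε, hε,
      fun a ha haδ u f hu hf d => ?_⟩
    have h2 := hδ' d a ha (haδ.trans_le (hεδ d)) u f (hu.trans_le (hεδ d))
      ((Metric.mem_ball.1 hf).trans_le (hεδ d))
    have h3 := abs_sub_abs_le_abs_sub (a ^ (-(1 : ℝ) / 2) * (kap x u z f * kapX x u i *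
      cS (Sc T (a, u)) (f, d) (u i))) (kp * (edir d * e8 * (g i z / rXa x z)).re)
    have hp := Real.rpow_pos_of_pos ha (-(1 : ℝ) / 2)
    have hp2 := Real.rpow_pos_of_pos ha (1 / 2 : ℝ)
    have e1 : |a ^ (-(1 : ℝ) / 2) * (kap x u z f * kapX x u i * cS (Sc T (a, u)) (f, d) (u i))| =
        a ^ (-(1 : ℝ) / 2) * |cS (Sc T (a, u)) (f, d) (u i)| := by
      have : |kapX x u i| = 1 := abs_kap x u (x i) (u i)
      rw [abs_mul, abs_mul, abs_mul, abs_kap, this, abs_of_pos hp]; ring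
    have e2 : a ^ (1 / 2 : ℝ) * a ^ (-(1 : ℝ) / 2) = 1 := by
      rw [← Real.rpow_add ha]; norm_num
    rw [e1] at h3
    have h4 : |kp * (edir d * e8 * (g i z / rXa x z)).re| ≤
        ∑ d, |kp * (edir d * e8 * (g i z / rXa x z)).re| :=
      Finset.single_le_sum (f := fun d => |kp * (edir d * e8 * (g i z / rXa x z)).re|)
        (fun _ _ => abs_nonneg _) (Finset.mem_univ d)
    have h5 : a ^ (-(1 : ℝ) / 2) * |cS (Sc T (a, u)) (f, d) (u i)| ≤
        1 + ∑ d, |kp * (edir d * e8 * (g i z / rXa x z)).re| := by linarith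
    calc |cS (Sc T (a, u)) (f, d) (u i)|
        = (a ^ (1 / 2 : ℝ) * a ^ (-(1 : ℝ) / 2)) * |cS (Sc T (a, u)) (f, d) (u i)| := by
          rw [e2, one_mul]
      _ = (a ^ (-(1 : ℝ) / 2) * |cS (Sc T (a, u)) (f, d) (u i)|) * a ^ (1 / 2 : ℝ) := by ring
      _ ≤ _ := mul_le_mul_of_nonneg_right h5 hp2.le

/-- eventually along `NF x` from a uniform statement -/
theorem ev_nf {x : Fin n → ℂ} {δ : ℝ} (hδ : 0 < δ) :
    ∀ᶠ p : ℝ × (Fin n → ℤ × ℤ) in NF x, 0 < p.1 ∧ p.1 < δ ∧ dist (mc p.1 p.2) x < δ := by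
  filter_upwards [nf_pos x,
    ((nf_fst x).mono_right nhdsWithin_le_nhds).eventually (gt_mem_nhds hδ),
    (nf_mc x).eventually (Metric.ball_mem_nhds x hδ)] with p h1 h2 h3
  exact ⟨h1, h2, h3⟩

/-- limit of the column along `NF x` -/
theorem eta_plus {D : Set ℂ} {T : ℝ → Finset (ℤ × ℤ)} {x : Fin n → ℂ} {g : Fin n → ℂ → ℂ}
    (hT : BgFam D fun a => wDom (T a : Set (ℤ × ℤ)) false)
    (hB : ∀ (w : ℝ → BW ℤ) (X : ℝ → Fin n → ℤ × ℤ), BgFam D w → LApp X x → BrF kp 1 D x w X g)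
    (i : Fin n) {δ : ℝ} (hδ : 0 < δ) (hball : ∀ z, ‖z - x i‖ < δ → z ∈ D) (hsep : Sep x i δ) :
    Eta (NF x) (fun p => p.1) (fun p => wX (wDom (T p.1 : Set (ℤ × ℤ)) false) p.2)
      (fun p => p.2 i) (fun p => kap x p.2 (x i)) (Sc T) (x i) δ
      (fun z d => lv (ucol x i (g i) z) d) := by
  have hXi : Tendsto (fun p : ℝ × (Fin n → ℤ × ℤ) => meshPoint p.1 (p.2 i)) (NF x) (𝓝 (x i)) :=
    tendsto_pi_nhds.1 (nf_mc x) i
  have hoff : ∀ z, z ≠ x i → ‖z - x i‖ < δ → ∀ j, x j ≠ z := by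
    intro z h1 h2 j h3
    by_cases hj : j = i
    · exact h1 (by rw [← h3, hj])
    · exact Evalx644.sep_ne hsep (z := z) (by rwa [Metric.mem_ball, dist_eq_norm]) hj
        (sub_eq_zero.2 h3)
  constructor
  · intro r R hr hR
    have hK : IsCompact (ann (x i) r R) :=
      Metric.isCompact_of_isClosed_isBounded (ann_closed _ _ _) (ann_bdd _ _ _)
    have hne : ∀ z ∈ ann (x i) r R, z ≠ x i := by
      rintro z hz rfl
      have := hz.1
      rw [sub_self, norm_zero] at this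
      linarith
    obtain ⟨C, ε, hε, h⟩ := eta_bdd hT hB i hK (fun z hz => hball z (by linarith [hz.2]))
      (fun j hj => hoff _ (hne _ hj) (by linarith [hj.2]) j rfl)
    refine ⟨C, ?_⟩
    have hsm : ∀ᶠ p : ℝ × (Fin n → ℤ × ℤ) in NF x, ‖meshPoint p.1 (p.2 i) - x i‖ < r := by
      filter_upwards [hXi.eventually (Metric.ball_mem_nhds _ hr)] with p hp
      rwa [← dist_eq_norm]
    filter_upwards [ev_nf hε, hsm] with p hp hsm f hf
    obtain ⟨f, d⟩ := f
    have hne : ((f, d) : HE ℤ) ≠ (p.2 i, 0) := by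
      intro hc
      have e : f = p.2 i := congrArg Prod.fst hc
      have h3 := hf.1
      simp only [e] at h3
      linarith
    have h4 := h p.1 hp.1 hp.2.1 p.2 f hp.2.2 hf d
    rwa [cS_eq (Sc_cov T p) hne] at h4
  · have hae : ∀ᵐ z : ℂ, ∀ j, z.im ≠ (x j).im := ae_all_iff.2 fun j => Evalx644.ae_im_ne _
    filter_upwards [hae] with z hz h1 h2 d
    have hzx := hoff z h1 h2
    rw [Metric.tendsto_nhds]
    intro ε hε
    obtain ⟨δ', hδ', h⟩ := eta_joint hT hB (hball z h2) hzx i d hε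
    have hmesh : Tendsto (fun p : ℝ × (Fin n → ℤ × ℤ) => meshPoint p.1 (meshIndex p.1 z)) (NF x)
        (𝓝 z) := Pairx599.tendsto_meshPoint (nf_fst x) z
    have hk := ev_kap (l := NF x) (a := fun p => p.1) (X := fun p => p.2)
      (f := fun p => meshIndex p.1 z) (x := x) (z := z) (nf_pos x)
      (fun j => tendsto_pi_nhds.1 (nf_mc x) j) hmesh hz i
    have hd : 0 < ‖z - x i‖ / 3 := by
      have := norm_pos_iff.2 (sub_ne_zero.2 h1)
      positivity
    have hfar : ∀ᶠ p : ℝ × (Fin n → ℤ × ℤ) in NF x, meshIndex p.1 z ≠ p.2 i := by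
      filter_upwards [hXi.eventually (Metric.ball_mem_nhds _ hd),
        hmesh.eventually (Metric.ball_mem_nhds _ hd)] with p h3 h4 h5
      rw [h5] at h4
      have h6 := dist_triangle z (meshPoint p.1 (p.2 i)) (x i)
      rw [dist_comm z (meshPoint p.1 (p.2 i)), dist_eq_norm z (x i)] at h6
      have h3' : dist (meshPoint p.1 (p.2 i)) (x i) < ‖z - x i‖ / 3 := h3
      have h4' : dist (meshPoint p.1 (p.2 i)) z < ‖z - x i‖ / 3 := h4
      linarith
    filter_upwards [ev_nf hδ', hk, hfar, hmesh.eventually (Metric.ball_mem_nhds _ hδ')]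
      with p hp hk hfar hm
    have h3 := h p.1 hp.1 hp.2.1 p.2 (meshIndex p.1 z) hp.2.2 (Metric.mem_ball.1 hm)
    have hne : ((meshIndex p.1 z, d) : HE ℤ) ≠ (p.2 i, 0) := fun hc =>
      hfar (congrArg Prod.fst hc)
    rw [cS_eq (Sc_cov T p) hne, hk.2, one_mul] at h3
    rw [Real.dist_eq, hk.1, lv_ucol]
    have hs : |lsg x i z| = 1 := by
      rw [← hk.1]; exact abs_kap _ _ _ _
    have e : (-(1 / 2) : ℝ) = -(1 : ℝ) / 2 := by norm_num
    have e2 : p.1 ^ (-(1 / 2) : ℝ) * (lsg x i z * (kap x p.2 (x i) (p.2 i) *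
        col (Sc T p) (lS (wX (wDom (T p.1 : Set (ℤ × ℤ)) false) p.2) (p.2 i)) (meshIndex p.1 z, d))) -
        lsg x i z * (kp * (edir d * e8 * (g i z / rXa x z)).re) =
        lsg x i z * (p.1 ^ (-(1 : ℝ) / 2) * (kapX x p.2 i *
          col (Sc T (p.1, p.2)) (lS (wX (wDom (T p.1 : Set (ℤ × ℤ)) false) p.2) (p.2 i))
            (meshIndex p.1 z, d)) - kp * (edir d * e8 * (g i z / rXa x z)).re) := by
      rw [e]
      unfold kapX
      ring
    rw [e2, abs_mul, hs, one_mul]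
    exact h3

/-- small pairings along `NF x` -/
theorem small_plus {D : Set ℂ} (hb : Bornology.IsBounded D) {T : ℝ → Finset (ℤ × ℤ)}
    (hL : LatApp D T) (x : Fin n → ℂ) :
    Small (NF x) (fun p : ℝ × (Fin n → ℤ × ℤ) => p.1) (Sc T) := by
  obtain ⟨R, hR⟩ := hb.closure.exists_norm_le
  have hdis : Disjoint {z : ℂ | R + 1 ≤ ‖z‖} (closure D) := by
    rw [Set.disjoint_left]
    intro z h1 h2
    have := hR z h2
    have h3 : R + 1 ≤ ‖z‖ := h1
    linarith
  have hout := (nf_fst x).eventually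
    (hL.out {z : ℂ | R + 1 ≤ ‖z‖} (isClosed_le continuous_const continuous_norm) hdis)
  intro P Q K K' C hK hK' h1 h2 h3 h4 h5
  refine PairSmx470.pair_small (T := fun p => T p.1) (X := fun p => p.2) (nf_fst x) ⟨R + 1, ?_⟩
    (Eventually.of_forall fun p => Sc_cov T p) hK hK' h1 h2 h3 h4 h5
  filter_upwards [hout] with p hp z hz
  by_contra hc
  exact hp z (not_le.1 hc).le hz

/-- cut-offs exist -/
theorem exists_cut {r0 R0 : ℝ} (h0 : 0 < r0) (h1 : r0 < R0) : ∃ χ : ℂ → ℝ, Cut χ r0 R0 := by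
  let f : ContDiffBump (0 : ℂ) := ⟨r0, R0, h0, h1⟩
  refine ⟨f, h0, fun z hz => ?_, fun z hz => ?_, f.contDiff⟩
  · exact f.one_of_mem_closedBall (by
      rw [Metric.mem_closedBall, dist_zero_right]; exact hz.le)
  · exact f.zero_of_le_dist (by rw [dist_zero_right]; exact hz)

theorem ed_dir (d : Fin 4) : ed d = Evalx644.dir d := by
  fin_cases d <;> simp [ed, Evalx644.dir]

/-- **logarithmic derivatives, plus boundary conditions** -/
theorem ldLeaf_of (hB : BrLeafK) (hU : Uniq) : LdLeaf := by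
  classical
  intro D hD T hL hNH n
  have hDo := Red2x541.isOpen_of_C2 hD
  have hbd := Redx541.bounded_of_C2 hD
  have hT := bgFam_of_latApp hL hbd
  -- the data at every configuration
  have main : ∀ x ∈ Conf n D, ∀ i : Fin n,
      Tendsto (qv (ZT .plus T) i (1, 1)) (NF x) (𝓝 (((1 + Complex.I) * AAf n D i x).re)) ∧
      Tendsto (qv (ZT .plus T) i (1, -1)) (NF x) (𝓝 (((1 - Complex.I) * AAf n D i x).re)) ∧
      ∃ ρ : ℝ, Tendsto (fun p : ℝ × (Fin n → ℤ × ℤ) =>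
        ZT .plus T p.1 (sh p.2 i (1, 0)) / ZT .plus T p.1 p.2) (NF x) (𝓝 ρ) := by
    intro x hx i
    obtain ⟨g, hg, hBr⟩ := hB D hD n x hx
    obtain ⟨δ, hδ, hball, hsep, hdat⟩ := dat_plus hDo hT hx i
    have heta := eta_plus hT hBr i hδ hball hsep
    have hsm := small_plus (n := n) hbd hL x
    obtain ⟨χ, H⟩ := exists_cut (r0 := δ / 4) (R0 := δ / 2) (by positivity) (by linarith)
    obtain ⟨χ', H'⟩ := exists_cut (r0 := δ / 32) (R0 := δ / 16) (by positivity) (by linarith)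
    have hR : δ / 2 < δ := by linarith
    have l1 := diag1 hdat heta H hR
    have l2 := diag2 hdat heta hsm H hR H' (by linarith)
    have l3 := unit1 hdat heta H hR
    have hnh := (nf_fst x).eventually hNH
    -- evaluation
    have hts : tsupport χ ⊆ Metric.ball 0 δ := by
      refine (closure_minimal (fun z hz => ?_) Metric.isClosed_closedBall).trans
        (Metric.closedBall_subset_ball hR)
      rw [Metric.mem_closedBall, dist_zero_right]
      by_contra hc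
      exact hz (H.zero z (not_le.1 hc).le)
    have h1n : χ =ᶠ[𝓝 0] fun _ => 1 := by
      filter_upwards [Metric.ball_mem_nhds (0 : ℂ) H.pos] with z hz
      exact H.one z (by rwa [Metric.mem_ball, dist_zero_right] at hz)
    have hdg : DifferentiableOn ℂ (g i) (Metric.ball (x i) δ) :=
      (hg i).br.holo.mono fun z hz => hball z (by rwa [Metric.mem_ball, dist_eq_norm] at hz)
    have ev1 := eval_N hδ hsep hdg (hg i).nrm H.c1 hts h1n
    have ev2 := eval_N2 hδ hsep hdg (hg i).nrm H.c1 hts h1n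
    have e1 : ∀ z d, pN χ z d =
        Evalx644.pc χ (fun w => kp * ((1 - Complex.I) / 2) * (Br5x644.zt w / w)) z d := by
      intro z d
      unfold pN Evalx644.pc
      rw [ed_dir]
    have e2 : ∀ z d, pN2 χ z d =
        Evalx644.pc χ (fun w => kp * ((1 + Complex.I) / 2) * (Br5x644.zt w / w)) z d := by
      intro z d
      unfold pN2 Evalx644.pc
      rw [ed_dir]
    simp only [e1] at l1
    rw [ev1] at l1
    simp only [e2] at l2
    rw [ev2, neg_neg] at l2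
    have hA : AAf n D i x = Ai x i (g i) := by
      have he : ∃ g, IsBr D x i g := ⟨_, (hg i).br⟩
      obtain ⟨r, M, hCD⟩ := GeoCx65.exists_CD hD ⟨x i, hx.1 i⟩
      unfold AAf
      rw [dif_pos he]
      exact U3Covx67.Ai_unique hU hCD hx.2 hx.1 he.choose_spec (hg i).br
    rw [hA]
    refine ⟨l1.congr' ?_, l2.congr' ?_, ⟨1 + 2 * _, (l3.const_mul 2).const_add 1 |>.congr' ?_⟩⟩
    · filter_upwards [hnh] with p hp
      have h5 := Step3x470.sh_NE hp (Sc_cov T p) i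
      rw [lNE_eq, lSW_eq] at h5
      show _ = (GB .plus (T p.1) (sh p.2 i (1, 1)) / GB .plus (T p.1) p.2 - 1) / p.1
      rw [h5, div_eq_inv_mul]
      rfl
    · filter_upwards [hnh] with p hp
      have h5 := Step3x470.sh_SE hp (Sc_cov T p) i
      rw [lNW_eq, lSE_eq] at h5
      show _ = (GB .plus (T p.1) (sh p.2 i (1, -1)) / GB .plus (T p.1) p.2 - 1) / p.1
      rw [h5, div_eq_inv_mul]
      rfl
    · filter_upwards [hnh] with p hp
      have h5 := Step2x470.plus_unit hp (Sc_cov T p) i 0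
      have h6 := col_lS_X (Sc_cov T p) (p.2 i)
      show _ = GB .plus (T p.1) (sh p.2 i (1, 0)) / GB .plus (T p.1) p.2
      have h7 : sh p.2 i (1, 0) = Function.update p.2 i (p.2 i + unitVec 0) := by
        unfold sh
        congr 1
      rw [h7, h5, h6]
      show _ = 1 - 2 * wX (wDom (T p.1 : Set (ℤ × ℤ)) false) p.2 (p.2 i) 0 * _
      ring
  refine LogGx813.ldd_glue hDo (preconn_of_C2 hD) ?_ ?_ ?_ ?_
  · intro x _
    filter_upwards [(nf_fst x).eventually hNH] with p hp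
    exact Step2x470.GB_plus_pos hp p.2
  · intro i x hx
    have h := (main x hx i).1
    have e : ((1 + Complex.I) * AAf n D i x).re =
        gOf (AAf n D) i 0 x + gOf (AAf n D) i 1 x := by
      unfold gOf
      simp
      ring
    rw [e] at h
    exact h
  · intro i x hx
    have h := (main x hx i).2.1
    have e : ((1 - Complex.I) * AAf n D i x).re =
        gOf (AAf n D) i 0 x - gOf (AAf n D) i 1 x := by
      unfold gOf
      simp
    rw [e] at h
    exact h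
  · intro i x hx
    exact (main x hx i).2.2

end Crest.Agent.R165.LogEx813
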