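import Crest.Agent.R165.UFin_420
import Crest.Agent.R165.U3Spin_719

/-!
# Row 165 (S0250), block U, leaf B4 (helper304): kernel limits for plus boundary conditions

Wiring: limits of the covariance in terms of two real kernels `k`, `kr` (structure `KerK`) give the
interface `KerD` / `KerCov` of `UKer_420`, i.e. the Props `KerEx`, `KerCv` of `UFin_420`.
-/

set_option autoImplicit false

noncomputable section

open Filter Topology Finset
open Crest.ProbabilityR.IsingModel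

namespace Crest.Agent.R165.UKerPlx304

open Crest.Agent.R165.Topx683 Crest.Agent.R165.Redx541 Crest.Agent.R165.Red2x541
open Crest.Agent.R165.Latx683 (BW HE hp hq wDom ray wX IsCov covS formS Fld)
open Crest.Agent.R165.UDomBx420 Crest.Agent.R165.UKerx420 Crest.Agent.R165.UFinx420

/-! ### bilinear forms on `ℂ` -/

/-- real bilinear -/
def Bil (k : ℂ → ℂ → ℝ) : Prop := ∃ b : LinearMap.BilinForm ℝ ℂ, ∀ c c', k c c' = b c c'

open Classical in
/-- the form of a bilinear function -/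
def formOf (k : ℂ → ℂ → ℝ) : LinearMap.BilinForm ℝ ℂ := if h : Bil k then h.choose else 0

theorem formOf_apply {k : ℂ → ℂ → ℝ} (h : Bil k) (c c' : ℂ) : formOf k c c' = k c c' := by
  unfold formOf
  rw [dif_pos h]
  exact (h.choose_spec c c').symm

theorem bil_expand (b : LinearMap.BilinForm ℝ ℂ) (c c' : ℂ) :
    b c c' = c.re * c'.re * b 1 1 + c.re * c'.im * b 1 Complex.I + c.im * c'.re * b Complex.I 1 +
      c.im * c'.im * b Complex.I Complex.I := by
  have h : ∀ z : ℂ, z = z.re • (1 : ℂ) + z.im • Complex.I := fun z => by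
    apply Complex.ext <;> simp
  rw [h c, h c']
  simp only [map_add, map_smul, LinearMap.add_apply, LinearMap.smul_apply, smul_eq_mul]
  simp
  ring

theorem bil_ext {b b' : LinearMap.BilinForm ℝ ℂ}
    (h : ∀ i i' : Fin 4, b (edir i) (edir i') = b' (edir i) (edir i')) : b = b' := by
  have e1 : edir 1 = 1 := by simp [edir]
  have e3 : edir 3 = Complex.I := by simp [edir]
  have h11 := h 1 1
  have h13 := h 1 3
  have h31 := h 3 1
  have h33 := h 3 3
  rw [e1] at h11 h13 h31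
  rw [e3] at h13 h31 h33
  refine LinearMap.ext fun c => LinearMap.ext fun c' => ?_
  rw [bil_expand b, bil_expand b', h11, h13, h31, h33]

theorem ed_one_zero : ed 1 0 = 1 := by simp [ed]
theorem ed_one_one : ed 1 1 = Complex.I := by simp [ed]
theorem ed_zero_zero : ed 0 0 = ⟨-(Real.sqrt 2 / 2), Real.sqrt 2 / 2⟩ := by simp [ed]

theorem alt_of_ed {b : LinearMap.BilinForm ℝ ℂ} (h : ∀ j i : Fin 2, b (ed j i) (ed j i) = 0)
    (c : ℂ) : b c c = 0 := by
  have h10 := h 1 0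
  have h11 := h 1 1
  have h00 := h 0 0
  rw [ed_one_zero] at h10
  rw [ed_one_one] at h11
  rw [ed_zero_zero, bil_expand] at h00
  simp only at h00
  rw [h10, h11] at h00
  have hs : Real.sqrt 2 * Real.sqrt 2 = 2 := Real.mul_self_sqrt (by norm_num)
  have h4 : b 1 Complex.I + b Complex.I 1 = 0 := by
    linear_combination (-2) * h00 + (-(1/2)) * (b 1 Complex.I + b Complex.I 1) * hs
  rw [bil_expand, h10, h11]
  linear_combination (c.re * c.im) * h4

theorem ext_of_alt {b b' : LinearMap.BilinForm ℝ ℂ} (hb : ∀ c, b c c = 0) (hb' : ∀ c, b' c c = 0)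
    (h : b 1 Complex.I = b' 1 Complex.I) : b = b' := by
  have key : ∀ b : LinearMap.BilinForm ℝ ℂ, (∀ c, b c c = 0) → b Complex.I 1 = -b 1 Complex.I := by
    intro b hb
    have h1 := hb (1 + Complex.I)
    simp only [map_add, LinearMap.add_apply, hb, zero_add, add_zero] at h1
    linarith
  refine LinearMap.ext fun c => LinearMap.ext fun c' => ?_
  rw [bil_expand b, bil_expand b', key b hb, key b' hb', hb, hb, hb', hb', h]

/-! ### kernel limits in terms of two kernels -/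

variable {n : ℕ}

/-- limits of the covariance: off-diagonal kernel `k z z' c c'`, regular part `kr z c c'` -/
structure KerK (fr : Bool) (D : Set ℂ) (x : Fin n → ℂ) (k : ℂ → ℂ → ℂ → ℂ → ℝ)
    (kr : ℂ → ℂ → ℂ → ℝ) : Prop where
  bil : ∀ z z', z ∈ D → z' ∈ D → z ≠ z' → (∀ i, x i ≠ z) → (∀ i, x i ≠ z') → Bil (k z z')
  bilr : ∀ z, z ∈ D → (∀ i, x i ≠ z) → Bil (kr z)
  off : ∀ (S : ℝ → HE ℤ → HE ℤ → ℝ),
    (∀ᶠ a in 𝓝[>] (0 : ℝ), IsCov (wD fr D a (fun i => meshIndex a (x i))) (S a)) →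
    ∀ z z' : ℂ, z ∈ D → z' ∈ D → z ≠ z' → (∀ i, x i ≠ z) → (∀ i, x i ≠ z') →
    ∀ (i i' : Fin 4) (f f' : ℝ → ℤ × ℤ), Tendsto (fun a => fpt a (f a)) (𝓝[>] 0) (𝓝 z) →
      Tendsto (fun a => fpt a (f' a)) (𝓝[>] 0) (𝓝 z') →
      Tendsto (fun a => a⁻¹ * (kap x (fun i => meshIndex a (x i)) z (f a) *
        kap x (fun i => meshIndex a (x i)) z' (f' a) * S a (f a, i) (f' a, i'))) (𝓝[>] 0)
        (𝓝 (k z z' (edir i) (edir i')))
  diag : ∀ (S : ℝ → HE ℤ → HE ℤ → ℝ),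
    (∀ᶠ a in 𝓝[>] (0 : ℝ), IsCov (wD fr D a (fun i => meshIndex a (x i))) (S a)) →
    ∀ z : ℂ, z ∈ D → (∀ i, x i ≠ z) → ∀ (j i i' : Fin 2),
      Tendsto (fun a => a⁻¹ * (kap x (fun i => meshIndex a (x i)) z (hb (meshIndex a z) j i).1 *
        kap x (fun i => meshIndex a (x i)) z (hb (meshIndex a z) j i').1 *
          S a (hb (meshIndex a z) j i) (hb (meshIndex a z) j i') - cB i i')) (𝓝[>] 0)
        (𝓝 (kr z (ed j i) (ed j i')))

open Classical in
/-- off-diagonal form -/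
def blK (x : Fin n → ℂ) (k : ℂ → ℂ → ℂ → ℂ → ℝ) (z z' : ℂ) : LinearMap.BilinForm ℝ ℂ :=
  if (∀ i, x i ≠ z) ∧ (∀ i, x i ≠ z') then formOf (k z z') else 0

open Classical in
/-- regular form -/
def rgK (x : Fin n → ℂ) (kr : ℂ → ℂ → ℂ → ℝ) (z : ℂ) : LinearMap.BilinForm ℝ ℂ :=
  if ∀ i, x i ≠ z then formOf (kr z) else 0

variable {fr : Bool} {D : Set ℂ} {x : Fin n → ℂ}

theorem mesh_self (z : ℂ) : Tendsto (fun a : ℝ => fpt a (meshIndex a z)) (𝓝[>] 0) (𝓝 z) := by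
  have h := tendsto_mesh z 0
  simpa [fpt] using h

/-- a covariance family -/
theorem exists_S (hex : ∀ᶠ a in 𝓝[>] (0 : ℝ), ∃ S, IsCov (wD fr D a (fun i => meshIndex a (x i))) S) :
    ∃ S : ℝ → HE ℤ → HE ℤ → ℝ,
      ∀ᶠ a in 𝓝[>] (0 : ℝ), IsCov (wD fr D a (fun i => meshIndex a (x i))) (S a) :=
  ⟨fun a => Sof (wD fr D a (fun i => meshIndex a (x i))), hex.mono fun _ h => Sof_spec h⟩

theorem KerK.skew_val {k : ℂ → ℂ → ℂ → ℂ → ℝ} {kr : ℂ → ℂ → ℂ → ℝ} (K : KerK fr D x k kr)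
    (hex : ∀ᶠ a in 𝓝[>] (0 : ℝ), ∃ S, IsCov (wD fr D a (fun i => meshIndex a (x i))) S)
    {z z' : ℂ} (hz : z ∈ D) (hz' : z' ∈ D) (hne : z ≠ z') (hx : ∀ i, x i ≠ z)
    (hx' : ∀ i, x i ≠ z') (i i' : Fin 4) :
    k z z' (edir i) (edir i') = -k z' z (edir i') (edir i) := by
  obtain ⟨S, hS⟩ := exists_S hex
  have h1 := K.off S hS z z' hz hz' hne hx hx' i i' _ _ (mesh_self z) (mesh_self z')
  have h2 := K.off S hS z' z hz' hz (Ne.symm hne) hx' hx i' i _ _ (mesh_self z') (mesh_self z)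
  have h3 := h1.add h2
  have h4 : Tendsto (fun _ : ℝ => (0 : ℝ)) (𝓝[>] 0)
      (𝓝 (k z z' (edir i) (edir i') + k z' z (edir i') (edir i))) := by
    refine h3.congr' ?_
    filter_upwards [hS] with a ha
    have := ha.skew (meshIndex a z, i) (meshIndex a z', i')
    rw [this]; ring
  have h5 := tendsto_nhds_unique h4 tendsto_const_nhds
  linarith

theorem KerK.diag_val {k : ℂ → ℂ → ℂ → ℂ → ℝ} {kr : ℂ → ℂ → ℂ → ℝ} (K : KerK fr D x k kr)
    (hex : ∀ᶠ a in 𝓝[>] (0 : ℝ), ∃ S, IsCov (wD fr D a (fun i => meshIndex a (x i))) S)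
    {z : ℂ} (hz : z ∈ D) (hx : ∀ i, x i ≠ z) (j i : Fin 2) : kr z (ed j i) (ed j i) = 0 := by
  obtain ⟨S, hS⟩ := exists_S hex
  have h1 := K.diag S hS z hz hx j i i
  have h2 : Tendsto (fun _ : ℝ => (0 : ℝ)) (𝓝[>] 0) (𝓝 (kr z (ed j i) (ed j i))) := by
    refine h1.congr' ?_
    filter_upwards [hS] with a ha
    have h3 := ha.skew (hb (meshIndex a z) j i) (hb (meshIndex a z) j i)
    have h4 : S a (hb (meshIndex a z) j i) (hb (meshIndex a z) j i) = 0 := by linarith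
    have h5 : cB i i = 0 := by
      fin_cases i <;> simp [cB]
    rw [h4, h5]; ring
  exact (tendsto_nhds_unique h2 tendsto_const_nhds)

/-- **from `KerK` to `KerD`** -/
theorem KerK.kerD {k : ℂ → ℂ → ℂ → ℂ → ℝ} {kr : ℂ → ℂ → ℂ → ℝ} (K : KerK fr D x k kr)
    (hex : ∀ᶠ a in 𝓝[>] (0 : ℝ), ∃ S, IsCov (wD fr D a (fun i => meshIndex a (x i))) S) :
    KerD fr D x (blK x k) (rgK x kr) where
  off S hS z z' hz hz' hne hx hx' i i' f f' hf hf' := by
    have h := K.off S hS z z' hz hz' hne hx hx' i i' f f' hf hf'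
    unfold blK
    rw [if_pos ⟨hx, hx'⟩, formOf_apply (K.bil z z' hz hz' hne hx hx')]
    exact h
  diag S hS z hz hx j i i' := by
    have h := K.diag S hS z hz hx j i i'
    unfold rgK
    rw [if_pos hx, formOf_apply (K.bilr z hz hx)]
    exact h
  skew z z' hz hz' hne c c' := by
    unfold blK
    by_cases hx : (∀ i, x i ≠ z) ∧ (∀ i, x i ≠ z')
    · rw [if_pos hx, if_pos ⟨hx.2, hx.1⟩]
      have e : formOf (k z z') = -(formOf (k z' z)).flip := by
        refine bil_ext fun i i' => ?_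
        rw [LinearMap.neg_apply, LinearMap.neg_apply, LinearMap.BilinForm.flip_apply,
          formOf_apply (K.bil z z' hz hz' hne hx.1 hx.2),
          formOf_apply (K.bil z' z hz' hz (Ne.symm hne) hx.2 hx.1)]
        exact K.skew_val hex hz hz' hne hx.1 hx.2 i i'
      rw [e, LinearMap.neg_apply, LinearMap.neg_apply, LinearMap.BilinForm.flip_apply]
    · rw [if_neg hx, if_neg (fun h => hx ⟨h.2, h.1⟩)]
      simp
  alt z hz c := by
    unfold rgK
    by_cases hx : ∀ i, x i ≠ z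
    · rw [if_pos hx]
      refine alt_of_ed (fun j i => ?_) c
      rw [formOf_apply (K.bilr z hz hx)]
      exact K.diag_val hex hz hx j i
    · rw [if_neg hx]
      simp

/-- uniqueness of the off-diagonal limits -/
theorem off_unique {bl bl' : ℂ → ℂ → LinearMap.BilinForm ℝ ℂ} {rg rg' : ℂ → LinearMap.BilinForm ℝ ℂ}
    (K : KerD fr D x bl rg) (K' : KerD fr D x bl' rg')
    (hex : ∀ᶠ a in 𝓝[>] (0 : ℝ), ∃ S, IsCov (wD fr D a (fun i => meshIndex a (x i))) S)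
    {z z' : ℂ} (hz : z ∈ D) (hz' : z' ∈ D) (hne : z ≠ z') (hx : ∀ i, x i ≠ z)
    (hx' : ∀ i, x i ≠ z') : bl z z' = bl' z z' := by
  obtain ⟨S, hS⟩ := exists_S hex
  refine bil_ext fun i i' => ?_
  exact tendsto_nhds_unique
    (K.off S hS z z' hz hz' hne hx hx' i i' _ _ (mesh_self z) (mesh_self z'))
    (K'.off S hS z z' hz hz' hne hx hx' i i' _ _ (mesh_self z) (mesh_self z'))

/-- uniqueness of the regular part -/
theorem diag_unique {bl bl' : ℂ → ℂ → LinearMap.BilinForm ℝ ℂ}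
    {rg rg' : ℂ → LinearMap.BilinForm ℝ ℂ} (K : KerD fr D x bl rg) (K' : KerD fr D x bl' rg')
    (hex : ∀ᶠ a in 𝓝[>] (0 : ℝ), ∃ S, IsCov (wD fr D a (fun i => meshIndex a (x i))) S)
    {z : ℂ} (hz : z ∈ D) (hx : ∀ i, x i ≠ z) : rg z = rg' z := by
  obtain ⟨S, hS⟩ := exists_S hex
  have h := tendsto_nhds_unique (K.diag S hS z hz hx 1 0 1) (K'.diag S hS z hz hx 1 0 1)
  rw [ed_one_zero, ed_one_one] at h
  exact ext_of_alt (fun c => K.alt z hz c) (fun c => K'.alt z hz c) h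

/-- weight-1/2 covariance of two kernels -/
def CovK (D : Set ℂ) (x : Fin n → ℂ) (φ : ℂ → ℂ) (k k' : ℂ → ℂ → ℂ → ℂ → ℝ)
    (kr kr' : ℂ → ℂ → ℂ → ℝ) : Prop :=
  ∃ r : ℂ → ℂ,
    (∀ z ∈ D, (∀ i, x i ≠ z) → r z ^ 2 = deriv φ z) ∧
    (∀ z z', z ∈ D → z' ∈ D → z ≠ z' → (∀ i, x i ≠ z) → (∀ i, x i ≠ z') → ∀ c c',
      k z z' c c' = k' (φ z) (φ z') (r z * c) (r z' * c')) ∧
    ∀ z, z ∈ D → (∀ i, x i ≠ z) → ∀ c c', kr z c c' = kr' (φ z) (r z * c) (r z * c')

/-- **covariance for arbitrary `KerD` data** -/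
theorem kerCov_of {D' : Set ℂ} {φ : ℂ → ℂ} (hφ : Set.BijOn φ D D') (hinjx : ∀ i, x i ∈ D)
    {k k' : ℂ → ℂ → ℂ → ℂ → ℝ} {kr kr' : ℂ → ℂ → ℂ → ℝ}
    (K : KerK fr D x k kr) (K' : KerK fr D' (fun i => φ (x i)) k' kr')
    (hex : ∀ᶠ a in 𝓝[>] (0 : ℝ), ∃ S, IsCov (wD fr D a (fun i => meshIndex a (x i))) S)
    (hex' : ∀ᶠ a in 𝓝[>] (0 : ℝ), ∃ S, IsCov (wD fr D' a (fun i => meshIndex a (φ (x i)))) S)
    (hc : CovK D x φ k k' kr kr')
    {bl bl' : ℂ → ℂ → LinearMap.BilinForm ℝ ℂ} {rg rg' : ℂ → LinearMap.BilinForm ℝ ℂ}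
    (L : KerD fr D x bl rg) (L' : KerD fr D' (fun i => φ (x i)) bl' rg') :
    KerCov D x φ bl bl' rg rg' := by
  obtain ⟨r, hr, ho, hd⟩ := hc
  have hne : ∀ z, z ∈ D → (∀ i, x i ≠ z) → ∀ i, φ (x i) ≠ φ z := fun z hz hx i e =>
    hx i (hφ.injOn (hinjx i) hz e)
  refine ⟨r, hr, fun z z' hz hz' hzz hx hx' c c' => ?_, fun z hz hx c c' => ?_⟩
  · have hzz' : φ z ≠ φ z' := fun e => hzz (hφ.injOn hz hz' e)
    rw [off_unique L (K.kerD hex) hex hz hz' hzz hx hx',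
      off_unique L' (K'.kerD hex') hex' (hφ.mapsTo hz) (hφ.mapsTo hz') hzz' (hne z hz hx)
        (hne z' hz' hx')]
    unfold blK
    rw [if_pos ⟨hx, hx'⟩, if_pos ⟨hne z hz hx, hne z' hz' hx'⟩,
      formOf_apply (K.bil z z' hz hz' hzz hx hx'),
      formOf_apply (K'.bil _ _ (hφ.mapsTo hz) (hφ.mapsTo hz') hzz' (hne z hz hx)
        (hne z' hz' hx'))]
    exact ho z z' hz hz' hzz hx hx' c c'
  · rw [diag_unique L (K.kerD hex) hex hz hx,
      diag_unique L' (K'.kerD hex') hex' (hφ.mapsTo hz) (hne z hz hx)]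
    unfold rgK
    rw [if_pos hx, if_pos (hne z hz hx), formOf_apply (K.bilr z hz hx),
      formOf_apply (K'.bilr _ (hφ.mapsTo hz) (hne z hz hx))]
    exact hd z hz hx c c'

/-! ### the Props for one boundary condition -/

/-- all data of one boundary condition: kernels, their limits, their covariance -/
def KerAll (b : BoundaryCondition) : Prop := ∀ n : ℕ, Rel b n →
  ∃ (k : Set ℂ → (Fin n → ℂ) → ℂ → ℂ → ℂ → ℂ → ℝ) (kr : Set ℂ → (Fin n → ℂ) → ℂ → ℂ → ℂ → ℝ),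
    (∀ D, IsC2JordanDomain D → ∀ x : Fin n → ℂ, (∀ i, x i ∈ D) → Function.Injective x →
      KerK (isF b) D x (k D x) (kr D x)) ∧
    ∀ D D', IsC2JordanDomain D → IsC2JordanDomain D' → ∀ φ : ℂ → ℂ, DifferentiableOn ℂ φ D →
      Set.BijOn φ D D' → ∀ x : Fin n → ℂ, (∀ i, x i ∈ D) → Function.Injective x →
        CovK D x φ (k D x) (k D' (fun i => φ (x i))) (kr D x) (kr D' (fun i => φ (x i)))

/-- `KerEx` for one boundary condition -/
def KerExB (b : BoundaryCondition) : Prop :=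
  ∀ n : ℕ, Rel b n → ∀ D : Set ℂ, IsC2JordanDomain D →
    ∀ x : Fin n → ℂ, (∀ i, x i ∈ D) → Function.Injective x → ∃ bl rg, KerD (isF b) D x bl rg

/-- `KerCv` for one boundary condition -/
def KerCvB (b : BoundaryCondition) : Prop :=
  ∀ n : ℕ, Rel b n → ∀ D D' : Set ℂ, IsC2JordanDomain D →
    IsC2JordanDomain D' → ∀ φ : ℂ → ℂ, DifferentiableOn ℂ φ D → Set.BijOn φ D D' →
    ∀ x : Fin n → ℂ, (∀ i, x i ∈ D) → Function.Injective x →
      ∀ bl rg bl' rg', KerD (isF b) D x bl rg → KerD (isF b) D' (fun i => φ (x i)) bl' rg' →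
        KerCov D x φ bl bl' rg rg'

theorem kerExB_of (hEx : ExCov) {b : BoundaryCondition} (h : KerAll b) : KerExB b := by
  intro n hR D hD x hx hinj
  obtain ⟨k, kr, h1, -⟩ := h n hR
  exact ⟨_, _, (h1 D hD x hx hinj).kerD (hEx b n hR D hD x hx hinj)⟩

theorem kerCvB_of (hEx : ExCov) {b : BoundaryCondition} (h : KerAll b) : KerCvB b := by
  intro n hR D D' hD hD' φ hφ hbij x hx hinj bl rg bl' rg' L L'
  obtain ⟨k, kr, h1, h2⟩ := h n hR
  have hx' : ∀ i, φ (x i) ∈ D' := fun i => hbij.mapsTo (hx i)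
  have hinj' : Function.Injective (fun i => φ (x i)) := fun i j e =>
    hinj (hbij.injOn (hx i) (hx j) e)
  exact kerCov_of hbij hx (h1 D hD x hx hinj) (h1 D' hD' _ hx' hinj')
    (hEx b n hR D hD x hx hinj) (hEx b n hR D' hD' _ hx' hinj')
    (h2 D D' hD hD' φ hφ hbij x hx hinj) L L'

/-- plus and free together -/
theorem kerEx_of_B (h1 : KerExB .plus) (h2 : KerExB .free) : KerEx := by
  intro b n hR
  rcases hR with h | ⟨h, h'⟩
  · subst h; exact h1 n (Or.inl rfl)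
  · subst h; exact h2 n (Or.inr ⟨rfl, h'⟩)

theorem kerCv_of_B (h1 : KerCvB .plus) (h2 : KerCvB .free) : KerCv := by
  intro b n hR
  rcases hR with h | ⟨h, h'⟩
  · subst h; exact h1 n (Or.inl rfl)
  · subst h; exact h2 n (Or.inr ⟨rfl, h'⟩)

end Crest.Agent.R165.UKerPlx304
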