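import Crest.Agent.R165.MacO_622
import Crest.Agent.R165.UKerPl_304
import Crest.Agent.R165.UB3_641
import Crest.Agent.R165.SpE_583
import Crest.Agent.R165.FrFin_887
import Crest.Agent.R165.UJ3_420

/-!
# Row 165 (S0250), block U, leaf B4 (helper304): from `MacOut` (622) to `KerK`, `KerF`, `MacLeaf`

* `cov40_of_isCov`
* `bil_kerB`, `bil_kerR` : real bilinearity of the continuum kernels
* `latSeq_of_bgFam` : families of 641 give sequences of 622
* `kerF_of`, `kerK_of`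
-/

set_option autoImplicit false

noncomputable section

open MeasureTheory Filter Topology Set Metric
open Crest.ProbabilityR.IsingModel
open Crest.Agent.R165.Tr1x40 Crest.Agent.R165.RIfx891 Crest.Agent.R165.Embx622
open Crest.Agent.R165.Mac0x622 Crest.Agent.R165.MacIx622
open Crest.Agent.R165.Mac2x622 (ud spF ud_zero ud_one ud_two ud_three)
open Crest.Agent.R165.MacOx622
open Crest.Agent.R165.Latx683 (BW HE hp hq wDom wPl ray wX IsCov)
open Crest.Agent.R165.UKerx420 (edir hb kap fpt cB wD KerD tendsto_mesh)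
open Crest.Agent.R165.UDomBx420 (ed)
open Crest.Agent.R165.FrFinx887 (toF cur sym_toF A_toF)
open Crest.Agent.R165.UKerPlx304

namespace Crest.Agent.R165.MacWx304

/-! ### bridge of the covariances -/

theorem cur_col (S : HE ℤ → HE ℤ → ℝ) (b : HE ℤ) :
    cur (fun h => S h b) = fun f h => S (f, h) b := rfl

theorem cov40_of_isCov {W : BW ℤ} {S : HE ℤ → HE ℤ → ℝ} (h : IsCov W S) : Cov40 (toF W) S where
  skew := h.skew
  zero := h.zero
  inv b' f k := by
    have h1 := h.inv (f, k) b'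
    rw [← cur_col, A_toF, h1]
    by_cases hb : (f, k) = b'
    · rw [if_pos hb, ← hb]; simp
    · rw [if_neg hb]; simp [hb]

/-! ### directions, gauges -/

theorem ud_eq (i : Fin 4) : ud i = edir i := by
  fin_cases i
  · show ud 0 = edir 0
    rw [ud_zero]; simp [edir]
  · show ud 1 = edir 1
    rw [ud_one]; simp [edir]
  · show ud 2 = edir 2
    rw [ud_two]; simp [edir]
  · show ud 3 = edir 3
    rw [ud_three]; simp [edir]

theorem kp_eq {n : ℕ} (x : Fin n → ℂ) (z : ℂ) (V : Fin n → Face) (f : Face) :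
    kp x z V f = kap x V z f := by
  unfold kp kap
  congr

theorem xc_eq : Latx683.xc = xc := rfl

/-! ### the plane kernel at a bond -/

theorem spF_eq (b : Face × Fin 4) (f : Face) (h : Fin 4) : spF b f h = Spx583.Spl (f, h) b := rfl

theorem hb_pe (v : ℤ × ℤ) (j : Fin 2) : hb v j 0 = J1ax606.pe ((v, j) : J1ax606.EG ℤ) := by
  fin_cases j
  · simp [hb]
  · simp only [hb, if_true, Fin.mk_one, Latx683.hp_one, J1ax606.pe_one]
    ext <;> simp

theorem hb_qe (v : ℤ × ℤ) (j : Fin 2) : hb v j 1 = J1ax606.qe ((v, j) : J1ax606.EG ℤ) := by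
  fin_cases j
  · simp only [hb, one_ne_zero, if_false, Fin.zero_eta, Latx683.hq_zero, J1ax606.qe_zero]
    ext <;> simp
  · simp [hb]

theorem bond_val : (1 - 3 * xc ^ 2) / (8 * xc ^ 2) = UDomBx420.cP := by
  have h2 : Real.sqrt 2 * Real.sqrt 2 = 2 := sq2
  have hx := xc_pos
  unfold UDomBx420.cP
  rw [div_eq_iff (by positivity)]
  unfold xc
  nlinarith [h2]

theorem spl_bond (v : ℤ × ℤ) (j i i' : Fin 2) : Spx583.Spl (hb v j i) (hb v j i') = cB i i' := by
  have h01 : Spx583.Spl (hb v j 0) (hb v j 1) = UDomBx420.cP := by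
    rw [hb_pe, hb_qe, Spx583.Spl_bond, ← bond_val]; rfl
  have hself : ∀ h : HE ℤ, Spx583.Spl h h = 0 := fun h => by
    have := Spx583.Spl_anti h h; linarith
  fin_cases i <;> fin_cases i'
  · simp [cB, hself]
  · simp only [Fin.zero_eta, Fin.mk_one, h01]; simp [cB]
  · simp only [Fin.zero_eta, Fin.mk_one]
    rw [Spx583.Spl_anti, h01]; simp [cB]
  · simp [cB, hself]

/-! ### bilinearity of the continuum kernels -/

open Crest.Agent.R165.U3x719 (kerB kerR src IsKer rXa e8)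

/-- a function which is additive and real homogeneous in both variables is `Bil` -/
theorem bil_of {k : ℂ → ℂ → ℝ} (a1 : ∀ c d c', k (c + d) c' = k c c' + k d c')
    (s1 : ∀ (s : ℝ) c c', k (s * c) c' = s * k c c')
    (a2 : ∀ c c' d', k c (c' + d') = k c c' + k c d')
    (s2 : ∀ (s : ℝ) c c', k c (s * c') = s * k c c') : Bil k := by
  refine ⟨LinearMap.mk₂ ℝ k a1 (fun s c c' => ?_) a2 (fun s c c' => ?_), fun c c' => ?_⟩
  · rw [Complex.real_smul, s1, smul_eq_mul]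
  · rw [Complex.real_smul, s2, smul_eq_mul]
  · simp [LinearMap.mk₂_apply]

theorem bil_div {k : ℂ → ℂ → ℝ} (h : Bil k) (t : ℝ) : Bil fun c c' => k c c' / t := by
  obtain ⟨b, hb⟩ := h
  refine ⟨t⁻¹ • b, fun c c' => ?_⟩
  simp only [LinearMap.smul_apply, smul_eq_mul]
  rw [hb]; ring

variable {n : ℕ} {x : Fin n → ℂ} {D : Set ℂ}

/-- additivity and homogeneity of the source -/
structure LinG (D : Set ℂ) (y : ℂ) (g : ℂ → ℂ → ℂ → ℂ) : Prop where
  add : ∀ c d z : ℂ, z ∈ D → z ≠ y → g y (c + d) z = g y c z + g y d z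
  smul : ∀ (s : ℝ) (c z : ℂ), z ∈ D → z ≠ y → g y (s * c) z = s * g y c z

theorem bil_kerB {g : ℂ → ℂ → ℂ → ℂ} {z y : ℂ} (hL : LinG D y g) (hz : z ∈ D) (hzy : z ≠ y) :
    Bil (kerB x g z y) := by
  refine bil_of (fun c d c' => ?_) (fun s c c' => ?_) (fun c c' d' => ?_) (fun s c c' => ?_)
  · unfold kerB
    rw [← Complex.add_re]; congr 1; ring
  · unfold kerB
    rw [show (s : ℂ) * c * e8 * (g y c' z / rXa x z) = (s : ℂ) * (c * e8 * (g y c' z / rXa x z)) by
      ring, Complex.re_ofReal_mul]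
  · unfold kerB
    rw [hL.add c' d' z hz hzy, ← Complex.add_re]; congr 1; ring
  · unfold kerB
    rw [hL.smul s c' z hz hzy,
      show c * e8 * ((s : ℂ) * g y c' z / rXa x z) = (s : ℂ) * (c * e8 * (g y c' z / rXa x z)) by
      ring, Complex.re_ofReal_mul]

theorem src_add (x : Fin n → ℂ) (y c d : ℂ) : src x y (c + d) = src x y c + src x y d := by
  unfold src; ring

theorem src_smul (x : Fin n → ℂ) (y c : ℂ) (s : ℝ) : src x y (s * c) = s * src x y c := by
  unfold src; ring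

/-- the regular part exists -/
theorem exists_reg {y c : ℂ} {g : ℂ → ℂ → ℂ → ℂ} (hD : IsOpen D) (hy : y ∈ D)
    (hK : IsKer D x y (src x y c) (g y c)) :
    ∃ l : ℂ, Tendsto (fun z => g y c z - src x y c / (z - y)) (𝓝[≠] y) (𝓝 l) := by
  obtain ⟨h, hh, he⟩ := hK.pole
  refine ⟨h y, ?_⟩
  have h1 : Tendsto h (𝓝[≠] y) (𝓝 (h y)) :=
    ((hh.continuousOn.continuousAt (hD.mem_nhds hy)).tendsto).mono_left nhdsWithin_le_nhds
  refine h1.congr' ?_
  filter_upwards [self_mem_nhdsWithin, mem_nhdsWithin_of_mem_nhds (hD.mem_nhds hy)] with z hz hzD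
  rw [he z hzD hz]; ring

/-- the limit of the regular part -/
def regL (x : Fin n → ℂ) (g : ℂ → ℂ → ℂ → ℂ) (y c : ℂ) : ℂ :=
  limUnder (𝓝[≠] y) (fun z => g y c z - src x y c / (z - y))

theorem regL_spec {y c : ℂ} {g : ℂ → ℂ → ℂ → ℂ} (hD : IsOpen D) (hy : y ∈ D)
    (hK : IsKer D x y (src x y c) (g y c)) :
    Tendsto (fun z => g y c z - src x y c / (z - y)) (𝓝[≠] y) (𝓝 (regL x g y c)) :=
  tendsto_nhds_limUnder (exists_reg hD hy hK)

theorem regL_add {y : ℂ} {g : ℂ → ℂ → ℂ → ℂ} (hD : IsOpen D) (hy : y ∈ D)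
    (hK : ∀ c, IsKer D x y (src x y c) (g y c)) (hL : LinG D y g) (c d : ℂ) :
    regL x g y (c + d) = regL x g y c + regL x g y d := by
  refine tendsto_nhds_unique (regL_spec hD hy (hK (c + d))) ?_
  refine ((regL_spec hD hy (hK c)).add (regL_spec hD hy (hK d))).congr' ?_
  filter_upwards [self_mem_nhdsWithin, mem_nhdsWithin_of_mem_nhds (hD.mem_nhds hy)] with z hz hzD
  rw [hL.add c d z hzD hz, src_add]; ring

theorem regL_smul {y : ℂ} {g : ℂ → ℂ → ℂ → ℂ} (hD : IsOpen D) (hy : y ∈ D)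
    (hK : ∀ c, IsKer D x y (src x y c) (g y c)) (hL : LinG D y g) (s : ℝ) (c : ℂ) :
    regL x g y (s * c) = s * regL x g y c := by
  refine tendsto_nhds_unique (regL_spec hD hy (hK (s * c))) ?_
  refine ((regL_spec hD hy (hK c)).const_mul (s : ℂ)).congr' ?_
  filter_upwards [self_mem_nhdsWithin, mem_nhdsWithin_of_mem_nhds (hD.mem_nhds hy)] with z hz hzD
  rw [hL.smul s c z hzD hz, src_smul]; ring

theorem kerR_eq (x : Fin n → ℂ) (g : ℂ → ℂ → ℂ → ℂ) (y c c' : ℂ) :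
    kerR x g y c c' = (c * e8 * (regL x g y c' - src x y c' * ∑ j, 1 / (2 * (y - x j))) /
      rXa x y).re := rfl

theorem bil_kerR {g : ℂ → ℂ → ℂ → ℂ} {y : ℂ} (hD : IsOpen D) (hy : y ∈ D)
    (hK : ∀ c, IsKer D x y (src x y c) (g y c)) (hL : LinG D y g) : Bil (kerR x g y) := by
  refine bil_of (fun c d c' => ?_) (fun s c c' => ?_) (fun c c' d' => ?_) (fun s c c' => ?_)
  · simp only [kerR_eq]
    rw [← Complex.add_re]; congr 1; ring
  · simp only [kerR_eq]
    rw [← Complex.re_ofReal_mul]; congr 1; ring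
  · simp only [kerR_eq]
    rw [regL_add hD hy hK hL, src_add, ← Complex.add_re]; congr 1; ring
  · simp only [kerR_eq]
    rw [regL_smul hD hy hK hL, src_smul, ← Complex.re_ofReal_mul]; congr 1; ring

theorem linG_of {CC : (ℕ → ℝ) → (ℕ → Fld) → (ℕ → Fin n → Face) → Prop} {g : ℂ → ℂ → ℂ → ℂ}
    (H : MacOut D x CC g) {y : ℂ} (hy : y ∈ Om D x) : LinG D y g where
  add c d z hz hzy := H.add y hy c d z hz hzy
  smul s c z hz hzy := H.smul y hy s c z hz hzy

theorem mem_Om {z : ℂ} (hz : z ∈ D) (hx : ∀ i, x i ≠ z) : z ∈ Om D x :=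
  ⟨hz, fun ⟨i, hi⟩ => hx i hi⟩

/-! ### families and sequences -/

/-- every sequence of the family belongs, up to finitely many terms, to the class -/
def FamIn (CC : (ℕ → ℝ) → (ℕ → Fld) → (ℕ → Fin n → Face) → Prop) (W : ℝ → BW ℤ)
    (X : ℝ → Fin n → ℤ × ℤ) : Prop :=
  ∀ u : ℕ → ℝ, Tendsto u atTop (𝓝[>] 0) → ∃ K : ℕ,
    CC (fun k => u (k + K)) (fun k => toF (W (u (k + K)))) (fun k => X (u (k + K)))

/-- the off-diagonal value -/
def kB (x : Fin n → ℂ) (g : ℂ → ℂ → ℂ → ℂ) (z y c c' : ℂ) : ℝ :=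
  kerB x g z y c c' / (2 * Real.pi * Latx683.xc)

/-- the regular value -/
def kR (x : Fin n → ℂ) (g : ℂ → ℂ → ℂ → ℂ) (y c c' : ℂ) : ℝ :=
  kerR x g y c c' / (2 * Real.pi * Latx683.xc)

theorem off_of {CC : (ℕ → ℝ) → (ℕ → Fld) → (ℕ → Fin n → Face) → Prop} {g : ℂ → ℂ → ℂ → ℂ}
    (H : MacOut D x CC g) {W : ℝ → BW ℤ} {X : ℝ → Fin n → ℤ × ℤ} (hF : FamIn CC W X)
    (S : ℝ → HE ℤ → HE ℤ → ℝ) (hS : ∀ᶠ a in 𝓝[>] (0 : ℝ), IsCov (W a) (S a))
    {z z' : ℂ} (hz : z ∈ D) (hz' : z' ∈ D) (hne : z ≠ z') (hx : ∀ i, x i ≠ z)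
    (hx' : ∀ i, x i ≠ z') (i i' : Fin 4) (f f' : ℝ → ℤ × ℤ)
    (hf : Tendsto (fun a => fpt a (f a)) (𝓝[>] 0) (𝓝 z))
    (hf' : Tendsto (fun a => fpt a (f' a)) (𝓝[>] 0) (𝓝 z')) :
    Tendsto (fun a => a⁻¹ * (kap x (X a) z (f a) * kap x (X a) z' (f' a) *
        S a (f a, i) (f' a, i'))) (𝓝[>] 0) (𝓝 (kB x g z z' (edir i) (edir i'))) := by
  refine tendsto_of_seq_tendsto fun u hu => ?_
  obtain ⟨K, hK⟩ := hF u hu
  rw [← tendsto_add_atTop_iff_nat K]
  have huK : Tendsto (fun k => u (k + K)) atTop (𝓝[>] 0) :=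
    hu.comp (tendsto_add_atTop_nat K)
  have h := H.off _ _ _ hK (fun k => S (u (k + K)))
    ((huK.eventually hS).mono fun k h => cov40_of_isCov h) z (mem_Om hz hx) z' (mem_Om hz' hx') hne
    (fun k => f (u (k + K))) (fun k => f' (u (k + K))) (hf.comp huK) (hf'.comp huK) i i'
  rw [ud_eq, ud_eq] at h
  refine h.congr fun k => ?_
  rw [kp_eq, kp_eq]
  rfl

theorem mesh_shift {v : ℝ → ℤ × ℤ} {z : ℂ} (hv : Tendsto (fun a => fpt a (v a)) (𝓝[>] 0) (𝓝 z))
    (c : ℤ × ℤ) : Tendsto (fun a => fpt a (v a + c)) (𝓝[>] 0) (𝓝 z) := by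
  have h1 : Tendsto (fun a : ℝ => (a : ℂ) * ((c.1 : ℂ) + (c.2 : ℂ) * Complex.I)) (𝓝[>] 0)
      (𝓝 0) := by
    have h2 : Tendsto (fun a : ℝ => (a : ℂ)) (𝓝[>] 0) (𝓝 0) := by
      have := (Complex.continuous_ofReal.tendsto (0 : ℝ)).mono_left
        (nhdsWithin_le_nhds (s := Ioi (0 : ℝ)))
      simpa using this
    simpa using h2.mul_const ((c.1 : ℂ) + (c.2 : ℂ) * Complex.I)
  have h3 := hv.add h1
  rw [add_zero] at h3
  refine h3.congr fun a => ?_
  apply Complex.ext <;> simp [fpt, meshPoint] <;> ring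

theorem hb_off (j i : Fin 2) : ∃ c : ℤ × ℤ, ∀ v : ℤ × ℤ, (hb v j i).1 = v + c := by
  fin_cases j <;> fin_cases i
  · exact ⟨0, fun v => by simp [hb]⟩
  · exact ⟨(0, -1), fun v => by ext <;> simp [hb, hq, sub_eq_add_neg]⟩
  · exact ⟨(-1, 0), fun v => by ext <;> simp [hb, hp, sub_eq_add_neg]⟩
  · exact ⟨0, fun v => by simp [hb, hq]⟩

theorem hb_snd (v v' : ℤ × ℤ) (j i : Fin 2) : (hb v j i).2 = (hb v' j i).2 := by
  fin_cases j <;> fin_cases i <;> rfl

theorem diag_of {CC : (ℕ → ℝ) → (ℕ → Fld) → (ℕ → Fin n → Face) → Prop} {g : ℂ → ℂ → ℂ → ℂ}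
    (H : MacOut D x CC g) {W : ℝ → BW ℤ} {X : ℝ → Fin n → ℤ × ℤ} (hF : FamIn CC W X)
    (S : ℝ → HE ℤ → HE ℤ → ℝ) (hS : ∀ᶠ a in 𝓝[>] (0 : ℝ), IsCov (W a) (S a))
    {z : ℂ} (hz : z ∈ D) (hx : ∀ i, x i ≠ z) (v : ℝ → ℤ × ℤ)
    (hv : Tendsto (fun a => fpt a (v a)) (𝓝[>] 0) (𝓝 z)) (j i i' : Fin 2) :
    Tendsto (fun a => a⁻¹ * (kap x (X a) z (hb (v a) j i).1 * kap x (X a) z (hb (v a) j i').1 *
          S a (hb (v a) j i) (hb (v a) j i') - cB i i')) (𝓝[>] 0)
        (𝓝 (kR x g z (ed j i) (ed j i'))) := by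
  refine tendsto_of_seq_tendsto fun u hu => ?_
  obtain ⟨K, hK⟩ := hF u hu
  rw [← tendsto_add_atTop_iff_nat K]
  have huK : Tendsto (fun k => u (k + K)) atTop (𝓝[>] 0) :=
    hu.comp (tendsto_add_atTop_nat K)
  have hm : ∀ i : Fin 2, Tendsto (fun a => fpt a (hb (v a) j i).1) (𝓝[>] 0) (𝓝 z) := by
    intro i
    obtain ⟨c, hc⟩ := hb_off j i
    simpa only [hc] using mesh_shift hv c
  have h := H.diag _ _ _ hK (fun k => S (u (k + K)))
    ((huK.eventually hS).mono fun k h => cov40_of_isCov h) z (mem_Om hz hx)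
    (fun k => (hb (v (u (k + K))) j i).1) (fun k => (hb (v (u (k + K))) j i').1)
    ((hm i).comp huK) ((hm i').comp huK) (hb 0 j i).2 (hb 0 j i').2
  rw [ud_eq, ud_eq, UKerx420.edir_hb, UKerx420.edir_hb] at h
  refine h.congr fun k => ?_
  rw [kp_eq, kp_eq, spF_eq]
  have e : ∀ i : Fin 2, ((hb (v (u (k + K))) j i).1, (hb 0 j i).2) = hb (v (u (k + K))) j i :=
    fun i => by rw [hb_snd 0 (v (u (k + K))) j i]
  rw [e i, e i', spl_bond]
  rfl

/-- **(C)** kernel limits of one family in terms of `MacOut` -/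
theorem kerF_of {CC : (ℕ → ℝ) → (ℕ → Fld) → (ℕ → Fin n → Face) → Prop} {g : ℂ → ℂ → ℂ → ℂ}
    (hD : IsOpen D) (H : MacOut D x CC g) {w : ℝ → BW ℤ} {X : ℝ → Fin n → ℤ × ℤ}
    (hF : FamIn CC (fun a => wX (w a) (X a)) X) :
    UB3x641.KerF D x w X (blK x (kB x g)) (rgK x (kR x g)) where
  off S hS z z' hz hz' hne hx hx' i i' f f' hf hf' := by
    have h := off_of H hF S hS hz hz' hne hx hx' i i' f f' hf hf'
    unfold blK
    rw [if_pos ⟨hx, hx'⟩, formOf_apply]
    · exact h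
    · exact bil_div (bil_kerB (linG_of H (mem_Om hz' hx')) hz hne) _
  diag S hS z hz hx v hv j i i' := by
    have h := diag_of H hF S hS hz hx v hv j i i'
    unfold rgK
    rw [if_pos hx, formOf_apply]
    · exact h
    · exact bil_div (bil_kerR hD hz (fun c => H.ker z (mem_Om hz hx) c)
        (linG_of H (mem_Om hz hx))) _

/-- **(C)** `KerK` -/
theorem kerK_of {CC : (ℕ → ℝ) → (ℕ → Fld) → (ℕ → Fin n → Face) → Prop} {g : ℂ → ℂ → ℂ → ℂ}
    (hD : IsOpen D) (H : MacOut D x CC g) {fr : Bool}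
    (hF : FamIn CC (fun a => wD fr D a (fun i => meshIndex a (x i))) fun a i => meshIndex a (x i)) :
    KerK fr D x (kB x g) (kR x g) where
  bil z z' hz hz' hne hx hx' := bil_div (bil_kerB (linG_of H (mem_Om hz' hx')) hz hne) _
  bilr z hz hx :=
    bil_div (bil_kerR hD hz (fun c => H.ker z (mem_Om hz hx) c) (linG_of H (mem_Om hz hx))) _
  off S hS z z' hz hz' hne hx hx' i i' f f' hf hf' :=
    off_of H hF S hS hz hz' hne hx hx' i i' f f' hf hf'
  diag S hS z hz hx j i i' := diag_of H hF S hS hz hx _ (by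
      have h1 := tendsto_mesh z 0
      simp only [add_zero] at h1
      exact h1) j i i'

/-! ### families of 641 give sequences of 622 -/

theorem rays_eq (X : Fin n → ℤ × ℤ) (f : Face) (h : Fin 4) : rays X f h = toF (ray X) f h := by
  unfold rays
  fin_cases h
  · show ∏ i, rayw (X i) f 0 = ray X f 0
    unfold ray rayw
    refine Finset.prod_congr rfl fun i _ => ?_
    simp only [true_and, Fin.isValue, Fin.reduceEq, false_and, or_false, eq_comm]
  · show ∏ i, rayw (X i) f 1 = ray X (f.1 + 1, f.2) 1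
    unfold ray rayw
    refine Finset.prod_congr rfl fun i _ => ?_
    simp
  · show ∏ i, rayw (X i) f 2 = ray X (f.1, f.2 + 1) 0
    unfold ray rayw
    refine Finset.prod_congr rfl fun i _ => ?_
    simp only [true_and, Fin.isValue, Fin.reduceEq, false_and, false_or, eq_comm]
  · show ∏ i, rayw (X i) f 3 = ray X f 1
    unfold ray rayw
    refine Finset.prod_congr rfl fun i _ => ?_
    simp

theorem ray_val (X : Fin n → ℤ × ℤ) (z : ℤ × ℤ) (j : Fin 2) : ray X z j ^ 2 = 1 := by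
  unfold ray
  rw [← Finset.prod_pow]
  refine Finset.prod_eq_one fun i _ => ?_
  split_ifs <;> norm_num

theorem add10 (f : Face) : f + ((1, 0) : ℤ × ℤ) = (f.1 + 1, f.2) := by ext <;> simp
theorem add01 (f : Face) : f + ((0, 1) : ℤ × ℤ) = (f.1, f.2 + 1) := by ext <;> simp

/-- the four bonds around a face -/
theorem toF_cases (f : Face) (h : Fin 4) :
    ∃ (c : ℤ × ℤ) (j : Fin 2), (c = 0 ∨ c = (1, 0) ∨ c = (0, 1)) ∧
      ∀ V : BW ℤ, toF V f h = V (f + c) j := by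
  fin_cases h
  · exact ⟨0, 0, Or.inl rfl, fun V => by rw [add_zero]; rfl⟩
  · exact ⟨(1, 0), 1, Or.inr (Or.inl rfl), fun V => by rw [add10]; rfl⟩
  · exact ⟨(0, 1), 0, Or.inr (Or.inr rfl), fun V => by rw [add01]; rfl⟩
  · exact ⟨0, 1, Or.inl rfl, fun V => by rw [add_zero]; rfl⟩

theorem dist_mesh {a : ℝ} (ha : 0 < a) (f c : ℤ × ℤ) (hc : c = 0 ∨ c = (1, 0) ∨ c = (0, 1)) :
    dist (meshPoint a (f + c)) (meshPoint a f) ≤ a := by
  rcases hc with rfl | rfl | rfl
  · rw [add_zero, dist_self]; exact ha.le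
  · exact UB3x641.mesh_unit_dist ha f 0
  · exact UB3x641.mesh_unit_dist ha f 1

theorem famIn_of_bgFam (hDo : IsOpen D) (hb : Bornology.IsBounded D) {w : ℝ → BW ℤ}
    (hw : UB3x641.BgFam D w) {X : ℝ → Fin n → ℤ × ℤ} (hX : U5Px422.LApp X x) :
    FamIn (LatSeq D x) (fun a => wX (w a) (X a)) X := by
  intro u hu
  -- a ball containing the closure
  obtain ⟨R0, hR0⟩ := hb.closure.subset_ball (0 : ℂ)
  have hcl : IsClosed {z : ℂ | R0 ≤ ‖z‖} := isClosed_le continuous_const continuous_norm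
  have hdj : Disjoint {z : ℂ | R0 ≤ ‖z‖} (closure D) := by
    rw [Set.disjoint_left]
    intro z hz hz'
    have := hR0 hz'
    rw [mem_ball_zero_iff] at this
    exact absurd hz (not_le.2 this)
  have e1 := hw.out _ hcl hdj
  have e2 : ∀ᶠ a in 𝓝[>] (0 : ℝ), a ≤ 1 := mem_nhdsWithin_of_mem_nhds (Iic_mem_nhds one_pos)
  have e3 : ∀ᶠ a in 𝓝[>] (0 : ℝ), 0 < a := self_mem_nhdsWithin
  obtain ⟨K, hK⟩ := eventually_atTop.1 (hu.eventually (hw.val.and (e1.and (e2.and e3))))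
  have huK : Tendsto (fun k => u (k + K)) atTop (𝓝[>] 0) := hu.comp (tendsto_add_atTop_nat K)
  have hpos : ∀ k, 0 < u (k + K) := fun k => (hK _ (Nat.le_add_left _ _)).2.2.2
  refine ⟨K, hpos, huK.mono_right nhdsWithin_le_nhds, fun k => sym_toF _, fun k f h => ?_,
    fun i => (hX i).comp huK, fun K' hK' hKD => ?_, fun K' hK' hKD => ?_, R0 + 1, fun k f hf h => ?_⟩
  · obtain ⟨c, j, -, hV⟩ := toF_cases f h
    rw [hV]
    have h1 := (hK (k + K) (Nat.le_add_left _ _)).1 (f + c) j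
    show (ray (X (u (k + K))) (f + c) j * w (u (k + K)) (f + c) j) ^ 2 = _ ∨
      ray (X (u (k + K))) (f + c) j * w (u (k + K)) (f + c) j = 0
    rcases h1 with h1 | h1
    · right; rw [h1, mul_zero]
    · left; rw [h1, mul_pow, ray_val, one_mul]; rfl
  · obtain ⟨δ, hδ, hδD⟩ := hK'.exists_cthickening_subset_open hDo hKD
    have h1 := hw.inn _ (hK'.cthickening (r := δ)) hδD
    have h2 : ∀ᶠ a in 𝓝[>] (0 : ℝ), a ≤ δ := mem_nhdsWithin_of_mem_nhds (Iic_mem_nhds hδ)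
    filter_upwards [huK.eventually h1, huK.eventually h2] with k h1 h2 f hf h
    obtain ⟨c, j, hc, hV⟩ := toF_cases f h
    rw [rays_eq, hV, hV]
    show ray (X (u (k + K))) (f + c) j * w (u (k + K)) (f + c) j = _
    rw [h1 (f + c) j (Metric.mem_cthickening_of_dist_le _ _ _ _ hf
      ((dist_mesh (hpos k) f c hc).trans h2))]
    rfl
  · obtain ⟨δ, hδ, hdisj⟩ := hKD.exists_cthickenings hK' isClosed_closure
    have h1 := hw.out (Metric.cthickening δ K') Metric.isClosed_cthickening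
      (hdisj.mono_right (Metric.self_subset_cthickening _))
    have h2 : ∀ᶠ a in 𝓝[>] (0 : ℝ), a ≤ δ := mem_nhdsWithin_of_mem_nhds (Iic_mem_nhds hδ)
    filter_upwards [huK.eventually h1, huK.eventually h2] with k h1 h2 f hf h
    obtain ⟨c, j, hc, hV⟩ := toF_cases f h
    rw [hV]
    show ray (X (u (k + K))) (f + c) j * w (u (k + K)) (f + c) j = _
    rw [h1 (f + c) j (Metric.mem_cthickening_of_dist_le _ _ _ _ hf
      ((dist_mesh (hpos k) f c hc).trans h2)), mul_zero]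
  · obtain ⟨c, j, hc, hV⟩ := toF_cases f h
    rw [hV]
    have h1 := (hK (k + K) (Nat.le_add_left _ _)).2
    have h2 := dist_mesh (hpos k) f c hc
    have h3 : R0 ≤ ‖meshPoint (u (k + K)) (f + c)‖ := by
      have h4 : ‖meshPoint (u (k + K)) f‖ ≤ ‖meshPoint (u (k + K)) (f + c)‖ +
          dist (meshPoint (u (k + K)) (f + c)) (meshPoint (u (k + K)) f) := by
        rw [dist_eq_norm]
        have := norm_sub_le (meshPoint (u (k + K)) (f + c))
          (meshPoint (u (k + K)) (f + c) - meshPoint (u (k + K)) f)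
        rwa [sub_sub_cancel] at this
      have h5 := h1.2.1
      linarith
    show ray (X (u (k + K))) (f + c) j * w (u (k + K)) (f + c) j = _
    rw [h1.1 (f + c) j h3, mul_zero]

/-! ### the leaf -/

/-- existence of the covariance, plus boundary conditions -/
theorem exCov_dom (hD : IsC2JordanDomain D) (x : Fin n → ℂ) :
    ∀ᶠ a in 𝓝[>] (0 : ℝ), ∃ S, IsCov (wD false D a (fun i => meshIndex a (x i))) S := by
  filter_upwards [NoHolex65.eventually_noHole_toFinset hD, self_mem_nhdsWithin] with a h1 ha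
  have hfin : (domainSites D a).Finite :=
    Redx541.domainSites_finite (Redx541.bounded_of_C2 hD) ha
  have e := hfin.coe_toFinset
  have h3 := UJ3x420.exCov_plus hfin.toFinset (h1 hfin) (fun i => meshIndex a (x i))
  rw [e] at h3
  exact h3

/-- **`MacLeaf` of 641** from the output of 622 -/
theorem macLeaf_of (hM : ∀ D : Set ℂ, IsC2JordanDomain D → ∀ (n : ℕ) (x : Fin n → ℂ),
    x ∈ ConfTopx641.Conf n D → ∃ g, MacOut D x (LatSeq D x) g) : UB3x641.MacLeaf := by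
  intro D hD n x hx
  obtain ⟨g, H⟩ := hM D hD n x hx
  have hDo : IsOpen D := Red2x541.isOpen_of_C2 hD
  have hb := Redx541.bounded_of_C2 hD
  have hfam := famIn_of_bgFam (x := x) hDo hb (UB3x641.bgFam_dom hD) (U5Px422.lapp_meshIndex x)
  have K : KerK false D x (kB x g) (kR x g) := kerK_of hDo H hfam
  have KD := K.kerD (exCov_dom hD x)
  refine ⟨blK x (kB x g), rgK x (kR x g), g, fun y hy hxy c => H.ker y (mem_Om hy hxy) c,
    fun z hz y hy hne hxz hxy c c' => ?_, fun y hy hxy c c' => ?_, KD.skew, KD.alt,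
    fun w X hw hX => kerF_of hDo H (famIn_of_bgFam hDo hb hw hX)⟩
  · unfold blK
    rw [if_pos ⟨hxz, hxy⟩, formOf_apply (K.bil z y hz hy hne hxz hxy)]
    rfl
  · unfold rgK
    rw [if_pos hxy, formOf_apply (K.bilr y hy hxy)]
    rfl

end Crest.Agent.R165.MacWx304
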