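import Crest.Agent.R165.EtaCor_644
import Crest.Agent.R165.Eta3_576
import Crest.Agent.R165.MacW_304
import Crest.Agent.R165.MacT_610
import Crest.Agent.R165.Mac6_622
import Crest.Agent.R165.LogE_813

/-!
# Row 165 (S0250), block U4 (helper644): from the sequence limits of the columns to `BrF`

* `eta_seq` : pointwise limit of the column at a point of `Om D x`, from `ColLim` (576)
* `eta_of_colLim` : `BrF.eta` for one insertion
* `bdd_of_eta` : `|S(h, l_i)| ≤ C a^{1/2}` on compacts away from the insertions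
* `brF_of` : `BrF kp 1`
* `brLeafK_of` : `BrLeafK` from `Eta4` (622)
-/

set_option autoImplicit false

noncomputable section

open MeasureTheory Set Filter Topology Metric
open Crest.ProbabilityR.IsingModel

namespace Crest.Agent.R165.Eta5x644

open Crest.Agent.R165.Latx683 (BW HE wX IsCov yN)
open Crest.Agent.R165.Tr1x40 (xc A nb op)
open Crest.Agent.R165.RIfx891 (lv)
open Crest.Agent.R165.Embx622 (emb)
open Crest.Agent.R165.Mac0x622 (LatSeq OmSeq Om gz gc rX rX_ne gz_sq gc_sq gz_abs gc_abs)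
open Crest.Agent.R165.Mac6x622 (sgn sgn_sq)
open Crest.Agent.R165.MacIx622 (Cov40)
open Crest.Agent.R165.MacWx304 (FamIn famIn_of_bgFam cov40_of_isCov mem_Om)
open Crest.Agent.R165.UKerx420 (edir kap fpt kap_sq)
open Crest.Agent.R165.U3x719 (rXa e8 IsBr)
open Crest.Agent.R165.UB3x641 (gsrc IsBrN kapX BgFam cS cSS BrF)
open Crest.Agent.R165.U5Px422 (LApp)
open Crest.Agent.R165.FrFinx887 (toF)
open Crest.Agent.R165.Eta1x576 (lvec)
open Crest.Agent.R165.Eta3x576 (ColLim)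
open Crest.Agent.R165.ConfTopx641 (Conf)
open Crest.Agent.R165.Br5x644 (kp)

variable {n : ℕ}

/-! ### the two columns -/

theorem col_eq (W : BW ℤ) (S : HE ℤ → HE ℤ → ℝ) (V f : ℤ × ℤ) (h : Fin 4) :
    Eta2x576.col (toF W) S V f h = Gr2x813.col S (Gr3x813.lS W V) (f, h) := by
  unfold Eta2x576.col Gr2x813.col
  rw [Gr3x813.pr_lS]
  have h3 : yN W (V.1, V.2 - 1) = W V 0 := by
    unfold yN; simp
  rw [h3]
  rfl

theorem cS_col {W : BW ℤ} {S : HE ℤ → HE ℤ → ℝ} (hS : IsCov W S) {V f : ℤ × ℤ} (hf : f ≠ V)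
    (h : Fin 4) : cS S (f, h) V = Eta2x576.col (toF W) S V f h := by
  rw [col_eq]
  exact LogEx813.cS_eq hS fun hc => hf (congrArg Prod.fst hc)

theorem lvec_far (w : Tr1x40.Fld) {V f : ℤ × ℤ} (h1 : f ≠ V) (h2 : f ≠ (V.1, V.2 - 1)) (h : Fin 4) :
    lvec w V f h = 0 := by
  unfold lvec
  rw [if_neg fun hc => h1 hc.1, if_neg fun hc => h2 hc.1]

theorem om_open {D : Set ℂ} (hD : IsOpen D) (x : Fin n → ℂ) : IsOpen (Om D x) :=
  hD.sdiff (Set.finite_range x).isClosed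

/-! ### pointwise limit along sequences -/

theorem eta_seq {D : Set ℂ} (hD : IsOpen D) {x : Fin n → ℂ} {a : ℕ → ℝ} {w : ℕ → Tr1x40.Fld}
    {V : ℕ → Fin n → ℤ × ℤ} (H : LatSeq D x a w V) {S : ℕ → HE ℤ → HE ℤ → ℝ}
    (hS : ∀ᶠ k in atTop, Cov40 (w k) (S k)) {i : Fin n} {E : ℂ → ℂ}
    (hC : ColLim (Om D x) x i a w V S E) {z : ℂ} (hz : z ∈ D) (hxz : ∀ i, x i ≠ z)
    (hE : ContinuousAt (fun u => (gc x z u : ℂ) * E u) z) {f : ℕ → ℤ × ℤ}
    (hf : Tendsto (fun k => meshPoint (a k) (f k)) atTop (𝓝 z)) (d : Fin 4) :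
    Tendsto (fun k => gz x z (V k) (f k) * (gz x (x i) (V k) (V k i) *
      (a k ^ (-(1/2) : ℝ) * Eta2x576.col (w k) (S k) (V k i) (f k) d))) atTop (𝓝 (lv (E z) d)) := by
  have hzO : z ∈ Om D x := mem_Om hz hxz
  obtain ⟨ρ, hρ, hL⟩ := hC z hzO
  have hd0 : 0 < ‖x i - z‖ := norm_pos_iff.2 (sub_ne_zero.2 (hxz i))
  set r : ℝ := min ρ (‖x i - z‖ / 4) with hr
  have hr0 : 0 < r := lt_min hρ (by positivity)
  have hrρ : r ≤ ρ := min_le_left _ _
  have hrx : r ≤ ‖x i - z‖ / 4 := min_le_right _ _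
  refine Mac1x622.exact_pt H.omSeq (om_open hD x) (fun j hj => hj.2 ⟨j, rfl⟩) hzO
    (φ := fun k f h => gz x (x i) (V k) (V k i) *
      (a k ^ (-(1/2) : ℝ) * Eta2x576.col (w k) (S k) (V k i) f h)) hr0 ?_ hE (fun h => ?_) hf d
  · have ea : ∀ᶠ k in atTop, a k < ‖x i - z‖ / 4 :=
      H.lim.eventually (eventually_lt_nhds (by positivity))
    have et : ∀ᶠ k in atTop, ‖meshPoint (a k) (V k i) - x i‖ < ‖x i - z‖ / 4 := by
      have := tendsto_iff_norm_sub_tendsto_zero.1 (H.tip i)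
      exact this.eventually (eventually_lt_nhds (by positivity))
    filter_upwards [hS, ea, et] with k hS ea et f hf h
    have e1 : A (w k) (fun f h => gz x (x i) (V k) (V k i) *
        (a k ^ (-(1/2) : ℝ) * Eta2x576.col (w k) (S k) (V k i) f h)) f h =
        gz x (x i) (V k) (V k i) * (a k ^ (-(1/2) : ℝ) *
          A (w k) (Eta2x576.col (w k) (S k) (V k i)) f h) := by
      rw [Tr2x40.A_smul (w k) (gz x (x i) (V k) (V k i)) (fun f h => a k ^ (-(1/2) : ℝ) *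
        Eta2x576.col (w k) (S k) (V k i) f h), Tr2x40.A_smul]
    rw [e1, Eta2x576.A_col hS, lvec_far, neg_zero, mul_zero, mul_zero]
    · intro hc
      rw [hc] at hf
      have := norm_sub_norm_le (x i - z) (x i - meshPoint (a k) (V k i))
      have e2 : x i - z - (x i - meshPoint (a k) (V k i)) = meshPoint (a k) (V k i) - z := by ring
      rw [e2, norm_sub_rev (x i) (meshPoint (a k) (V k i))] at this
      linarith
    · intro hc
      have e3 : meshPoint (a k) f = meshPoint (a k) (V k i) - (a k : ℂ) * Complex.I := by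
        rw [hc]
        apply Complex.ext <;> simp [meshPoint]
        ring
      have := norm_sub_norm_le (x i - z) (x i - meshPoint (a k) (V k i))
      have e2 : x i - z - (x i - meshPoint (a k) (V k i)) = (meshPoint (a k) f - z) +
        (a k : ℂ) * Complex.I := by rw [e3]; ring
      rw [e2, norm_sub_rev (x i) (meshPoint (a k) (V k i))] at this
      have h4 := norm_add_le (meshPoint (a k) f - z) ((a k : ℂ) * Complex.I)
      rw [norm_mul, Complex.norm_I, mul_one, Complex.norm_real, Real.norm_eq_abs,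
        abs_of_pos (H.pos k)] at h4
      linarith
  · exact tendsto_of_tendsto_of_tendsto_of_le_of_le tendsto_const_nhds (hL h) (fun _ => zero_le)
      (fun k => lintegral_mono_set (ball_subset_ball hrρ))

/-! ### from sequences to families -/

/-- sign algebra -/
theorem sgn_alg {x : Fin n → ℂ} {z : ℂ} (i : Fin n) {E g : ℂ → ℂ}
    (hE : E z = (sgn x (x i) : ℂ) * (kp * e8 * (g z / rX x z))) (d : Fin 4) :
    sgn x z * sgn x (x i) * lv (E z) d = kp * (edir d * e8 * (g z / rXa x z)).re := by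
  rw [Evalx644.lv_eq, hE, Mac6x622.rXa_eq]
  have h1 : (sgn x z * sgn x (x i) * (edir d * ((sgn x (x i) : ℂ) *
      (kp * e8 * (g z / rX x z)))).re) =
      sgn x z * sgn x (x i) ^ 2 * (kp * (edir d * e8 * (g z / rX x z)).re) := by
    have e : edir d * ((sgn x (x i) : ℂ) * (kp * e8 * (g z / rX x z))) =
        ((sgn x (x i) * kp : ℝ) : ℂ) * (edir d * e8 * (g z / rX x z)) := by
      push_cast; ring
    rw [e, Complex.re_ofReal_mul]
    ring
  have h2 : edir d * e8 * (g z / ((sgn x z : ℂ) * rX x z)) =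
      (sgn x z : ℂ) * (edir d * e8 * (g z / rX x z)) := by
    have h3 := Mac6x622.sgn_sqC x z
    have h4 := Mac6x622.sgn_ne x z
    have h5 : (1 : ℂ) / (sgn x z : ℂ) = sgn x z := by
      rw [div_eq_iff h4, ← sq, h3]
    calc edir d * e8 * (g z / ((sgn x z : ℂ) * rX x z))
        = (1 / (sgn x z : ℂ)) * (edir d * e8 * (g z / rX x z)) := by
          rw [div_mul_eq_div_div, div_eq_mul_inv (g z) (sgn x z : ℂ), one_div]; ring
      _ = _ := by rw [h5]
  rw [h1, h2, sgn_sq, Complex.re_ofReal_mul]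
  ring

/-- continuity of the gauged amplitude -/
theorem cont_amp {D : Set ℂ} (hD : IsOpen D) {x : Fin n → ℂ} {i : Fin n} {g : ℂ → ℂ}
    (hg : ContinuousOn g (Om D x)) {z : ℂ} (hz : z ∈ D) (hxz : ∀ i, x i ≠ z) :
    ContinuousAt (fun u => (gc x z u : ℂ) *
      ((sgn x (x i) : ℂ) * (kp * e8 * (g u / rX x u)))) z := by
  obtain ⟨r, hr, hd⟩ := MacTx610.gc_rX_diff hxz
  have h1 : ContinuousAt (fun u => (gc x z u : ℂ) * rX x u) z :=
    hd.continuousOn.continuousAt (ball_mem_nhds z hr)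
  have h2 : ContinuousAt g z := hg.continuousAt ((om_open hD x).mem_nhds (mem_Om hz hxz))
  have h0 : (gc x z z : ℂ) * rX x z ≠ 0 := by
    rw [Mac1x622.gc_self, Complex.ofReal_one, one_mul]
    exact rX_ne hxz
  have h3 : ContinuousAt (fun u => (sgn x (x i) : ℂ) * (kp * e8 *
      (g u / ((gc x z u : ℂ) * rX x u)))) z :=
    continuousAt_const.mul (continuousAt_const.mul (h2.div h1 h0))
  refine h3.congr (Eventually.of_forall fun u => ?_)
  have h4 : (gc x z u : ℂ) ^ 2 = 1 := by exact_mod_cast gc_sq x z u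
  have h5 : (gc x z u : ℂ) ≠ 0 := fun hc => by rw [hc] at h4; norm_num at h4
  have h6 : (1 : ℂ) / (gc x z u : ℂ) = gc x z u := by rw [div_eq_iff h5, ← sq, h4]
  show (sgn x (x i) : ℂ) * (kp * e8 * (g u / ((gc x z u : ℂ) * rX x u))) =
    (gc x z u : ℂ) * ((sgn x (x i) : ℂ) * (kp * e8 * (g u / rX x u)))
  calc (sgn x (x i) : ℂ) * (kp * e8 * (g u / ((gc x z u : ℂ) * rX x u)))
      = (1 / (gc x z u : ℂ)) * ((sgn x (x i) : ℂ) * (kp * e8 * (g u / rX x u))) := by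
        rw [div_mul_eq_div_div, div_eq_mul_inv (g u) (gc x z u : ℂ), one_div]; ring
    _ = _ := by rw [h6]

/-- **`BrF.eta` from the sequence limits** -/
theorem eta_of_colLim {D : Set ℂ} (hD : IsOpen D) (hDb : Bornology.IsBounded D) {x : Fin n → ℂ}
    {w : ℝ → BW ℤ} (hw : BgFam D w) {X : ℝ → Fin n → ℤ × ℤ} (hX : LApp X x) {i : Fin n}
    {g : ℂ → ℂ} (hg : ContinuousOn g (Om D x))
    (hcol : ∀ a w V, LatSeq D x a w V → ∀ S : ℕ → HE ℤ → HE ℤ → ℝ,
      (∀ᶠ k in atTop, Cov40 (w k) (S k)) → ColLim (Om D x) x i a w V S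
        (fun z => (sgn x (x i) : ℂ) * (kp * e8 * (g z / rX x z))))
    {S : ℝ → HE ℤ → HE ℤ → ℝ} (hS : ∀ᶠ a in 𝓝[>] (0 : ℝ), IsCov (wX (w a) (X a)) (S a))
    {z : ℂ} (hz : z ∈ D) (hxz : ∀ i, x i ≠ z) (d : Fin 4) {f : ℝ → ℤ × ℤ}
    (hf : Tendsto (fun a => fpt a (f a)) (𝓝[>] 0) (𝓝 z)) :
    Tendsto (fun a => a ^ (-(1 : ℝ) / 2) * (kap x (X a) z (f a) * kapX x (X a) i *
      cS (S a) (f a, d) (X a i))) (𝓝[>] 0) (𝓝 (kp * (edir d * e8 * (g z / rXa x z)).re)) := by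
  refine tendsto_of_seq_tendsto fun u hu => ?_
  obtain ⟨K, hK⟩ := famIn_of_bgFam hD hDb hw hX u hu
  rw [← tendsto_add_atTop_iff_nat K]
  have huK : Tendsto (fun k => u (k + K)) atTop (𝓝[>] 0) :=
    hu.comp (tendsto_add_atTop_nat K)
  have hSk := huK.eventually hS
  have hS4 : ∀ᶠ k in atTop, Cov40 (toF (wX (w (u (k + K))) (X (u (k + K))))) (S (u (k + K))) :=
    hSk.mono fun k h => cov40_of_isCov h
  have h1 := eta_seq hD hK hS4 (hcol _ _ _ hK (fun k => S (u (k + K))) hS4) hz hxz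
    (cont_amp hD hg hz hxz) (hf.comp huK) d
  have h2 := h1.const_mul (sgn x z * sgn x (x i))
  rw [sgn_alg i (E := fun z => (sgn x (x i) : ℂ) * (kp * e8 * (g z / rX x z))) rfl d] at h2
  refine h2.congr' ?_
  -- the face is far from the insertion
  have hne : ∀ᶠ k in atTop, f (u (k + K)) ≠ X (u (k + K)) i := by
    have h3 := hf.comp huK
    have h4 := (hX i).comp huK
    have h5 := h3.sub h4
    have h6 : z - x i ≠ 0 := sub_ne_zero.2 (hxz i).symm
    filter_upwards [h5.eventually_ne h6] with k hk hc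
    apply hk
    simp only [Function.comp, fpt, hc, sub_self]
  filter_upwards [hSk, hne] with k hSk hne
  show sgn x z * sgn x (x i) * (gz x z (X (u (k + K))) (f (u (k + K))) *
      (gz x (x i) (X (u (k + K))) (X (u (k + K)) i) * (u (k + K) ^ (-(1/2) : ℝ) *
        Eta2x576.col (toF (wX (w (u (k + K))) (X (u (k + K))))) (S (u (k + K)))
          (X (u (k + K)) i) (f (u (k + K))) d))) =
    u (k + K) ^ (-(1 : ℝ) / 2) * (kap x (X (u (k + K))) z (f (u (k + K))) *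
      kapX x (X (u (k + K))) i * cS (S (u (k + K))) (f (u (k + K)), d) (X (u (k + K)) i))
  rw [cS_col hSk hne]
  unfold kapX
  rw [← MacWx304.kp_eq, ← MacWx304.kp_eq, Mac6x622.kp_eq, Mac6x622.kp_eq]
  have e : (-(1 : ℝ) / 2) = (-(1/2) : ℝ) := by norm_num
  rw [e]
  ring

/-! ### the bound on compacts -/

theorem kap_abs (x : Fin n → ℂ) (X : Fin n → ℤ × ℤ) (z : ℂ) (f : ℤ × ℤ) : |kap x X z f| = 1 := by
  have h := kap_sq x X z f
  rw [← abs_mul_abs_self] at h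
  nlinarith [abs_nonneg (kap x X z f)]

/-- **the bound on compacts from the limit** -/
theorem bdd_of_eta {D : Set ℂ} {x : Fin n → ℂ} {X : ℝ → Fin n → ℤ × ℤ} {i : Fin n} {g : ℂ → ℂ}
    {S : ℝ → HE ℤ → HE ℤ → ℝ}
    (heta : ∀ z : ℂ, z ∈ D → (∀ i, x i ≠ z) → ∀ (d : Fin 4) (f : ℝ → ℤ × ℤ),
      Tendsto (fun a => fpt a (f a)) (𝓝[>] 0) (𝓝 z) →
      Tendsto (fun a => a ^ (-(1 : ℝ) / 2) * (kap x (X a) z (f a) * kapX x (X a) i *
        cS (S a) (f a, d) (X a i))) (𝓝[>] 0) (𝓝 (kp * (edir d * e8 * (g z / rXa x z)).re)))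
    {K : Set ℂ} (hK : IsCompact K) (hKD : K ⊆ D) (hKx : ∀ i, x i ∉ K) :
    ∃ C : ℝ, ∀ᶠ a in 𝓝[>] (0 : ℝ), ∀ h : HE ℤ, fpt a h.1 ∈ K →
      |cS (S a) h (X a i)| ≤ C * a ^ (1 / 2 : ℝ) := by
  refine hK.induction_on (p := fun s => ∃ C : ℝ, ∀ᶠ a in 𝓝[>] (0 : ℝ), ∀ h : HE ℤ, fpt a h.1 ∈ s →
      |cS (S a) h (X a i)| ≤ C * a ^ (1 / 2 : ℝ)) ⟨0, ?_⟩ ?_ ?_ ?_
  · exact Eventually.of_forall fun a h hh => absurd hh (Set.notMem_empty _)
  · rintro s t hst ⟨C, hC⟩
    exact ⟨C, hC.mono fun a ha h hh => ha h (hst hh)⟩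
  · rintro s t ⟨C, hC⟩ ⟨C', hC'⟩
    refine ⟨max C C', ?_⟩
    have hpos : ∀ᶠ a in 𝓝[>] (0 : ℝ), 0 < a := self_mem_nhdsWithin
    filter_upwards [hC, hC', hpos] with a h1 h2 ha h hh
    have h0 : 0 ≤ a ^ (1 / 2 : ℝ) := by positivity
    rcases hh with hh | hh
    · exact (h1 h hh).trans (mul_le_mul_of_nonneg_right (le_max_left _ _) h0)
    · exact (h2 h hh).trans (mul_le_mul_of_nonneg_right (le_max_right _ _) h0)
  · intro z hz
    have hzD := hKD hz
    have hxz : ∀ j, x j ≠ z := fun j hj => hKx j (hj ▸ hz)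
    have key : ∀ d : Fin 4, ∃ δ > 0, ∀ a, 0 < a → a < δ → ∀ b : ℤ × ℤ, dist (meshPoint a b) z < δ →
        |a ^ (-(1 : ℝ) / 2) * (kap x (X a) z b * kapX x (X a) i * cS (S a) (b, d) (X a i)) -
          kp * (edir d * e8 * (g z / rXa x z)).re| < 1 := by
      intro d
      exact LogEx813.joint_of_fam (m := fun a (b : ℤ × ℤ) => meshPoint a b)
        (φ0 := fun a => meshIndex a z) (Pairx599.tendsto_meshPoint tendsto_id z)
        (q := fun a b => a ^ (-(1 : ℝ) / 2) * (kap x (X a) z b * kapX x (X a) i *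
          cS (S a) (b, d) (X a i))) (fun φ hφ => heta z hzD hxz d φ hφ) one_pos
    choose δ hδ hb using key
    set L : Fin 4 → ℝ := fun d => kp * (edir d * e8 * (g z / rXa x z)).re with hL
    set δ0 : ℝ := Finset.univ.inf' Finset.univ_nonempty δ with hδ0
    have hδ0p : 0 < δ0 := (Finset.lt_inf'_iff _).2 fun d _ => hδ d
    refine ⟨ball z δ0, mem_nhdsWithin_of_mem_nhds (ball_mem_nhds z hδ0p), ∑ d, |L d| + 1, ?_⟩
    have hpos : ∀ᶠ a in 𝓝[>] (0 : ℝ), 0 < a := self_mem_nhdsWithin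
    have hsm : ∀ᶠ a in 𝓝[>] (0 : ℝ), a < δ0 := mem_nhdsWithin_of_mem_nhds (Iio_mem_nhds hδ0p)
    filter_upwards [hpos, hsm] with a ha has h hh
    obtain ⟨f, d⟩ := h
    have hle : δ0 ≤ δ d := Finset.inf'_le _ (Finset.mem_univ d)
    have h1 := hb d a ha (has.trans_le hle) f ((mem_ball.1 hh).trans_le hle)
    have h2 : |a ^ (-(1 : ℝ) / 2) * (kap x (X a) z f * kapX x (X a) i *
        cS (S a) (f, d) (X a i))| ≤ |L d| + 1 := by
      have h3 := abs_sub_abs_le_abs_sub (a ^ (-(1 : ℝ) / 2) * (kap x (X a) z f * kapX x (X a) i *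
        cS (S a) (f, d) (X a i))) (L d)
      have h4 : |a ^ (-(1 : ℝ) / 2) * (kap x (X a) z f * kapX x (X a) i *
        cS (S a) (f, d) (X a i)) - L d| < 1 := h1
      linarith
    have h5 : |L d| ≤ ∑ d, |L d| := Finset.single_le_sum (f := fun d => |L d|)
      (fun _ _ => abs_nonneg _) (Finset.mem_univ d)
    have hap : 0 < a ^ (-(1 : ℝ) / 2) := by positivity
    rw [abs_mul, abs_mul, abs_mul, abs_of_pos hap, kap_abs] at h2
    unfold kapX at h2
    rw [kap_abs, one_mul, one_mul] at h2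
    have h6 : a ^ (1 / 2 : ℝ) * a ^ (-(1 : ℝ) / 2) = 1 := by
      rw [← Real.rpow_add ha]; norm_num
    have h7 : 0 < a ^ (1 / 2 : ℝ) := by positivity
    calc |cS (S a) (f, d) (X a i)|
        = a ^ (1 / 2 : ℝ) * (a ^ (-(1 : ℝ) / 2) * |cS (S a) (f, d) (X a i)|) := by
          rw [← mul_assoc, h6, one_mul]
      _ ≤ a ^ (1 / 2 : ℝ) * (∑ d, |L d| + 1) :=
          mul_le_mul_of_nonneg_left (h2.trans (by linarith)) h7.le
      _ = _ := mul_comm _ _

/-! ### assembly -/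

/-- **`BrF kp 1` from the sequence limits of all columns** -/
theorem brF_of {D : Set ℂ} (hD : IsOpen D) (hDb : Bornology.IsBounded D) {x : Fin n → ℂ}
    (hx : Function.Injective x) (hxD : ∀ i, x i ∈ D) {g : Fin n → ℂ → ℂ}
    (hg : ∀ i, DifferentiableOn ℂ (g i) D)
    (hcol : ∀ i, ∀ a w V, LatSeq D x a w V → ∀ S : ℕ → HE ℤ → HE ℤ → ℝ,
      (∀ᶠ k in atTop, Cov40 (w k) (S k)) → ColLim (Om D x) x i a w V S
        (fun z => (sgn x (x i) : ℂ) * (kp * e8 * (g i z / rX x z))))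
    {w : ℝ → BW ℤ} (hw : BgFam D w) {X : ℝ → Fin n → ℤ × ℤ} (hX : LApp X x) :
    BrF kp 1 D x w X g := by
  have heta : ∀ S : ℝ → HE ℤ → HE ℤ → ℝ,
      (∀ᶠ a in 𝓝[>] (0 : ℝ), IsCov (wX (w a) (X a)) (S a)) → ∀ i : Fin n,
      ∀ z : ℂ, z ∈ D → (∀ i, x i ≠ z) → ∀ (d : Fin 4) (f : ℝ → ℤ × ℤ),
      Tendsto (fun a => fpt a (f a)) (𝓝[>] 0) (𝓝 z) →
      Tendsto (fun a => a ^ (-(1 : ℝ) / 2) * (kap x (X a) z (f a) * kapX x (X a) i *
        cS (S a) (f a, d) (X a i))) (𝓝[>] 0) (𝓝 (kp * (edir d * e8 * (g i z / rXa x z)).re)) :=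
    fun S hS i z hz hxz d f hf => eta_of_colLim hD hDb hw hX
      ((hg i).continuousOn.mono sdiff_subset) (hcol i) hS hz hxz d hf
  refine ⟨fun S hS z hz hxz i d f hf => heta S hS i z hz hxz d f hf, fun S hS i j hij => ?_⟩
  rw [one_mul]
  exact EtaCorx644.cor_of_eta hD hx hxD hw hX hS hij (fun r hr _ => (hg i).mono hr)
    (heta S hS i) fun K hK hKD hKx => bdd_of_eta (heta S hS i) hK hKD hKx

/-- the limit of the columns (622, 576) -/
def ColLeaf : Prop :=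
  ∀ D : Set ℂ, IsC2JordanDomain D → ∀ (n : ℕ) (x : Fin n → ℂ), x ∈ Conf n D → ∀ i : Fin n,
    ∃ g : ℂ → ℂ, IsBrN D x i g ∧ ∀ a w V, LatSeq D x a w V → ∀ S : ℕ → HE ℤ → HE ℤ → ℝ,
      (∀ᶠ k in atTop, Cov40 (w k) (S k)) → ColLim (Om D x) x i a w V S
        (fun z => (sgn x (x i) : ℂ) * (kp * e8 * (g z / rX x z)))

/-- **the branch leaf** -/
theorem brLeafK_of (h : ColLeaf) : LogEx813.BrLeafK := by
  intro D hD n x hx
  choose g hg hcol using h D hD n x hx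
  exact ⟨g, hg, fun w X hw hX => brF_of (Red2x541.isOpen_of_C2 hD) (Redx541.bounded_of_C2 hD) hx.2
    hx.1 (fun i => (hg i).br.holo) hcol hw hX⟩

end Crest.Agent.R165.Eta5x644
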