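import Crest.Agent.R165.Eta5_576
import Crest.Agent.R165.Eval_644

/-!
# Row 165 (S0250), block U4 (helper576): the pairing of two insertions

* `pair_lim` : limit of the pairing `S(l_j, l_i)` as an integral
* `pair_val` : its value `Re (g (x j) / (I gsrc x j))`, from `eval_S` of helper644
-/

set_option autoImplicit false
set_option linter.unusedVariables false
set_option linter.unusedSimpArgs false

noncomputable section

open MeasureTheory Filter Topology Set Metric
open Crest.ProbabilityR.IsingModel
open Crest.Agent.R165.Tr1x40 Crest.Agent.R165.RIfx891 Crest.Agent.R165.Embx622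
open Crest.Agent.R165.Upx622
open Crest.Agent.R165.Mac0x622 Crest.Agent.R165.Mac1x622 Crest.Agent.R165.Mac3x622
open Crest.Agent.R165.MacIx622
open Crest.Agent.R165.Eta1x576 Crest.Agent.R165.Eta2x576 Crest.Agent.R165.Eta3x576
open Crest.Agent.R165.Eta4x576 Crest.Agent.R165.Eta5x576
open Crest.Agent.R165.U3x719 (e8)
open Crest.Agent.R165.UB3x641 (gsrc)

namespace Crest.Agent.R165.Eta6x576

variable {n : ℕ}

theorem col_eq_Phi {x : Fin n → ℂ} {i : Fin n} {a : ℝ} (ha : 0 < a) (w : Fld) (V : Fin n → Face)
    (S : Face × Fin 4 → Face × Fin 4 → ℝ) (f : Face) (h : Fin 4) :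
    col w S (V i) f h = gz x (x i) V (V i) * (a ^ (1/2 : ℝ) * Phi x i a w V S f h) := by
  have h3 : a ^ (1/2 : ℝ) * a ^ (-(1/2) : ℝ) = 1 := by
    rw [← Real.rpow_add ha]; norm_num
  have h4 := gz_sq x (x i) V (V i)
  unfold Phi
  linear_combination (-(col w S (V i) f h)) * h4 -
    (gz x (x i) V (V i) ^ 2 * col w S (V i) f h) * h3

/-- **limit of the pairing** -/
theorem pair_lim {D : Set ℂ} (hD : IsOpen D) {x : Fin n → ℂ} (hx : Function.Injective x)
    {i j : Fin n} (hij : i ≠ j) {r : ℝ} (hr : Rad D x j r) {χ : ℂ → ℝ} (hχ : Cut (x j) r χ)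
    {a : ℕ → ℝ} {w : ℕ → Fld} {V : ℕ → Fin n → Face} (H : LatSeq D x a w V)
    {S : ℕ → Face × Fin 4 → Face × Fin 4 → ℝ} (hS : ∀ᶠ k in atTop, Cov40 (w k) (S k)) {E : ℂ → ℂ}
    (hL : ColLim (Om D x) x i a w V S E) {g : ℂ → ℂ} (hg : ContinuousOn g (Om D x))
    (hE : ∀ z ∈ Om D x, E z * rX x z = g z) :
    Tendsto (fun k => gz x (x j) (V k) (V k j) * gz x (x i) (V k) (V k i) *
      (col (w k) (S k) (V k i) (V k j) 0 - w k (V k j) 0 *
        col (w k) (S k) (V k i) ((V k j).1, (V k j).2 - 1) 2)) atTop
      (𝓝 (-∫ z, ∑ h, Gt x j χ z h * lv (E z) h)) := by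
  classical
  have hO : IsOpen (Om D x) := hD.sdiff (finite_range x).isClosed
  have hxO : ∀ l, x l ∉ Om D x := fun l h => h.2 (mem_range_self l)
  have hpos := H.pos
  have hlim := H.lim
  have hr0 := hr.pos
  obtain ⟨L, hLip⟩ := hχ.lip
  obtain ⟨C₀, hC0, hb0⟩ := psS_bound
  obtain ⟨C2, hC2⟩ := phi_bdd H.omSeq hO hxO hS hL hg hE (Anr_compact (x j) r) hr.anr
  set c : ℕ → Face → ℝ := fun k f => χ (meshPoint (a k) f) with hc
  set C1 : ℝ := L * (C₀ / (r / 8) ^ (1/2 : ℝ)) with hC1
  have hC10 : 0 ≤ C1 := by positivity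
  have ea : ∀ᶠ k in atTop, a k < r / 16 := hlim.eventually (eventually_lt_nhds (by positivity))
  have et : ∀ᶠ k in atTop, ‖meshPoint (a k) (V k j) - x j‖ < r / 16 := by
    have := tendsto_iff_norm_sub_tendsto_zero.1 (H.tip j)
    exact this.eventually (eventually_lt_nhds (by positivity))
  have hfar : r < ‖x i - x j‖ := hr.far i hij
  have ei : ∀ᶠ k in atTop, r < ‖meshPoint (a k) (V k i) - x j‖ := by
    have := ((H.tip i).sub_const (x j)).norm
    exact this.eventually (eventually_gt_nhds hfar)
  have hgau := hr.gauge a hpos hlim V H.tip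
  have hins := H.ins (closedBall (x j) r) (isCompact_closedBall _ _) hr.sub
  have hfin : ∀ k, {f : Face | c k f ≠ 0}.Finite := by
    intro k
    refine (Pair_fin (hpos k) (x j) r).subset fun f hf => ?_
    by_contra hcc
    apply hf
    rw [mem_ofPred_eq, not_lt] at hcc
    exact hχ.zero _ (by linarith)
  -- the integrand
  set F : ℕ → ℂ → ℝ := fun k z => ∑ h,
    emb (a k) (fun f => gt (a k) (c k) (gz x (x j) (V k)) (V k j) f h) z *
      emb (a k) (fun f => Phi x i (a k) (w k) (V k) (S k) f h) z with hF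
  have hsum : ∀ k, {f : Face | ∃ h, gt (a k) (c k) (gz x (x j) (V k)) (V k j) f h ≠ 0}.Finite := by
    intro k
    have h1 : {f : Face | ∃ h, gt (a k) (c k) (gz x (x j) (V k)) (V k j) f h ≠ 0} ⊆
        {f | c k f ≠ 0} ∪ ⋃ h : Fin 4, (fun f => nb f h) ⁻¹' {f | c k f ≠ 0} := by
      rintro f ⟨h, hf⟩
      by_contra hcc
      rw [mem_union, mem_iUnion, not_or, not_exists] at hcc
      apply hf
      have e1 : c k f = 0 := by simpa using hcc.1
      have e2 : c k (nb f h) = 0 := by simpa using hcc.2 h
      unfold gt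
      rw [e1, e2]
      ring
    refine Set.Finite.subset ((hfin k).union (Set.finite_iUnion fun h => ?_)) h1
    refine (hfin k).preimage fun f _ f' _ hff => ?_
    have := congrArg (fun v => nb v (op h)) hff
    simpa using this
  have key : ∀ᶠ k in atTop, gz x (x j) (V k) (V k j) * gz x (x i) (V k) (V k i) *
      (col (w k) (S k) (V k i) (V k j) 0 - w k (V k j) 0 *
        col (w k) (S k) (V k i) ((V k j).1, (V k j).2 - 1) 2) = -∫ z, F k z := by
    filter_upwards [hS, ea, et, ei, hgau, hins] with k h1 h2 h3 h4 h5 h6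
    have hsmall : ∀ f, c k f ≠ 0 → ‖meshPoint (a k) f - x j‖ < 3 * r / 4 := by
      intro f hf
      by_contra hcc
      exact hf (hχ.zero _ (not_lt.1 hcc))
    have hpe := pair_exact (w := w k) (φ := col (w k) (S k) (V k i)) (c := c k)
      (γ := gz x (x j) (V k)) (V := V k j) (H.sym k) (gz_sq x (x j) (V k)) (hfin k) ?_ ?_ ?_ ?_
      (hpos k)
    · have e1 : ∑' f, ∑ h, gt (a k) (c k) (gz x (x j) (V k)) (V k j) f h *
          col (w k) (S k) (V k i) f h = gz x (x i) (V k) (V k i) * (a k ^ (1/2 : ℝ) *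
          ∑' f, ∑ h, gt (a k) (c k) (gz x (x j) (V k)) (V k j) f h *
            Phi x i (a k) (w k) (V k) (S k) f h) := by
        rw [← tsum_mul_left, ← tsum_mul_left]
        refine tsum_congr fun f => ?_
        rw [Finset.mul_sum, Finset.mul_sum]
        refine Finset.sum_congr rfl fun h _ => ?_
        rw [col_eq_Phi (x := x) (hpos k) (w k) (V k) (S k) f h]
        ring
      have e2 : ∫ z, F k z = a k ^ 2 • ∑' f, ∑ h, gt (a k) (c k) (gz x (x j) (V k)) (V k j) f h *
            Phi x i (a k) (w k) (V k) (S k) f h := by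
        rw [← integral_emb (hpos k)]
        · rfl
        · refine summable_of_hasFiniteSupport ((hsum k).subset fun f hf => ?_)
          by_contra hcc
          apply hf
          rw [mem_ofPred_eq, not_exists] at hcc
          have : ∀ h, gt (a k) (c k) (gz x (x j) (V k)) (V k j) f h = 0 := fun h =>
            not_not.1 (hcc h)
          simp [this]
      rw [e1] at hpe
      rw [e2, smul_eq_mul]
      have h7 : a k ^ (1/2 : ℝ) * a k ^ (1/2 : ℝ) = a k := by
        rw [← Real.rpow_add (hpos k)]; norm_num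
      have h8 := gz_sq x (x i) (V k) (V k i)
      set T := ∑' f, ∑ h, gt (a k) (c k) (gz x (x j) (V k)) (V k j) f h *
            Phi x i (a k) (w k) (V k) (S k) f h
      linear_combination gz x (x i) (V k) (V k i) * hpe - (a k * a k ^ (1/2 : ℝ) *
        a k ^ (1/2 : ℝ) * T) * h8 - (a k * T) * h7
    · intro f h hcf
      have h7 : ‖meshPoint (a k) f - x j‖ < r := by
        have h0 := abs_le.1 (nb_norm (a k) (hpos k) f h (x j))
        rcases hcf with hcf | hcf
        · have := hsmall f hcf; linarith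
        · have := hsmall _ hcf; linarith
      rw [h6 f (by rw [mem_closedBall, dist_eq_norm]; exact h7.le) h, h5 f h7 h]
      ring
    · exact hχ.one _ (by linarith)
    · refine hχ.one _ ?_
      have h0 := abs_le.1 (nb_norm (a k) (hpos k) (V k j) 0 (x j))
      simp only [nb_zero] at h0
      linarith
    · intro f hf h
      rw [A_col h1]
      have h7 := hsmall f hf
      have n1 : f ≠ V k i := by
        rintro rfl
        linarith
      have n2 : f ≠ ((V k i).1, (V k i).2 - 1) := by
        rintro rfl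
        have h0 := abs_le.1 (nb_norm (a k) (hpos k) (V k i) 0 (x j))
        simp only [nb_zero] at h0
        linarith
      unfold lvec
      rw [if_neg (fun hcc => n1 hcc.1), if_neg (fun hcc => n2 hcc.1)]
      ring
  refine Tendsto.congr' (key.mono fun k hk => hk.symm) ?_
  refine Tendsto.neg ?_
  refine tendsto_integral_filter_of_dominated_convergence
    ((closedBall (x j) (2 * r)).indicator fun _ => 4 * (C1 * |C2|))
    (Eventually.of_forall fun k => ?_) ?_ ?_ ?_
  · exact (Finset.measurable_fun_sum _ fun h _ =>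
      (emb_measurable _ _).mul (emb_measurable _ _)).aestronglyMeasurable
  · filter_upwards [ea, et, hC2] with k h2 h3 h4
    refine Eventually.of_forall fun z => ?_
    have hterm : ∀ h, |emb (a k) (fun f => gt (a k) (c k) (gz x (x j) (V k)) (V k j) f h) z *
        emb (a k) (fun f => Phi x i (a k) (w k) (V k) (S k) f h) z| ≤ C1 * |C2| := by
      intro h
      rw [abs_mul]
      by_cases h0 : gt (a k) (c k) (gz x (x j) (V k)) (V k j) (meshIndex (a k) z) h = 0
      · have : emb (a k) (fun f => gt (a k) (c k) (gz x (x j) (V k)) (V k j) f h) z = 0 := h0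
        rw [this, abs_zero, zero_mul]
        positivity
      · have h5 := gt_supp hχ (hpos k) h2.le (gz x (x j) (V k)) (V k j) (meshIndex (a k) z) h h0
        have h6 := h4 (meshIndex (a k) z) ⟨h5.1.le, h5.2.le⟩ h
        have h7 := gt_bound hC0 hb0 hr0 hχ hLip (hpos k) h2.le (gz_sq x (x j) (V k)) (V k j)
          h3.le (meshIndex (a k) z) h
        exact mul_le_mul h7 (h6.trans (le_abs_self _)) (abs_nonneg _) hC10
    by_cases hz : z ∈ closedBall (x j) (2 * r)
    · rw [indicator_of_mem hz, Real.norm_eq_abs]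
      refine (Finset.abs_sum_le_sum_abs _ _).trans ?_
      refine (Finset.sum_le_sum fun h _ => hterm h).trans ?_
      simp
    · rw [indicator_of_notMem hz, Real.norm_eq_abs]
      have : F k z = 0 := by
        refine Finset.sum_eq_zero fun h _ => ?_
        by_cases h0 : gt (a k) (c k) (gz x (x j) (V k)) (V k j) (meshIndex (a k) z) h = 0
        · have : emb (a k) (fun f => gt (a k) (c k) (gz x (x j) (V k)) (V k j) f h) z = 0 := h0
          rw [this, zero_mul]
        · exfalso
          have h5 := gt_supp hχ (hpos k) h2.le (gz x (x j) (V k)) (V k j) (meshIndex (a k) z) h h0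
          have h6 := norm_mesh_sub (hpos k) z
          have h7 : ‖z - x j‖ ≤ ‖z - meshPoint (a k) (meshIndex (a k) z)‖ +
            ‖meshPoint (a k) (meshIndex (a k) z) - x j‖ :=
            norm_sub_le_norm_sub_add_norm_sub _ _ _
          rw [norm_sub_rev z (meshPoint _ _)] at h7
          rw [mem_closedBall, dist_eq_norm, not_le] at hz
          linarith [h5.2]
      rw [this, abs_zero]
  · rw [integrable_indicator_iff isClosed_closedBall.measurableSet]
    exact integrableOn_const measure_closedBall_lt_top.ne enorm_ne_top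
  · have h2 := ae_im_ne x (univ : Set ℂ)
    rw [Measure.restrict_univ] at h2
    filter_upwards [ae_gen (x j), h2] with u hu1 hu2
    by_cases huO : u ∈ Om D x
    · refine tendsto_finsetSum _ fun h _ => ?_
      exact (gt_tendsto hχ hpos hlim H.tip hu2 hu1 h).mul
        (phi_tendsto_gen H.omSeq hO hxO hS hL hg hE huO hu2 h)
    · -- both sides vanish
      have hout : ‖u - x j‖ < r / 4 ∨ r < ‖u - x j‖ := by
        by_contra hcc
        rw [not_or, not_lt, not_lt] at hcc
        exact huO (hr.anr ⟨hcc.1, hcc.2⟩)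
      have hG0 : ∀ h, Gt x j χ u h = 0 := by
        intro h
        apply Gt_zero x j hχ
        rcases hout with hh | hh
        · left; linarith
        · right; linarith
      simp only [hG0, zero_mul, Finset.sum_const_zero]
      refine tendsto_const_nhds.congr' ?_
      have hP : Tendsto (fun k => ‖meshPoint (a k) (meshIndex (a k) u) - x j‖) atTop
          (𝓝 ‖u - x j‖) := by
        refine Tendsto.norm (Tendsto.sub_const ?_ _)
        rw [tendsto_iff_norm_sub_tendsto_zero]
        refine squeeze_zero (fun _ => norm_nonneg _) (fun k => norm_mesh_sub (hpos k) u) ?_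
        simpa using hlim.const_mul 2
      have hev : ∀ᶠ k in atTop, ∀ h,
          gt (a k) (c k) (gz x (x j) (V k)) (V k j) (meshIndex (a k) u) h = 0 := by
        rcases hout with hh | hh
        · filter_upwards [hP.eventually (eventually_lt_nhds hh), ea] with k h3 h4 h
          by_contra hne
          have := gt_supp hχ (hpos k) h4.le (gz x (x j) (V k)) (V k j) (meshIndex (a k) u) h hne
          linarith [this.1]
        · filter_upwards [hP.eventually (eventually_gt_nhds hh), ea] with k h3 h4 h
          by_contra hne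
          have := gt_supp hχ (hpos k) h4.le (gz x (x j) (V k)) (V k j) (meshIndex (a k) u) h hne
          linarith [this.2]
      filter_upwards [hev] with k hk
      symm
      refine Finset.sum_eq_zero fun h _ => ?_
      have : emb (a k) (fun f => gt (a k) (c k) (gz x (x j) (V k)) (V k j) f h) u = 0 := hk h
      rw [this, zero_mul]

/-! ### the value -/

open Crest.Agent.R165.Evalx644 (pc ucol lsg Sep eval_S dir)

theorem dir_eq (h : Fin 4) : dir h = dv h := by
  fin_cases h <;> simp [dir, dv]

theorem sgd_eq (h : Fin 4) : Gr2x813.sgd h = sg h := by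
  fin_cases h <;> simp [Gr2x813.sgd, sg]

theorem opd_eq (h : Fin 4) : Gr2x813.opd h = op h := by
  fin_cases h <;> simp [Gr2x813.opd, op]

/-- the number of rays through `z` -/
def srel (x : Fin n → ℂ) (z : ℂ) : ℝ := by
  classical exact ∏ i, if rel (x i) z then -1 else 1

theorem srel_sq (x : Fin n → ℂ) (z : ℂ) : srel x z ^ 2 = 1 := by
  classical
  unfold srel
  rw [← Finset.prod_pow]
  refine Finset.prod_eq_one fun i _ => ?_
  split_ifs <;> norm_num

theorem srel_self (x : Fin n → ℂ) (i : Fin n) : srel x (x i) = sj x i := by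
  classical
  unfold srel sj
  rw [← Finset.mul_prod_erase Finset.univ _ (Finset.mem_univ i), if_neg (not_rel_self _), one_mul]
  refine Finset.prod_congr rfl fun l _ => ?_
  by_cases h : (x l).im = (x i).im ∧ (x l).re < (x i).re
  · have h' : rel (x l) (x i) := h
    rw [if_pos h, if_pos h']
  · have h' : ¬ rel (x l) (x i) := h
    rw [if_neg h, if_neg h']

theorem rXa_eq (x : Fin n → ℂ) (z : ℂ) : U3x719.rXa x z = (srel x z : ℂ) * rX x z := by
  classical
  unfold U3x719.rXa srel
  rw [Complex.ofReal_prod, ← rX_same]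
  congr 1
  refine Finset.prod_congr rfl fun i _ => ?_
  unfold rel
  split_ifs <;> simp

theorem kap_gz (x : Fin n → ℂ) (V : Fin n → Face) (z : ℂ) (f : Face) :
    UKerx420.kap x V z f = srel x z * gz x z V f := by
  classical
  rw [Gr3x813.kap_eq_prod]
  unfold srel gz
  rw [← Finset.prod_mul_distrib]
  refine Finset.prod_congr rfl fun i _ => ?_
  unfold rel
  by_cases h1 : (x i).im = z.im ∧ (x i).re < z.re
  · by_cases h2 : f.2 < (V i).2
    · rw [if_pos ⟨h1.1, h1.2, h2⟩, if_pos h1, if_neg (fun h => absurd h.2 (not_le.2 h2))]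
      norm_num
    · rw [if_neg (fun h => h2 h.2.2), if_pos h1, if_pos ⟨h1, not_lt.1 h2⟩]
      norm_num
  · rw [if_neg (fun h => h1 ⟨h.1, h.2.1⟩), if_neg h1, if_neg (fun h => h1 h.1)]
    norm_num

/-- off the lines through the insertions -/
theorem lsg_gc (x : Fin n → ℂ) (j : Fin n) {z : ℂ} (hz : ∀ l, (x l).im ≠ z.im) :
    lsg x j z = sj x j * gc x (x j) z := by
  classical
  rw [← srel_self]
  unfold lsg srel gc
  rw [← Finset.prod_mul_distrib]
  refine Finset.prod_congr rfl fun l _ => ?_
  unfold rel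
  by_cases h1 : (x l).im = (x j).im ∧ (x l).re < (x j).re
  · rcases lt_or_gt_of_ne (hz l) with h2 | h2
    · rw [if_neg (fun h => absurd h.2.2 (by rw [← h1.1]; exact not_lt.2 h2.le)), if_pos h1,
        if_pos ⟨h1, h2⟩]
      norm_num
    · rw [if_pos ⟨h1.1, h1.2, by rw [← h1.1]; exact h2⟩, if_pos h1,
        if_neg (fun h => absurd h.2 (not_lt.2 h2.le))]
      norm_num
  · rw [if_neg (fun h => h1 ⟨h.1, h.2.1⟩), if_neg h1, if_neg (fun h => h1 h.1)]
    norm_num

theorem srel_gen (x : Fin n → ℂ) {z : ℂ} (hz : ∀ l, (x l).im ≠ z.im) : srel x z = 1 := by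
  classical
  unfold srel
  exact Finset.prod_eq_one fun l _ => if_neg fun h => hz l h.1

/-- **value of the pairing** -/
theorem pair_val {D : Set ℂ} {x : Fin n → ℂ} {i j : Fin n} {r : ℝ} (hr : Rad D x j r)
    (hsep : Sep x j r) {χ : ℂ → ℝ} (hχ : Cut (x j) r χ) {g : ℂ → ℂ}
    (hg : DifferentiableOn ℂ g D) :
    sj x j * sj x i * -∫ z, ∑ h, Gt x j χ z h *
      lv (((sj x i * Br5x644.kp : ℝ) : ℂ) * (e8 * (g z / rX x z))) h =
      (g (x j) / (Complex.I * gsrc x j)).re := by
  have hr0 := hr.pos
  set χ0 : ℂ → ℝ := fun w => χ (w + x j) with hχ0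
  have c1 : ContDiff ℝ 1 χ0 := hχ.smooth.comp (contDiff_id.add contDiff_const)
  have c2 : tsupport χ0 ⊆ ball 0 r := by
    have h1 : Function.support χ0 ⊆ closedBall 0 (3 * r / 4) := by
      intro w hw
      by_contra hc
      rw [mem_closedBall, dist_zero_right, not_le] at hc
      exact hw (hχ.zero _ (by simpa using hc.le))
    refine (closure_minimal h1 isClosed_closedBall).trans (closedBall_subset_ball (by linarith))
  have c3 : χ0 =ᶠ[𝓝 0] fun _ => 1 := by
    filter_upwards [ball_mem_nhds (0 : ℂ) (show 0 < r / 2 by positivity)] with w hw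
    rw [mem_ball, dist_zero_right] at hw
    exact hχ.one _ (by simpa using hw.le)
  have hg' : DifferentiableOn ℂ g (ball (x j) r) :=
    hg.mono (ball_subset_closedBall.trans hr.sub)
  obtain ⟨hint, hval⟩ := eval_S hr0 hsep hg' c1 c2 c3
  have hfd : ∀ z v, fderiv ℝ χ0 (z - x j) v = fderiv ℝ χ z v := by
    intro z v
    rw [hχ0, fderiv_comp_add_right, sub_add_cancel]
  rw [← hval, ← integral_finsetSum _ fun d _ => hint d, ← integral_neg, ← integral_const_mul]
  refine integral_congr_ae ?_
  have h2 := ae_im_ne x (univ : Set ℂ)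
  rw [Measure.restrict_univ] at h2
  filter_upwards [h2] with z hz
  rw [← Finset.sum_neg_distrib, Finset.mul_sum]
  refine Finset.sum_congr rfl fun h _ => ?_
  have h3 := sj_sq x i
  have e1 : lv (ucol x j g z) h = sj x j * gc x (x j) z * (Br5x644.kp *
      lv (e8 * (g z / rX x z)) h) := by
    unfold ucol
    rw [lv_real_mul, lv_real_mul, lsg_gc x j hz, rXa_eq, srel_gen x hz]
    simp
  have e2 : lv (((sj x i * Br5x644.kp : ℝ) : ℂ) * (e8 * (g z / rX x z))) h =
      sj x i * Br5x644.kp * lv (e8 * (g z / rX x z)) h := lv_real_mul _ _ _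
  rw [e1, e2]
  unfold pc Gt
  rw [hfd, dir_eq, sgd_eq, opd_eq]
  have e3 : (Latx683.xc : ℝ) = xc := rfl
  rw [e3]
  unfold bc
  linear_combination (sj x j * Br5x644.kp * lv (e8 * (g z / rX x z)) h * fderiv ℝ χ z (dv h) *
    gc x (x j) z * sg h * xc * lv (-(Br5x644.kp : ℂ) * Br5x644.zt (z - x j)) (op h)) * h3

end Crest.Agent.R165.Eta6x576
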