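import Crest.Agent.R165.Eta6_576
import Crest.Agent.R165.MacW_304

/-!
# Row 165 (S0250), block U4 (helper576): `BrLeaf`

* `brF_of` : `BrF kp 1 D x w X g` for plus families
* `eta_bdd` : bound of the columns on compact sets, plus families
* `brLeaf_of` : `ResConv` for all `C²` domains ⟹ `BrLeaf`
-/

set_option autoImplicit false
set_option linter.unusedVariables false
set_option linter.unusedSimpArgs false

noncomputable section

open MeasureTheory Filter Topology Set Metric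
open Crest.ProbabilityR.IsingModel
open Crest.Agent.R165.Tr1x40 Crest.Agent.R165.RIfx891 Crest.Agent.R165.Embx622
open Crest.Agent.R165.Upx622
open Crest.Agent.R165.Mac0x622 Crest.Agent.R165.Mac1x622 Crest.Agent.R165.Mac3x622
open Crest.Agent.R165.MacIx622
open Crest.Agent.R165.Eta1x576 Crest.Agent.R165.Eta2x576 Crest.Agent.R165.Eta3x576
open Crest.Agent.R165.Eta4x576 Crest.Agent.R165.Eta5x576 Crest.Agent.R165.Eta6x576
open Crest.Agent.R165.U3x719 (e8)
open Crest.Agent.R165.UB3x641 (gsrc IsBrN BrF BgFam cS cSS kapX BrLeaf)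
open Crest.Agent.R165.UKerx420 (kap fpt edir)
open Crest.Agent.R165.Latx683 (BW HE wX IsCov)
open Crest.Agent.R165.FrFinx887 (toF sym_toF)
open Crest.Agent.R165.MacWx304 (cov40_of_isCov FamIn famIn_of_bgFam)

namespace Crest.Agent.R165.Eta7x576

variable {n : ℕ}

/-! ### corner fields -/

theorem cS_eq_col {w : Fld} {S : HE ℤ → HE ℤ → ℝ} (hS : Cov40 w S) (V f : Face) (d : Fin 4)
    (hne : ¬ ((f, d) = (V, (0 : Fin 4)))) : cS S (f, d) V = col w S V f d := by
  have h1 := hS.inv (f, d) V 0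
  rw [if_neg (fun h => hne h.symm), A_S] at h1
  unfold cS col
  rw [Fin.sum_univ_four]
  have e : ∀ b, S (f, d) b = -S b (f, d) := fun b => hS.skew _ _
  rw [e (V, 0), e (V, 1), e (V, 2), e (V, 3), e ((V.1, V.2 - 1), 2)]
  linarith

theorem cSS_eq_col {w : Fld} {S : HE ℤ → HE ℤ → ℝ} (hS : Cov40 w S) (V U : Face)
    (hne : U ≠ V) : cSS S U V = col w S V U 0 - w U 0 * col w S V (U.1, U.2 - 1) 2 := by
  have h0 : ∀ d, cS S (U, d) V = col w S V U d := fun d =>
    cS_eq_col hS V U d fun h => hne (Prod.mk.inj h).1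
  have h1 : cSS S U V = ∑ d, cS S (U, d) V := rfl
  rw [h1]
  simp only [h0]
  rw [Fin.sum_univ_four]
  have h2 := A_col hS V U 0
  rw [A_S] at h2
  have h3 : lvec w V U 0 = 0 := by
    unfold lvec
    rw [if_neg (fun h => hne h.1), if_neg (fun h => absurd h.2 (by decide))]
  rw [h3] at h2
  linarith

theorem half_eq (a : ℝ) : a ^ (-(1 : ℝ) / 2) = a ^ (-(1/2) : ℝ) := by
  norm_num

/-! ### the families -/

/-- the limits of the columns along all sequences of plus backgrounds -/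
def ColAll (D : Set ℂ) (x : Fin n → ℂ) (g : Fin n → ℂ → ℂ) : Prop :=
  ∀ i a w V, LatSeq D x a w V → ∀ S : ℕ → Face × Fin 4 → Face × Fin 4 → ℝ,
    (∀ᶠ k in atTop, Cov40 (w k) (S k)) → ColLim (Om D x) x i a w V S
      (fun z => ((sj x i * Br5x644.kp : ℝ) : ℂ) * (e8 * (g i z / rX x z)))

theorem E_rX {x : Fin n → ℂ} {z : ℂ} (hz : ∀ i, x i ≠ z) (c : ℂ) (g : ℂ → ℂ) :
    c * (e8 * (g z / rX x z)) * rX x z = c * (e8 * g z) := by
  have := rX_ne hz
  field_simp

variable {D : Set ℂ} {x : Fin n → ℂ} {g : Fin n → ℂ → ℂ} {w : ℝ → BW ℤ}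
  {X : ℝ → Fin n → ℤ × ℤ}

theorem brF_of (hDo : IsOpen D) (hb : Bornology.IsBounded D) (hx : Function.Injective x)
    (hxD : ∀ i, x i ∈ D) (hg : ∀ i, IsBrN D x i (g i)) (hlim : ColAll D x g)
    (hw : BgFam D w) (hX : U5Px422.LApp X x) : BrF Br5x644.kp 1 D x w X g where
  eta S hS z hz hxz i d f hf := by
    have hO : IsOpen (Om D x) := hDo.sdiff (finite_range x).isClosed
    have hxO : ∀ l, x l ∉ Om D x := fun l h => h.2 (mem_range_self l)
    have hzO : z ∈ Om D x := ⟨hz, fun ⟨l, hl⟩ => hxz l hl⟩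
    refine tendsto_of_seq_tendsto fun u hu => ?_
    obtain ⟨K, hK⟩ := famIn_of_bgFam hDo hb hw hX u hu
    rw [← tendsto_add_atTop_iff_nat K]
    have huK : Tendsto (fun k => u (k + K)) atTop (𝓝[>] 0) := hu.comp (tendsto_add_atTop_nat K)
    have hS' : ∀ᶠ k in atTop, Cov40 (toF (wX (w (u (k + K))) (X (u (k + K))))) (S (u (k + K))) :=
      (huK.eventually hS).mono fun k h => cov40_of_isCov h
    have hf' : Tendsto (fun k => meshPoint (u (k + K)) (f (u (k + K)))) atTop (𝓝 z) := hf.comp huK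
    have h1 := phi_tendsto hK.omSeq hO hxO hS' (hlim i _ _ _ hK _ hS')
      (g := fun z => ((sj x i * Br5x644.kp : ℝ) : ℂ) * (e8 * g i z))
      (continuousOn_const.mul (continuousOn_const.mul
        ((hg i).br.holo.continuousOn.mono sdiff_subset)))
      (fun z hz => E_rX (fun l hl => hz.2 ⟨l, hl⟩) _ _) hzO hf' d
    have h2 := h1.const_mul (srel x z * sj x i)
    have e0 : srel x z * sj x i * lv (((sj x i * Br5x644.kp : ℝ) : ℂ) *
        (e8 * (g i z / rX x z))) d =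
        Br5x644.kp * (edir d * e8 * (g i z / U3x719.rXa x z)).re := by
      have h3 := sj_sq x i
      have h4 := srel_sq x z
      have h4c : ((srel x z : ℝ) : ℂ) * ((srel x z : ℝ) : ℂ) = 1 := by
        rw [← Complex.ofReal_mul, ← pow_two, h4, Complex.ofReal_one]
      have h5 : g i z / U3x719.rXa x z = (srel x z : ℂ) * (g i z / rX x z) := by
        rw [rXa_eq]
        have h6 : (srel x z : ℂ) ≠ 0 := left_ne_zero_of_mul_eq_one h4c
        have h7 := rX_ne hxz
        field_simp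
        linear_combination (-(g i z)) * h4c
      have h6 : edir d * e8 * (g i z / U3x719.rXa x z) =
          (srel x z : ℂ) * (edir d * (e8 * (g i z / rX x z))) := by rw [h5]; ring
      rw [h6, Complex.re_ofReal_mul, ← Evalx644.lv_eq, lv_real_mul]
      linear_combination (srel x z * Br5x644.kp * lv (e8 * (g i z / rX x z)) d) * h3
    rw [e0] at h2
    refine h2.congr' ?_
    -- the face is not the insertion
    have hne : ∀ᶠ k in atTop, f (u (k + K)) ≠ X (u (k + K)) i := by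
      have h3 : Tendsto (fun k => ‖meshPoint (u (k + K)) (f (u (k + K))) -
          meshPoint (u (k + K)) (X (u (k + K)) i)‖) atTop (𝓝 ‖z - x i‖) :=
        (hf'.sub ((hX i).comp huK)).norm
      have h4 : 0 < ‖z - x i‖ := norm_pos_iff.2 (sub_ne_zero.2 (hxz i).symm)
      filter_upwards [h3.eventually (eventually_gt_nhds h4)] with k hk hc
      rw [hc, sub_self, norm_zero] at hk
      exact lt_irrefl _ hk
    filter_upwards [hS', hne] with k h3 h4
    simp only [Function.comp]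
    rw [half_eq, cS_eq_col h3 _ _ _ (fun h => h4 (Prod.mk.inj h).1), kap_gz]
    unfold kapX
    rw [kap_gz, srel_self]
    unfold Phi
    ring
  cor S hS i j hij := by
    have hO : IsOpen (Om D x) := hDo.sdiff (finite_range x).isClosed
    have hxO : ∀ l, x l ∉ Om D x := fun l h => h.2 (mem_range_self l)
    obtain ⟨ρ, hρ⟩ := exists_rad hDo hx j (hxD j)
    obtain ⟨ρ', hρ', hsep⟩ := Evalx644.exists_sep hx j
    have hr := hρ.mono (r := min ρ ρ') (lt_min hρ.pos hρ') (min_le_left _ _)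
    have hsep' := hsep.mono (min_le_right ρ ρ')
    obtain ⟨χ, hχ⟩ := exists_cut (x j) hr.pos
    refine tendsto_of_seq_tendsto fun u hu => ?_
    obtain ⟨K, hK⟩ := famIn_of_bgFam hDo hb hw hX u hu
    rw [← tendsto_add_atTop_iff_nat K]
    have huK : Tendsto (fun k => u (k + K)) atTop (𝓝[>] 0) := hu.comp (tendsto_add_atTop_nat K)
    have hS' : ∀ᶠ k in atTop, Cov40 (toF (wX (w (u (k + K))) (X (u (k + K))))) (S (u (k + K))) :=
      (huK.eventually hS).mono fun k h => cov40_of_isCov h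
    have h1 := pair_lim hDo hx hij hr hχ hK hS' (hlim i _ _ _ hK _ hS')
      (g := fun z => ((sj x i * Br5x644.kp : ℝ) : ℂ) * (e8 * g i z))
      (continuousOn_const.mul (continuousOn_const.mul
        ((hg i).br.holo.continuousOn.mono sdiff_subset)))
      (fun z hz => E_rX (fun l hl => hz.2 ⟨l, hl⟩) _ _)
    have h2 := h1.const_mul (sj x j * sj x i)
    rw [pair_val hr hsep' hχ (hg i).br.holo] at h2
    rw [one_mul]
    refine h2.congr' ?_
    have hne : ∀ᶠ k in atTop, X (u (k + K)) j ≠ X (u (k + K)) i := by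
      have h3 : Tendsto (fun k => ‖meshPoint (u (k + K)) (X (u (k + K)) j) -
          meshPoint (u (k + K)) (X (u (k + K)) i)‖) atTop (𝓝 ‖x j - x i‖) :=
        (((hX j).comp huK).sub ((hX i).comp huK)).norm
      have h4 : 0 < ‖x j - x i‖ :=
        norm_pos_iff.2 (sub_ne_zero.2 fun h => hij (hx h).symm)
      filter_upwards [h3.eventually (eventually_gt_nhds h4)] with k hk hc
      rw [hc, sub_self, norm_zero] at hk
      exact lt_irrefl _ hk
    filter_upwards [hS', hne] with k h3 h4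
    simp only [Function.comp]
    rw [cSS_eq_col h3 _ _ h4]
    unfold kapX
    rw [kap_gz, kap_gz, srel_self, srel_self]
    ring

/-- **bound on compact sets**, plus families -/
theorem eta_bdd (hDo : IsOpen D) (hb : Bornology.IsBounded D)
    (hg : ∀ i, IsBrN D x i (g i)) (hlim : ColAll D x g)
    (hw : BgFam D w) (hX : U5Px422.LApp X x) (S : ℝ → HE ℤ → HE ℤ → ℝ)
    (hS : ∀ᶠ a in 𝓝[>] (0 : ℝ), IsCov (wX (w a) (X a)) (S a)) {K : Set ℂ} (hK : IsCompact K)
    (hKO : K ⊆ Om D x) (i : Fin n) :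
    ∃ C : ℝ, ∀ᶠ a in 𝓝[>] (0 : ℝ), ∀ f : ℤ × ℤ, fpt a f ∈ K → ∀ d,
      |cS (S a) (f, d) (X a i)| ≤ C * a ^ (1/2 : ℝ) := by
  have hO : IsOpen (Om D x) := hDo.sdiff (finite_range x).isClosed
  have hxO : ∀ l, x l ∉ Om D x := fun l h => h.2 (mem_range_self l)
  by_contra hc
  -- a bad sequence
  have hc' : ∀ m : ℕ, ∃ᶠ a in 𝓝[>] (0 : ℝ), ∃ f : ℤ × ℤ, fpt a f ∈ K ∧ ∃ d,
      (m : ℝ) * a ^ (1/2 : ℝ) < |cS (S a) (f, d) (X a i)| := by
    intro m hm
    apply hc
    refine ⟨m, ?_⟩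
    filter_upwards [hm] with a ha f hf d
    by_contra h2
    exact ha ⟨f, hf, d, not_le.1 h2⟩
  have h0 : ∀ m : ℕ, ∃ a : ℝ, a ∈ Ioo (0 : ℝ) (1 / ((m : ℝ) + 1)) ∧ ∃ f : ℤ × ℤ, fpt a f ∈ K ∧ ∃ d,
      (m : ℝ) * a ^ (1/2 : ℝ) < |cS (S a) (f, d) (X a i)| := by
    intro m
    have h1 : Ioo (0 : ℝ) (1 / ((m : ℝ) + 1)) ∈ 𝓝[>] (0 : ℝ) := Ioo_mem_nhdsGT (by positivity)
    obtain ⟨a, ha, ha2⟩ := ((hc' m).and_eventually h1).exists
    exact ⟨a, ha2, ha⟩
  choose u hu f hfK d hd using h0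
  have hu0 : Tendsto u atTop (𝓝[>] 0) := by
    refine tendsto_nhdsWithin_iff.2 ⟨?_, Eventually.of_forall fun k => (hu k).1⟩
    exact squeeze_zero (fun k => (hu k).1.le) (fun k => (hu k).2.le)
      tendsto_one_div_add_atTop_nhds_zero_nat
  obtain ⟨N, hN⟩ := famIn_of_bgFam hDo hb hw hX u hu0
  have huN : Tendsto (fun k => u (k + N)) atTop (𝓝[>] 0) := hu0.comp (tendsto_add_atTop_nat N)
  have hS' : ∀ᶠ k in atTop, Cov40 (toF (wX (w (u (k + N))) (X (u (k + N))))) (S (u (k + N))) :=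
    (huN.eventually hS).mono fun k h => cov40_of_isCov h
  obtain ⟨C, hC⟩ := phi_bdd hN.omSeq hO hxO hS' (hlim i _ _ _ hN _ hS')
    (g := fun z => ((sj x i * Br5x644.kp : ℝ) : ℂ) * (e8 * g i z))
    (continuousOn_const.mul (continuousOn_const.mul
      ((hg i).br.holo.continuousOn.mono sdiff_subset)))
    (fun z hz => E_rX (fun l hl => hz.2 ⟨l, hl⟩) _ _) hK hKO
  -- the face is not the insertion
  have hdist : ∃ δ > 0, ∀ z ∈ K, δ ≤ ‖z - x i‖ := by
    rcases K.eq_empty_or_nonempty with he | he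
    · exact ⟨1, one_pos, fun z hz => by rw [he] at hz; exact absurd hz (notMem_empty _)⟩
    · obtain ⟨z0, hz0, hmin⟩ := hK.exists_isMinOn he
        ((continuous_id.sub continuous_const).norm.continuousOn (s := K) (f := fun z => ‖z - x i‖))
      refine ⟨‖z0 - x i‖, ?_, fun z hz => hmin hz⟩
      exact norm_pos_iff.2 (sub_ne_zero.2 fun h => hxO i (h ▸ hKO hz0))
  obtain ⟨δ, hδ, hδK⟩ := hdist
  have hXi : ∀ᶠ k in atTop, ‖meshPoint (u (k + N)) (X (u (k + N)) i) - x i‖ < δ := by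
    have := tendsto_iff_norm_sub_tendsto_zero.1 ((hX i).comp huN)
    exact this.eventually (eventually_lt_nhds hδ)
  have hbig : ∀ᶠ k : ℕ in atTop, C < ((k + N : ℕ) : ℝ) := by
    have : Tendsto (fun k : ℕ => ((k + N : ℕ) : ℝ)) atTop atTop :=
      tendsto_natCast_atTop_atTop.comp (tendsto_add_atTop_nat N)
    exact this.eventually (eventually_gt_atTop C)
  obtain ⟨k, h1, h2, h3, h4⟩ := (hC.and (hS'.and (hXi.and hbig))).exists
  have hpos : 0 < u (k + N) := (hu (k + N)).1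
  have hne : f (k + N) ≠ X (u (k + N)) i := by
    intro hh
    have h5 := hδK _ (hfK (k + N))
    have h6 : fpt (u (k + N)) (f (k + N)) = meshPoint (u (k + N)) (f (k + N)) := rfl
    rw [h6, hh] at h5
    linarith
  have h5 := h1 (f (k + N)) (hfK (k + N)) (d (k + N))
  have h6 := hd (k + N)
  rw [cS_eq_col h2 _ _ _ (fun h => hne (Prod.mk.inj h).1),
    col_eq_Phi (x := x) hpos _ (X (u (k + N))) _ _ _, abs_mul, gz_abs, one_mul, abs_mul] at h6
  have h7 : 0 < u (k + N) ^ (1/2 : ℝ) := Real.rpow_pos_of_pos hpos _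
  rw [abs_of_pos h7, mul_comm] at h6
  have h8 := lt_of_mul_lt_mul_left h6 h7.le
  linarith

/-! ### the leaf -/

/-- one sequence of plus backgrounds with covariances -/
theorem exists_seq (hD : IsC2JordanDomain D) (x : Fin n → ℂ) :
    ∃ a w V, LatSeq D x a w V ∧ ∃ S : ℕ → Face × Fin 4 → Face × Fin 4 → ℝ,
      ∀ᶠ k in atTop, Cov40 (w k) (S k) := by
  classical
  have hDo : IsOpen D := Red2x541.isOpen_of_C2 hD
  have hb := Redx541.bounded_of_C2 hD
  have hu : Tendsto (fun k : ℕ => 1 / ((k : ℝ) + 1)) atTop (𝓝[>] 0) :=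
    tendsto_nhdsWithin_iff.2 ⟨tendsto_one_div_add_atTop_nhds_zero_nat,
      Eventually.of_forall fun k => by
        rw [mem_Ioi]; positivity⟩
  obtain ⟨K, hK⟩ := famIn_of_bgFam (x := x) hDo hb (UB3x641.bgFam_dom hD)
    (U5Px422.lapp_meshIndex x) _ hu
  have hex := MacWx304.exCov_dom hD x
  have huK : Tendsto (fun k : ℕ => 1 / (((k + K : ℕ) : ℝ) + 1)) atTop (𝓝[>] 0) :=
    hu.comp (tendsto_add_atTop_nat K)
  refine ⟨_, _, _, hK, fun k => if h : ∃ S, IsCov (UKerx420.wD false D (1 / (((k + K : ℕ) : ℝ) + 1))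
    (fun i => meshIndex (1 / (((k + K : ℕ) : ℝ) + 1)) (x i))) S then h.choose else 0, ?_⟩
  filter_upwards [huK.eventually hex] with k hk
  rw [dif_pos hk]
  exact cov40_of_isCov hk.choose_spec

/-- **BrLeaf from the convergence of the resolvents** -/
theorem exists_colAll (hD : IsC2JordanDomain D) (hx : Function.Injective x) (hxD : ∀ i, x i ∈ D)
    (hRC : ResConv (Om D x) x (LatSeq D x) (MacVx610.Q D x)) :
    ∃ g : Fin n → ℂ → ℂ, (∀ i, IsBrN D x i (g i)) ∧ ColAll D x g := by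
  have h := fun i => exists_brn (Red2x541.isOpen_of_C2 hD) (Redx541.bounded_of_C2 hD) hx hxD hRC
    (exists_seq hD x) i
  choose g hg hl using h
  exact ⟨g, hg, fun i a w V H S hS => hl i a w V H S hS⟩

theorem brLeaf_of (hRC : ∀ D : Set ℂ, IsC2JordanDomain D → ∀ (n : ℕ) (x : Fin n → ℂ),
    x ∈ ConfTopx641.Conf n D → ResConv (Om D x) x (LatSeq D x) (MacVx610.Q D x)) : BrLeaf := by
  refine ⟨Br5x644.kp, 1, kp_ne, one_pow 2, fun D hD n x hx => ?_⟩
  obtain ⟨g, hg, hl⟩ := exists_colAll hD hx.2 hx.1 (hRC D hD n x hx)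
  exact ⟨g, hg, fun w X hw hX => brF_of (Red2x541.isOpen_of_C2 hD) (Redx541.bounded_of_C2 hD)
    hx.2 hx.1 hg hl hw hX⟩

end Crest.Agent.R165.Eta7x576
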