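import Crest.Agent.R165.Eval2_644
import Crest.Agent.R165.LogD_813

/-!
# Row 165 (S0250), block U4 (helper644): correlations of two branch columns

* `dat_of_bgFam` : the local data of LogD_813 for the families of UB3_641
* `cor_of_eta` : `BrF.cor` (with `c₂ = 1`) from `BrF.eta` (with `c₁ = kp`) and the bound
  `|S(h, l_i)| ≤ C a^{1/2}` on compacts
-/

set_option autoImplicit false

noncomputable section

open MeasureTheory Set Filter Topology Metric Complex
open Crest.ProbabilityR.IsingModel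

namespace Crest.Agent.R165.EtaCorx644

open Crest.Agent.R165.Latx683 Crest.Agent.R165.Br1x644 Crest.Agent.R165.Gr2x813
open Crest.Agent.R165.Gr3x813 Crest.Agent.R165.PsiLx375 Crest.Agent.R165.LogDx813
open Crest.Agent.R165.UKerx420 (edir kap fpt kap_sq)
open Crest.Agent.R165.U3x719 (rX rXa e8 IsBr Ai)
open Crest.Agent.R165.UB3x641 (gsrc IsBrN kapX BgFam cS cSS BrF)
open Crest.Agent.R165.U5Px422 (LApp)
open Crest.Agent.R165.PathSeqx641 (NF tendsto_nf_iff)
open Crest.Agent.R165.PathIntx641 (mc)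
open Crest.Agent.R165.Evalx644
open Crest.Agent.R165.Br5x644 (kp)

variable {n : ℕ}

/-- the corner vector `S + E + N + W` -/
def l4 (v : ℤ × ℤ) : Fld ℤ := ∑ d : Fin 4, Finsupp.single (v, d) 1

theorem l4_apply (v : ℤ × ℤ) (h : HE ℤ) : l4 v h = if h.1 = v then 1 else 0 := by
  obtain ⟨f, d⟩ := h
  unfold l4
  rw [Finsupp.finsetSum_apply]
  simp only [Finsupp.single_apply, Prod.mk.injEq]
  by_cases hf : f = v
  · rw [if_pos hf]
    subst hf
    simp
  · rw [if_neg hf]
    refine Finset.sum_eq_zero fun e _ => if_neg fun h => hf h.1.symm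

theorem col_l4 (S : HE ℤ → HE ℤ → ℝ) (v : ℤ × ℤ) (h : HE ℤ) : col S (l4 v) h = cS S h v := by
  unfold l4 col cS
  rw [Fin.sum_univ_four, Fin.sum_univ_four, pr_add, pr_add, pr_add, pr_single, pr_single, pr_single,
    pr_single]
  ring

theorem formS_l4 (S : HE ℤ → HE ℤ → ℝ) (v v' : ℤ × ℤ) : formS S (l4 v) (l4 v') = cSS S v v' := by
  rw [formS_eq, l4, cSS, Fin.sum_univ_four, Fin.sum_univ_four]
  rw [pr_add, pr_add, pr_add, pr_single, pr_single, pr_single, pr_single, col_l4, col_l4, col_l4,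
    col_l4]
  unfold cS
  ring

/-- `l4` and `lS` differ by a column of `A` -/
theorem l4_sub (w : BW ℤ) (v : ℤ × ℤ) : l4 v = lS w v - AF w (Finsupp.single (v, 0) 1) := by
  rw [AF_single, one_smul, colA, if_pos rfl, l4, Fin.sum_univ_four, lS]
  rw [show (Finsupp.single ((v.1, v.2 - 1), (2 : Fin 4)) (yN w (v.1, v.2 - 1)) : Fld ℤ) =
    Finsupp.single ((((v, (0 : Fin 4)) : HE ℤ).1.1, ((v, (0 : Fin 4)) : HE ℤ).1.2 - 1), 2)
      (yN w (((v, (0 : Fin 4)) : HE ℤ).1.1, ((v, (0 : Fin 4)) : HE ℤ).1.2 - 1)) from rfl]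
  abel

theorem formS_l4_left {w : BW ℤ} {S : HE ℤ → HE ℤ → ℝ} (hS : IsCov w S) (v : ℤ × ℤ) (u : Fld ℤ) :
    formS S (l4 v) u = formS S (lS w v) u - u (v, 0) := by
  rw [l4_sub w v, map_sub, LinearMap.sub_apply, formS_AF hS, pr_single, one_mul]

/-- the local data of LogD_813 -/
theorem dat_of_bgFam {D : Set ℂ} (hD : IsOpen D) {x : Fin n → ℂ} (hx : Function.Injective x)
    (hxD : ∀ i, x i ∈ D) {w : ℝ → BW ℤ} (hw : BgFam D w) {X : ℝ → Fin n → ℤ × ℤ}
    (hX : LApp X x) {S : ℝ → HE ℤ → HE ℤ → ℝ}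
    (hS : ∀ᶠ a in 𝓝[>] (0 : ℝ), IsCov (wX (w a) (X a)) (S a)) (j : Fin n) :
    ∃ δ : ℝ, ball (x j) δ ⊆ D ∧ Sep x j δ ∧
      Dat (𝓝[>] (0 : ℝ)) (fun a => a) (fun a => wX (w a) (X a)) (fun a => X a j)
        (fun a => kap x (X a) (x j)) S (x j) δ := by
  obtain ⟨r, hr, hsep, hrD⟩ := exists_radius hD hx j (hxD j)
  obtain ⟨δ1, h1, h2⟩ := ev_good hx j
  have hδ : 0 < min (r / 4) δ1 := lt_min (by positivity) h1
  have hm1 := min_le_left (r / 4) δ1
  have hm2 := min_le_right (r / 4) δ1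
  have hnf : Tendsto (fun a : ℝ => (a, X a)) (𝓝[>] (0 : ℝ)) (NF x) := by
    rw [tendsto_nf_iff]
    exact ⟨tendsto_id, tendsto_pi_nhds.2 fun i => hX i⟩
  have hK : IsCompact (closedBall (x j) (r / 2)) := isCompact_closedBall _ _
  have hKD : closedBall (x j) (r / 2) ⊆ D := (closedBall_subset_ball (by linarith)).trans hrD
  have hpos : ∀ᶠ a in 𝓝[>] (0 : ℝ), 0 < a := eventually_mem_nhdsWithin
  have hsm : ∀ᶠ a in 𝓝[>] (0 : ℝ), a < r / 4 :=
    mem_nhdsWithin_of_mem_nhds (Iio_mem_nhds (by positivity))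
  refine ⟨min (r / 4) δ1, (ball_subset_ball (by linarith)).trans hrD,
    hsep.mono (by linarith), ⟨tendsto_id, hX j, fun a => kap_sq x (X a) (x j), hδ, ?_, hS⟩⟩
  filter_upwards [hnf.eventually h2, hw.inn _ hK hKD, hpos, hsm] with a hg hin ha has f hf
  refine locAt_wX (fun d => ?_) (hg f (lt_of_lt_of_le hf hm2))
  have key : ∀ v : ℤ × ℤ, ‖meshPoint a v - meshPoint a f‖ ≤ a → ∀ e, w a v e = Latx683.xc := by
    intro v hv e
    refine hin v e ?_
    rw [mem_closedBall, dist_eq_norm]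
    have e1 : meshPoint a v - x j = (meshPoint a v - meshPoint a f) + (meshPoint a f - x j) := by ring
    rw [e1]
    refine (norm_add_le _ _).trans ?_
    linarith [hf.le]
  have d0 : ‖meshPoint a f - meshPoint a f‖ ≤ a := by rw [sub_self, norm_zero]; exact ha.le
  have d1 : ‖meshPoint a (f.1 + 1, f.2) - meshPoint a f‖ ≤ a := by
    have : meshPoint a (f.1 + 1, f.2) - meshPoint a f = (a : ℂ) := by
      apply Complex.ext <;> simp [meshPoint]
      ring
    rw [this, Complex.norm_real, Real.norm_eq_abs, abs_of_pos ha]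
  have d2 : ‖meshPoint a (f.1, f.2 + 1) - meshPoint a f‖ ≤ a := by
    have : meshPoint a (f.1, f.2 + 1) - meshPoint a f = (a : ℂ) * Complex.I := by
      apply Complex.ext <;> simp [meshPoint]
      ring
    rw [this, norm_mul, Complex.norm_I, mul_one, Complex.norm_real, Real.norm_eq_abs, abs_of_pos ha]
  fin_cases d
  · show yN (w a) (f.1, f.2 - 1) = _
    simp only [yN, sub_add_cancel]
    exact key f d0 0
  · exact key _ d1 1
  · exact key _ d2 0
  · show yE (w a) (f.1 - 1, f.2) = _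
    simp only [yE, sub_add_cancel]
    exact key f d0 1

/-- a smooth cut-off -/
theorem exists_cut {δ : ℝ} (hδ : 0 < δ) : ∃ χ : ℂ → ℝ, Cut χ (δ / 4) (δ / 2) := by
  refine ⟨fun z => ResIntx439.cut ((δ / 4) ^ 2) ((δ / 2) ^ 2) (‖z‖ ^ 2), ⟨by positivity, ?_, ?_, ?_⟩⟩
  · intro z hz
    refine ResIntx439.cut_one (by nlinarith) ?_
    have := norm_nonneg z
    nlinarith
  · intro z hz
    refine ResIntx439.cut_zero (by nlinarith) ?_
    have := norm_nonneg z
    nlinarith
  · have h1 : ContDiff ℝ 1 fun z : ℂ => ‖z‖ ^ 2 := contDiff_norm_sq ℝ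
    exact ((ResIntx439.cut_contDiff _ _).of_le (by norm_num)).comp h1

/-- **`BrF.cor` from `BrF.eta` and the bound** -/
theorem cor_of_eta {D : Set ℂ} (hD : IsOpen D) {x : Fin n → ℂ} (hx : Function.Injective x)
    (hxD : ∀ i, x i ∈ D) {w : ℝ → BW ℤ} (hw : BgFam D w) {X : ℝ → Fin n → ℤ × ℤ}
    (hX : LApp X x) {g : ℂ → ℂ} {S : ℝ → HE ℤ → HE ℤ → ℝ}
    (hS : ∀ᶠ a in 𝓝[>] (0 : ℝ), IsCov (wX (w a) (X a)) (S a)) {i j : Fin n} (hij : i ≠ j)
    (hg : ∀ r : ℝ, ball (x j) r ⊆ D → (∀ z ∈ ball (x j) r, x i ≠ z) →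
      DifferentiableOn ℂ g (ball (x j) r))
    (heta : ∀ z : ℂ, z ∈ D → (∀ i, x i ≠ z) → ∀ (d : Fin 4) (f : ℝ → ℤ × ℤ),
      Tendsto (fun a => fpt a (f a)) (𝓝[>] 0) (𝓝 z) →
      Tendsto (fun a => a ^ (-(1 : ℝ) / 2) * (kap x (X a) z (f a) * kapX x (X a) i *
        cS (S a) (f a, d) (X a i))) (𝓝[>] 0) (𝓝 (kp * (edir d * e8 * (g z / rXa x z)).re)))
    (hbd : ∀ K : Set ℂ, IsCompact K → K ⊆ D → (∀ i, x i ∉ K) → ∃ C : ℝ,
      ∀ᶠ a in 𝓝[>] (0 : ℝ), ∀ h : HE ℤ, fpt a h.1 ∈ K →
        |cS (S a) h (X a i)| ≤ C * a ^ (1 / 2 : ℝ)) :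
    Tendsto (fun a => kapX x (X a) j * kapX x (X a) i * cSS (S a) (X a j) (X a i)) (𝓝[>] 0)
      (𝓝 ((g (x j) / (Complex.I * gsrc x j)).re)) := by
  obtain ⟨δ, hδD, hsep, hdat⟩ := dat_of_bgFam hD hx hxD hw hX hS j
  have hδ := hdat.dpos
  obtain ⟨χ, H⟩ := exists_cut hδ
  have hR : δ / 2 < δ := by linarith
  obtain ⟨P, V, hP, hG, hV, -⟩ := gen_ev hdat H hR near_S
    (L := fun a => kap x (X a) (x j) (X a j) • lS (wX (w a) (X a)) (X a j))
    (hdat.locX.mono fun a h => srcS (hdat.sq a) h.1)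
  obtain ⟨K, -, hK⟩ := cS_bound H
  -- distances
  have hne : ∀ k, k ≠ j → δ ≤ ‖x k - x j‖ := by
    intro k hk
    obtain ⟨ha, hb⟩ := hsep k hk
    by_cases h : (x k).im = (x j).im
    · have := Complex.abs_re_le_norm (x k - x j)
      rw [Complex.sub_re] at this
      exact (ha h).trans this
    · have := Complex.abs_im_le_norm (x k - x j)
      rw [Complex.sub_im] at this
      exact (hb h).trans this
  have hann : ∀ k, x k ∉ ann (x j) (δ / 4 / 2) (3 * δ / 4) := by
    intro k hk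
    by_cases hkj : k = j
    · rw [hkj] at hk
      have := hk.1
      rw [sub_self, norm_zero] at this
      linarith
    · have h1 := hne k hkj
      have h2 := hk.2
      linarith
  have hannD : ann (x j) (δ / 4 / 2) (3 * δ / 4) ⊆ D := fun z hz => hδD (by
    rw [mem_ball, dist_eq_norm]; linarith [hz.2])
  have hannc : IsCompact (ann (x j) (δ / 4 / 2) (3 * δ / 4)) :=
    Metric.isCompact_of_isClosed_isBounded (ann_closed _ _ _) (ann_bdd _ _ _)
  obtain ⟨C, hC⟩ := hbd _ hannc hannD hann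
  have hgd : DifferentiableOn ℂ g (ball (x j) δ) := hg δ hδD fun z hz h => by
    rw [mem_ball, dist_eq_norm, ← h] at hz
    exact absurd (hne i hij) (not_le.2 hz)
  -- the pairing
  have key := lim_pair hdat.ha hdat.hX hdat.sq H (R := 3 * δ / 4) (by linarith) hK (q := pS χ)
    (by
      filter_upwards [ae_gen] with z hz f hf d
      exact cS_lim H hdat.ha hf hz d) hP
    (s := fun a h => kapX x (X a) i * cS (S a) h (X a i)) (β := 1 / 2) (C' := C)
    (U := Ucol x j g)
    (by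
      filter_upwards [hC] with a ha h hh
      rw [abs_mul]
      have e : |kapX x (X a) i| = 1 := by
        have := kap_sq x (X a) (x i) (X a i)
        rw [← abs_mul_abs_self] at this
        unfold kapX
        nlinarith [abs_nonneg (kap x (X a) (x i) (X a i))]
      rw [e, one_mul]
      exact ha h hh)
    (by
      have hae : ∀ᵐ z : ℂ, ∀ k, z.im ≠ (x k).im := ae_all_iff.2 fun k => ae_im_ne _
      filter_upwards [hae] with z hz hzA d
      have hzD : z ∈ D := hannD hzA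
      have hzx : ∀ k, x k ≠ z := fun k h => hann k (h ▸ hzA)
      have hf : Tendsto (fun a : ℝ => fpt a (meshIndex a z)) (𝓝[>] (0 : ℝ)) (𝓝 z) :=
        Pairx599.tendsto_meshPoint tendsto_id z
      have h1 := heta z hzD hzx d (fun a => meshIndex a z) hf
      have h2 := h1.const_mul (lsg x j z)
      refine h2.congr' ?_
      have h3 := ev_kap (l := 𝓝[>] (0 : ℝ)) (a := fun a => a) (X := X)
        (f := fun a => meshIndex a z) (x := x) eventually_mem_nhdsWithin (fun k => hX k) hf hz j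
      filter_upwards [h3] with a ha
      rw [ha.1, ha.2, show (-(1 : ℝ) / 2) = -(1 / 2) by norm_num]
      ring)
  rw [show (2 - 3 / 2 - 1 / 2 : ℝ) = 0 by norm_num] at key
  rw [evalS H hR hsep hgd] at key
  refine key.congr' ?_
  have hpos : ∀ᶠ a in 𝓝[>] (0 : ℝ), 0 < a := eventually_mem_nhdsWithin
  have hxi : ∀ᶠ a in 𝓝[>] (0 : ℝ), ‖meshPoint a (X a i) - x i‖ < δ / 8 := by
    filter_upwards [(hX i).eventually (Metric.ball_mem_nhds _ (by positivity : 0 < δ / 8))] with a ha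
    rwa [← dist_eq_norm]
  filter_upwards [hG, hV, hS, hpos, hxi, hdat.smallX (show 0 < δ / 8 by positivity)]
    with a hG hV hc ha h1 h2
  rw [Real.rpow_zero, one_mul]
  have hXne : X a i ≠ X a j := by
    intro h
    rw [h] at h1
    have h3 := hne i hij
    have e : x i - x j = (meshPoint a (X a j) - x j) - (meshPoint a (X a j) - x i) := by ring
    rw [e] at h3
    have := norm_sub_le (meshPoint a (X a j) - x j) (meshPoint a (X a j) - x i)
    linarith
  have hpV : pr (V a) (l4 (X a i)) = 0 := by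
    rw [pr_comm, pr_eq_sum (l4 (X a i)) _ _ (Finset.Subset.refl _)]
    refine Finset.sum_eq_zero fun h hh => ?_
    rw [Finsupp.mem_support_iff, l4_apply] at hh
    have h3 : h.1 = X a i := by
      by_contra hcon
      exact hh (if_neg hcon)
    rw [hV h, h3]
    have h4 : χ (meshPoint a (X a i - X a j)) = 0 := by
      refine H.zero _ ?_
      have e : meshPoint a (X a i - X a j) =
          (x i - x j) + ((meshPoint a (X a i) - x i) - (meshPoint a (X a j) - x j)) := by
        rw [LogDx813.mesh_sub]; ring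
      rw [e]
      have h5 := norm_sub_norm_le (x i - x j)
        (-((meshPoint a (X a i) - x i) - (meshPoint a (X a j) - x j)))
      rw [sub_neg_eq_add, norm_neg] at h5
      have h6 := norm_sub_le (meshPoint a (X a i) - x i) (meshPoint a (X a j) - x j)
      have h7 := hne i hij
      linarith
    rw [h4]; ring
  have e1 := hG (l4 (X a i))
  rw [hpV, sub_zero] at e1
  have e2 : formS (S a) (kap x (X a) (x j) (X a j) • lS (wX (w a) (X a)) (X a j)) (l4 (X a i)) =
      kapX x (X a) j * formS (S a) (lS (wX (w a) (X a)) (X a j)) (l4 (X a i)) := by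
    rw [LinearMap.map_smul₂, smul_eq_mul]
    rfl
  have e3 := formS_l4_left hc (X a j) (l4 (X a i))
  rw [l4_apply, if_neg (fun h => hXne h.symm), sub_zero, formS_l4] at e3
  have e4 : pr (P a) (fun h => kapX x (X a) i * cS (S a) h (X a i)) =
      kapX x (X a) i * formS (S a) (P a) (l4 (X a i)) := by
    rw [formS_eq]
    have : (fun h => kapX x (X a) i * cS (S a) h (X a i)) =
        kapX x (X a) i • col (S a) (l4 (X a i)) := by
      funext h
      rw [Pi.smul_apply, smul_eq_mul, col_l4]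
    rw [this, pr_smul_right]
  rw [e4, ← e1, e2, e3]
  ring

end Crest.Agent.R165.EtaCorx644
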