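import Crest.Agent.R165.Eval_644
import Crest.Agent.R165.PsiLim2_375

/-!
# Row 165 (S0250), block U4 (helper644): continuum evaluation in the names of PsiLim_375

* `evalN`  : `∑_d ∫ pN χ (z - x_i) d * U z d = Re ((1 + i) A_i)`
* `evalN2` : `∑_d ∫ pN2 χ (z - x_i) d * U z d = - Re ((1 - i) A_i)`
* `evalS`  : `∑_d ∫ pS χ (z - x_j) d * U z d = Re (g (x_j) / (i gsrc_j))`

`U z d = lsg x i z * (kp * Re (edir d * e8 * (g z / rXa x z)))`.
-/

set_option autoImplicit false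

noncomputable section

open MeasureTheory Set Filter Topology Metric Complex
open scoped ComplexConjugate

namespace Crest.Agent.R165.Evalx644

open Crest.Agent.R165.RIfx891 (lv)
open Crest.Agent.R165.UKerx420 (edir kap fpt)
open Crest.Agent.R165.U3x719 (rX rXa e8 IsBr Ai)
open Crest.Agent.R165.UB3x641 (gsrc IsBrN kapX e8_sq gsrc_sq)
open Crest.Agent.R165.Gr2x813 (sgd opd)
open Crest.Agent.R165.Br5x644 (zt kp kp_sq)
open Crest.Agent.R165.Latx683 (xc)
open Crest.Agent.R165.PsiLx375 (Cut pS pN pN2 ed)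

variable {n : ℕ}

theorem dir_eq (d : Fin 4) : dir d = ed d := by
  fin_cases d <;> simp [dir, ed]

theorem pN_eq (χ : ℂ → ℝ) (z : ℂ) (d : Fin 4) :
    pN χ z d = pc χ (fun w => kp * ((1 - I) / 2) * (zt w / w)) z d := by
  simp only [pN, pc, dir_eq]

theorem pN2_eq (χ : ℂ → ℝ) (z : ℂ) (d : Fin 4) :
    pN2 χ z d = pc χ (fun w => kp * ((1 + I) / 2) * (zt w / w)) z d := by
  simp only [pN2, pc, dir_eq]

theorem pS_eq (χ : ℂ → ℝ) (z : ℂ) (d : Fin 4) :
    pS χ z d = pc χ (fun w => -(kp : ℂ) * zt w) z d := by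
  simp only [pS, pc, dir_eq]

theorem cut_tsupport {χ : ℂ → ℝ} {r0 R0 r : ℝ} (H : Cut χ r0 R0) (hR : R0 < r) :
    tsupport χ ⊆ ball 0 r := by
  have h1 : tsupport χ ⊆ closedBall 0 R0 := by
    refine closure_minimal ?_ isClosed_closedBall
    intro z hz
    rw [mem_closedBall, dist_zero_right]
    by_contra h
    exact hz (H.zero z (not_le.1 h).le)
  exact h1.trans (closedBall_subset_ball hR)

theorem cut_one {χ : ℂ → ℝ} {r0 R0 : ℝ} (H : Cut χ r0 R0) : χ =ᶠ[𝓝 0] fun _ => 1 := by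
  filter_upwards [ball_mem_nhds (0 : ℂ) H.pos] with z hz
  exact H.one z (by rwa [mem_ball, dist_zero_right] at hz)

theorem cut_lt {χ : ℂ → ℝ} {r0 R0 : ℝ} (H : Cut χ r0 R0) : 0 < R0 := by
  by_contra h
  have h1 := H.zero 0 (by rw [norm_zero]; exact not_lt.1 h)
  have h2 := H.one 0 (by rw [norm_zero]; exact H.pos)
  rw [h1] at h2
  exact zero_ne_one h2

/-- the column in the local gauge at `x_i` -/
def Ucol (x : Fin n → ℂ) (i : Fin n) (g : ℂ → ℂ) (z : ℂ) (d : Fin 4) : ℝ :=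
  lsg x i z * (kp * (edir d * e8 * (g z / rXa x z)).re)

section

variable {x : Fin n → ℂ} {i : Fin n} {r r0 R0 : ℝ} {g : ℂ → ℂ} {χ : ℂ → ℝ}

/-- integrability of the pairings -/
theorem int_N (H : Cut χ r0 R0) (hR : R0 < r) (hr : Sep x i r)
    (hg : DifferentiableOn ℂ g (ball (x i) r)) (hgi : g (x i) = gsrc x i) (d : Fin 4) :
    Integrable fun z => pN χ (z - x i) d * Ucol x i g z d := by
  have h := (eval_gen ((cut_lt H).trans hR) hr hg hgi H.c1 (cut_tsupport H hR) (cut_one H)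
    (kp * ((1 - I) / 2))).1 d
  simpa only [lv_ucol, ← pN_eq, Ucol] using h

theorem int_N2 (H : Cut χ r0 R0) (hR : R0 < r) (hr : Sep x i r)
    (hg : DifferentiableOn ℂ g (ball (x i) r)) (hgi : g (x i) = gsrc x i) (d : Fin 4) :
    Integrable fun z => pN2 χ (z - x i) d * Ucol x i g z d := by
  have h := (eval_gen ((cut_lt H).trans hR) hr hg hgi H.c1 (cut_tsupport H hR) (cut_one H)
    (kp * ((1 + I) / 2))).1 d
  simpa only [lv_ucol, ← pN2_eq, Ucol] using h

theorem int_S (H : Cut χ r0 R0) (hR : R0 < r) (hr : Sep x i r)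
    (hg : DifferentiableOn ℂ g (ball (x i) r)) (d : Fin 4) :
    Integrable fun z => pS χ (z - x i) d * Ucol x i g z d := by
  have h := (eval_S ((cut_lt H).trans hR) hr hg H.c1 (cut_tsupport H hR) (cut_one H)).1 d
  simpa only [lv_ucol, ← pS_eq, Ucol] using h

/-- **diagonal step `(1, 1)`** -/
theorem evalN (H : Cut χ r0 R0) (hR : R0 < r) (hr : Sep x i r)
    (hg : DifferentiableOn ℂ g (ball (x i) r)) (hgi : g (x i) = gsrc x i) :
    ∑ d, ∫ z, pN χ (z - x i) d * Ucol x i g z d = ((1 + I) * Ai x i g).re := by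
  have h := eval_N ((cut_lt H).trans hR) hr hg hgi H.c1 (cut_tsupport H hR) (cut_one H)
  simpa only [lv_ucol, ← pN_eq, Ucol] using h

/-- **diagonal step `(1, -1)`** -/
theorem evalN2 (H : Cut χ r0 R0) (hR : R0 < r) (hr : Sep x i r)
    (hg : DifferentiableOn ℂ g (ball (x i) r)) (hgi : g (x i) = gsrc x i) :
    ∑ d, ∫ z, pN2 χ (z - x i) d * Ucol x i g z d = -((1 - I) * Ai x i g).re := by
  have h := eval_N2 ((cut_lt H).trans hR) hr hg hgi H.c1 (cut_tsupport H hR) (cut_one H)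
  simpa only [lv_ucol, ← pN2_eq, Ucol] using h

/-- **two insertions** -/
theorem evalS (H : Cut χ r0 R0) (hR : R0 < r) (hr : Sep x i r)
    (hg : DifferentiableOn ℂ g (ball (x i) r)) :
    ∑ d, ∫ z, pS χ (z - x i) d * Ucol x i g z d = (g (x i) / (I * gsrc x i)).re := by
  have h := (eval_S ((cut_lt H).trans hR) hr hg H.c1 (cut_tsupport H hR) (cut_one H)).2
  simpa only [lv_ucol, ← pS_eq, Ucol] using h

end

/-! ### signs -/

theorem Ai_neg (x : Fin n → ℂ) (i : Fin n) (g : ℂ → ℂ) : Ai x i (fun z => -g z) = Ai x i g := by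
  unfold Ai
  simp only [neg_sq]

theorem gsrc_cases {D : Set ℂ} {x : Fin n → ℂ} {i : Fin n} {g : ℂ → ℂ} (h : IsBr D x i g) :
    g (x i) = gsrc x i ∨ g (x i) = -gsrc x i := by
  have h1 : g (x i) ^ 2 = gsrc x i ^ 2 := by rw [h.src, gsrc_sq]
  exact sq_eq_sq_iff_eq_or_eq_neg.1 h1

/-- a radius which is good for `x`, `D` at `x_i` -/
theorem exists_radius {D : Set ℂ} (hD : IsOpen D) {x : Fin n → ℂ} (hx : Function.Injective x)
    (i : Fin n) (hi : x i ∈ D) : ∃ r : ℝ, 0 < r ∧ Sep x i r ∧ ball (x i) r ⊆ D := by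
  obtain ⟨r1, h1, h2⟩ := exists_sep hx i
  obtain ⟨r2, h3, h4⟩ := Metric.isOpen_iff.1 hD (x i) hi
  exact ⟨min r1 r2, lt_min h1 h3, h2.mono (min_le_left _ _),
    (ball_subset_ball (min_le_right _ _)).trans h4⟩

end Crest.Agent.R165.Evalx644
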