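import Crest.Agent.R165.Fin4_315
import Crest.Agent.R165.JRunV_445

/-!
# Row 165 (S0250), P9: the final factor of the domains, on the literal names (helper315)

* `SfT c w N` : the final covariance (total function of the background), `SfT_eq`
* `invT_plus`, `inv_free_of` : `Inv w (Sof w)` for the backgrounds of the list
* `Links.fl` : the data `Telx337.Fl` of a domain;  `Links.ratio` : `spm / spm0 = Z0 / Z0`
* `fin_plus` : plus domains (also discs, any filter), any insertions, unconditional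
* `fin_free` : free domains, meshes `a → 0`, from `SpinOut .plus 1`, `SpinOut .free n`
* `fin_C2` : both, `fin_C2_zero` : without insertions
-/

set_option autoImplicit false
set_option linter.unusedSectionVars false

noncomputable section

namespace Crest.Agent.R165.Fin5x315

open scoped ENNReal
open Filter Topology
open Crest.ProbabilityR.IsingModel
open Crest.Agent.R165.Gr0x606 Crest.Agent.R165.Gr1x606 Crest.Agent.R165.GeOpsx337
open Crest.Agent.R165.Latx683 Crest.Agent.R165.GDefx387 Crest.Agent.R165.GSysx387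
open Crest.Agent.R165.KFlowx337 Crest.Agent.R165.Telx337 Crest.Agent.R165.FRDPolyx439
  Crest.Agent.R165.FRDLatx439
open Crest.Agent.R165.BgIsox432 Crest.Agent.R165.NSumx915 Crest.Agent.R165.Bridgex915
open Crest.Agent.R165.Bkgx683 Crest.Agent.R165.PEndx683 Crest.Agent.R165.Outx683
open Crest.Agent.R165.UKerx420 (Cof Sof Sof_spec Sof_skew wD)
open Crest.Agent.R165.JRunx445 Crest.Agent.R165.Fin2x315 Crest.Agent.R165.Fin3x315
  Crest.Agent.R165.Fin4x315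
open Crest.Agent.R165.U5Px422 (TT mem_TT SpinOut Conf lapp_meshIndex)
open Crest.Agent.R165.Redx541 Crest.Agent.R165.Red2x541 Crest.Agent.R165.Centx541
  Crest.Agent.R165.Symx541 Crest.Agent.R165.SRx541 Crest.Agent.R165.Topx683

/-! ### the final covariance, a total function -/

/-- the final covariance of the background `w` after `N` steps -/
def SfT (c : Cst) (w : BW ℤ) (N : ℕ) : Cov (Fld ℤ) := remC (Cof w) (slC DD w c.p c.k0) N

theorem SfT_eq (c : Cst) {w : BW ℤ} (h : Inv w (Sof w)) (N : ℕ) :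
    SfT c w N = h.last DD c.p c.k0 N :=
  remC_eq DD h.skew h.inv h.fin c.p c.k0 N

theorem Cof_eq {w : BW ℤ} (h : Inv w (Sof w)) : Cof w = h.full := rfl

theorem invT_plus (T : Finset (ℤ × ℤ)) {n : ℕ} (X : Fin n → ℤ × ℤ) :
    Inv (Bg.dom T .plus X).w (Sof (Bg.dom T .plus X).w) := by
  obtain ⟨S, hS, -⟩ := Covx359.exists_isCov_plus T X
  exact inv_of_isCov_plus (Sof_spec ⟨S, hS⟩)

theorem TT_coe {D : Set ℂ} {a : ℝ} (h : (domainSites D a).Finite) :
    ((TT D a : Finset (ℤ × ℤ)) : Set (ℤ × ℤ)) = domainSites D a := by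
  unfold TT
  rw [dif_pos h]
  exact h.coe_toFinset

/-! ### the telescoping data and the ratio -/

/-- the flow data of any background with an inverse kernel -/
theorem fl_inv (c : Cst) (P : MPar) {T : Finset (ℤ × ℤ)} {b : BoundaryCondition} {n : ℕ}
    {X : Fin n → ℤ × ℤ} (h : Inv (Bg.dom T b X).w (Sof (Bg.dom T b X).w))
    (h5 : 5 ≤ c.p * (c.k0 + 1)) {Λ : Finset (ℤ × ℤ)} (v : VolN T b P.R Λ) (N : ℕ) :
    Fl (domF c P T b X) Λ N (Cof (Bg.dom T b X).w) (SfT c (Bg.dom T b X).w N) := by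
  rw [SfT_eq c h N]
  exact fl_sys DD (by norm_num) h ∅ h5 (fun U => JVolx950.K0_noSrc_mem _ P c.p c.k0 U)
    (suppD c P v) (K0_empty' c P T b X) N

theorem links_fl {D : Set ℂ} {a : ℝ} {b : BoundaryCondition} {n : ℕ} {X : Fin n → ℤ × ℤ}
    (h : Links D a b X) (c : Cst) (P : MPar) (h5 : 5 ≤ c.p * (c.k0 + 1)) {Λ : Finset (ℤ × ℤ)}
    (v : VolN (TT D a) b P.R Λ) (N : ℕ) :
    Fl (domF c P (TT D a) b X) Λ N (Cof (Bg.dom (TT D a) b X).w)
      (SfT c (Bg.dom (TT D a) b X).w N) := fl_inv c P h.invB h5 v N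

/-- **the spin ratio is the ratio of the initial partition functions** -/
theorem links_ratio {D : Set ℂ} {a : ℝ} {b : BoundaryCondition} {n : ℕ} {x : Fin n → ℂ}
    (hX : Links D a b (fun i => meshIndex a (x i))) (h0 : Links D a b (fun i : Fin 0 => i.elim0))
    (hb : b ≠ BoundaryCondition.minus) (hp : spm0 D a b x ≠ 0) {J : ℝ} (hJ : J ≠ 0) {R : ℕ}
    {V : Finset (ℤ × ℤ) → ℝ} (hV : VHyp R V) (c : Cst) (h5 : 5 ≤ c.p * (c.k0 + 1)) (lam β z : ℝ)
    (hz : 0 < 1 + z) {Λ : Finset (ℤ × ℤ)}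
    (v : VolN (TT D a) b (mpar J lam R V β z).R Λ) :
    spm D a b J lam R V β x / spm0 D a b x =
      Z0 (domF c (mpar J lam R V β z) (TT D a) b (fun i => meshIndex a (x i))) Λ
          (Cof (Bg.dom (TT D a) b (fun i => meshIndex a (x i))).w) /
        Z0 (domF c (mpar J lam R V β z) (TT D a) b (fun i : Fin 0 => i.elim0)) Λ
          (Cof (Bg.dom (TT D a) b (fun i : Fin 0 => i.elim0)).w) :=
  Links.spm_run hX h0 hb hp hJ hV c h5 lam β z hz v 0

/-! ### the final factor -/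

theorem volA_fd' {B : ℝ} {a : ℝ} (h1 : 1 ≤ B / a) {R : ℕ} {f : ℤ × ℤ}
    (hf : f ∈ volA B a R) : (fd ((0, 0) : ℤ × ℤ) f : ℝ) ≤ ((R : ℝ) + 3) * (B / a) := by
  have h2 := mem_boxV.1 hf
  have h3 : (fd ((0, 0) : ℤ × ℤ) f : ℝ) ≤ (⌊B / a⌋₊ : ℝ) + R + 2 := by exact_mod_cast h2
  have h4 : (⌊B / a⌋₊ : ℝ) ≤ B / a := Nat.floor_le (by linarith)
  nlinarith [Nat.cast_nonneg (α := ℝ) R]

/-- **plus backgrounds**, any filter, any insertions, any system `Q` (marks, real sources), any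
volume in a box -/
theorem fin_plusQ {α : Type*} {l : Filter α} {c : Cst} {κ : ℝ} (hκ : 0 < κ) (hΓ : 1 ≤ c.Γ)
    {Dm : α → Set ℂ} {B a : α → ℝ} (hB : ∀ᶠ i in l, ∀ z ∈ Dm i, ‖z‖ ≤ B i)
    (ha : ∀ᶠ i in l, 0 < a i) (hR : Tendsto (fun i => B i / a i) l atTop) {n : ℕ}
    (X : α → Fin n → ℤ × ℤ) {N : α → ℕ} (hN : ∀ᶠ i in l, κ * (B i / a i) ≤ rr c.p c.k0 (N i))
    {A : α → ℝ} (hA : Tendsto A l atTop) {Q : α → Sys (ℤ × ℤ) (Fld ℤ)} {Λ : α → Finset (ℤ × ℤ)}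
    {Cv : ℝ} (hCv : 0 ≤ Cv)
    (hΛ : ∀ᶠ i in l, ∀ f ∈ Λ i, (fd ((0, 0) : ℤ × ℤ) f : ℝ) ≤ Cv * (B i / a i))
    (hK : Tendsto (fun i => NK (Bg.dom (TT (Dm i) (a i)) .plus (X i)).w (A i)
      (rr c.p c.k0 (N i)) (ENNReal.ofReal c.Γ) (fun _ => True)
      (fun U => ((Q i).K (N i) U : Gr (Fld ℤ)))) l (𝓝 0)) :
    Tendsto (fun i => Zf (Q i) (Λ i) (N i)
      (SfT c (Bg.dom (TT (Dm i) (a i)) .plus (X i)).w (N i))) l (𝓝 1) := by
  have hR1 : ∀ᶠ i in l, 1 ≤ B i / a i := hR.eventually_ge_atTop 1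
  refine zf_tendsto DD (by decide) hκ CPl_pos hCv
    (by simpa using ENNReal.ofReal_le_ofReal hΓ) hR
    (w := fun i => (Bg.dom (TT (Dm i) (a i)) .plus (X i)).w)
    (Eventually.of_forall fun i => abs_wX_le _ _ _) ?_ hA hN
    (Eventually.of_forall fun i => ⟨_, invT_plus _ _, SfT_eq c (invT_plus _ _) _⟩)
    (x := fun _ => (0, 0)) hΛ hK
  filter_upwards [hB, hR1, ha] with i h1 h2 h3 f
  refine gap_plus (X i) (c := (0, 0)) h2 (fun z hz => ?_) f
  have hz' : z ∈ domainSites (Dm i) (a i) := by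
    unfold TT at hz
    split_ifs at hz with h
    · exact h.mem_toFinset.1 hz
    · exact absurd hz (Finset.notMem_empty _)
  have h4 := GapFinx40.sites_le h1 h3 z hz'
  simpa using h4

/-- **plus domains**, any filter (discs: `Dm i = ball 0 (B i)`), any insertions -/
theorem fin_plus {α : Type*} {l : Filter α} {c : Cst} {κ : ℝ} (hκ : 0 < κ) (hΓ : 1 ≤ c.Γ)
    {Dm : α → Set ℂ} {B a : α → ℝ} (hB : ∀ᶠ i in l, ∀ z ∈ Dm i, ‖z‖ ≤ B i)
    (ha : ∀ᶠ i in l, 0 < a i) (hR : Tendsto (fun i => B i / a i) l atTop) {n : ℕ}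
    (X : α → Fin n → ℤ × ℤ) {N : α → ℕ} (hN : ∀ᶠ i in l, κ * (B i / a i) ≤ rr c.p c.k0 (N i))
    {A : α → ℝ} (hA : Tendsto A l atTop) (P : MPar)
    (hK : Tendsto (fun i => NK (Bg.dom (TT (Dm i) (a i)) .plus (X i)).w (A i)
      (rr c.p c.k0 (N i)) (ENNReal.ofReal c.Γ) (fun _ => True)
      (fun U => ((domF c P (TT (Dm i) (a i)) .plus (X i)).K (N i) U : Gr (Fld ℤ)))) l (𝓝 0)) :
    Tendsto (fun i => Zf (domF c P (TT (Dm i) (a i)) .plus (X i)) (volA (B i) (a i) P.R) (N i)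
      (SfT c (Bg.dom (TT (Dm i) (a i)) .plus (X i)).w (N i))) l (𝓝 1) := by
  refine fin_plusQ hκ hΓ hB ha hR X hN hA (Cv := (P.R : ℝ) + 3) (by positivity) ?_ hK
  filter_upwards [hR.eventually_ge_atTop 1] with i h2 f hf
  exact volA_fd' h2 hf

theorem tendsto_div_mesh {B : ℝ} (hB : 0 < B) :
    Tendsto (fun a : ℝ => B / a) (𝓝[>] 0) atTop := by
  simp only [div_eq_mul_inv]
  exact tendsto_inv_nhdsGT_zero.const_mul_atTop hB

/-- **free domains**, an even number of insertions, any system `Q`, any volume in a box -/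
theorem fin_freeQ {c : Cst} {κ : ℝ} (hκ : 0 < κ) (hΓ : 1 ≤ c.Γ) {n : ℕ} (hn : Even n)
    (hP : SpinOut .plus 1) (hF : SpinOut .free n) {D : Set ℂ} (hD : IsC2JordanDomain D)
    {x : Fin n → ℂ} (hx : x ∈ Conf D n) {N : ℝ → ℕ}
    (hN : ∀ᶠ a in 𝓝[>] (0 : ℝ), κ / a ≤ rr c.p c.k0 (N a))
    {A : ℝ → ℝ} (hA : Tendsto A (𝓝[>] 0) atTop) {Q : ℝ → Sys (ℤ × ℤ) (Fld ℤ)}
    {Λ : ℝ → Finset (ℤ × ℤ)} {Cv : ℝ} (hCv : 0 ≤ Cv)
    (hΛ : ∀ᶠ a in 𝓝[>] (0 : ℝ), ∀ f ∈ Λ a, (fd ((0, 0) : ℤ × ℤ) f : ℝ) ≤ Cv / a)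
    (hK : Tendsto (fun a => NK (Bg.dom (TT D a) .free (fun i => meshIndex a (x i))).w (A a)
      (rr c.p c.k0 (N a)) (ENNReal.ofReal c.Γ) (fun _ => True)
      (fun U => ((Q a).K (N a) U : Gr (Fld ℤ)))) (𝓝[>] 0) (𝓝 0)) :
    Tendsto (fun a => Zf (Q a) (Λ a) (N a)
      (SfT c (Bg.dom (TT D a) .free (fun i => meshIndex a (x i))).w (N a))) (𝓝[>] 0) (𝓝 1) := by
  obtain ⟨C, hC, hall⟩ := FrAllx887.dom_all_free hn hP hF hD hx (lapp_meshIndex x)
  have hw : ∀ᶠ a in 𝓝[>] (0 : ℝ), (Bg.dom (TT D a) .free (fun i => meshIndex a (x i))).w =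
      wX (wDom (domainSites D a) true) (fun i => meshIndex a (x i)) := by
    filter_upwards [self_mem_nhdsWithin] with a ha
    show wX (wDom ((TT D a : Finset (ℤ × ℤ)) : Set (ℤ × ℤ)) _) _ = _
    rw [TT_coe (domainSites_finite (bounded_of_C2 hD) ha)]
    rfl
  have hi := inv_dom_free hn hP hF hD hx (lapp_meshIndex x)
  refine zf_tendsto DD (by decide) hκ hC hCv
    (by simpa using ENNReal.ofReal_le_ofReal hΓ) (R := fun a => a⁻¹) tendsto_inv_nhdsGT_zero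
    (w := fun a => (Bg.dom (TT D a) .free (fun i => meshIndex a (x i))).w)
    (Eventually.of_forall fun i => abs_wX_le _ _ _) ?_ hA ?_ ?_
    (x := fun _ => (0, 0)) ?_ hK
  · filter_upwards [hall, hw] with a h h1 f
    obtain ⟨_, _, _, _, _, h2, _⟩ := h
    rw [h1]
    have := h2 _ f.finite_support
    rwa [div_eq_mul_inv] at this
  · filter_upwards [hN] with a h
    rwa [div_eq_mul_inv] at h
  · filter_upwards [hi, hw, hall] with a h h1 h4
    have h2 : Inv (Bg.dom (TT D a) .free (fun i => meshIndex a (x i))).w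
        (Sof (Bg.dom (TT D a) .free (fun i => meshIndex a (x i))).w) := by
      rw [h1]
      obtain ⟨S, hS, -⟩ := h4
      exact h.2 _ (Sof_spec ⟨S, hS⟩)
    exact ⟨_, h2, SfT_eq c h2 _⟩
  · filter_upwards [hΛ] with a h f hf
    have := h f hf
    rwa [div_eq_mul_inv] at this

/-- **`C²` domains**, both boundary conditions, any system `Q`, any volume in a box -/
theorem fin_C2Q (hP : SpinOut .plus 1) (hF : ∀ n, Even n → SpinOut .free n) {c : Cst} {κ : ℝ}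
    (hκ : 0 < κ) (hΓ : 1 ≤ c.Γ) {b : BoundaryCondition} {n : ℕ} (hb : Rel b n) {D : Set ℂ}
    (hD : IsC2JordanDomain D) {x : Fin n → ℂ} (hx : ∀ i, x i ∈ D) (hi : Function.Injective x)
    {N : ℝ → ℕ} (hN : ∀ᶠ a in 𝓝[>] (0 : ℝ), κ / a ≤ rr c.p c.k0 (N a))
    {A : ℝ → ℝ} (hA : Tendsto A (𝓝[>] 0) atTop) {Q : ℝ → Sys (ℤ × ℤ) (Fld ℤ)}
    {Λ : ℝ → Finset (ℤ × ℤ)} {Cv : ℝ} (hCv : 0 ≤ Cv)
    (hΛ : ∀ᶠ a in 𝓝[>] (0 : ℝ), ∀ f ∈ Λ a, (fd ((0, 0) : ℤ × ℤ) f : ℝ) ≤ Cv / a)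
    (hK : Tendsto (fun a => NK (Bg.dom (TT D a) b (fun i => meshIndex a (x i))).w (A a)
      (rr c.p c.k0 (N a)) (ENNReal.ofReal c.Γ) (fun _ => True)
      (fun U => ((Q a).K (N a) U : Gr (Fld ℤ)))) (𝓝[>] 0) (𝓝 0)) :
    Tendsto (fun a => Zf (Q a) (Λ a) (N a)
      (SfT c (Bg.dom (TT D a) b (fun i => meshIndex a (x i))).w (N a))) (𝓝[>] 0) (𝓝 1) := by
  rcases hb with rfl | ⟨rfl, hn⟩
  · obtain ⟨B, hB0, hB⟩ : ∃ B : ℝ, 0 < B ∧ ∀ z ∈ D, ‖z‖ ≤ B := by
      obtain ⟨B, hB⟩ := (bounded_of_C2 hD).exists_norm_le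
      exact ⟨max B 1, by positivity, fun z hz => (hB z hz).trans (le_max_left _ _)⟩
    refine fin_plusQ (κ := κ / B) (by positivity) hΓ (Dm := fun _ => D) (B := fun _ => B)
      (a := fun a => a) (Eventually.of_forall fun _ => hB) self_mem_nhdsWithin
      (tendsto_div_mesh hB0) (fun a i => meshIndex a (x i)) ?_ hA (Cv := Cv / B)
      (by positivity) ?_ hK
    · filter_upwards [hN] with a h
      have e : κ / B * (B / a) = κ / a := by field_simp
      rw [e]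
      exact h
    · filter_upwards [hΛ] with a h f hf
      have e : Cv / B * (B / a) = Cv / a := by field_simp
      rw [e]
      exact h f hf
  · exact fin_freeQ hκ hΓ hn hP (hF n hn) hD ⟨hx, hi⟩ hN hA hCv hΛ hK

/-- **`C²` domains**, both boundary conditions: the final factor of `domF` -/
theorem fin_C2 (hP : SpinOut .plus 1) (hF : ∀ n, Even n → SpinOut .free n) {c : Cst} {κ : ℝ}
    (hκ : 0 < κ) (hΓ : 1 ≤ c.Γ) {b : BoundaryCondition} {n : ℕ} (hb : Rel b n) {D : Set ℂ}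
    (hD : IsC2JordanDomain D) {B : ℝ} (hB : 0 ≤ B) {x : Fin n → ℂ} (hx : ∀ i, x i ∈ D)
    (hi : Function.Injective x) {N : ℝ → ℕ}
    (hN : ∀ᶠ a in 𝓝[>] (0 : ℝ), κ / a ≤ rr c.p c.k0 (N a))
    {A : ℝ → ℝ} (hA : Tendsto A (𝓝[>] 0) atTop) (P : MPar)
    (hK : Tendsto (fun a => NK (Bg.dom (TT D a) b (fun i => meshIndex a (x i))).w (A a)
      (rr c.p c.k0 (N a)) (ENNReal.ofReal c.Γ) (fun _ => True)
      (fun U => ((domF c P (TT D a) b (fun i => meshIndex a (x i))).K (N a) U : Gr (Fld ℤ))))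
      (𝓝[>] 0) (𝓝 0)) :
    Tendsto (fun a => Zf (domF c P (TT D a) b (fun i => meshIndex a (x i))) (volA B a P.R) (N a)
      (SfT c (Bg.dom (TT D a) b (fun i => meshIndex a (x i))).w (N a))) (𝓝[>] 0) (𝓝 1) := by
  refine fin_C2Q hP hF hκ hΓ hb hD hx hi hN hA (Cv := B + P.R + 2) (by positivity) ?_ hK
  have h1 : ∀ᶠ a in 𝓝[>] (0 : ℝ), a < 1 := by
    have : ∀ᶠ a in 𝓝 (0 : ℝ), a < 1 := gt_mem_nhds one_pos
    exact this.filter_mono nhdsWithin_le_nhds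
  filter_upwards [h1, self_mem_nhdsWithin] with a h2 h3 f hf
  exact volA_fd hB h3 h2.le hf

/-! ### the last scale and the amplitudes -/

/-- the last scale `lastK p k0 (δ / a)` -/
theorem lastK_lower {p k0 : ℕ} (hp : 1 ≤ p) {δ : ℝ} {N : ℝ → ℕ}
    (hN : ∀ᶠ a in 𝓝[>] (0 : ℝ), N a = Scalex900.lastK p k0 (δ / a)) :
    ∀ᶠ a in 𝓝[>] (0 : ℝ), δ / 2 ^ p / a ≤ rr p k0 (N a) := by
  filter_upwards [hN] with a h
  have h1 := rr_lower (k0 := k0) hp (δ := δ) (R := a⁻¹) (n := N a)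
    (by rw [h, div_eq_mul_inv])
  rwa [← div_eq_mul_inv] at h1

/-- the number of scales tends to infinity when the last scale does -/
theorem N_tendsto {α : Type*} {l : Filter α} {p k0 : ℕ} {R : α → ℝ} (hR : Tendsto R l atTop)
    {N : α → ℕ} (hN : ∀ᶠ i in l, R i ≤ rr p k0 (N i)) : Tendsto N l atTop := by
  rw [tendsto_atTop]
  intro m
  filter_upwards [hN, hR.eventually_gt_atTop (rr p k0 m : ℝ)] with i h1 h2
  by_contra hcon
  have h3 : N i ≤ m := by omega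
  have h4 : (rr p k0 (N i) : ℝ) ≤ rr p k0 m := by
    have h5 : rr p k0 (N i) ≤ rr p k0 m := by
      unfold rr
      exact Nat.pow_le_pow_right (by norm_num) (by gcongr)
    exact_mod_cast h5
  linarith

/-- the amplitudes `A₀ (1 + δ N)` tend to infinity -/
theorem amp_tendsto {α : Type*} {l : Filter α} {c : Cst} (h0 : 0 < c.A0) (hδ : 0 < c.δ)
    {N : α → ℕ} (hN : Tendsto N l atTop) : Tendsto (fun i => amp c (N i)) l atTop := by
  unfold amp
  have h1 : Tendsto (fun i => (N i : ℝ)) l atTop := tendsto_natCast_atTop_atTop.comp hN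
  exact (tendsto_atTop_add_const_left _ 1 (h1.const_mul_atTop hδ)).const_mul_atTop h0

end Crest.Agent.R165.Fin5x315
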