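import Crest.Agent.R165.PTop3_386
import Crest.Agent.R165.ZetaL_387

/-!
# Row 165 (S0250): the open leaves of the universality half (helper641)

`POpen` : the list; `pFlow : POpen → PFlow`
-/

set_option autoImplicit false

noncomputable section

open Crest.ProbabilityR.IsingModel

namespace Crest.Agent.R165.POpenx641

open Crest.Agent.R165.Topx683 Crest.Agent.R165.PEndx683 Crest.Agent.R165.PTopx386

/-- the leaves of the universality half which are still open -/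
structure POpen : Prop where
  /-- shooting (337, 541) -/
  p7 : ∀ J : ℝ, 0 < J → ∀ (R : ℕ) (V : Finset (ℤ × ℤ) → ℝ), VHyp R V → P7L J R V
  /-- spin data, domains (900, 432) -/
  spd : ∀ J : ℝ, 0 < J → ∀ (R : ℕ) (V : Finset (ℤ × ℤ) → ℝ), VHyp R V → SpDL J R V
  /-- spin data, discs (67, 892) -/
  spp : ∀ J : ℝ, 0 < J → ∀ (R : ℕ) (V : Finset (ℤ × ℤ) → ℝ), VHyp R V → SpPL J R V
  /-- energies (441, 991, 697) -/
  en : ∀ J : ℝ, 0 < J → ∀ (R : ℕ) (V : Finset (ℤ × ℤ) → ℝ), VHyp R V →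
    ∃ (Ze : Cst → ℝ → ℝ → ℝ → ℝ) (eb : Cst → ℝ → ℝ → ℝ → Fin 2 → ℝ), EnR J R V Ze eb
  /-- torus (599, 723) -/
  tor : ∀ J : ℝ, 0 < J → ∀ (R : ℕ) (V : Finset (ℤ × ℤ) → ℝ), VHyp R V → TorL2 J R V
  /-- discs, bond expectations (892, 723) -/
  dis : ∀ J : ℝ, 0 < J → ∀ (R : ℕ) (V : Finset (ℤ × ℤ) → ℝ), VHyp R V → DisL J R V

/-- **the universality half** from the open leaves -/
theorem pFlow (H : POpen) : SRx541.PFlow :=
  pflow_of_leaves3 ⟨H.p7, fun J _ R V _ => FlNx387.zetaL J R V, H.spd, H.spp, H.en, H.tor, H.dis⟩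

end Crest.Agent.R165.POpenx641
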