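import Crest.Agent.R165.GeoScA_485
import Crest.Agent.R165.DiscGeo_420
import Crest.Agent.R165.JRunS2_408
import Crest.Agent.R165.JVol_950

/-!
# Row 165 (S0250): the charts at the bond sources (helper485)

* `SrcCh T X e ρ` : the source faces are in `T`, at distance `> ρ` of the boundary sites, of the
  insertions `X` and of each other
* `SrcCh.corners`, `SrcCh.iso` : near a source the background is plane (identity chart); `SrcCh.emb`
* `srcCh_dom`, `srcCh_disc` : `C²` domains (all `k ≤ KK`), large discs (all `k ≤ k1`), scale `C₁ rr k`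
-/

set_option autoImplicit false
set_option linter.unusedSectionVars false

noncomputable section

open Filter Topology
open Crest.ProbabilityR.IsingModel
open Crest.Agent.R165.Geo (LatReg bdS)
open Crest.Agent.R165.Latx683 (BW wDom wX wPl)
open Crest.Agent.R165.GDefx387
open Crest.Agent.R165.GSysx387 (rr rr_succ rr_pos rr_mono)
open Crest.Agent.R165.BgIsox432
open Crest.Agent.R165.J4Geox126 (faE)
open Crest.Agent.R165.JRunSx408 (eb xb)
open Crest.Agent.R165.GeoScx420 (KK rr_le_of_le_KK ev_pow_le)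
open Crest.Agent.R165.DiscKx892 (k1 rr_le_k1)

namespace Crest.Agent.R165.SrcChx485

/-- bonds of `ℤ²` -/
abbrev EZ : Type := (ℤ × ℤ) × Fin 2

theorem fst_mem_faE (e : EZ) : e.1 ∈ faE e := J4K0x126.Bk.fst_mem_faE e

theorem fd_faE {e : EZ} {f : ℤ × ℤ} (hf : f ∈ faE e) : fd e.1 f ≤ 1 :=
  JVolx950.faE_diam e _ (fst_mem_faE e) f hf

/-- **the sources are far from everything** -/
structure SrcCh (T : Set (ℤ × ℤ)) {n m : ℕ} (X : Fin n → ℤ × ℤ) (e : Fin m → EZ) (ρ : ℕ) :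
    Prop where
  mem : ∀ i, (e i).1 ∈ T
  bd : ∀ i, ∀ z ∈ bdS T, ρ < fd (e i).1 z
  sp : ∀ i j, ρ < fd (e i).1 (X j)
  sep : ∀ i j, i ≠ j → ρ < fd (e i).1 (e j).1

variable {T : Set (ℤ × ℤ)} {n m : ℕ} {X : Fin n → ℤ × ℤ} {e : Fin m → EZ} {ρ : ℕ}

theorem SrcCh.mono {ρ' : ℕ} (h : SrcCh T X e ρ) (hρ : ρ' ≤ ρ) : SrcCh T X e ρ' :=
  ⟨h.mem, fun i z hz => hρ.trans_lt (h.bd i z hz), fun i j => hρ.trans_lt (h.sp i j),
    fun i j hij => hρ.trans_lt (h.sep i j hij)⟩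

/-- without insertions -/
theorem SrcCh.noIns (h : SrcCh T X e ρ) (X' : Fin 0 → ℤ × ℤ) : SrcCh T X' e ρ :=
  ⟨h.mem, h.bd, fun _ j => j.elim0, h.sep⟩

/-- one source -/
theorem SrcCh.one (h : SrcCh T X e ρ) (i : Fin m) : SrcCh T X (fun _ : Fin 1 => e i) ρ :=
  ⟨fun _ => h.mem i, fun _ => h.bd i, fun _ => h.sp i, fun a b hab => absurd (Subsingleton.elim a b) hab⟩

/-- near a source all corners are in `T` -/
theorem SrcCh.corners (h : SrcCh T X e ρ) (i : Fin m) {R : ℕ} (hR : R + 1 ≤ ρ) :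
    ∀ f ∈ ball (e i).1 R, cornersIn T f :=
  GeoScx420.corners_of_no_bd (h.mem i) (q := 0) (by rw [fd_self]) fun z hz => by
    have := h.bd i z hz
    omega

/-- **near a source the background is plane** (identity chart) -/
def SrcCh.iso (h : SrcCh T X e ρ) (b : Bool) (i : Fin m) {R : ℕ} (hR : R + 1 ≤ ρ) :
    BgIso (wX (wDom T b) X) (wPl ℤ) (ball (e i).1 R) :=
  GeoScx420.isoBulk (h.mem i) (q := 0) (by rw [fd_self]) (fun z hz => by
    have := h.bd i z hz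
    omega) (fun j => by
    have := h.sp i j
    omega) b

@[simp] theorem SrcCh.iso_τ (h : SrcCh T X e ρ) (b : Bool) (i : Fin m) {R : ℕ} (hR : R + 1 ≤ ρ)
    (f : ℤ × ℤ) : (h.iso b i hR).τ f = f := rfl

/-- the source faces are plane-like -/
theorem SrcCh.emb (h : SrcCh T X e ρ) (b : Bool) (i : Fin m) {r : ℕ} (hr : s2 * r + 2 ≤ ρ)
    {f : ℤ × ℤ} (hf : f ∈ faE (e i)) : Emb (wX (wDom T b) X) r {f} := by
  refine ⟨DefRecx915.plMono ((h.iso b i (R := s2 * r + 1) (by omega)).toPlane) ?_⟩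
  rintro g ⟨u, hu, hg⟩
  rw [Finset.mem_singleton] at hu
  subst hu
  rw [mem_ball]
  have h1 := fd_triangle (e i).1 u g
  have h2 := fd_faE hf
  omega

/-- faces of different sources are far from each other -/
theorem SrcCh.faces (h : SrcCh T X e ρ) {i j : Fin m} (hij : i ≠ j) {f g : ℤ × ℤ}
    (hf : f ∈ faE (e i)) (hg : g ∈ faE (e j)) : ρ < fd f g + 2 := by
  have h1 := h.sep i j hij
  have h2 := fd_faE hf
  have h3 := fd_faE hg
  have h4 := fd_triangle (e i).1 f (e j).1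
  have h5 := fd_triangle f g (e j).1
  rw [fd_comm g (e j).1] at h5
  omega

/-- the sources are injective -/
theorem SrcCh.inj (h : SrcCh T X e ρ) : Function.Injective fun i => (e i).1 := by
  intro i j hij
  by_contra hne
  have h1 := h.sep i j hne
  have h2 : (e i).1 = (e j).1 := hij
  rw [h2, fd_self] at h1
  omega

/-- from the configurations of helper420 -/
theorem srcCh_of_cfg {Y : Fin m → ℤ × ℤ} (h : GeoScx420.Cfg T X Y ρ) (he : ∀ i, (e i).1 = Y i) :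
    SrcCh T X e ρ where
  mem i := by rw [he]; exact h.YT i
  bd i z hz := by rw [he]; exact h.Yb i z hz
  sp i j := by rw [he, fd_comm]; exact h.XY j i
  sep i j hij := by rw [he, he]; exact h.YY i j hij

/-- the plane -/
theorem srcCh_plane (hs : ∀ i j, i ≠ j → ρ < fd (e i).1 (e j).1)
    (hX : ∀ i j, ρ < fd (e i).1 (X j)) : SrcCh Set.univ X e ρ where
  mem _ := Set.mem_univ _
  bd i z hz := by rw [GeoScx420.bdS_univ] at hz; exact absurd hz (Set.notMem_empty z)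
  sp := hX
  sep := hs

/-! ### domains -/

theorem mul_rr_le {C1 r : ℕ} {δ c a : ℝ} (ha : 0 < a) (hc : 0 < c) (hδ : δ ≤ c / (C1 + 1))
    (h : (r : ℝ) ≤ δ / a) : C1 * r ≤ ⌊c / a⌋₊ := by
  refine Nat.le_floor ?_
  push_cast
  have hC : (0 : ℝ) ≤ C1 := Nat.cast_nonneg _
  calc (C1 : ℝ) * r ≤ C1 * (δ / a) := mul_le_mul_of_nonneg_left h hC
    _ ≤ C1 * (c / (C1 + 1) / a) := by gcongr
    _ = (C1 / (C1 + 1)) * (c / a) := by ring
    _ ≤ 1 * (c / a) := by
        refine mul_le_mul_of_nonneg_right ?_ (by positivity)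
        rw [div_le_one (by positivity)]; linarith
    _ = c / a := one_mul _

/-- **`C²` domains**: all scales `k ≤ KK l k0 δ a` -/
theorem srcCh_dom {D : Set ℂ} (hD : IsC2JordanDomain D) {n m : ℕ} {x : Fin n → ℂ} {y : Fin m → ℂ}
    (hx : ∀ i, x i ∈ D) (hy : ∀ i, y i ∈ D) (hinj : Function.Injective (Fin.append x y))
    (j : Fin m → Fin 2) (C1 : ℕ) :
    ∃ δ1 > 0, ∀ δ, 0 < δ → δ ≤ δ1 → ∀ l k0 : ℕ, ∀ᶠ a : ℝ in 𝓝[>] 0, ∀ k ≤ KK l k0 δ a,
      SrcCh (domainSites D a) (xb a x) (eb a y j) (C1 * rr l k0 k) := by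
  rcases Nat.eq_zero_or_pos m with rfl | hm
  · exact ⟨1, one_pos, fun δ _ _ l k0 => Eventually.of_forall fun a k _ =>
      ⟨fun i => i.elim0, fun i => i.elim0, fun i => i.elim0, fun i => i.elim0⟩⟩
  · have hne : D.Nonempty := ⟨_, hy ⟨0, hm⟩⟩
    obtain ⟨r, M, h⟩ := GeoCx65.exists_CD hD hne
    obtain ⟨c, hc, H⟩ := GeoScx420.cfg_dom h hx hy hinj
    refine ⟨c / (C1 + 1), by positivity, fun δ hδ hδ1 l k0 => ?_⟩
    filter_upwards [H, ev_pow_le ((2 : ℝ) ^ (l * k0)) hδ, self_mem_nhdsWithin] with a hH h0 ha0 k hk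
    have ha : (0 : ℝ) < a := ha0
    exact (srcCh_of_cfg (e := eb a y j) hH fun i => rfl).mono
      (mul_rr_le ha hc hδ1 (rr_le_of_le_KK h0 hk))

/-- **large discs, fine phase**: all scales `k ≤ k1 p k0 u a` -/
theorem srcCh_disc {n m : ℕ} {x : Fin n → ℂ} {y : Fin m → ℂ}
    (hinj : Function.Injective (Fin.append x y)) (j : Fin m → Fin 2) (C1 : ℕ) :
    ∃ u1 > 0, ∀ u, 0 < u → u ≤ u1 → ∀ p k0 : ℕ, ∀ᶠ a : ℝ in 𝓝[>] 0, ∀ᶠ B : ℝ in atTop,
      ∀ k ≤ k1 p k0 u a,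
      SrcCh (domainSites (Metric.ball (0 : ℂ) B) a) (xb a x) (eb a y j) (C1 * rr p k0 k) := by
  obtain ⟨c, a0, B0, hc, ha0, hB0, H⟩ := GeoScx420.cfg_disc hinj
  refine ⟨c / (C1 + 1), by positivity, fun u hu hu1 p k0 => ?_⟩
  have hsm : ∀ᶠ a : ℝ in 𝓝[>] 0, a ≤ a0 :=
    mem_of_superset (Ioc_mem_nhdsGT ha0) fun a ha => ha.2
  filter_upwards [hsm, ev_pow_le ((2 : ℝ) ^ (p * k0)) hu, self_mem_nhdsWithin] with a h1 h0 ha
  filter_upwards [eventually_ge_atTop B0] with B hB k hk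
  exact (srcCh_of_cfg (e := eb a y j) (H a B ha h1 hB) fun i => rfl).mono
    (mul_rr_le ha hc hu1 (rr_le_k1 h0 hk))

/-- the same along the filter `dl` -/
theorem srcCh_dl {n m : ℕ} {x : Fin n → ℂ} {y : Fin m → ℂ}
    (hinj : Function.Injective (Fin.append x y)) (j : Fin m → Fin 2) (C1 : ℕ) :
    ∃ u1 > 0, ∀ u, 0 < u → u ≤ u1 → ∀ p k0 : ℕ, ∀ᶠ P in DiscKx892.dl, ∀ k ≤ k1 p k0 u P.1,
      SrcCh (domainSites (Metric.ball (0 : ℂ) P.2) P.1) (xb P.1 x) (eb P.1 y j) (C1 * rr p k0 k) := by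
  obtain ⟨u1, hu1, H⟩ := srcCh_disc hinj j C1
  exact ⟨u1, hu1, fun u hu huu p k0 => eventually_curry_iff.2 (H u hu huu p k0)⟩

end Crest.Agent.R165.SrcChx485
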