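import Crest.Agent.R165.BkFin_806
import Crest.Agent.R165.Pl0b_654
import Crest.Agent.R165.SrcIns_991
import Crest.Agent.R165.SpE_583
import Crest.Agent.R165.Out_683
import Crest.Agent.R165.GRange_439

/-!
# Row 165 (S0250), (Q2a) of 697: the sum of all slices of the critical plane (helper898)

* `sl D j g h`      : the kernel of the slice `j` on the plane
* `abs_sl_le`       : `|sl j g h| ≤ c1² / 2^j`;  `sl_range` : `sl j g h = 0` when `2^j < fd g h`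
* `hasSum_sl`       : `∑_j sl j g h = Spl g h` (the plane kernel of 583/654)
* `hasSum_slC`      : the same for the blocks `slC D (wPl ℤ) l k0 k`, with the rate
* `hasSum_plane`    : `∑_k EEG (slC ..) (beB (wPl ℤ) (z, j)) = e0 - 1`
-/

set_option autoImplicit false

noncomputable section

namespace Crest.Agent.R165.PlBondx898

open scoped ENNReal
open Filter Topology Polynomial
open Crest.Agent.R165.Gr0x606 Crest.Agent.R165.Latx683 Crest.Agent.R165.PNormx417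
  Crest.Agent.R165.GDefx387 Crest.Agent.R165.FRDAbsx439 Crest.Agent.R165.FRDPolyx439
  Crest.Agent.R165.FRDInfx439 Crest.Agent.R165.FRDLatx439 Crest.Agent.R165.GSysx387
open Crest.Agent.R165.Pl0bx654 (dec dec_pos)

theorem wPl_le1 (z : ℤ × ℤ) (j : Fin 2) : |wPl ℤ z j| ≤ 1 := by
  show |xc| ≤ 1
  rw [abs_of_pos Pl0x654.xc_pos]
  exact Tr1x40.xc_lt_one.le

variable {M K : ℕ} (D : FRD 16 M K)

/-! ### pointwise bound of the slices -/

theorem pair_dl (h : HE ℤ) (f : HE ℤ → ℝ) : pair (Finsupp.single h 1 : Fld ℤ) f = f h := by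
  unfold pair
  rw [Finsupp.sum_single_index (by simp), one_mul]

theorem sup1_single (h : HE ℤ) {r : ℕ} (hr : 1 ≤ r) :
    sup1 (wPl ℤ) r h.1 (Finsupp.single h 1) ≤ ENNReal.ofReal (16 * 10 ^ 9 / (r : ℝ)) := by
  refine iSup_le fun f => ENNReal.ofReal_le_ofReal ?_
  rw [pair_dl]
  exact (BkFinx806.SB_of h.1 r hr f.1 f.2).f0 h (mem_ball.2 (by simp))

/-- constant of the pointwise bound -/
def c1 : ℝ := 7 * √(D.C * 2) * (16 * 10 ^ 9)

theorem c1_nonneg : 0 ≤ c1 D := by unfold c1; positivity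

theorem sqrt_gB_le (hM : MM + 1 ≤ M) (j : ℕ) (h : HE ℤ) :
    √(gB D (wPl ℤ) j (j + 1) (Finsupp.single h 1) (Finsupp.single h 1)) ≤
      c1 D / √((2 : ℝ) ^ j) := by
  have hC := D.C_pos
  have h1 := gw_le_wt D hM (wPl ℤ) (AopF_bdd _ wPl_le1) j (j + 1) (2 ^ j) 2 le_rfl
    (by push_cast; rw [pow_succ]; linarith) one_pos h.1 (Finsupp.single h 1)
  rw [gw, wt_eq] at h1
  have h2 := sup1_single h (r := 2 ^ j) Nat.one_le_two_pow
  have h3 := h1.trans (mul_le_mul_right (mul_le_mul_right h2 _) _)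
  rw [← ENNReal.ofReal_mul (by positivity), ← ENNReal.ofReal_mul (by positivity)] at h3
  have h4 := (ENNReal.ofReal_le_ofReal_iff (by positivity)).1 h3
  refine h4.trans (le_of_eq ?_)
  unfold c1
  push_cast
  have h5 : (2 : ℝ) ^ j = √((2 : ℝ) ^ j) * √((2 : ℝ) ^ j) := (Real.mul_self_sqrt (by positivity)).symm
  have h6 : √((2 : ℝ) ^ j) ≠ 0 := (Real.sqrt_pos.2 (by positivity)).ne'
  have h7 : 1 * √((2 : ℝ) ^ j) * (16 * 10 ^ 9 / (2 : ℝ) ^ j) = 16 * 10 ^ 9 / √((2 : ℝ) ^ j) := by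
    conv_lhs => rw [h5]
    rw [Real.sqrt_mul_self (Real.sqrt_nonneg _)]
    field_simp
  rw [h7]
  ring

/-- the kernel of the slice `j` -/
def sl (j : ℕ) (g h : HE ℤ) : ℝ :=
  (slice D (AopF_asy (wPl ℤ)) j).b (Finsupp.single g 1) (Finsupp.single h 1)

theorem gB_one (j : ℕ) : gB D (wPl ℤ) j (j + 1) = gform (preF (HE ℤ)) D (AopF (wPl ℤ)) j := by
  unfold gB
  rw [Nat.Ico_succ_singleton, Finset.sum_singleton]

theorem abs_sl_le (hM : MM + 1 ≤ M) (j : ℕ) (g h : HE ℤ) : |sl D j g h| ≤ c1 D ^ 2 / 2 ^ j := by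
  have h1 := slice_le D (AopF_asy (wPl ℤ)) (AopF_bdd _ wPl_le1) j (Finsupp.single g 1)
    (Finsupp.single h 1)
  have hg := sqrt_gB_le D hM j g
  have hh := sqrt_gB_le D hM j h
  rw [gB_one] at hg hh
  refine h1.trans ((mul_le_mul hg hh (Real.sqrt_nonneg _) (div_nonneg (c1_nonneg D)
    (Real.sqrt_nonneg _))).trans (le_of_eq ?_))
  rw [div_mul_div_comm, Real.mul_self_sqrt (by positivity), sq]

theorem sl_skew (j : ℕ) (g h : HE ℤ) : sl D j g h = -sl D j h g := by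
  unfold sl
  rw [Cov.skew]

theorem SopC_eq_sum (a b : ℕ) (g h : HE ℤ) :
    (SopC D (wPl ℤ) a b).b (Finsupp.single g 1) (Finsupp.single h 1) =
      ∑ j ∈ Finset.Ico a b, sl D j g h := by
  unfold SopC sl
  rw [cov_sum_b]

theorem sl_eq_SopC (j : ℕ) (g h : HE ℤ) : sl D j g h =
    (SopC D (wPl ℤ) j (j + 1)).b (Finsupp.single g 1) (Finsupp.single h 1) := by
  rw [SopC_eq_sum, Nat.Ico_succ_singleton, Finset.sum_singleton]

theorem sl_range (hK : 0 < K) (j : ℕ) {g h : HE ℤ} (hd : 2 ^ j < fd g.1 h.1) : sl D j g h = 0 := by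
  rw [sl_eq_SopC]
  refine GRangex439.SopC_eq_zero D hK (wPl ℤ) _ _ fun x y hx hy => ?_
  have ex : x = g := by
    by_contra hne
    exact hx (Finsupp.single_eq_of_ne hne)
  have ey : y = h := by
    by_contra hne
    exact hy (Finsupp.single_eq_of_ne hne)
  subst ex ey
  have : 2 ^ (j + 1 - 1) / K ≤ 2 ^ j := by
    rw [Nat.add_sub_cancel]
    exact Nat.div_le_self _ _
  omega

/-! ### the sum of the slices -/

theorem hasSum_geo (c : ℝ) (J : ℕ) : HasSum (fun j : ℕ => c / 2 ^ (j + J)) (2 * c / 2 ^ J) := by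
  have h := hasSum_geometric_two' (2 * c / 2 ^ J)
  refine h.congr_fun ?_ |> fun h => h
  intro j
  rw [pow_add]
  field_simp

theorem summable_sl (hM : MM + 1 ≤ M) (g h : HE ℤ) : Summable fun j => sl D j g h := by
  refine Summable.of_norm_bounded (g := fun j : ℕ => c1 D ^ 2 / 2 ^ (j + 0))
    (hasSum_geo _ 0).summable fun j => ?_
  rw [Real.norm_eq_abs, add_zero]
  exact abs_sl_le D hM j g h

/-- the sum of all slices -/
def SI (g h : HE ℤ) : ℝ := ∑' j, sl D j g h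

theorem SI_tail (hM : MM + 1 ≤ M) (J : ℕ) (g h : HE ℤ) :
    |SI D g h - ∑ j ∈ Finset.range J, sl D j g h| ≤ 2 * c1 D ^ 2 / 2 ^ J := by
  have h1 := (summable_sl D hM g h).sum_add_tsum_nat_add J
  have h2 : SI D g h - ∑ j ∈ Finset.range J, sl D j g h = ∑' j, sl D (j + J) g h := by
    unfold SI
    linarith
  rw [h2, ← Real.norm_eq_abs]
  refine tsum_of_norm_bounded (hasSum_geo (c1 D ^ 2) J) fun j => ?_
  rw [Real.norm_eq_abs]
  exact abs_sl_le D hM _ g h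

theorem SI_skew (g h : HE ℤ) : SI D g h = -SI D h g := by
  unfold SI
  rw [← tsum_neg]
  exact tsum_congr fun j => sl_skew D j g h

theorem tendsto_SI (hM : MM + 1 ≤ M) (g h : HE ℤ) :
    Tendsto (fun J => ∑ j ∈ Finset.range J, sl D j g h) atTop (𝓝 (SI D g h)) :=
  (summable_sl D hM g h).hasSum.tendsto_sum_nat

theorem SI_bound (hM : MM + 1 ≤ M) (hK : 0 < K) (g h : HE ℤ) :
    |SI D g h| ≤ 4 * c1 D ^ 2 / (1 + fd g.1 h.1) := by
  have hc := sq_nonneg (c1 D)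
  rcases Nat.eq_zero_or_pos (fd g.1 h.1) with h0 | h0
  · have h1 := SI_tail D hM 0 g h
    rw [h0]
    simp only [Finset.range_zero, Finset.sum_empty, sub_zero, pow_zero, div_one] at h1
    simp only [Nat.cast_zero, add_zero, div_one]
    linarith
  · set d := fd g.1 h.1 with hd
    have h1 := SI_tail D hM (Nat.clog 2 d) g h
    have h2 : ∑ j ∈ Finset.range (Nat.clog 2 d), sl D j g h = 0 := by
      refine Finset.sum_eq_zero fun j hj => sl_range D hK j ?_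
      rw [Finset.mem_range] at hj
      exact (Nat.lt_clog_iff_pow_lt (by norm_num)).1 hj
    have h3 : d ≤ 2 ^ Nat.clog 2 d := Nat.le_pow_clog (by norm_num) _
    rw [h2, sub_zero] at h1
    refine h1.trans ?_
    have h4 : (1 + d : ℝ) ≤ 2 * 2 ^ Nat.clog 2 d := by
      have : (d : ℝ) ≤ 2 ^ Nat.clog 2 d := by exact_mod_cast h3
      have : (1 : ℝ) ≤ 2 ^ Nat.clog 2 d := one_le_pow₀ (by norm_num)
      linarith
    rw [div_le_div_iff₀ (by positivity) (by positivity)]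
    nlinarith

theorem dec_fd (g h : HE ℤ) : 1 / (1 + (fd g.1 h.1 : ℝ)) ≤
    (2 * (1 + |(h.1.1 : ℝ)| + |(h.1.2 : ℝ)|)) * dec g := by
  unfold dec
  have hf : (fd g.1 h.1 : ℝ) = max |((g.1.1 : ℝ) - h.1.1)| |((g.1.2 : ℝ) - h.1.2)| := by
    have e : fd g.1 h.1 = max (g.1.1 - h.1.1).natAbs (g.1.2 - h.1.2).natAbs := rfl
    rw [e]
    push_cast [Nat.cast_natAbs]
    rfl
  rw [mul_one_div, div_le_div_iff₀ (by positivity) (by positivity), one_mul, hf]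
  have h1 : |(g.1.1 : ℝ)| ≤ |((g.1.1 : ℝ) - h.1.1)| + |(h.1.1 : ℝ)| := by
    have := abs_add_le ((g.1.1 : ℝ) - h.1.1) (h.1.1 : ℝ)
    rwa [sub_add_cancel] at this
  have h2 : |(g.1.2 : ℝ)| ≤ |((g.1.2 : ℝ) - h.1.2)| + |(h.1.2 : ℝ)| := by
    have := abs_add_le ((g.1.2 : ℝ) - h.1.2) (h.1.2 : ℝ)
    rwa [sub_add_cancel] at this
  have m1 := le_max_left |((g.1.1 : ℝ) - h.1.1)| |((g.1.2 : ℝ) - h.1.2)|
  have m2 := le_max_right |((g.1.1 : ℝ) - h.1.1)| |((g.1.2 : ℝ) - h.1.2)|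
  have a1 := abs_nonneg ((g.1.1 : ℝ) - h.1.1)
  have a3 := abs_nonneg (h.1.1 : ℝ)
  have a4 := abs_nonneg (h.1.2 : ℝ)
  set m := max |((g.1.1 : ℝ) - h.1.1)| |((g.1.2 : ℝ) - h.1.2)|
  have hm : 0 ≤ m := a1.trans m1
  nlinarith [mul_nonneg a3 hm, mul_nonneg a4 hm]

theorem SI_dec (hM : MM + 1 ≤ M) (hK : 0 < K) (h : HE ℤ) :
    (fun g => SI D g h) ∈ Pl0bx654.DecF := by
  refine ⟨4 * c1 D ^ 2 * (2 * (1 + |(h.1.1 : ℝ)| + |(h.1.2 : ℝ)|)), fun g => ?_⟩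
  refine (SI_bound D hM hK g h).trans ?_
  have h1 := dec_fd g h
  have h2 : 4 * c1 D ^ 2 / (1 + (fd g.1 h.1 : ℝ)) = 4 * c1 D ^ 2 * (1 / (1 + (fd g.1 h.1 : ℝ))) := by
    ring
  have h3 : (0 : ℝ) ≤ 4 * c1 D ^ 2 := mul_nonneg (by norm_num) (sq_nonneg _)
  rw [h2]
  refine (mul_le_mul_of_nonneg_left h1 h3).trans (le_of_eq ?_)
  rw [← mul_assoc]

/-! ### `A` on decaying functions and pointwise limits -/

theorem tendsto_Aop {ι : Type*} {F : Filter ι} (w : BW ℤ) {φ : ι → HE ℤ → ℝ} {ψ : HE ℤ → ℝ}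
    (h : ∀ g, Tendsto (fun i => φ i g) F (𝓝 (ψ g))) (g : HE ℤ) :
    Tendsto (fun i => Aop w (φ i) g) F (𝓝 (Aop w ψ g)) := by
  obtain ⟨f, d⟩ := g
  fin_cases d
  · exact (((h (f, 1)).add (h (f, 2))).add (h (f, 3))).add ((h ((f.1, f.2 - 1), 2)).const_mul _)
  · exact (((h (f, 0)).neg.add (h (f, 2))).add (h (f, 3))).add ((h ((f.1 + 1, f.2), 3)).const_mul _)
  · exact (((h (f, 0)).neg.sub (h (f, 1))).add (h (f, 3))).sub ((h ((f.1, f.2 + 1), 0)).const_mul _)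
  · exact (((h (f, 0)).neg.sub (h (f, 1))).sub (h (f, 2))).sub ((h ((f.1 - 1, f.2), 1)).const_mul _)

theorem dec_nb {f f' : ℤ × ℤ} (h : fd f f' ≤ 1) (d d' : Fin 4) : dec (f', d') ≤ 3 * dec (f, d) := by
  unfold dec
  have e : fd f f' = max (f.1 - f'.1).natAbs (f.2 - f'.2).natAbs := rfl
  rw [e, max_le_iff] at h
  have h1 : |f.1 - f'.1| ≤ 1 := by rw [Int.abs_eq_natAbs]; exact_mod_cast h.1
  have h2 : |f.2 - f'.2| ≤ 1 := by rw [Int.abs_eq_natAbs]; exact_mod_cast h.2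
  have h3 : |(f.1 : ℝ) - f'.1| ≤ 1 := by exact_mod_cast h1
  have h4 : |(f.2 : ℝ) - f'.2| ≤ 1 := by exact_mod_cast h2
  have h5 : |(f.1 : ℝ)| ≤ |(f.1 : ℝ) - f'.1| + |(f'.1 : ℝ)| := by
    have := abs_add_le ((f.1 : ℝ) - f'.1) (f'.1 : ℝ)
    rwa [sub_add_cancel] at this
  have h6 : |(f.2 : ℝ)| ≤ |(f.2 : ℝ) - f'.2| + |(f'.2 : ℝ)| := by
    have := abs_add_le ((f.2 : ℝ) - f'.2) (f'.2 : ℝ)
    rwa [sub_add_cancel] at this
  have a1 := abs_nonneg (f'.1 : ℝ)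
  have a2 := abs_nonneg (f'.2 : ℝ)
  show 1 / (1 + |(f'.1 : ℝ)| + |(f'.2 : ℝ)|) ≤ 3 * (1 / (1 + |(f.1 : ℝ)| + |(f.2 : ℝ)|))
  rw [mul_one_div, div_le_div_iff₀ (by positivity) (by positivity)]
  linarith

theorem Aop_dec {w : BW ℤ} (hw : ∀ z j, |w z j| ≤ 1) {φ : HE ℤ → ℝ} (h : φ ∈ Pl0bx654.DecF) :
    Aop w φ ∈ Pl0bx654.DecF := by
  obtain ⟨C, hC⟩ := h
  have hC0 : 0 ≤ C := by
    have h1 := (abs_nonneg _).trans (hC ((0, 0), 0))
    have h2 := dec_pos ((0, 0), 0)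
    by_contra hneg
    push Not at hneg
    nlinarith
  have key : ∀ (f f' : ℤ × ℤ) (d d' : Fin 4), fd f f' ≤ 1 → |φ (f', d')| ≤ 3 * C * dec (f, d) := by
    intro f f' d d' hf
    refine (hC _).trans ?_
    have := mul_le_mul_of_nonneg_left (dec_nb hf d d') hC0
    linarith
  have hself : ∀ f : ℤ × ℤ, fd f f ≤ 1 := fun f => by simp
  have four : ∀ a b c y e x : ℝ, |a| ≤ x → |b| ≤ x → |c| ≤ x → |y| ≤ 1 → |e| ≤ x →
      |a + b + c + y * e| ≤ 4 * x := by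
    intro a b c y e x ha hb hc hy he
    have h1 : |y * e| ≤ x := by
      rw [abs_mul]
      have := abs_nonneg e
      nlinarith [abs_nonneg y]
    calc |a + b + c + y * e| ≤ |a + b + c| + |y * e| := abs_add_le _ _
      _ ≤ |a + b| + |c| + |y * e| := by gcongr; exact abs_add_le _ _
      _ ≤ |a| + |b| + |c| + |y * e| := by gcongr; exact abs_add_le _ _
      _ ≤ 4 * x := by linarith
  have n1 : ∀ f : ℤ × ℤ, fd f (f.1, f.2 - 1) ≤ 1 := fun f =>
    GRangex439.fd_nb5 (by simp [nb5])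
  have n2 : ∀ f : ℤ × ℤ, fd f (f.1 + 1, f.2) ≤ 1 := fun f =>
    GRangex439.fd_nb5 (by simp [nb5])
  have n3 : ∀ f : ℤ × ℤ, fd f (f.1, f.2 + 1) ≤ 1 := fun f =>
    GRangex439.fd_nb5 (by simp [nb5])
  have n4 : ∀ f : ℤ × ℤ, fd f (f.1 - 1, f.2) ≤ 1 := fun f =>
    GRangex439.fd_nb5 (by simp [nb5])
  refine ⟨4 * (3 * C), fun g => ?_⟩
  obtain ⟨f, d⟩ := g
  rw [mul_assoc]
  fin_cases d
  · exact four _ _ _ _ _ _ (key f f 0 1 (hself f)) (key f f 0 2 (hself f)) (key f f 0 3 (hself f))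
      (hw _ _) (key f _ 0 2 (n1 f))
  · refine four _ _ _ _ _ _ ?_ (key f f 1 2 (hself f)) (key f f 1 3 (hself f))
      (hw _ _) (key f _ 1 3 (n2 f))
    rw [abs_neg]
    exact key f f 1 0 (hself f)
  · have h1 : Aop w φ (f, 2) = -φ (f, 0) + -φ (f, 1) + φ (f, 3) +
        yN w f * -φ ((f.1, f.2 + 1), 0) := by rw [Aop_N]; ring
    show |Aop w φ (f, 2)| ≤ _
    rw [h1]
    refine four _ _ _ _ _ _ ?_ ?_ (key f f 2 3 (hself f)) (hw _ _) ?_
    · rw [abs_neg]; exact key f f 2 0 (hself f)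
    · rw [abs_neg]; exact key f f 2 1 (hself f)
    · rw [abs_neg]; exact key f _ 2 0 (n3 f)
  · have h1 : Aop w φ (f, 3) = -φ (f, 0) + -φ (f, 1) + -φ (f, 2) +
        yE w (f.1 - 1, f.2) * -φ ((f.1 - 1, f.2), 1) := by rw [Aop_W]; ring
    show |Aop w φ (f, 3)| ≤ _
    rw [h1]
    refine four _ _ _ _ _ _ ?_ ?_ ?_ (hw _ _) ?_
    · rw [abs_neg]; exact key f f 3 0 (hself f)
    · rw [abs_neg]; exact key f f 3 1 (hself f)
    · rw [abs_neg]; exact key f f 3 2 (hself f)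
    · rw [abs_neg]; exact key f _ 3 1 (n4 f)

/-! ### the equation of the sum of the slices -/

/-- `A S_J = r_J(Q) - 1` -/
theorem Aop_Sop (w : BW ℤ) (J : ℕ) :
    (Aop w : Module.End ℝ (HE ℤ → ℝ)) * Sop w D 0 J = aeval (Qop w) (D.r J) - 1 := by
  have h1 : Sop w D 0 J = (Aop w : Module.End ℝ (HE ℤ → ℝ)) *
      aeval (Qop w) (∑ j ∈ Finset.range J, D.w j) := by
    unfold Sop slop
    rw [map_sum, Finset.mul_sum, Finset.range_eq_Ico]
  have h2 : aeval (Qop w) (X * ∑ j ∈ Finset.range J, D.w j) = 1 - aeval (Qop w) (D.r J) := by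
    rw [D.X_mul_sum, map_sub, map_one]
  rw [map_mul, aeval_X] at h2
  rw [h1, ← mul_assoc]
  have h3 : (Aop w : Module.End ℝ (HE ℤ → ℝ)) * Aop w = -Qop w := by
    unfold Qop
    rw [neg_neg]
  have h4 : -Qop w * aeval (Qop w) (∑ j ∈ Finset.range J, D.w j) =
      -(Qop w * aeval (Qop w) (∑ j ∈ Finset.range J, D.w j)) := LinearMap.ext fun _ => rfl
  rw [h3, h4, h2, neg_sub]

theorem sum_sl_eq (J : ℕ) (g h : HE ℤ) : ∑ j ∈ Finset.range J, sl D j g h =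
    Sop (wPl ℤ) D 0 J ((Finsupp.single h 1 : Fld ℤ) : HE ℤ → ℝ) g := by
  rw [Finset.range_eq_Ico, ← SopC_eq_sum, SopC_apply, pair_dl]

/-- the kernel of the remainder -/
def rj (J : ℕ) (g h : HE ℤ) : ℝ :=
  aeval (Qop (wPl ℤ)) (D.r J) ((Finsupp.single h 1 : Fld ℤ) : HE ℤ → ℝ) g

theorem Aop_sum_sl (J : ℕ) (g h : HE ℤ) :
    Aop (wPl ℤ) (fun g => ∑ j ∈ Finset.range J, sl D j g h) g =
      rj D J g h - (Finsupp.single h 1 : Fld ℤ) g := by
  have h1 : (fun g => ∑ j ∈ Finset.range J, sl D j g h) =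
      Sop (wPl ℤ) D 0 J ((Finsupp.single h 1 : Fld ℤ) : HE ℤ → ℝ) :=
    funext fun g => sum_sl_eq D J g h
  rw [h1]
  have h2 := congrArg (fun T : Module.End ℝ (HE ℤ → ℝ) =>
    T ((Finsupp.single h 1 : Fld ℤ) : HE ℤ → ℝ) g) (Aop_Sop D (wPl ℤ) J)
  exact h2

/-- the limit of the remainder -/
def rI (g h : HE ℤ) : ℝ := Aop (wPl ℤ) (fun g => SI D g h) g + (Finsupp.single h 1 : Fld ℤ) g

theorem tendsto_rj (hM : MM + 1 ≤ M) (g h : HE ℤ) :
    Tendsto (fun J => rj D J g h) atTop (𝓝 (rI D g h)) := by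
  have h1 := tendsto_Aop (wPl ℤ) (φ := fun J g => ∑ j ∈ Finset.range J, sl D j g h)
    (fun g => tendsto_SI D hM g h) g
  have h2 : ∀ J, rj D J g h = Aop (wPl ℤ) (fun g => ∑ j ∈ Finset.range J, sl D j g h) g +
      (Finsupp.single h 1 : Fld ℤ) g := fun J => by
    rw [Aop_sum_sl]; ring
  simp_rw [h2]
  exact h1.add tendsto_const_nhds

theorem X_mul_r_le (hM : 1 ≤ M) (J : ℕ) (t : ℝ) (h0 : 0 ≤ t) (h1 : t ≤ 16) :
    (X * D.r J).eval t ≤ (C (D.C / 4 ^ J) * 1).eval t := by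
  have h2 := D.r_le J t h0 h1
  have h3 : (4 : ℝ) ^ J * t ≤ (1 + 4 ^ J * t) ^ M := by
    have h4 : (1 : ℝ) ≤ 1 + 4 ^ J * t := by
      have : (0 : ℝ) ≤ 4 ^ J * t := by positivity
      linarith
    calc (4 : ℝ) ^ J * t ≤ (1 + 4 ^ J * t) ^ 1 := by linarith
      _ ≤ (1 + 4 ^ J * t) ^ M := pow_le_pow_right₀ h4 hM
  have h5 := D.r_nonneg J t h0 h1
  have h6 : (D.r J).eval t * (4 ^ J * t) ≤ D.C := (mul_le_mul_of_nonneg_left h3 h5).trans h2
  simp only [eval_mul, eval_X, eval_C, mul_one]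
  rw [le_div_iff₀ (by positivity)]
  linarith

theorem abs_Q_rj (hM : 1 ≤ M) (J : ℕ) (g h : HE ℤ) :
    |Qop (wPl ℤ) (fun g => rj D J g h) g| ≤ D.C / 4 ^ J := by
  have hC := D.C_pos
  have e1 : (fun g => rj D J g h) =
      aeval (Qop (wPl ℤ)) (D.r J) ((Finsupp.single h 1 : Fld ℤ) : HE ℤ → ℝ) := rfl
  have e2 : Qop (wPl ℤ) (fun g => rj D J g h) =
      aeval (Qop (wPl ℤ)) (X * D.r J) ((Finsupp.single h 1 : Fld ℤ) : HE ℤ → ℝ) := by
    rw [e1, map_mul, aeval_X, Module.End.mul_apply]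
  have e3 : Qop (wPl ℤ) (fun g => rj D J g h) g =
      BP (preF (HE ℤ)) (QA (AopF (wPl ℤ))) (X * D.r J) (Finsupp.single g 1)
        (Finsupp.single h 1) := by
    rw [e2, aeval_Qop_coe, BP_apply, preF_ip, dotF_single, one_mul]
  have hab := (AopF_bdd (wPl ℤ) wPl_le1).btw (AopF_asy (wPl ℤ))
  have hs := (AopF_asy (wPl ℤ)).sy
  have hp : ∀ t : ℝ, 0 ≤ t → t ≤ 16 → 0 ≤ (X * D.r J).eval t := fun t h0 h1 => by
    rw [eval_mul, eval_X]
    exact mul_nonneg h0 (D.r_nonneg J t h0 h1)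
  have h1 := BP_abs_le hs hab (X * D.r J) hp (Finsupp.single g 1) (Finsupp.single h 1)
  have h2 : ∀ g : HE ℤ, BP (preF (HE ℤ)) (QA (AopF (wPl ℤ))) (X * D.r J) (Finsupp.single g 1)
      (Finsupp.single g 1) ≤ D.C / 4 ^ J := by
    intro g
    refine (BP_mono hs hab _ _ (fun t h0 h1 => X_mul_r_le D hM J t h0 h1) _).trans (le_of_eq ?_)
    rw [BP_smul, BP_one, preF_ip, dotF_single, Finsupp.single_eq_same]
    ring
  rw [e3]
  refine h1.trans ((mul_le_mul (Real.sqrt_le_sqrt (h2 g)) (Real.sqrt_le_sqrt (h2 h))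
    (Real.sqrt_nonneg _) (Real.sqrt_nonneg _)).trans (le_of_eq ?_))
  exact Real.mul_self_sqrt (by positivity)

theorem Q_rI (hM : MM + 1 ≤ M) (g h : HE ℤ) : Qop (wPl ℤ) (fun g => rI D g h) g = 0 := by
  have h1 : Tendsto (fun J => Qop (wPl ℤ) (fun g => rj D J g h) g) atTop
      (𝓝 (Qop (wPl ℤ) (fun g => rI D g h) g)) := by
    show Tendsto (fun J => -Aop (wPl ℤ) (Aop (wPl ℤ) (fun g => rj D J g h)) g) atTop
      (𝓝 (-Aop (wPl ℤ) (Aop (wPl ℤ) (fun g => rI D g h)) g))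
    exact (tendsto_Aop _ (fun g => tendsto_Aop _ (fun g => tendsto_rj D hM g h) g) g).neg
  have h2 : Tendsto (fun J => Qop (wPl ℤ) (fun g => rj D J g h) g) atTop (𝓝 0) := by
    have h3 := (tendsto_pow_atTop_nhds_zero_of_lt_one (r := (1 / 4 : ℝ)) (by norm_num)
      (by norm_num)).const_mul D.C
    rw [mul_zero] at h3
    refine squeeze_zero_norm (fun J => ?_) h3
    rw [Real.norm_eq_abs, one_div, inv_pow, ← div_eq_mul_inv]
    exact abs_Q_rj D (le_trans (by unfold MM; norm_num) hM) J g h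
  exact tendsto_nhds_unique h1 h2

theorem crit_pl : Pl0x654.Crit (wPl ℤ) := fun _ _ => rfl

theorem single_dec (h : HE ℤ) : ((Finsupp.single h 1 : Fld ℤ) : HE ℤ → ℝ) ∈ Pl0bx654.DecF := by
  refine ⟨1 / dec h, fun g => ?_⟩
  have hd := dec_pos h
  have hg := dec_pos g
  by_cases e : g = h
  · subst e
    rw [Finsupp.single_eq_same, abs_one, one_div, inv_mul_cancel₀ hd.ne']
  · rw [Finsupp.single_eq_of_ne e, abs_zero]
    positivity

theorem zero_of_dec {φ : HE ℤ → ℝ} (h : φ ∈ Pl0bx654.DecF) (hA : ∀ g, Aop (wPl ℤ) φ g = 0) :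
    φ = 0 := by
  obtain ⟨C, hC⟩ := h
  exact Pl0x654.uniq_of_bound crit_pl φ C hC hA

theorem rI_zero (hM : MM + 1 ≤ M) (hK : 0 < K) (g h : HE ℤ) : rI D g h = 0 := by
  have h1 : (fun g => rI D g h) ∈ Pl0bx654.DecF :=
    Pl0bx654.DecF.add_mem (Aop_dec wPl_le1 (SI_dec D hM hK h)) (single_dec h)
  have h2 := Aop_dec wPl_le1 h1
  have h3 : Aop (wPl ℤ) (fun g => rI D g h) = 0 := by
    refine zero_of_dec h2 fun g => ?_
    have := Q_rI D hM g h
    have e : Qop (wPl ℤ) (fun g => rI D g h) g =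
      -Aop (wPl ℤ) (Aop (wPl ℤ) (fun g => rI D g h)) g := rfl
    rw [e, neg_eq_zero] at this
    exact this
  have h4 := zero_of_dec h1 fun g => congrFun h3 g
  exact congrFun h4 g

/-- **the sum of all slices of the plane is the plane kernel** -/
theorem SI_eq (hM : MM + 1 ≤ M) (hK : 0 < K) (g h : HE ℤ) : SI D g h = Pl0bx654.Spl g h := by
  have h1 : (fun g => SI D g h) - (fun g => Pl0bx654.Spl g h) ∈ Pl0bx654.DecF :=
    Pl0bx654.DecF.sub_mem (SI_dec D hM hK h) (Pl0bx654.plKer_SP.bound h)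
  have h2 := zero_of_dec h1 fun g => by
    have e1 := rI_zero D hM hK g h
    unfold rI at e1
    have e2 := Pl0bx654.Spl_inv h g
    rw [map_sub, Pi.sub_apply, e2]
    rw [Finsupp.single_apply] at e1
    simp only [eq_comm (a := h)] at e1
    linarith
  have h3 := congrFun h2 g
  rw [Pi.sub_apply, Pi.zero_apply, sub_eq_zero] at h3
  exact h3

theorem hasSum_sl (hM : MM + 1 ≤ M) (hK : 0 < K) (g h : HE ℤ) :
    HasSum (fun j => sl D j g h) (Pl0bx654.Spl g h) := by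
  have h1 := (summable_sl D hM g h).hasSum
  rw [show ∑' j, sl D j g h = SI D g h from rfl, SI_eq D hM hK g h] at h1
  exact h1

theorem tail_sl (hM : MM + 1 ≤ M) (hK : 0 < K) (J : ℕ) (g h : HE ℤ) :
    |Pl0bx654.Spl g h - ∑ j ∈ Finset.range J, sl D j g h| ≤ 2 * c1 D ^ 2 / 2 ^ J := by
  rw [← SI_eq D hM hK g h]
  exact SI_tail D hM J g h

/-! ### blocks -/

theorem slC_sum (l k0 N : ℕ) (g h : HE ℤ) :
    ∑ k ∈ Finset.range N, (slC D (wPl ℤ) l k0 k).b (Finsupp.single g 1) (Finsupp.single h 1) =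
      ∑ j ∈ Finset.range (lo l k0 N), sl D j g h := by
  rw [← cov_sum_b, GSysOKx439.sum_slC, SopC_eq_sum, Finset.range_eq_Ico]

/-- the tail of the blocks -/
theorem tail_slC (hM : MM + 1 ≤ M) (hK : 0 < K) (l k0 N : ℕ) (g h : HE ℤ) :
    |Pl0bx654.Spl g h - ∑ k ∈ Finset.range N, (slC D (wPl ℤ) l k0 k).b (Finsupp.single g 1)
      (Finsupp.single h 1)| ≤ 2 * c1 D ^ 2 / 2 ^ lo l k0 N := by
  rw [slC_sum]
  exact tail_sl D hM hK _ g h

/-- the tail of the blocks, in terms of the scale -/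
theorem tail_slC_rr (hM : MM + 1 ≤ M) (hK : 0 < K) (l k0 : ℕ) {N : ℕ} (hN : N ≠ 0) (g h : HE ℤ) :
    |Pl0bx654.Spl g h - ∑ k ∈ Finset.range N, (slC D (wPl ℤ) l k0 k).b (Finsupp.single g 1)
      (Finsupp.single h 1)| ≤ 2 * c1 D ^ 2 / rr l k0 N := by
  have h1 := tail_slC D hM hK l k0 N g h
  rw [GSysOKx439.rr_eq_lo hN]
  push_cast
  exact h1

theorem slC_eq (l k0 k : ℕ) (g h : HE ℤ) :
    (slC D (wPl ℤ) l k0 k).b (Finsupp.single g 1) (Finsupp.single h 1) =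
      ∑ j ∈ Finset.Ico (lo l k0 k) (lo l k0 (k + 1)), sl D j g h := by
  rw [lo_succ, ← SopC_eq_sum]
  rfl

theorem abs_slC_le (hM : MM + 1 ≤ M) (l k0 k : ℕ) (g h : HE ℤ) :
    |(slC D (wPl ℤ) l k0 k).b (Finsupp.single g 1) (Finsupp.single h 1)| ≤
      2 * c1 D ^ 2 / 2 ^ lo l k0 k := by
  rw [slC_eq]
  have hle : lo l k0 k ≤ lo l k0 (k + 1) := by
    rw [lo_succ]
    exact GSysOKx439.lo_le_hi l k0 k
  refine (Finset.abs_sum_le_sum_abs _ _).trans ?_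
  rw [Finset.sum_Ico_eq_sum_range]
  have hs := hasSum_geo (c1 D ^ 2) (lo l k0 k)
  refine le_trans ?_ (hs.summable.sum_le_tsum (Finset.range (lo l k0 (k + 1) - lo l k0 k))
    (fun j _ => by positivity) |>.trans (le_of_eq hs.tsum_eq))
  refine Finset.sum_le_sum fun j _ => ?_
  rw [add_comm (lo l k0 k) j]
  exact abs_sl_le D hM _ g h

theorem le_lo {l : ℕ} (hl : 1 ≤ l) (k0 k : ℕ) : k ≤ lo l k0 k := by
  unfold lo
  split_ifs with h
  · omega
  · nlinarith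

/-- **the sum of the blocks of the plane is the plane kernel** -/
theorem hasSum_slC (hM : MM + 1 ≤ M) (hK : 0 < K) {l : ℕ} (hl : 1 ≤ l) (k0 : ℕ) (g h : HE ℤ) :
    HasSum (fun k => (slC D (wPl ℤ) l k0 k).b (Finsupp.single g 1) (Finsupp.single h 1))
      (Pl0bx654.Spl g h) := by
  have hsum : Summable fun k =>
      (slC D (wPl ℤ) l k0 k).b (Finsupp.single g 1) (Finsupp.single h 1) := by
    refine Summable.of_norm_bounded (g := fun k : ℕ => 2 * c1 D ^ 2 / 2 ^ (k + 0))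
      (hasSum_geo _ 0).summable fun k => ?_
    rw [Real.norm_eq_abs, add_zero]
    refine (abs_slC_le D hM l k0 k g h).trans ?_
    refine div_le_div_of_nonneg_left (by positivity) (by positivity) ?_
    exact pow_le_pow_right₀ (by norm_num) (le_lo hl k0 k)
  have h1 := hsum.hasSum.tendsto_sum_nat
  have h2 : Tendsto (fun N => ∑ k ∈ Finset.range N,
      (slC D (wPl ℤ) l k0 k).b (Finsupp.single g 1) (Finsupp.single h 1)) atTop
      (𝓝 (Pl0bx654.Spl g h)) := by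
    have h3 := (hasSum_sl D hM hK g h).tendsto_sum_nat
    have h4 : Tendsto (fun N => lo l k0 N) atTop atTop :=
      tendsto_atTop_mono (le_lo hl k0) tendsto_id
    simp_rw [slC_sum]
    exact h3.comp h4
  have h5 := tendsto_nhds_unique h1 h2
  rw [← h5]
  exact hsum.hasSum

/-! ### bonds -/

theorem spl_bond (e : Bkgx683.EG ℤ) :
    SrcInsx991.uB (wPl ℤ) e * Pl0bx654.Spl (J1ax606.pe e) (J1ax606.qe e) = Redx541.e0 - 1 := by
  have h0 : Pl0bx654.Spl (J1ax606.pe e) (J1ax606.qe e) =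
      (1 - 3 * Spx583.xc^2)/(8 * Spx583.xc^2) := Spx583.Spl_bond e
  have hx := Spx583.xc_pos
  have hr := Spx583.xc_rel
  have h2 : Real.sqrt 2 = 1 + Spx583.xc := Spx583.one_add_xc.symm
  have h3 : SrcInsx991.uB (wPl ℤ) e = -(2 * Spx583.xc) := rfl
  rw [h0, h3]
  unfold Redx541.e0
  rw [h2]
  field_simp
  nlinarith

/-- **the bond values of the slices of the plane sum to `e0 - 1`** -/
theorem hasSum_bond (hM : MM + 1 ≤ M) (hK : 0 < K) {l : ℕ} (hl : 1 ≤ l) (k0 : ℕ)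
    (e : Bkgx683.EG ℤ) :
    HasSum (fun k => GeOpsx337.EEG (slC D (wPl ℤ) l k0 k) (SrcInsx991.beB (wPl ℤ) e))
      (Redx541.e0 - 1) := by
  have h1 := (hasSum_slC D hM hK hl k0 (J1ax606.pe e) (J1ax606.qe e)).mul_left
    (SrcInsx991.uB (wPl ℤ) e)
  rw [spl_bond] at h1
  refine h1.congr_fun ?_ |> fun h => h
  intro k
  exact SrcInsx991.EEG_beB (wPl ℤ) _ e

/-- the rate -/
theorem tail_bond (hM : MM + 1 ≤ M) (hK : 0 < K) (l k0 N : ℕ) (e : Bkgx683.EG ℤ) :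
    |(1 - Redx541.e0) + ∑ k ∈ Finset.range N,
      GeOpsx337.EEG (slC D (wPl ℤ) l k0 k) (SrcInsx991.beB (wPl ℤ) e)| ≤
        4 * c1 D ^ 2 / 2 ^ lo l k0 N := by
  have h1 := tail_slC D hM hK l k0 N (J1ax606.pe e) (J1ax606.qe e)
  have h2 := spl_bond e
  have h3 : (1 - Redx541.e0) + ∑ k ∈ Finset.range N,
      GeOpsx337.EEG (slC D (wPl ℤ) l k0 k) (SrcInsx991.beB (wPl ℤ) e) =
      -(SrcInsx991.uB (wPl ℤ) e) * (Pl0bx654.Spl (J1ax606.pe e) (J1ax606.qe e) -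
        ∑ k ∈ Finset.range N, (slC D (wPl ℤ) l k0 k).b (Finsupp.single (J1ax606.pe e) 1)
          (Finsupp.single (J1ax606.qe e) 1)) := by
    have h4 : ∑ k ∈ Finset.range N,
      GeOpsx337.EEG (slC D (wPl ℤ) l k0 k) (SrcInsx991.beB (wPl ℤ) e) =
      SrcInsx991.uB (wPl ℤ) e * ∑ k ∈ Finset.range N, (slC D (wPl ℤ) l k0 k).b
        (Finsupp.single (J1ax606.pe e) 1) (Finsupp.single (J1ax606.qe e) 1) := by
      rw [Finset.mul_sum]
      exact Finset.sum_congr rfl fun k _ => SrcInsx991.EEG_beB (wPl ℤ) _ e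
    rw [h4]
    linear_combination h2
  have h5 : |-(SrcInsx991.uB (wPl ℤ) e)| ≤ 2 := by
    have h6 : SrcInsx991.uB (wPl ℤ) e = -(2 * wPl ℤ e.1 e.2) := rfl
    rw [h6, neg_neg, abs_mul, abs_two]
    have := wPl_le1 e.1 e.2
    linarith
  rw [h3, abs_mul]
  calc _ ≤ 2 * (2 * c1 D ^ 2 / 2 ^ lo l k0 N) :=
        mul_le_mul h5 h1 (abs_nonneg _) (by norm_num)
    _ = _ := by ring

/-- **(Q2a)** for the decomposition `DD` of the row -/
theorem hasSum_plane (z : ℤ × ℤ) (j : Fin 2) {l : ℕ} (hl : 1 ≤ l) (k0 : ℕ) :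
    HasSum (fun k => GeOpsx337.EEG (slC Outx683.DD (wPl ℤ) l k0 k)
      (SrcInsx991.beB (wPl ℤ) (z, j))) (Redx541.e0 - 1) :=
  hasSum_bond Outx683.DD (by unfold MM; norm_num) (by norm_num) hl k0 (z, j)

/-- the rate, `rr l k0 N = 2 ^ lo l k0 N` for `N ≠ 0` -/
theorem tail_plane (z : ℤ × ℤ) (j : Fin 2) (l k0 : ℕ) {N : ℕ} (hN : N ≠ 0) :
    |(1 - Redx541.e0) + ∑ k ∈ Finset.range N, GeOpsx337.EEG (slC Outx683.DD (wPl ℤ) l k0 k)
      (SrcInsx991.beB (wPl ℤ) (z, j))| ≤ 4 * c1 Outx683.DD ^ 2 / rr l k0 N := by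
  have h1 := tail_bond Outx683.DD (by unfold MM; norm_num) (by norm_num) l k0 N (z, j)
  rw [GSysOKx439.rr_eq_lo hN]
  push_cast
  exact h1

/-- the remainder of the sum is the sum of the remaining blocks -/
theorem tsum_plane (z : ℤ × ℤ) (j : Fin 2) {l : ℕ} (hl : 1 ≤ l) (k0 N : ℕ) :
    (1 - Redx541.e0) + ∑ k ∈ Finset.range N, GeOpsx337.EEG (slC Outx683.DD (wPl ℤ) l k0 k)
      (SrcInsx991.beB (wPl ℤ) (z, j)) =
      -∑' k, GeOpsx337.EEG (slC Outx683.DD (wPl ℤ) l k0 (k + N))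
        (SrcInsx991.beB (wPl ℤ) (z, j)) := by
  have h1 := (hasSum_plane z j hl k0).summable.sum_add_tsum_nat_add N
  rw [(hasSum_plane z j hl k0).tsum_eq] at h1
  linarith

end Crest.Agent.R165.PlBondx898
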