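import Crest.Agent.R165.SrcInv_336
import Crest.Agent.R165.SrcIns2_991

/-!
# Row 165 (S0250), leaf P11: the hypotheses `SrcHyp` of `SrcInv_336` for the bond sources of
`SrcIns_991` (helper336)

* `srcDat_of_plane`, `srcDat_of_dp` : the data of a source which is deep at step `n`
* `srcHyp_of_dp` : the hypotheses on the sources
-/

set_option autoImplicit false
set_option linter.unusedSectionVars false

noncomputable section

namespace Crest.Agent.R165.SrcInvx336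

open scoped ENNReal
open Crest.Agent.R165.Gr0x606 Crest.Agent.R165.Gr1x606 Crest.Agent.R165.GeOpsx337
open Crest.Agent.R165.KFlowx337 Crest.Agent.R165.GSysx387
open Crest.Agent.R165.SrcDefx991 Crest.Agent.R165.SrcSysx991
open Crest.Agent.R165.GDefx387 Crest.Agent.R165.PNormx417
open Crest.Agent.R165.Bkgx683 Crest.Agent.R165.J4Geox126 Crest.Agent.R165.PlaneModesx901
open Crest.Agent.R165.BgIsox432 Crest.Agent.R165.SrcLinx336
open Crest.Agent.R165.Srcx336 Crest.Agent.R165.WChx336 Crest.Agent.R165.WtIsox898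
open Crest.Agent.R165.SrcInsx991
open Crest.Agent.R165.J1ax606 (pe qe)
open Crest.Agent.R165.Latx683 (xc wPl wDom wX BW HE Fld hp hq yE yN)
open Crest.Agent.R165.Bridgex915 (GoodG)

theorem xc_bounds : 1 / 4 ≤ xc ∧ xc ≤ 1 := by
  have h : (0 : ℝ) < xc := PlaneModesx901.xc_pos
  have h2 : xc * xc = 1 - 2 * xc := PlaneModesx901.xc_sq
  constructor <;> nlinarith

theorem srcDat_of_plane {w : BW ℤ} {z : ℤ × ℤ} {R : ℕ} (hR : 1 ≤ R)
    (p : PlaneLike w (nbhd R {z})) (j : Fin 2) :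
    SrcDat w R z j (uB w (z, j)) (muB w (z, j)) (beB w (z, j)) where
  b_eq := by rw [beB, Ge.coe_smul, coe_bE]
  u_lo := by
    have h := abs_w_of_plane hR p j
    have h2 := xc_bounds.1
    show 1 / 2 ≤ |-(2 * w z j)|
    rw [abs_neg, abs_mul, h, abs_two]
    linarith
  ex := by
    refine ⟨ball z R, tauC z, gp w z, psiC z, gpZ w z, chpCan (plIso p) (ball_sub_nbhd z R),
      subset_rfl, fun F => ?_⟩
    have h2 : cC (tauC z) (gp w z) (Latx683.bb z j) = cS w z (bE (z, j)) := by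
      rw [cS_cC, coe_bE]
    rw [h2, ← cS_cC, muB_apply, cS_beB]
    show (uB w (z, j) * cS w z (bE (z, j)))⁻¹ * cS w z F = _
    rw [mul_inv, mul_assoc]

theorem srcDat_of_dp {m : ℕ} {w : BW ℤ} {mk : Finset (ℤ × ℤ)} {l k0 n : ℕ}
    {e : Fin m → Bkgx683.EG ℤ} {i : Fin m} (h : dpS w mk l k0 e n i) :
    SrcDat w (s2 * rr l k0 (n + 1)) (e i).1 (e i).2 (uB w (e i)) (muB w (e i)) (beB w (e i)) := by
  obtain ⟨⟨p⟩, _⟩ := h _ (faE_fst_mem (e i))
  exact srcDat_of_plane (Nat.mul_pos (by decide) (rr_pos l k0 (n + 1))) p (e i).2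

theorem SrcDat.mono {G : Type} [CommRing G] [CN G] [GoodG G] {w : BW G} {R R' : ℕ} {z : G × G}
    {j : Fin 2} {u : ℝ} {mu : Ge (Fld G) →ₗ[ℝ] ℝ} {b : Ge (Fld G)} (h : SrcDat w R z j u mu b)
    (hR : R' ≤ R) : SrcDat w R' z j u mu b := by
  obtain ⟨h1, h2, Z, τ, s, τ', s', c, hz, hmu⟩ := h
  exact ⟨h1, h2, Z, τ, s, τ', s', c, (Wtx898.ball_mono z hR).trans hz, hmu⟩

theorem s1_le_s2 {r r' : ℕ} (hr : 1 ≤ r) (hr' : 16 * r ≤ r') :
    s1 * r' + r + MM + 1 ≤ s2 * r' := by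
  have : s1 + (MM + 3) ≤ s2 := by decide
  have h2 : (s1 + (MM + 3)) * r' ≤ s2 * r' := Nat.mul_le_mul_right _ this
  have h3 : (s1 + (MM + 3)) * r' = s1 * r' + MM * r' + 3 * r' := by ring
  have h4 : MM ≤ MM * r' := Nat.le_mul_of_pos_right _ (by omega)
  omega

/-- **the hypotheses on the sources** which are deep at step `n` -/
theorem srcHyp_of_dp {m : ℕ} {w : BW ℤ} {mk : Finset (ℤ × ℤ)} {l k0 n : ℕ}
    {e : Fin m → Bkgx683.EG ℤ} (he : ∀ i, w (e i).1 (e i).2 ≠ 0)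
    (hdp : ∀ i, dpS w mk l k0 e n i) (hrr : 16 * rr l k0 n ≤ rr l k0 (n + 1))
    (hsep : ∀ i i', i ≠ i' → rr l k0 n < fd (e i).1 (e i').1) {Λ : ℝ≥0∞}
    {v v' : Fin m → ℝ≥0∞} (v0 : ∀ i, v i ≠ 0) (v0' : ∀ i, v' i ≠ 0) (vt' : ∀ i, v' i ≠ ∞)
    (vΛ : ∀ i, v' i ^ 2 ≤ Λ * v i ^ 2) :
    SrcHyp w (rr l k0 n) (rr l k0 (n + 1)) Λ v v' (srcD w e he) (dpS w mk l k0 e n)
      (fun i => (e i).1) (fun i => (e i).2) (fun i => uB w (e i)) where
  dp := hdp
  hz i := faE_fst_mem (e i)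
  sep := hsep
  sz i := size_faE (rr_pos l k0 n) (e i)
  dat i := (srcDat_of_dp (hdp i)).mono (s1_le_s2 (rr_pos l k0 n) hrr)
  v0 := v0
  v0' := v0'
  vt' := vt'
  vΛ := vΛ

end Crest.Agent.R165.SrcInvx336
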