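import Crest.Agent.R165.Out_683
import Crest.Agent.R165.GeoScale_420

/-!
# Row 165 (S0250), leaf P11: scalar limits and the weights of the sources (helper697)

* `amp_pow_tendsto` : `amp c N ^ (2 m) * σ ^ N → 0`
* `vS c t k = √(t rr k) / amp c k` : weights of the sources; `vS_sq`, `vS_pos`, `vS_lo`
  (`2 v_k² ≤ v_{k+1}²`), `vS_hi` (`v_{k+1}² ≤ 2^p v_k²`), `vS_ofReal_hi`
* `vS_last` : `κ ≤ a (A² v²)` at the scale `KK`
-/

set_option autoImplicit false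
set_option linter.unusedSectionVars false
set_option linter.unusedVariables false

noncomputable section

namespace Crest.Agent.R165.SrcLimx697

open Filter Topology
open scoped ENNReal
open Crest.Agent.R165.PEndx683 Crest.Agent.R165.Outx683 Crest.Agent.R165.GSysx387

/-- **polynomial amplitudes against the geometric gain** -/
theorem amp_pow_tendsto (c : Cst) {σ : ℝ} (hσ0 : 0 ≤ σ) (hσ1 : σ < 1) (m : ℕ) :
    Tendsto (fun N : ℕ => amp c N ^ m * σ ^ N) atTop (𝓝 0) := by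
  have h1 : Tendsto (fun N : ℕ => (N : ℝ) ^ m * σ ^ N) atTop (𝓝 0) :=
    tendsto_pow_const_mul_const_pow_of_abs_lt_one m (by rwa [abs_of_nonneg hσ0])
  have h2 : Tendsto (fun N : ℕ => (|c.A0| * (1 + |c.δ|)) ^ m * ((N : ℝ) ^ m * σ ^ N)) atTop
      (𝓝 0) := by simpa using h1.const_mul ((|c.A0| * (1 + |c.δ|)) ^ m)
  rw [tendsto_zero_iff_norm_tendsto_zero]
  refine squeeze_zero' (Eventually.of_forall fun _ => norm_nonneg _) ?_ h2
  filter_upwards [eventually_ge_atTop 1] with N hN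
  have hN1 : (1 : ℝ) ≤ N := by exact_mod_cast hN
  rw [norm_mul, norm_pow, norm_pow, Real.norm_eq_abs, Real.norm_eq_abs, abs_of_nonneg hσ0,
    ← mul_assoc, ← mul_pow]
  refine mul_le_mul_of_nonneg_right (pow_le_pow_left₀ (abs_nonneg _) ?_ _) (by positivity)
  unfold amp
  rw [abs_mul]
  have h3 : |1 + c.δ * N| ≤ (1 + |c.δ|) * N := by
    refine (abs_add_le _ _).trans ?_
    rw [abs_one, abs_mul, Nat.abs_cast]
    nlinarith [abs_nonneg c.δ]
  calc |c.A0| * |1 + c.δ * N| ≤ |c.A0| * ((1 + |c.δ|) * N) :=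
        mul_le_mul_of_nonneg_left h3 (abs_nonneg _)
    _ = _ := by ring

/-- the same along a function which tends to infinity -/
theorem amp_pow_comp {α : Type*} {l : Filter α} {K : α → ℕ} (hK : Tendsto K l atTop) (c : Cst)
    {σ : ℝ} (hσ0 : 0 ≤ σ) (hσ1 : σ < 1) (m : ℕ) (C : ℝ) :
    Tendsto (fun a => amp c (K a) ^ m * (C * σ ^ K a)) l (𝓝 0) := by
  have h := ((amp_pow_tendsto c hσ0 hσ1 m).comp hK).const_mul C
  rw [mul_zero] at h
  refine h.congr fun a => ?_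
  simp only [Function.comp]
  ring

/-- the weights of the sources -/
def vS (c : Cst) (t : ℝ) (k : ℕ) : ℝ := √(t * rr c.p c.k0 k) / amp c k

variable {c : Cst} {t : ℝ}

theorem amp_pos (h0 : 0 < c.A0) (hδ : 0 ≤ c.δ) (k : ℕ) : 0 < amp c k := by
  unfold amp
  positivity

theorem amp_one (h0 : 1 ≤ c.A0) (hδ : 0 ≤ c.δ) (k : ℕ) : 1 ≤ amp c k := by
  unfold amp
  nlinarith [mul_nonneg hδ (Nat.cast_nonneg (α := ℝ) k)]

theorem rr_pos' (c : Cst) (k : ℕ) : (0 : ℝ) < rr c.p c.k0 k := by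
  have := Crest.Agent.R165.GSysx387.rr_pos c.p c.k0 k
  exact_mod_cast this

theorem vS_sq (ht : 0 ≤ t) (k : ℕ) : vS c t k ^ 2 = t * rr c.p c.k0 k / amp c k ^ 2 := by
  unfold vS
  rw [div_pow, Real.sq_sqrt (by positivity)]

theorem vS_pos (ht : 0 < t) (h0 : 0 < c.A0) (hδ : 0 ≤ c.δ) (k : ℕ) : 0 < vS c t k := by
  unfold vS
  have h1 := rr_pos' c k
  have h2 := amp_pos h0 hδ k
  positivity

theorem rr_succ (c : Cst) (k : ℕ) :
    (rr c.p c.k0 (k + 1) : ℝ) = 2 ^ c.p * rr c.p c.k0 k := by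
  unfold rr
  push_cast
  rw [← pow_add]
  congr 1
  ring

theorem amp_succ_le (h0 : 0 < c.A0) (hδ : 0 ≤ c.δ) (k : ℕ) :
    amp c (k + 1) ≤ (1 + c.δ) * amp c k := by
  unfold amp
  push_cast
  have h1 : 0 ≤ c.δ * (c.δ * k) := by positivity
  nlinarith

theorem amp_mono (h0 : 0 < c.A0) (hδ : 0 ≤ c.δ) (k : ℕ) : amp c k ≤ amp c (k + 1) := by
  unfold amp
  push_cast
  nlinarith [mul_nonneg h0.le hδ]

/-- `2 v_k² ≤ v_{k+1}²` -/
theorem vS_lo (ht : 0 < t) (h0 : 0 < c.A0) (hδ : 0 ≤ c.δ) (hδ2 : (1 + c.δ) ^ 2 ≤ 2)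
    (hp : 2 ≤ c.p) (k : ℕ) : 2 * vS c t k ^ 2 ≤ vS c t (k + 1) ^ 2 := by
  rw [vS_sq ht.le, vS_sq ht.le, rr_succ]
  have h1 := rr_pos' c k
  have h2 := amp_pos h0 hδ k
  have h3 := amp_pos h0 hδ (k + 1)
  have h4 := amp_succ_le h0 hδ k
  have h5 : amp c (k + 1) ^ 2 ≤ 2 * amp c k ^ 2 := by
    calc amp c (k + 1) ^ 2 ≤ ((1 + c.δ) * amp c k) ^ 2 := pow_le_pow_left₀ h3.le h4 2
      _ = (1 + c.δ) ^ 2 * amp c k ^ 2 := by ring
      _ ≤ _ := mul_le_mul_of_nonneg_right hδ2 (by positivity)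
  have h6 : (4 : ℝ) ≤ 2 ^ c.p := by
    calc (4 : ℝ) = 2 ^ 2 := by norm_num
      _ ≤ _ := pow_le_pow_right₀ (by norm_num) hp
  rw [← mul_div_assoc, div_le_div_iff₀ (by positivity) (by positivity)]
  have h7 : 0 < t * (rr c.p c.k0 k : ℝ) := by positivity
  calc 2 * (t * rr c.p c.k0 k) * amp c (k + 1) ^ 2
      ≤ 2 * (t * rr c.p c.k0 k) * (2 * amp c k ^ 2) :=
        mul_le_mul_of_nonneg_left h5 (by positivity)
    _ = 4 * (t * rr c.p c.k0 k * amp c k ^ 2) := by ring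
    _ ≤ 2 ^ c.p * (t * rr c.p c.k0 k * amp c k ^ 2) :=
        mul_le_mul_of_nonneg_right h6 (by positivity)
    _ = _ := by ring

/-- `v_{k+1}² ≤ 2^p v_k²` -/
theorem vS_hi (ht : 0 < t) (h0 : 0 < c.A0) (hδ : 0 ≤ c.δ) (k : ℕ) :
    vS c t (k + 1) ^ 2 ≤ 2 ^ c.p * vS c t k ^ 2 := by
  rw [vS_sq ht.le, vS_sq ht.le, rr_succ]
  have h1 := rr_pos' c k
  have h2 := amp_pos h0 hδ k
  have h3 := amp_mono h0 hδ k
  rw [← mul_div_assoc, div_le_div_iff₀ (by have := h2.trans_le h3; positivity) (by positivity)]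
  have h5 : amp c k ^ 2 ≤ amp c (k + 1) ^ 2 := pow_le_pow_left₀ h2.le h3 2
  calc t * (2 ^ c.p * rr c.p c.k0 k) * amp c k ^ 2
      ≤ t * (2 ^ c.p * rr c.p c.k0 k) * amp c (k + 1) ^ 2 :=
        mul_le_mul_of_nonneg_left h5 (by positivity)
    _ = _ := by ring

/-- the weight at the last scale against the mesh -/
theorem vS_last (ht : 0 < t) (h0 : 0 < c.A0) (hδ : 0 ≤ c.δ) (hp : 1 ≤ c.p) {d a : ℝ} (ha : 0 < a)
    {N : ℕ} (hN : N = GeoScx420.KK c.p c.k0 d a) :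
    t * (d / 2 ^ c.p) ≤ a * (amp c N ^ 2 * vS c t N ^ 2) := by
  have h2 := amp_pos h0 hδ N
  have e : amp c N ^ 2 * vS c t N ^ 2 = t * rr c.p c.k0 N := by
    rw [vS_sq ht.le]
    field_simp
  rw [e]
  have h3 := GeoScx420.lt_rr_KK (k0 := c.k0) hp d a
  rw [← hN] at h3
  have h4 : d < a * (2 ^ c.p * (rr c.p c.k0 N : ℝ)) := by
    rw [div_lt_iff₀ ha] at h3
    linarith
  have h5 : d / 2 ^ c.p ≤ a * rr c.p c.k0 N := by
    rw [div_le_iff₀ (by positivity)]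
    calc d ≤ a * (2 ^ c.p * (rr c.p c.k0 N : ℝ)) := h4.le
      _ = _ := by ring
  calc t * (d / 2 ^ c.p) ≤ t * (a * rr c.p c.k0 N) := mul_le_mul_of_nonneg_left h5 ht.le
    _ = _ := by ring

end Crest.Agent.R165.SrcLimx697
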