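import Crest.Agent.R165.SrcDomB_697
import Crest.Agent.R165.SrcIns2_991
import Crest.Agent.R165.SpinDom2_432

/-!
# Row 165 (S0250), leaf P11: the slices at one bond, domain and plane (helper813)

* `EEG_slC_push` : the slices of two isomorphic backgrounds agree on the bond forms
* `EEG_slC_pl` : translation invariance in the plane
* `sum_EEG_dom`, `c0D_dom` : the constants `c0D` of a background which is the plane near the bond
-/

set_option autoImplicit false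
set_option linter.unusedSectionVars false

noncomputable section

namespace Crest.Agent.R165.SrcSlx813

open Finset
open Crest.Agent.R165.Gr0x606 Crest.Agent.R165.Gr1x606 Crest.Agent.R165.GeOpsx337
open Crest.Agent.R165.GDefx387 Crest.Agent.R165.GSysx387 Crest.Agent.R165.FRDPolyx439
open Crest.Agent.R165.BgIsox432 Crest.Agent.R165.CmpBgx432 Crest.Agent.R165.PStepx417
open Crest.Agent.R165.J4Geox126 (faE)
open Crest.Agent.R165.J1ax606 (pe qe)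
open Crest.Agent.R165.Latx683 (BW Fld HE yE yN wPl)
open Crest.Agent.R165.SrcInsx991 Crest.Agent.R165.SrcDomx697
open Crest.Agent.R165.Redx541 (e0)

variable {w w' : BW ℤ} {Z : Set (ℤ × ℤ)}

theorem push_pe (b : BgIso w w' Z) {e : Bkgx683.EG ℤ} (h : ball e.1 1 ⊆ Z) :
    b.push (Finsupp.single (pe e) 1) =
      b.s (pe e).1 • Finsupp.single (pe (b.τ e.1, e.2)) (1 : ℝ) := by
  obtain ⟨z, j⟩ := e
  rw [b.push_single, Finsupp.smul_single, smul_eq_mul, mul_one, one_mul]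
  fin_cases j
  · rfl
  · have h1 := b.tau_sub1 h
    show Finsupp.single (b.τ (z - (1, 0)), (1 : Fin 4)) _ = Finsupp.single (b.τ z - (1, 0), 1) _
    have h2 : (z - (1, 0) : ℤ × ℤ) = (z.1 - 1, z.2) := by ext <;> simp
    have h3 : (b.τ z - (1, 0) : ℤ × ℤ) = ((b.τ z).1 - 1, (b.τ z).2) := by ext <;> simp
    rw [h2, h3, h1]

theorem push_qe (b : BgIso w w' Z) {e : Bkgx683.EG ℤ} (h : ball e.1 1 ⊆ Z) :
    b.push (Finsupp.single (qe e) 1) =
      b.s (qe e).1 • Finsupp.single (qe (b.τ e.1, e.2)) (1 : ℝ) := by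
  obtain ⟨z, j⟩ := e
  rw [b.push_single, Finsupp.smul_single, smul_eq_mul, mul_one, one_mul]
  fin_cases j
  · have h1 := b.tau_sub2 h
    show Finsupp.single (b.τ (z - (0, 1)), (2 : Fin 4)) _ = Finsupp.single (b.τ z - (0, 1), 2) _
    have h2 : (z - (0, 1) : ℤ × ℤ) = (z.1, z.2 - 1) := by ext <;> simp
    have h3 : (b.τ z - (0, 1) : ℤ × ℤ) = ((b.τ z).1, (b.τ z).2 - 1) := by ext <;> simp
    rw [h2, h3, h1]
  · rfl

/-- the weight of a bond under an isomorphism of backgrounds -/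
theorem w_push (b : BgIso w w' Z) {e : Bkgx683.EG ℤ} (h : ball e.1 1 ⊆ Z) :
    w e.1 e.2 = b.s (pe e).1 * b.s (qe e).1 * w' (b.τ e.1) e.2 := by
  obtain ⟨z, j⟩ := e
  have hz : z ∈ Z := h (mem_ball_self z 1)
  fin_cases j
  · have hf : ((z.1, z.2 - 1) : ℤ × ℤ) ∈ Z := h (mem_ball1_sub2 z)
    have e1 : (((z.1, z.2 - 1) : ℤ × ℤ).1, ((z.1, z.2 - 1) : ℤ × ℤ).2 + 1) = z := by ext <;> simp
    have h1 := b.wN (z.1, z.2 - 1) hf (by rw [e1]; exact hz)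
    have h2 := b.tau_sub2 h
    rw [e1] at h1
    have e2 : yN w (z.1, z.2 - 1) = w z 0 := by simp [yN]
    have e3 : yN w' (b.τ (z.1, z.2 - 1)) = w' (b.τ z) 0 := by
      show w' ((b.τ (z.1, z.2 - 1)).1, (b.τ (z.1, z.2 - 1)).2 + 1) 0 = _
      rw [show b.τ (z.1, z.2 - 1) = ((b.τ z).1, (b.τ z).2 - 1) from h2]
      simp
    have e4 : (qe (z, (0 : Fin 2))).1 = ((z.1, z.2 - 1) : ℤ × ℤ) := by
      simp [qe, Prod.ext_iff]
    rw [e2, e3] at h1
    show w z 0 = b.s z * b.s (qe (z, (0 : Fin 2))).1 * w' (b.τ z) 0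
    rw [e4, h1]
    ring
  · have hf : ((z.1 - 1, z.2) : ℤ × ℤ) ∈ Z := h (mem_ball1_sub1 z)
    have e1 : (((z.1 - 1, z.2) : ℤ × ℤ).1 + 1, ((z.1 - 1, z.2) : ℤ × ℤ).2) = z := by ext <;> simp
    have h1 := b.wE (z.1 - 1, z.2) hf (by rw [e1]; exact hz)
    have h2 := b.tau_sub1 h
    rw [e1] at h1
    have e2 : yE w (z.1 - 1, z.2) = w z 1 := by simp [yE]
    have e3 : yE w' (b.τ (z.1 - 1, z.2)) = w' (b.τ z) 1 := by
      show w' ((b.τ (z.1 - 1, z.2)).1 + 1, (b.τ (z.1 - 1, z.2)).2) 1 = _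
      rw [show b.τ (z.1 - 1, z.2) = ((b.τ z).1 - 1, (b.τ z).2) from h2]
      simp
    have e4 : (pe (z, (1 : Fin 2))).1 = ((z.1 - 1, z.2) : ℤ × ℤ) := by
      simp [pe, Prod.ext_iff]
    rw [e2, e3] at h1
    show w z 1 = b.s (pe (z, (1 : Fin 2))).1 * b.s z * w' (b.τ z) 1
    rw [e4, h1]

theorem ball_faE {e : Bkgx683.EG ℤ} {r : ℕ} (hr : 1 ≤ r) (h : nbhd r (faE e) ⊆ Z) :
    ball e.1 1 ⊆ Z := fun f hf => h ⟨e.1, faE_fst_mem e, by
      have := (mem_ball).1 hf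
      exact le_trans this hr⟩

variable {M K : ℕ} (D : FRD 16 M K)

/-- **the slices of isomorphic backgrounds agree on the bond forms** -/
theorem EEG_slC_push (b : BgIso w w' Z) {l k0 n : ℕ} (hl : 1 ≤ l) (hK : 2 ≤ K)
    {e : Bkgx683.EG ℤ} (hU : nbhd (rhoH l k0 n) (faE e) ⊆ Z) :
    EEG (slC D w l k0 n) (beB w e) = EEG (slC D w' l k0 n) (beB w' (b.τ e.1, e.2)) := by
  have hr : 1 ≤ rhoH l k0 n := (rr_pos l k0 (n + 1)).trans_le (le_max_right _ _)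
  have hb := ball_faE hr hU
  have h1 : (pe e).1 ∈ nbhd 1 (faE e) := ⟨(pe e).1, mem_insert_self _ _, by simp⟩
  have h2 : (qe e).1 ∈ nbhd 1 (faE e) :=
    ⟨(qe e).1, mem_insert_of_mem (mem_singleton_self _), by simp⟩
  have hp : Finsupp.single (pe e) (1 : ℝ) ∈ (fldU (faE e) : Submodule ℝ (Fld ℤ)) :=
    single_mem_fldS h1 1
  have hq : Finsupp.single (qe e) (1 : ℝ) ∈ (fldU (faE e) : Submodule ℝ (Fld ℤ)) :=
    single_mem_fldS h2 1
  rw [EEG_beB, EEG_beB, slC_push D b hl hK hU hp hq, push_pe b hb, push_qe b hb]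
  simp only [map_smul, LinearMap.smul_apply, smul_eq_mul]
  rw [uB, w_push b hb, uB]
  have h1 := b.sq (pe e).1
  have h2 := b.sq (qe e).1
  calc _ = (b.s (pe e).1 * b.s (pe e).1) * (b.s (qe e).1 * b.s (qe e).1) *
        (-(2 * w' (b.τ e.1) e.2) * (slC D w' l k0 n).b (Finsupp.single (pe (b.τ e.1, e.2)) 1)
          (Finsupp.single (qe (b.τ e.1, e.2)) 1)) := by ring
    _ = _ := by rw [h1, h2, one_mul, one_mul]

/-- translation invariance in the plane -/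
theorem EEG_slC_pl {l : ℕ} (k0 n : ℕ) (hl : 1 ≤ l) (hK : 2 ≤ K) (z z' : ℤ × ℤ) (j : Fin 2) :
    EEG (slC D (wPl ℤ) l k0 n) (beB (wPl ℤ) (z, j)) =
      EEG (slC D (wPl ℤ) l k0 n) (beB (wPl ℤ) (z', j)) := by
  have h := EEG_slC_push D (SpinDomx432.plTrans (z - z') Set.univ) (k0 := k0) (n := n) hl hK
    (e := (z, j)) (Set.subset_univ _)
  rw [h]
  congr 3
  show ((z.1 - (z - z').1, z.2 - (z - z').2) : ℤ × ℤ) = z'
  ext <;> simp

theorem rhoH_lt {l k0 n N : ℕ} (hl : 1 ≤ l) (hn : n < N) : rhoH l k0 n + 1 ≤ s2 * rr l k0 N := by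
  have h1 := rhoH_add_le (l := l) (k0 := k0) (n := n) hl
  have h2 := rr_pos l k0 n
  have h3 : rhoK l k0 (n + 1) ≤ s2 * rr l k0 N := Nat.mul_le_mul_left _ (rr_mono l k0 hn)
  omega

theorem nbhd_faE_sub (e : Bkgx683.EG ℤ) (r : ℕ) : nbhd r (faE e) ⊆ ball e.1 (r + 1) := by
  rintro f ⟨u, hu, hf⟩
  have h0 : fd e.1 u ≤ 1 := by
    have := (size_le_one_iff (r := 1)).1 (size_faE le_rfl e) e.1 (faE_fst_mem e) u hu
    exact this
  have h1 := fd_triangle e.1 u f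
  rw [mem_ball]
  omega

/-- **the sums of the slices at one bond agree** if the background is the plane in
`ball e.1 (s2 * rr l k0 N)` -/
theorem sum_EEG_dom {l k0 N R : ℕ} (hl : 1 ≤ l) (hK : 2 ≤ K) {e : Bkgx683.EG ℤ}
    (b : BgIso w (wPl ℤ) (ball e.1 R)) (hR : s2 * rr l k0 N ≤ R) (z : ℤ × ℤ) :
    ∀ k < N, EEG (slC D w l k0 k) (beB w e) =
      EEG (slC D (wPl ℤ) l k0 k) (beB (wPl ℤ) (z, e.2)) := by
  intro k hk
  rw [EEG_slC_push D b hl hK (e := e) ((nbhd_faE_sub e _).trans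
    (ball_mono _ ((rhoH_lt hl hk).trans hR)))]
  exact EEG_slC_pl D k0 k hl hK _ _ _

/-- **the unperturbed constants of a bond around which the background is the plane** -/
theorem c0D_dom {l k0 N R : ℕ} (hl : 1 ≤ l) (hK : 2 ≤ K) {e : Bkgx683.EG ℤ}
    (b : BgIso w (wPl ℤ) (ball e.1 R)) (hR : s2 * rr l k0 N ≤ R) {z : ℤ × ℤ}
    (hQ : HasSum (fun k => EEG (slC D (wPl ℤ) l k0 k) (beB (wPl ℤ) (z, e.2))) (e0 - 1)) :
    c0D D w l k0 N e =
      -∑' k, EEG (slC D (wPl ℤ) l k0 (k + N)) (beB (wPl ℤ) (z, e.2)) := by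
  have h1 := hQ.summable.sum_add_tsum_nat_add N
  rw [hQ.tsum_eq] at h1
  rw [c0D_eq, sum_congr rfl fun k hk => sum_EEG_dom D hl hK b hR z k (mem_range.1 hk)]
  linarith

/-- the same through a plane chart at a deep face -/
theorem c0D_plane {l k0 N : ℕ} (hl : 1 ≤ l) (hK : 2 ≤ K) {e : Bkgx683.EG ℤ}
    (p : PlaneLike w (nbhd (s2 * rr l k0 N) {e.1})) {z : ℤ × ℤ}
    (hQ : HasSum (fun k => EEG (slC D (wPl ℤ) l k0 k) (beB (wPl ℤ) (z, e.2))) (e0 - 1)) :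
    c0D D w l k0 N e =
      -∑' k, EEG (slC D (wPl ℤ) l k0 (k + N)) (beB (wPl ℤ) (z, e.2)) :=
  c0D_dom D hl hK ((plIso p).mono (ball_sub_nbhd _ _)) le_rfl hQ

/-- the same at a source which is deep at step `N - 1` -/
theorem c0D_dp {l k0 n m : ℕ} (hl : 1 ≤ l) (hK : 2 ≤ K) {mk : Finset (ℤ × ℤ)}
    {e : Fin m → Bkgx683.EG ℤ} {i : Fin m} (h : dpS w mk l k0 e n i) {z : ℤ × ℤ}
    (hQ : HasSum (fun k => EEG (slC D (wPl ℤ) l k0 k) (beB (wPl ℤ) (z, (e i).2))) (e0 - 1)) :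
    c0D D w l k0 (n + 1) (e i) =
      -∑' k, EEG (slC D (wPl ℤ) l k0 (k + (n + 1))) (beB (wPl ℤ) (z, (e i).2)) := by
  obtain ⟨⟨p⟩, _⟩ := h _ (faE_fst_mem (e i))
  exact c0D_plane D hl hK p hQ

/-- the bound of the constants from the rate of the plane sums -/
theorem abs_c0D_le {l k0 N R : ℕ} (hl : 1 ≤ l) (hK : 2 ≤ K) {e : Bkgx683.EG ℤ}
    (b : BgIso w (wPl ℤ) (ball e.1 R)) (hR : s2 * rr l k0 N ≤ R) {z : ℤ × ℤ} {B : ℝ}
    (hB : |∑ k ∈ range N, EEG (slC D (wPl ℤ) l k0 k) (beB (wPl ℤ) (z, e.2)) - (e0 - 1)| ≤ B) :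
    |c0D D w l k0 N e| ≤ B := by
  rw [c0D_eq, sum_congr rfl fun k hk => sum_EEG_dom D hl hK b hR z k (mem_range.1 hk)]
  have : 1 - e0 + ∑ k ∈ range N, EEG (slC D (wPl ℤ) l k0 k) (beB (wPl ℤ) (z, e.2)) =
    ∑ k ∈ range N, EEG (slC D (wPl ℤ) l k0 k) (beB (wPl ℤ) (z, e.2)) - (e0 - 1) := by ring
  rwa [this]

end Crest.Agent.R165.SrcSlx813
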