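import Crest.Agent.R165.SrcDomD_697
import Crest.Agent.R165.SrcLim_697
import Crest.Agent.R165.SrcInv2_336
import Crest.Agent.R165.SrcSl_813

/-!
# Row 165 (S0250), leaf P11: the leading forms at the last scale (helper697)

* `pG_beta_le` : norm of a leading form at any scale where its source is deep
* `beta_last` : the field `hβ` of `FinL`
-/

set_option autoImplicit false
set_option linter.unusedSectionVars false
set_option linter.unusedVariables false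

noncomputable section

namespace Crest.Agent.R165.SrcDomx697

open Finset Filter Topology
open scoped ENNReal
open Crest.Agent.R165.KStepx892 Crest.Agent.R165.PNormx417 Crest.Agent.R165.FinBx900
open Crest.Agent.R165.Gr0x606 Crest.Agent.R165.Gr1x606 Crest.Agent.R165.GeOpsx337
  Crest.Agent.R165.ExpGx337 Crest.Agent.R165.KFlowx337 Crest.Agent.R165.GrLocx337
open Crest.Agent.R165.SrcDefx991
open Crest.Agent.R165.SrcSysx991
open Crest.Agent.R165.SrcFinx441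
open Crest.Agent.R165.SrcCmpx441
open Crest.Agent.R165.SrcFinBx441 (Nw ra_Nw)
open Crest.Agent.R165.Latx683 (BW wDom wX IsCov covS Fld HE)
open Crest.Agent.R165.GDefx387 Crest.Agent.R165.GSysx387 Crest.Agent.R165.FRDPolyx439
  Crest.Agent.R165.BgIsox432 Crest.Agent.R165.PStepx417
open Crest.Agent.R165.Bkgx683 (MPar mpar Bg cor bondSrc)
open Crest.Agent.R165.Outx683 (DD amp)
open Crest.Agent.R165.PEndx683 (Cst)
open Crest.Agent.R165.J4Geox126 (faE)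
open Crest.Agent.R165.Fin0x315 Crest.Agent.R165.Fin2x315 Crest.Agent.R165.Fin4x315
open Crest.Agent.R165.SrcInsx991
open Crest.Agent.R165.SrcInvx336
open Crest.Agent.R165.SrcCstx484 (LD)
open Crest.Agent.R165.SrcLimx697
open Crest.Agent.R165.W2x812 (BkReg)

/-- **norm of a leading form** -/
theorem pG_beta_le {w : BW ℤ} {R' : ℕ} {z : ℤ × ℤ} {j : Fin 2} {u : ℝ}
    {mu : Ge (Fld ℤ) →ₗ[ℝ] ℝ} {b : Ge (Fld ℤ)} (hd : SrcDat w R' z j u mu b) {C : ℝ}
    (h : BkReg C) {a' : ℝ} {r' : ℕ} (ha' : 0 < a') (hr' : 16 ≤ r')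
    (hR : s1 * r' + MM + 1 ≤ R') {U : Finset (ℤ × ℤ)} (hzU : z ∈ U) :
    pG (wU w a' r' U) b ≤ ENNReal.ofReal (|u| * (11 * C ^ 2 * a' ^ 2 / r')) := by
  obtain ⟨h1, h2, Z, τ, s, τ', s', c, hz, hmu⟩ := hd
  have h3 := bb_small_chart h c ha' hr' hzU
    ((Wtx898.ball_mono z hR).trans hz) j
  have hu : u ≠ 0 := by
    intro h0
    rw [h0, abs_zero] at h2
    linarith
  rw [pG_def, h1, ENNReal.ofReal_mul (abs_nonneg _), pnorm_smul _ _ _ hu]
  refine mul_le_mul' (le_of_eq ?_) h3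
  rw [← Real.norm_eq_abs, ofReal_norm]

theorem abs_uB_le {w : BW ℤ} (hw : ∀ z j, |w z j| ≤ 1) (e : Bkgx683.EG ℤ) : |uB w e| ≤ 2 := by
  show |-(2 * w e.1 e.2)| ≤ 2
  rw [abs_neg, abs_mul, abs_two]
  have := hw e.1 e.2
  linarith

/-- **the leading forms at the last scale** `N` (deep sources at step `N - 1`) -/
theorem beta_last {m M K : ℕ} {w : BW ℤ} (Dd : FRD 16 M K) {mk : Finset (ℤ × ℤ)}
    {e : Fin m → Bkgx683.EG ℤ} {c : Cst} {n : ℕ} (hdp : ∀ i, dpS w mk c.p c.k0 e n i)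
    {κ R Cg : ℝ} (hM : MM ≤ M) (hw : ∀ z j, |w z j| ≤ 1) (hκ : 0 < κ)
    (hR : 0 < R) (hCg : 0 < Cg) (hr : κ * R ≤ rr c.p c.k0 (n + 1)) {C t : ℝ} (h : BkReg C)
    (hA : ampK Dd.C κ Cg ≤ amp c (n + 1)) (hr' : 16 * rr c.p c.k0 n ≤ rr c.p c.k0 (n + 1))
    (h0 : 0 < c.A0) (hδ : 0 ≤ c.δ) (ht : 0 < t) {M' : ℝ} (hM' : 22 * C ^ 2 * t ≤ M') (i : Fin m) :
    Bd (fun a : Ge (Fld ℤ) => pG (FRDRestx439.gr Dd w (Cg * R)⁻¹ (lo c.p c.k0 (n + 1))) a)
      (beB w (e i)) (M' / vS c t (n + 1) ^ 2) := by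
  have ha := amp_pos h0 hδ (n + 1)
  have hrp := rr_pos' c (n + 1)
  have hr1 : 1 ≤ rr c.p c.k0 n := GSysx387.rr_pos c.p c.k0 n
  have hs : s1 * rr c.p c.k0 (n + 1) + MM + 1 ≤ s2 * rr c.p c.k0 (n + 1) :=
    le_trans (by omega) (s1_le_s2 hr1 hr')
  have h1 := pG_beta_le (srcDat_of_dp (hdp i)) h ha (by omega) hs (faE_fst_mem (e i))
  have h2 : pG (FRDRestx439.gr Dd w (Cg * R)⁻¹ (lo c.p c.k0 (n + 1))) (beB w (e i)) ≤
      pG (wU w (amp c (n + 1)) (rr c.p c.k0 (n + 1)) (faE (e i))) (beB w (e i)) :=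
    pnorm_le_pnorm (fun x => gr_lower Dd hM hw (by omega) hκ hR hCg hr hA _ x) _
  refine (h2.trans h1).trans (ENNReal.ofReal_le_ofReal ?_)
  rw [vS_sq ht.le]
  have hu := abs_uB_le hw (e i)
  have h3 : 0 ≤ 11 * C ^ 2 * amp c (n + 1) ^ 2 / (rr c.p c.k0 (n + 1) : ℝ) := by positivity
  calc |uB w (e i)| * (11 * C ^ 2 * amp c (n + 1) ^ 2 / (rr c.p c.k0 (n + 1) : ℝ))
      ≤ 2 * (11 * C ^ 2 * amp c (n + 1) ^ 2 / (rr c.p c.k0 (n + 1) : ℝ)) :=
        mul_le_mul_of_nonneg_right hu h3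
    _ = 22 * C ^ 2 * t / (t * rr c.p c.k0 (n + 1) / amp c (n + 1) ^ 2) := by
        field_simp
        ring
    _ ≤ _ := div_le_div_of_nonneg_right hM' (by positivity)

end Crest.Agent.R165.SrcDomx697
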