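import Crest.Agent.R165.SrcOne_54
import Crest.Agent.R165.SrcInv2_336
import Crest.Agent.R165.SrcK0_991
import Crest.Agent.R165.SrcLim_697
import Crest.Agent.R165.Const_891

/-!
# Row 165 (S0250), leaf P11 (sources): the flow of the remainders, all scales (helper54)

* `close_src`, `close_joint` : the scalar recursions closed, constants chosen first
* `n3p`, `coneP` : the constants at the scales `rr p k0 n`
* `pG_beta` : norm of a leading form;  `hT_le` : norm of the leading part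
* `flow_rec` : **the total norm of the remainders at all scales** of one background
-/

set_option autoImplicit false
set_option linter.unusedSectionVars false

noncomputable section

open scoped ENNReal
open Crest.Agent.R165.Gr0x606 Crest.Agent.R165.Gr1x606 Crest.Agent.R165.GeOpsx337
  Crest.Agent.R165.ExpGx337 Crest.Agent.R165.KFlowx337
  Crest.Agent.R165.SrcDefx991 Crest.Agent.R165.SrcSysx991 Crest.Agent.R165.SrcStepx54
  Crest.Agent.R165.SrcRecx54 Crest.Agent.R165.SrcInsx991 Crest.Agent.R165.SrcLimx697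
  Crest.Agent.R165.GSysx387 Crest.Agent.R165.GDefx387 Crest.Agent.R165.PStepx417
  Crest.Agent.R165.PNormx417 Crest.Agent.R165.Latx683 Crest.Agent.R165.SrcInvx336
  Crest.Agent.R165.SrcLinx336 Crest.Agent.R165.Bridgex915 Crest.Agent.R165.NSumx915
  Crest.Agent.R165.DefRecx915 Crest.Agent.R165.Bkgx683 Crest.Agent.R165.PEndx683
  Crest.Agent.R165.Outx683 Crest.Agent.R165.Constx891 Crest.Agent.R165.J4Geox126
  Crest.Agent.R165.W2x812 Crest.Agent.R165.WChx336 Crest.Agent.R165.Srcx336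
  Crest.Agent.R165.BgIsox432 Crest.Agent.R165.FRDPolyx439

namespace Crest.Agent.R165.SrcFlowx54

/-! ### the scalar recursions -/

section scalar

/-- the constant of the conclusion -/
def cM (C M0 : ℝ≥0∞) : ℝ≥0∞ := M0 + 4 * C

/-- the radius -/
def cE (C M0 D : ℝ≥0∞) : ℝ≥0∞ := (3 * (8 * C + D + 1) * (cM C M0 + 1))⁻¹

theorem cM_ne_top {C M0 : ℝ≥0∞} (hC : C ≠ ∞) (hM0 : M0 ≠ ∞) : cM C M0 ≠ ∞ :=
  ENNReal.add_ne_top.2 ⟨hM0, ENNReal.mul_ne_top (by norm_num) hC⟩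

theorem cE_den {C M0 D : ℝ≥0∞} (hC : C ≠ ∞) (hM0 : M0 ≠ ∞) (hD : D ≠ ∞) :
    3 * (8 * C + D + 1) * (cM C M0 + 1) ≠ ∞ := by
  refine ENNReal.mul_ne_top (ENNReal.mul_ne_top (by norm_num) ?_) ?_
  · exact ENNReal.add_ne_top.2 ⟨ENNReal.add_ne_top.2 ⟨ENNReal.mul_ne_top (by norm_num) hC, hD⟩,
      ENNReal.one_ne_top⟩
  · exact ENNReal.add_ne_top.2 ⟨cM_ne_top hC hM0, ENNReal.one_ne_top⟩

theorem cE_pos {C M0 D : ℝ≥0∞} (hC : C ≠ ∞) (hM0 : M0 ≠ ∞) (hD : D ≠ ∞) : cE C M0 D ≠ 0 :=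
  ENNReal.inv_ne_zero.2 (cE_den hC hM0 hD)

theorem cE_le_one (C M0 D : ℝ≥0∞) : cE C M0 D ≤ 1 := by
  refine ENNReal.inv_le_one.2 ?_
  calc (1 : ℝ≥0∞) = 1 * 1 * 1 := by norm_num
    _ ≤ 3 * (8 * C + D + 1) * (cM C M0 + 1) :=
      mul_le_mul' (mul_le_mul' (by norm_num) le_add_self) le_add_self

theorem small {C M0 D ε T : ℝ≥0∞} (hε : ε ≤ cE C M0 D) (hT : T ≤ cE C M0 D) :
    (8 * C + D + 1) * (ε + T + cM C M0 * ε * T) ≤ 1 := by
  have hT1 : T ≤ 1 := hT.trans (cE_le_one _ _ _)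
  have h1 : ε + T + cM C M0 * ε * T ≤ 3 * (cM C M0 + 1) * cE C M0 D := by
    calc ε + T + cM C M0 * ε * T ≤ cE C M0 D + cE C M0 D + cM C M0 * cE C M0 D * 1 := by gcongr
      _ = (2 + cM C M0) * cE C M0 D := by ring
      _ ≤ _ := by
        refine mul_le_mul_left ?_ _
        calc 2 + cM C M0 ≤ 3 + 3 * cM C M0 :=
              add_le_add (by norm_num) (le_mul_of_one_le_left' (by norm_num))
          _ = _ := by ring
  calc (8 * C + D + 1) * (ε + T + cM C M0 * ε * T)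
      ≤ (8 * C + D + 1) * (3 * (cM C M0 + 1) * cE C M0 D) := by gcongr
    _ = (3 * (8 * C + D + 1) * (cM C M0 + 1)) * cE C M0 D := by ring
    _ ≤ 1 := ENNReal.mul_inv_le_one _

theorem quarter_four (x : ℝ≥0∞) : (1 / 4 : ℝ≥0∞) * (4 * x) = x := by
  rw [← mul_assoc, one_div, ENNReal.inv_mul_cancel (by norm_num) (by norm_num), one_mul]

theorem eighth_eight (x : ℝ≥0∞) : (1 / 8 : ℝ≥0∞) * (8 * x) = x := by
  rw [← mul_assoc, one_div, ENNReal.inv_mul_cancel (by norm_num) (by norm_num), one_mul]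

theorem two_eighth : (1 / 8 + 1 / 8 : ℝ≥0∞) = 1 / 4 := by
  rw [ENNReal.eq_div_iff (by norm_num) (by norm_num)]
  calc (4 : ℝ≥0∞) * (1 / 8 + 1 / 8) = 8 * (1 / 8) := by ring
    _ = 1 := by rw [one_div, ENNReal.mul_inv_cancel (by norm_num) (by norm_num)]

theorem two_quarter : (1 / 4 + 1 / 4 : ℝ≥0∞) = 1 / 2 := by
  rw [ENNReal.eq_div_iff (by norm_num) (by norm_num)]
  calc (2 : ℝ≥0∞) * (1 / 4 + 1 / 4) = 4 * (1 / 4) := by ring
    _ = 1 := by rw [one_div, ENNReal.mul_inv_cancel (by norm_num) (by norm_num)]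

theorem hM_of {C M0 D ε T κ : ℝ≥0∞} (hκ : κ ≤ 1 / 8) (hε : ε ≤ cE C M0 D)
    (hT : T ≤ cE C M0 D) :
    (κ + C * (ε + T + cM C M0 * ε * T)) * cM C M0 + C ≤ cM C M0 * (1 / 2) := by
  have h1 := small hε hT
  have h2 : C * (ε + T + cM C M0 * ε * T) ≤ 1 / 8 := by
    rw [← eighth_eight (C * (ε + T + cM C M0 * ε * T))]
    conv_rhs => rw [← mul_one (1 / 8 : ℝ≥0∞)]
    refine mul_le_mul_right (le_trans ?_ h1) _
    rw [← mul_assoc]
    refine mul_le_mul_left ?_ _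
    rw [add_assoc]
    exact le_self_add
  calc (κ + C * (ε + T + cM C M0 * ε * T)) * cM C M0 + C
      ≤ (1 / 8 + 1 / 8) * cM C M0 + (1 / 4) * (4 * C) := by
        rw [quarter_four]
        gcongr
    _ ≤ (1 / 4) * cM C M0 + (1 / 4) * cM C M0 := by
        rw [two_eighth]
        gcongr
        exact le_add_self
    _ = cM C M0 * (1 / 2) := by rw [← add_mul, two_quarter, mul_comm]

theorem half_pow_le (k : ℕ) : (1 / 2 : ℝ≥0∞) ^ k ≤ 1 :=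
  pow_le_one₀ (by simp) (by rw [one_div]; exact ENNReal.inv_le_one.2 (by norm_num))

theorem half_le_one : (1 / 2 : ℝ≥0∞) ≤ 1 := by
  rw [one_div]; exact ENNReal.inv_le_one.2 (by norm_num)

/-- **closing the recursion** (bounded running coefficients are an input of the step) -/
theorem close_src {C M0 D : ℝ≥0∞} {b e : ℕ → ℝ≥0∞} {N : ℕ} {ε T κ : ℝ≥0∞}
    (hκ : κ ≤ 1 / 8) (hε : ε ≤ cE C M0 D) (hT : T ≤ cE C M0 D)
    (hb : ∀ k < N, b k ≤ ε * (1 / 2) ^ k) (h0 : e 0 ≤ M0 * ε * T)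
    (hstep : ∀ k < N, D * (b k + T + e k) ≤ 1 →
      e (k + 1) ≤ (κ + C * (b k + T + e k)) * e k + C * (b k * T)) :
    ∀ k ≤ N, e k ≤ cM C M0 * ε * T * (1 / 2) ^ k := by
  have hsm := small hε hT
  intro k hk
  refine src_rec (b := fun k => if k < N then b k else 0) (t := T) (κ := κ) (C := C)
    half_le_one (fun k _ => ?_) ?_ (hM_of hκ hε hT) (fun k hk h1 => ?_) k hk
  · show (if k < N then b k else 0) ≤ _
    split_ifs with h
    · exact hb k h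
    · exact zero_le
  · refine h0.trans ?_
    gcongr
    exact le_self_add
  · rw [if_pos hk]
    refine hstep k hk (le_trans ?_ hsm)
    refine mul_le_mul' ?_ ?_
    · calc D ≤ 8 * C + D := le_add_self
        _ ≤ _ := le_self_add
    · refine add_le_add (add_le_add ?_ le_rfl) ?_
      · exact (hb k hk).trans (mul_le_of_le_one_right' (half_pow_le k))
      · exact h1.trans (mul_le_of_le_one_right' (half_pow_le k))

/-- **closing the joint recursion** for the remainder and the running coefficients -/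
theorem close_joint {C M0 D a : ℝ≥0∞} {ι : Type*} {b e : ℕ → ℝ≥0∞} {z : ℕ → ι → ℝ} {N : ℕ}
    {ε T κ : ℝ≥0∞} (hκ : κ ≤ 1 / 8) (hε : ε ≤ cE C M0 D) (hT : T ≤ cE C M0 D) (hT0 : T ≠ 0)
    (hTt : T ≠ ∞) (ha : 4 * a * cM C M0 * ε ≤ 1)
    (hb : ∀ k < N, b k ≤ ε * (1 / 2) ^ k) (h0 : e 0 ≤ M0 * ε * T)
    (hz0 : ∀ i, ‖z 0 i‖ₑ ≤ 3 / 2) (hz : ∀ k < N, ∀ i, T * ‖z (k + 1) i - z k i‖ₑ ≤ a * e k)
    (hstep : ∀ k < N, D * (b k + T + e k) ≤ 1 → (∀ i, ‖z k i‖ₑ ≤ 2) →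
      e (k + 1) ≤ (κ + C * (b k + T + e k)) * e k + C * (b k * T)) :
    ∀ k ≤ N, e k ≤ cM C M0 * ε * T * (1 / 2) ^ k ∧ ∀ i, ‖z k i‖ₑ ≤ 2 := by
  have hsm := small hε hT
  refine src_rec_joint (b := fun k => if k < N then b k else 0) (t := T) (κ := κ) (C := C)
    (a := a * T⁻¹) half_le_one (fun k _ => ?_) ?_ (hM_of hκ hε hT) hz0 ?_ (fun k hk i => ?_)
    (fun k hk h1 h2 => ?_)
  · show (if k < N then b k else 0) ≤ _
    split_ifs with h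
    · exact hb k h
    · exact zero_le
  · refine h0.trans ?_
    gcongr
    exact le_self_add
  · have h3 : (1 - 1 / 2 : ℝ≥0∞)⁻¹ = 2 := by
      rw [one_div, ENNReal.one_sub_inv_two, inv_inv]
    have h4 : T⁻¹ * T = 1 := ENNReal.inv_mul_cancel hT0 hTt
    rw [h3]
    calc a * T⁻¹ * (cM C M0 * ε * T) * 2 = (T⁻¹ * T) * (a * cM C M0 * ε * 2) := by ring
      _ = (1 / 2) * (4 * a * cM C M0 * ε) := by
          rw [h4, one_mul]
          have h22 : (1 / 2 : ℝ≥0∞) * 2 = 1 := by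
            rw [one_div, ENNReal.inv_mul_cancel (by norm_num) (by norm_num)]
          calc a * cM C M0 * ε * 2 = ((1 / 2) * 2) * (a * cM C M0 * ε * 2) := by
                rw [h22, one_mul]
            _ = _ := by ring
      _ ≤ (1 / 2) * 1 := mul_le_mul_right ha _
      _ = 1 / 2 := mul_one _
  · have h4 : T⁻¹ * T = 1 := ENNReal.inv_mul_cancel hT0 hTt
    calc ‖z (k + 1) i - z k i‖ₑ = T⁻¹ * (T * ‖z (k + 1) i - z k i‖ₑ) := by
          rw [← mul_assoc, h4, one_mul]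
      _ ≤ T⁻¹ * (a * e k) := mul_le_mul_right (hz k hk i) _
      _ = _ := by ring
  · rw [if_pos hk]
    refine hstep k hk (le_trans ?_ hsm) h2
    refine mul_le_mul' ?_ ?_
    · calc D ≤ 8 * C + D := le_add_self
        _ ≤ _ := le_self_add
    · refine add_le_add (add_le_add ?_ le_rfl) ?_
      · exact (hb k hk).trans (mul_le_of_le_one_right' (half_pow_le k))
      · exact h1.trans (mul_le_of_le_one_right' (half_pow_le k))

end scalar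

/-! ### the constants at the scales -/

section consts

variable {c : Cst} {C : ℝ} {A Γ : ℝ≥0∞}

/-- bound of the covering numbers -/
def n3p (p : ℕ) : ℝ≥0∞ := (((2 * (2 ^ p + 1) + 3) ^ 2 : ℕ) : ℝ≥0∞)

theorem nn3_le (p k0 n : ℕ) :
    (nn3 (rr p k0 (n + 1)) (nearR p k0 (n + 1)) : ℝ≥0∞) ≤ n3p p := by
  unfold n3p
  refine Nat.cast_le.2 ?_
  unfold nn3
  exact Nat.pow_le_pow_left (by have := near_div p k0 n; omega) 2

theorem n3p_ne_top (p : ℕ) : n3p p ≠ ∞ := ENNReal.natCast_ne_top _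

/-- the factor of the linear part at the scales `rr p k0 n` -/
def qLp (c0 Λ A Γ : ℝ≥0∞) (C : ℝ) (p : ℕ) : ℝ≥0∞ :=
  max (c0 * (Λ * ENNReal.ofReal (16 * (340000 * C + 1) ^ 2 * (((2 : ℝ) ^ p)⁻¹) ^ 2)))
    ((c0 * Λ * A) ^ 2 * Γ⁻¹)

theorem qL_eq (c0 Λ A Γ : ℝ≥0∞) (C : ℝ) (p k0 n : ℕ) :
    qL c0 Λ A Γ C (rr p k0 n) (rr p k0 (n + 1)) = qLp c0 Λ A Γ C p := by
  unfold qL qLp
  rw [ratio_rr]

/-- the factor of the remainders at the scales `rr p k0 n` -/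
def coneP (A Γ : ℝ≥0∞) (C : ℝ) (p : ℕ) : ℝ≥0∞ :=
  3 * ((2 ^ p : ℕ) : ℝ≥0∞) + qLp 3 ((2 ^ p : ℕ) : ℝ≥0∞) A Γ C p +
    2 * qH 3 ((2 ^ p : ℕ) : ℝ≥0∞) A Γ

theorem cone_eq (A Γ : ℝ≥0∞) (C : ℝ) (p k0 n : ℕ) :
    cone 3 ((2 ^ p : ℕ) : ℝ≥0∞) A Γ C (rr p k0 n) (rr p k0 (n + 1)) = coneP A Γ C p := by
  unfold cone coneP
  rw [qL_eq]

theorem sq_inv_ne_top {x : ℝ≥0∞} (hx : x ≠ ∞) (hΓ : Γ ≠ 0) : x ^ 2 * Γ⁻¹ ≠ ∞ :=
  ENNReal.mul_ne_top (ENNReal.pow_ne_top hx) (ENNReal.inv_ne_top.2 hΓ)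

theorem coneP_ne_top (hA : A ≠ ∞) (hΓ : Γ ≠ 0) (C : ℝ) (p : ℕ) : coneP A Γ C p ≠ ∞ := by
  have h1 : (3 : ℝ≥0∞) * ((2 ^ p : ℕ) : ℝ≥0∞) ≠ ∞ :=
    ENNReal.mul_ne_top (by norm_num) (ENNReal.natCast_ne_top _)
  have h2 : (3 * ((2 ^ p : ℕ) : ℝ≥0∞) * A) ^ 2 * Γ⁻¹ ≠ ∞ :=
    sq_inv_ne_top (ENNReal.mul_ne_top h1 hA) hΓ
  refine ENNReal.add_ne_top.2 ⟨ENNReal.add_ne_top.2 ⟨h1, ?_⟩,
    ENNReal.mul_ne_top (by norm_num) ?_⟩
  · unfold qLp
    refine (max_lt (lt_top_iff_ne_top.2 ?_) (lt_top_iff_ne_top.2 h2)).ne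
    exact ENNReal.mul_ne_top (by norm_num)
      (ENNReal.mul_ne_top (ENNReal.natCast_ne_top _) ENNReal.ofReal_ne_top)
  · unfold qH
    exact (max_lt (lt_top_iff_ne_top.2 h1) (lt_top_iff_ne_top.2 h2)).ne

theorem cC1_mono {n n' x : ℝ≥0∞} (h : n ≤ n') : cC1 n x ≤ cC1 n' x := by
  unfold cC1
  gcongr

theorem cC1_ne_top {n x : ℝ≥0∞} (hn : n ≠ ∞) (hx : x ≠ ∞) : cC1 n x ≠ ∞ := by
  have h8 : 8 * n ≠ ∞ := ENNReal.mul_ne_top (by norm_num) hn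
  unfold cC1
  refine ENNReal.add_ne_top.2 ⟨ENNReal.mul_ne_top (ENNReal.add_ne_top.2 ⟨by norm_num, h8⟩)
    (ENNReal.mul_ne_top hx (ENNReal.add_ne_top.2 ⟨by norm_num, hx⟩)),
    ENNReal.add_ne_top.2 ⟨by norm_num, h8⟩⟩

end consts

/-! ### the leading part -/

section lead

/-- **norm of a leading form** -/
theorem pG_beta {w : BW ℤ} {R' : ℕ} {z : ℤ × ℤ} {j : Fin 2} {u : ℝ}
    {mu : Ge (Fld ℤ) →ₗ[ℝ] ℝ} {b : Ge (Fld ℤ)} (hd : SrcDat w R' z j u mu b) {C : ℝ}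
    (h : BkReg C) {a' : ℝ} {r' : ℕ} (ha' : 0 < a') (hr' : 16 ≤ r')
    (hR : s1 * r' + MM + 1 ≤ R') {U : Finset (ℤ × ℤ)} (hzU : z ∈ U) (hu : |u| ≤ 2) :
    pG (wU w a' r' U) b ≤ ENNReal.ofReal (22 * C ^ 2 * a' ^ 2 / r') := by
  obtain ⟨h1, h2, Z, τ, s, τ', s', c, hz, hmu⟩ := hd
  have h3 := bb_small_chart h c ha' hr' hzU
    ((Wtx898.ball_mono z hR).trans hz) j
  have hu0 : u ≠ 0 := by
    intro h0
    rw [h0, abs_zero] at h2
    linarith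
  have hr0 : (0 : ℝ) < r' := by exact_mod_cast (by omega : 0 < r')
  rw [pG_def, h1, pnorm_smul _ _ _ hu0]
  calc ‖u‖ₑ * pnorm (wU w a' r' U) (bb z j)
      ≤ ENNReal.ofReal 2 * ENNReal.ofReal (11 * C ^ 2 * a' ^ 2 / r') := by
        refine mul_le_mul' ?_ h3
        rw [Real.enorm_eq_ofReal_abs]
        exact ENNReal.ofReal_le_ofReal hu
    _ = _ := by
        rw [← ENNReal.ofReal_mul (by norm_num)]
        congr 1
        ring

theorem abs_uB {w : BW ℤ} (hw : ∀ z j, |w z j| ≤ 1) (e : Bkgx683.EG ℤ) : |uB w e| ≤ 2 := by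
  show |-(2 * w e.1 e.2)| ≤ 2
  rw [abs_neg, abs_mul, abs_two]
  have := hw e.1 e.2
  linarith

variable {m : ℕ} {w : BW ℤ} {c : Cst} {C t : ℝ} {k : ℕ}

/-- **norm of the leading part** -/
theorem hT_le (hw : ∀ z j, |w z j| ≤ 1) {e : Fin m → Bkgx683.EG ℤ}
    (he : ∀ i, w (e i).1 (e i).2 ≠ 0) (hb : BkReg C) (ht : 0 ≤ t) (hs : Std c)
    (hrr : 16 * rr c.p c.k0 k ≤ rr c.p c.k0 (k + 1)) (hdp : ∀ i, dpS w ∅ c.p c.k0 e k i)
    {Γ : ℝ≥0∞} {z : Fin m → ℝ} (hz : ∀ i, |z i| ≤ 2) :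
    ∑ i, 9 * Γ * (ENNReal.ofReal (vS c t (k + 1)) ^ 2 * (‖z i‖ₑ *
      pG (wU w (amp c (k + 1)) (rr c.p c.k0 (k + 1)) ((srcD w e he).sf i)) ((srcD w e he).β i))) ≤
    (396 * Γ * ENNReal.ofReal (C ^ 2)) * (m * ENNReal.ofReal t) := by
  have hA0 : 0 < c.A0 := one_pos.trans_le hs.A0_ge
  have ha : 0 < amp c (k + 1) := amp_pos hA0 hs.δ_pos.le _
  have hr1 : 1 ≤ rr c.p c.k0 k := GSysx387.rr_pos c.p c.k0 k
  have hrp := rr_pos' c (k + 1)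
  have hone : ∀ i : Fin m, 9 * Γ * (ENNReal.ofReal (vS c t (k + 1)) ^ 2 * (‖z i‖ₑ *
      pG (wU w (amp c (k + 1)) (rr c.p c.k0 (k + 1)) ((srcD w e he).sf i))
        ((srcD w e he).β i))) ≤ 396 * Γ * ENNReal.ofReal (C ^ 2) * ENNReal.ofReal t := by
    intro i
    have h1 : pG (wU w (amp c (k + 1)) (rr c.p c.k0 (k + 1)) ((srcD w e he).sf i))
        ((srcD w e he).β i) ≤
        ENNReal.ofReal (22 * C ^ 2 * amp c (k + 1) ^ 2 / (rr c.p c.k0 (k + 1) : ℕ)) :=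
      pG_beta (srcDat_of_dp (hdp i)) hb ha (by omega)
        (le_trans (by omega) (s1_le_s2 hr1 hrr)) (faE_fst_mem (e i)) (abs_uB hw _)
    have h2 : ‖z i‖ₑ ≤ 2 := by
      rw [Real.enorm_eq_ofReal_abs, show (2 : ℝ≥0∞) = ENNReal.ofReal 2 by norm_num]
      exact ENNReal.ofReal_le_ofReal (hz i)
    have h3 : ENNReal.ofReal (vS c t (k + 1)) ^ 2 *
        ENNReal.ofReal (22 * C ^ 2 * amp c (k + 1) ^ 2 / (rr c.p c.k0 (k + 1) : ℕ)) =
        22 * ENNReal.ofReal (C ^ 2) * ENNReal.ofReal t := by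
      have hv : 0 ≤ vS c t (k + 1) := by
        unfold SrcLimx697.vS; positivity
      rw [← ENNReal.ofReal_pow hv, vS_sq ht, ← ENNReal.ofReal_mul (by positivity),
        show (22 : ℝ≥0∞) = ENNReal.ofReal 22 by norm_num,
        ← ENNReal.ofReal_mul (by norm_num), ← ENNReal.ofReal_mul (by positivity)]
      congr 1
      field_simp
    calc _ ≤ 9 * Γ * (ENNReal.ofReal (vS c t (k + 1)) ^ 2 * (2 *
          ENNReal.ofReal (22 * C ^ 2 * amp c (k + 1) ^ 2 / (rr c.p c.k0 (k + 1) : ℕ)))) := by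
          gcongr
      _ = 18 * Γ * (ENNReal.ofReal (vS c t (k + 1)) ^ 2 *
          ENNReal.ofReal (22 * C ^ 2 * amp c (k + 1) ^ 2 / (rr c.p c.k0 (k + 1) : ℕ))) := by
          ring
      _ = _ := by rw [h3]; ring
  refine (Finset.sum_le_sum fun i _ => hone i).trans (le_of_eq ?_)
  rw [Finset.sum_const, Finset.card_univ, Fintype.card_fin, nsmul_eq_mul]
  ring

end lead

/-! ### all scales -/

/-- **the inputs of the recursion** for one background, `m` sources, `N` steps -/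
structure FHyp (c : Cst) (C : ℝ) (A CF : ℝ≥0∞) {m : ℕ} (B : Bg ℤ) (P : MPar)
    (e : Fin m → Bkgx683.EG ℤ) (he : ∀ i, B.w (e i).1 (e i).2 ≠ 0) (ε : ℝ≥0∞) (N : ℕ) :
    Prop where
  hw : ∀ z j, |B.w z j| ≤ 1
  inj : Function.Injective fun i => faE (e i)
  st : ∀ k < N, ∃ (g : Fld ℤ → ℝ≥0∞) (εg : ℝ≥0∞), StepHyp B.w C (amp c k) (amp c (k + 1))
    (rr c.p c.k0 k) (rr c.p c.k0 (k + 1)) ((flow0 B P DD ∅ c.p c.k0).S k) g εg A
    (ENNReal.ofReal c.Γ) 3 ((2 ^ c.p : ℕ) : ℝ≥0∞) (nearR c.p c.k0 k)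
  dp : ∀ k < N, ∀ i, dpS B.w ∅ c.p c.k0 e k i
  sep : ∀ k < N, ∀ i j, i ≠ j → rr c.p c.k0 k < fd (e i).1 (e j).1
  far : ∀ k < N, ∀ i j, i ≠ j →
    ¬ KStepx892.touch (near c.p c.k0 (k + 1)) (faE (e i)) (faE (e j))
  conn : ∀ k < N, ∀ U, ppP B P DD ∅ e he c.p c.k0 k U ≠ 0 →
    Packx915.Conn fd (nearR c.p c.k0 k) U
  bulkH : ∀ k < N, NN fd (rr c.p c.k0 (k + 1)) (3 * ENNReal.ofReal c.Γ)
    (fun U => pG (wU B.w (amp c (k + 1)) (rr c.p c.k0 (k + 1)) U)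
      ((flow0 B P DD ∅ c.p c.k0).H k U)) ≤ CF * (ε * (1 / 2) ^ k)
  bulkA : ∀ k < N, NN fd (rr c.p c.k0 (k + 1)) (3 * ENNReal.ofReal c.Γ)
    (fun U => pG (wU B.w (amp c (k + 1)) (rr c.p c.k0 (k + 1)) U)
      ((flow0 B P DD ∅ c.p c.k0).A k U)) ≤ CF * (ε * (1 / 2) ^ k)

/-- **the total norm of the remainder** at the scale `k`, source weights `vS c t k` -/
def totP (c : Cst) {m : ℕ} (B : Bg ℤ) (P : MPar) (e : Fin m → Bkgx683.EG ℤ)
    (he : ∀ i, B.w (e i).1 (e i).2 ≠ 0) (t : ℝ) (k : ℕ) : ℝ≥0∞ :=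
  Tot (fun U => wU B.w (amp c k) (rr c.p c.k0 k) U) (fun _ => ENNReal.ofReal (vS c t k))
    (ENNReal.ofReal c.Γ) (rr c.p c.k0 k) (ppP B P DD ∅ e he c.p c.k0 k)

section flow

variable {c : Cst} {C : ℝ} {A CF : ℝ≥0∞} {m : ℕ} {B : Bg ℤ} {P : MPar}
  {e : Fin m → Bkgx683.EG ℤ} {he : ∀ i, B.w (e i).1 (e i).2 ≠ 0} {ε : ℝ≥0∞} {N : ℕ} {t : ℝ}

theorem FHyp.src (h : FHyp c C A CF B P e he ε N) (hs : Std c) (ht : 0 < t) {k : ℕ} (hk : k < N) :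
    SrcHyp B.w (rr c.p c.k0 k) (rr c.p c.k0 (k + 1)) ((2 ^ c.p : ℕ) : ℝ≥0∞)
      (fun _ => ENNReal.ofReal (vS c t k)) (fun _ => ENNReal.ofReal (vS c t (k + 1)))
      (srcD B.w e he) (dpS B.w ∅ c.p c.k0 e k) (fun i => (e i).1) (fun i => (e i).2)
      (fun i => uB B.w (e i)) := by
  have hA0 : 0 < c.A0 := one_pos.trans_le hs.A0_ge
  have hv : ∀ k, 0 < vS c t k := vS_pos ht hA0 hs.δ_pos.le
  refine srcHyp_of_dp he (h.dp k hk) (sixteen_rr hs.p_pos c.k0 k) (h.sep k hk)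
    (fun _ => by rw [Ne, ENNReal.ofReal_eq_zero, not_le]; exact hv _)
    (fun _ => by rw [Ne, ENNReal.ofReal_eq_zero, not_le]; exact hv _)
    (fun _ => ENNReal.ofReal_ne_top) (fun _ => ?_)
  have h1 := vS_hi (c := c) ht hA0 hs.δ_pos.le k
  rw [← ENNReal.ofReal_pow (hv _).le, ← ENNReal.ofReal_pow (hv _).le,
    show ((2 ^ c.p : ℕ) : ℝ≥0∞) = ENNReal.ofReal (2 ^ c.p) by
      rw [ENNReal.ofReal_pow (by norm_num)]; push_cast; norm_num,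
    ← ENNReal.ofReal_mul (by positivity)]
  exact ENNReal.ofReal_le_ofReal h1

/-- the constant of the steps -/
def cStep (A Γ : ℝ≥0∞) (C : ℝ) (p : ℕ) : ℝ≥0∞ := cC1 (n3p p) (coneP A Γ C p)

/-- the constant of the smallness condition -/
def cSm (A Γ : ℝ≥0∞) (C : ℝ) (p : ℕ) : ℝ≥0∞ := 16 * n3p p * (2 + coneP A Γ C p)

theorem one_le_n3p (p : ℕ) : 1 ≤ n3p p := by
  unfold n3p
  have : 1 ≤ (2 * (2 ^ p + 1) + 3) ^ 2 := Nat.one_le_pow _ _ (by omega)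
  exact_mod_cast this

theorem one_le_cSm (A Γ : ℝ≥0∞) (C : ℝ) (p : ℕ) : 1 ≤ cSm A Γ C p := by
  calc (1 : ℝ≥0∞) = 1 * 1 * 1 := by norm_num
    _ ≤ 16 * n3p p * (2 + coneP A Γ C p) :=
      mul_le_mul' (mul_le_mul' (by norm_num) (one_le_n3p p))
        (le_trans (by norm_num) (le_self_add (a := (2 : ℝ≥0∞))))

/-- the constant of the leading part -/
def cT (Γ : ℝ≥0∞) (C : ℝ) : ℝ≥0∞ := 396 * Γ * ENNReal.ofReal (C ^ 2) + 1

/-- **one step** of the flow with bond sources -/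
theorem FHyp.step (h : FHyp c C A CF B P e he ε N) (hs : Std c) (hb : BkReg C) (ht : 0 < t)
    {k : ℕ} (hk : k < N) (hz : ∀ i, |zeP B P DD ∅ e he c.p c.k0 k i| ≤ 2) {b' : ℝ≥0∞}
    (hb0 : b' ≠ 0) (hb' : CF * (ε * (1 / 2) ^ k) ≤ b')
    (hsm : cSm A (ENNReal.ofReal c.Γ) C c.p * ((b' + b') +
      cT (ENNReal.ofReal c.Γ) C * (m * ENNReal.ofReal t) + totP c B P e he t k) ≤ 1) :
    totP c B P e he t (k + 1) ≤
      (qLp 1 ((2 ^ c.p : ℕ) : ℝ≥0∞) A (ENNReal.ofReal c.Γ) C c.p +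
        cStep A (ENNReal.ofReal c.Γ) C c.p * ((b' + b') +
          cT (ENNReal.ofReal c.Γ) C * (m * ENNReal.ofReal t) + totP c B P e he t k)) *
        totP c B P e he t k +
      cStep A (ENNReal.ofReal c.Γ) C c.p * ((b' + b') *
        (cT (ENNReal.ofReal c.Γ) C * (m * ENNReal.ofReal t))) := by
  obtain ⟨g, εg, hst⟩ := h.st k hk
  have HS := h.src hs ht hk
  set Γ : ℝ≥0∞ := ENNReal.ofReal c.Γ with hΓ
  set TT : ℝ≥0∞ := cT Γ C * (m * ENNReal.ofReal t) with hTT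
  set ek : ℝ≥0∞ := totP c B P e he t k with hek
  have hT := hT_le h.hw he hb ht.le hs (sixteen_rr hs.p_pos c.k0 k) (h.dp k hk) (Γ := Γ)
    (z := zeP B P DD ∅ e he c.p c.k0 k) hz
  have hT' : (396 * Γ * ENNReal.ofReal (C ^ 2)) * (m * ENNReal.ofReal t) ≤ TT :=
    mul_le_mul_left le_self_add _
  have hle1 : (b' + b') + TT + ek ≤ 1 := by
    refine le_trans ?_ hsm
    exact le_mul_of_one_le_left' (one_le_cSm _ _ _ _)
  have hT1 : TT ≤ 1 := le_trans (le_trans le_add_self le_self_add) hle1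
  have hsm' : 16 * (nn3 (rr c.p c.k0 (k + 1)) (nearR c.p c.k0 (k + 1)) : ℝ≥0∞) *
      ((b' + b') + TT + cone 3 ((2 ^ c.p : ℕ) : ℝ≥0∞) A Γ C (rr c.p c.k0 k)
        (rr c.p c.k0 (k + 1)) * ek + (b' + b') * TT) ≤ 1 := by
    rw [cone_eq]
    refine le_trans ?_ hsm
    calc _ ≤ 16 * n3p c.p * ((b' + b') + TT + coneP A Γ C c.p * ek + (b' + b') * 1) := by
          gcongr
          exact nn3_le _ _ _
      _ = 16 * n3p c.p * (2 * (b' + b') + 1 * TT + coneP A Γ C c.p * ek) := by ring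
      _ ≤ 16 * n3p c.p * ((2 + coneP A Γ C c.p) * (b' + b') + (2 + coneP A Γ C c.p) * TT +
          (2 + coneP A Γ C c.p) * ek) := by
          gcongr
          · exact le_self_add
          · exact le_trans (by norm_num) (le_self_add (a := (2 : ℝ≥0∞)))
          · exact le_add_self
      _ = _ := by rw [cSm]; ring
  have key := one_step (SOK_flowP B P DD ∅ e c.p c.k0)
    (fun U I hI => K0P_sup B P e c.p c.k0 U I hI)
    (rs := rr c.p c.k0) (dpn := dpS B.w ∅ c.p c.k0 e) (fs := fldUS fun i => faE (e i))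
    (R := srcD B.w e he) (fun _ => 1) k rfl hst HS (h.conn k hk) h.inj
    (R' := nearR c.p c.k0 (k + 1)) rfl (h.far k hk) (b1 := b') (b2 := b')
    ((h.bulkH k hk).trans hb') ((h.bulkA k hk).trans hb')
    (by simpa using hb0) (TT := TT) (hT.trans hT') (e := ek) le_rfl hT1 hsm'
  refine key.trans ?_
  rw [qL_eq, cone_eq]
  have hc1 : cC1 (nn3 (rr c.p c.k0 (k + 1)) (nearR c.p c.k0 (k + 1)) : ℝ≥0∞)
      (coneP A Γ C c.p) ≤ cStep A Γ C c.p := cC1_mono (nn3_le _ _ _)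
  gcongr

/-- **the increments of the running coefficients** -/
theorem FHyp.zeta_incr (h : FHyp c C A CF B P e he ε N) (hs : Std c) (ht : 0 < t) {k : ℕ}
    (hk : k < N) (i : Fin m) :
    ENNReal.ofReal t * ‖zeP B P DD ∅ e he c.p c.k0 (k + 1) i - zeP B P DD ∅ e he c.p c.k0 k i‖ₑ ≤
      ENNReal.ofReal (4 * 516 ^ 2) * totP c B P e he t k := by
  obtain ⟨g, εg, hst⟩ := h.st k hk
  have HS := h.src hs ht hk
  have hA0 : 0 < c.A0 := one_pos.trans_le hs.A0_ge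
  have ha := amp_pos hA0 hs.δ_pos.le k
  have hr := rr_pos' c k
  have key := one_zeta (SOK_flowP B P DD ∅ e c.p c.k0) (rs := rr c.p c.k0)
    (dpn := dpS B.w ∅ c.p c.k0 e) (fs := fldUS fun i => faE (e i))
    (R := srcD B.w e he) (fun _ => 1) k rfl hst HS i
  have hΓ1 : (1 : ℝ≥0∞) ≤ ENNReal.ofReal c.Γ := hst.hΓ1
  have hv : 0 ≤ vS c t k := (vS_pos ht hA0 hs.δ_pos.le k).le
  set x : ℝ := (rr c.p c.k0 k : ℝ) / amp c k ^ 2 with hx
  have hx0 : 0 < x := by positivity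
  have hxt : ENNReal.ofReal x ≠ ∞ := ENNReal.ofReal_ne_top
  have hxz : ENNReal.ofReal x ≠ 0 := by rw [Ne, ENNReal.ofReal_eq_zero, not_le]; exact hx0
  have e1 : ENNReal.ofReal (vS c t k) ^ 2 = ENNReal.ofReal x * ENNReal.ofReal t := by
    rw [← ENNReal.ofReal_pow hv, vS_sq ht.le, ← ENNReal.ofReal_mul hx0.le]
    congr 1
    rw [hx]; ring
  have e2 : ENNReal.ofReal (4 * 516 ^ 2 * (rr c.p c.k0 k : ℕ) / amp c k ^ 2) =
      ENNReal.ofReal x * ENNReal.ofReal (4 * 516 ^ 2) := by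
    rw [← ENNReal.ofReal_mul hx0.le]
    congr 1
    rw [hx]; ring
  rw [e1, e2, mul_assoc, mul_assoc] at key
  have key2 : ENNReal.ofReal x * (ENNReal.ofReal t * ‖zeP B P DD ∅ e he c.p c.k0 (k + 1) i -
      zeP B P DD ∅ e he c.p c.k0 k i‖ₑ) ≤ ENNReal.ofReal x * (ENNReal.ofReal (4 * 516 ^ 2) *
        totP c B P e he t k) := (le_mul_of_one_le_left' hΓ1).trans key
  exact (ENNReal.mul_le_mul_iff_right hxz hxt).1 key2

theorem FHyp.mono (h : FHyp c C A CF B P e he ε N) {ε' : ℝ≥0∞} (hε : ε ≤ ε') :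
    FHyp c C A CF B P e he ε' N :=
  { h with
    bulkH := fun k hk => (h.bulkH k hk).trans (by gcongr)
    bulkA := fun k hk => (h.bulkA k hk).trans (by gcongr) }

/-- a smaller number of steps -/
theorem FHyp.mono_N (h : FHyp c C A CF B P e he ε N) {N' : ℕ} (hN : N' ≤ N) :
    FHyp c C A CF B P e he ε N' where
  hw := h.hw
  inj := h.inj
  st k hk := h.st k (hk.trans_le hN)
  dp k hk := h.dp k (hk.trans_le hN)
  sep k hk := h.sep k (hk.trans_le hN)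
  far k hk := h.far k (hk.trans_le hN)
  conn k hk := h.conn k (hk.trans_le hN)
  bulkH k hk := h.bulkH k (hk.trans_le hN)
  bulkA k hk := h.bulkA k (hk.trans_le hN)

/-- the radius of `ε` and of the weights -/
def cRad (A Γ : ℝ≥0∞) (C : ℝ) (p : ℕ) (M0 : ℝ≥0∞) : ℝ≥0∞ := cE (cStep A Γ C p) M0 (cSm A Γ C p)

/-- the constant of the conclusion -/
def cAll (A Γ : ℝ≥0∞) (C : ℝ) (p : ℕ) (CF M0 : ℝ≥0∞) : ℝ≥0∞ :=
  cM (cStep A Γ C p) M0 * (2 * (CF + 1)) * cT Γ C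

theorem cStep_ne_top {Γ : ℝ≥0∞} (hA : A ≠ ∞) (hΓ : Γ ≠ 0) (C : ℝ) (p : ℕ) :
    cStep A Γ C p ≠ ∞ := cC1_ne_top (n3p_ne_top p) (coneP_ne_top hA hΓ C p)

theorem cSm_ne_top {Γ : ℝ≥0∞} (hA : A ≠ ∞) (hΓ : Γ ≠ 0) (C : ℝ) (p : ℕ) : cSm A Γ C p ≠ ∞ :=
  ENNReal.mul_ne_top (ENNReal.mul_ne_top (by norm_num) (n3p_ne_top p))
    (ENNReal.add_ne_top.2 ⟨by norm_num, coneP_ne_top hA hΓ C p⟩)

theorem cT_ne_top {Γ : ℝ≥0∞} (hΓ : Γ ≠ ∞) (C : ℝ) : cT Γ C ≠ ∞ :=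
  ENNReal.add_ne_top.2 ⟨ENNReal.mul_ne_top (ENNReal.mul_ne_top (by norm_num) hΓ)
    ENNReal.ofReal_ne_top, ENNReal.one_ne_top⟩

theorem cRad_pos {Γ : ℝ≥0∞} (hA : A ≠ ∞) (hΓ : Γ ≠ 0) {M0 : ℝ≥0∞} (hM0 : M0 ≠ ∞) (C : ℝ)
    (p : ℕ) : cRad A Γ C p M0 ≠ 0 :=
  cE_pos (cStep_ne_top hA hΓ C p) hM0 (cSm_ne_top hA hΓ C p)

theorem cAll_ne_top {Γ : ℝ≥0∞} (hA : A ≠ ∞) (hΓ : Γ ≠ 0) (hΓt : Γ ≠ ∞) (hCF : CF ≠ ∞)
    {M0 : ℝ≥0∞} (hM0 : M0 ≠ ∞) (C : ℝ) (p : ℕ) : cAll A Γ C p CF M0 ≠ ∞ :=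
  ENNReal.mul_ne_top (ENNReal.mul_ne_top (cM_ne_top (cStep_ne_top hA hΓ C p) hM0)
    (ENNReal.mul_ne_top (by norm_num) (ENNReal.add_ne_top.2 ⟨hCF, ENNReal.one_ne_top⟩)))
    (cT_ne_top hΓt C)

theorem half_pow_ne_zero (k : ℕ) : ((1 / 2 : ℝ≥0∞)) ^ k ≠ 0 :=
  pow_ne_zero _ (by rw [one_div]; exact ENNReal.inv_ne_zero.2 (by norm_num))

/-- all scales, `ε ≠ 0` -/
theorem FHyp.all_pos (h : FHyp c C A CF B P e he ε N) (hs : Std c) (hb : BkReg C) (ht : 0 < t)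
    (hq : qLp 1 ((2 ^ c.p : ℕ) : ℝ≥0∞) A (ENNReal.ofReal c.Γ) C c.p ≤ 1 / 8)
    (hz : ∀ k < N, ∀ i, |zeP B P DD ∅ e he c.p c.k0 k i| ≤ 2) {M0 : ℝ≥0∞} (hε0 : ε ≠ 0)
    (hε : 2 * (CF + 1) * ε ≤ cRad A (ENNReal.ofReal c.Γ) C c.p M0)
    (hT : cT (ENNReal.ofReal c.Γ) C * (m * ENNReal.ofReal t) ≤
      cRad A (ENNReal.ofReal c.Γ) C c.p M0)
    (h0 : totP c B P e he t 0 ≤ M0 * ε * (m * ENNReal.ofReal t)) :
    ∀ k ≤ N, totP c B P e he t k ≤ cAll A (ENNReal.ofReal c.Γ) C c.p CF M0 * ε *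
      (m * ENNReal.ofReal t) * (1 / 2) ^ k := by
  set Γ : ℝ≥0∞ := ENNReal.ofReal c.Γ with hΓ
  have h1 := close_src (b := fun k => (CF + 1) * (ε * (1 / 2) ^ k) + (CF + 1) * (ε * (1 / 2) ^ k))
    (e := totP c B P e he t) (N := N) (C := cStep A Γ C c.p) (M0 := M0) (D := cSm A Γ C c.p)
    hq hε hT (fun k _ => le_of_eq (by ring)) (h0.trans ?_) (fun k hk hD => ?_)
  · intro k hk
    refine (h1 k hk).trans (le_of_eq ?_)
    rw [cAll]; ring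
  · calc M0 * ε * (m * ENNReal.ofReal t) = M0 * (1 * ε) * (1 * (m * ENNReal.ofReal t)) := by ring
      _ ≤ M0 * (2 * (CF + 1) * ε) * (cT Γ C * (m * ENNReal.ofReal t)) := by
        gcongr
        · calc (1 : ℝ≥0∞) = 1 * 1 := by norm_num
            _ ≤ 2 * (CF + 1) := mul_le_mul' (by norm_num) le_add_self
        · exact le_add_self
  · refine h.step hs hb ht hk (hz k hk) ?_ ?_ hD
    · refine mul_ne_zero ?_ (mul_ne_zero hε0 (half_pow_ne_zero k))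
      exact (lt_of_lt_of_le one_pos (le_add_self (a := (1 : ℝ≥0∞)) (b := CF))).ne'
    · gcongr
      exact le_self_add

theorem le_zero_of_geo {x K ε1 : ℝ≥0∞} (hK : K ≠ ∞) (hε1 : ε1 ≠ ∞)
    (h : ∀ n : ℕ, x ≤ K * (ε1 * (1 / 2) ^ n)) : x ≤ 0 := by
  have h1 : Filter.Tendsto (fun n : ℕ => (1 / 2 : ℝ≥0∞) ^ n) Filter.atTop (nhds 0) :=
    ENNReal.tendsto_pow_atTop_nhds_zero_of_lt_one (by
      rw [one_div]; exact ENNReal.inv_lt_one.2 (by norm_num))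
  have h2 : Filter.Tendsto (fun n : ℕ => ε1 * (1 / 2 : ℝ≥0∞) ^ n) Filter.atTop (nhds 0) := by
    have := ENNReal.Tendsto.const_mul (a := ε1) h1 (Or.inr hε1)
    rwa [mul_zero] at this
  have h3 : Filter.Tendsto (fun n : ℕ => K * (ε1 * (1 / 2 : ℝ≥0∞) ^ n)) Filter.atTop (nhds 0) := by
    have := ENNReal.Tendsto.const_mul (a := K) h2 (Or.inr hK)
    rwa [mul_zero] at this
  exact ge_of_tendsto' h3 h

/-- **the total norm of the remainders at all scales** `k ≤ N`, source weights `vS c t k` -/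
theorem FHyp.all (h : FHyp c C A CF B P e he ε N) (hs : Std c) (hb : BkReg C) (ht : 0 < t)
    (hq : qLp 1 ((2 ^ c.p : ℕ) : ℝ≥0∞) A (ENNReal.ofReal c.Γ) C c.p ≤ 1 / 8)
    (hA : A ≠ ∞) (hCF : CF ≠ ∞)
    (hz : ∀ k < N, ∀ i, |zeP B P DD ∅ e he c.p c.k0 k i| ≤ 2) {M0 : ℝ≥0∞} (hM0 : M0 ≠ ∞)
    (hε : 2 * (CF + 1) * ε ≤ cRad A (ENNReal.ofReal c.Γ) C c.p M0)
    (hT : cT (ENNReal.ofReal c.Γ) C * (m * ENNReal.ofReal t) ≤
      cRad A (ENNReal.ofReal c.Γ) C c.p M0)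
    (h0 : totP c B P e he t 0 ≤ M0 * ε * (m * ENNReal.ofReal t)) :
    ∀ k ≤ N, totP c B P e he t k ≤ cAll A (ENNReal.ofReal c.Γ) C c.p CF M0 * ε *
      (m * ENNReal.ofReal t) * (1 / 2) ^ k := by
  by_cases hε0 : ε = 0
  · intro k hk
    have hΓ0 : (0 : ℝ) < c.Γ := by linarith [hs.Γ_ge]
    have hΓ : ENNReal.ofReal c.Γ ≠ 0 := by rw [Ne, ENNReal.ofReal_eq_zero, not_le]; exact hΓ0
    have hρ := cRad_pos hA hΓ hM0 C c.p
    set ρ := cRad A (ENNReal.ofReal c.Γ) C c.p M0 with hρd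
    have hρ1 : ρ ≤ 1 := cE_le_one _ _ _
    have hCF2 : 2 * (CF + 1) ≠ ∞ :=
      ENNReal.mul_ne_top (by norm_num) (ENNReal.add_ne_top.2 ⟨hCF, ENNReal.one_ne_top⟩)
    have hCF0 : 2 * (CF + 1) ≠ 0 := mul_ne_zero (by norm_num)
      (lt_of_lt_of_le one_pos (le_add_self (a := (1 : ℝ≥0∞)) (b := CF))).ne'
    set ε1 : ℝ≥0∞ := ρ * (2 * (CF + 1))⁻¹ with hε1
    have hε1t : ε1 ≠ ∞ := ENNReal.mul_ne_top (ne_top_of_le_ne_top ENNReal.one_ne_top hρ1)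
      (ENNReal.inv_ne_top.2 hCF0)
    have hε10 : ε1 ≠ 0 := mul_ne_zero hρ (ENNReal.inv_ne_zero.2 hCF2)
    have hx : totP c B P e he t k ≤ 0 := by
      refine le_zero_of_geo (K := cAll A (ENNReal.ofReal c.Γ) C c.p CF M0 *
        (m * ENNReal.ofReal t)) (ε1 := ε1) ?_ hε1t (fun n => ?_)
      · exact ENNReal.mul_ne_top (cAll_ne_top hA hΓ ENNReal.ofReal_ne_top hCF hM0 C c.p)
          (ENNReal.mul_ne_top (ENNReal.natCast_ne_top _) ENNReal.ofReal_ne_top)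
      · have h2 : 2 * (CF + 1) * (ε1 * (1 / 2) ^ n) ≤ ρ := by
          calc 2 * (CF + 1) * (ε1 * (1 / 2) ^ n) ≤ 2 * (CF + 1) * (ε1 * 1) := by
                gcongr
                exact half_pow_le n
            _ = ρ * ((2 * (CF + 1)) * (2 * (CF + 1))⁻¹) := by rw [hε1]; ring
            _ = ρ := by rw [ENNReal.mul_inv_cancel hCF0 hCF2, mul_one]
        have h3 := (h.mono (ε' := ε1 * (1 / 2) ^ n) (by rw [hε0]; exact zero_le)).all_pos hs hb ht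
          hq hz (M0 := M0) (mul_ne_zero hε10 (half_pow_ne_zero n)) h2 hT (by
            refine h0.trans ?_
            rw [hε0, mul_zero, zero_mul]
            exact zero_le) k hk
        refine h3.trans ?_
        calc _ ≤ cAll A (ENNReal.ofReal c.Γ) C c.p CF M0 * (ε1 * (1 / 2) ^ n) *
              (m * ENNReal.ofReal t) * 1 := by
              gcongr
              exact half_pow_le k
          _ = _ := by ring
    exact hx.trans zero_le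
  · exact h.all_pos hs hb ht hq hz hε0 hε hT h0

end flow

end Crest.Agent.R165.SrcFlowx54
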