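import Crest.Agent.R165.SrcSymK_922
import Crest.Agent.R165.Out_683
import Crest.Agent.R165.Top_683

/-!
# Row 165 (S0250), P11: the energy renormalisation `Ze` and the bond mean `eb` (helper922)

* `pEq_tau`, `pEq_rho` : the plane system with bond sources under translations and the rotation
* `zPl_bond`, `incS_bond` : one bond source, independent of the bond
* `zE`, `Ze`, `plE`, `eb` : the literal names
* `zE_dir`, `incS_dir`, `eb_dir`
-/

set_option autoImplicit false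
set_option linter.all false

noncomputable section

open Filter Topology
open scoped ENNReal
open Crest.ProbabilityR.IsingModel
open Crest.Agent.R165.Gr0x606 Crest.Agent.R165.Gr1x606 Crest.Agent.R165.GeOpsx337
open Crest.Agent.R165.KFlowx337 Crest.Agent.R165.GSysx387 Crest.Agent.R165.GDefx387
open Crest.Agent.R165.SrcDefx991 Crest.Agent.R165.SrcSysx991 Crest.Agent.R165.SrcInsx991
open Crest.Agent.R165.SrcCstx484 Crest.Agent.R165.SrcSymx922
open Crest.Agent.R165.FlowD4x898 Crest.Agent.R165.WtD4x898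
open Crest.Agent.R165.PlaneModesx901 Crest.Agent.R165.PlaneSumx901
open Crest.Agent.R165.J4Geox126 Crest.Agent.R165.J4K0Symx126 Crest.Agent.R165.J4Pathx653
open Crest.Agent.R165.J4Defx653 Crest.Agent.R165.J4RRx653
open Crest.Agent.R165.FRDPolyx439 Crest.Agent.R165.Bkgx683
open Crest.Agent.R165.Topx683 (VHyp)
open Crest.Agent.R165.PEndx683 Crest.Agent.R165.Outx683
open Crest.Agent.R165.Latx683 (xc wPl Fld)

namespace Crest.Agent.R165.ZeEbx922

section bonds

variable {m : ℕ} {J lam β z : ℝ} {R : ℕ} {V : Finset (ℤ × ℤ) → ℝ} {MD KD : ℕ}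
  (D : FRD 16 MD KD) (l k0 : ℕ)

/-- **translations** -/
theorem pEq_tau (hV : VHyp R V) (t : ℤ × ℤ) (e : Fin m → EG ℤ) :
    PEq (m := m) (gTau t).φ (gTau t).psh (flow0 Bg.pl (mpar J lam R V β z) D ∅ l k0)
      (flow0 Bg.pl (mpar J lam R V β z) D ∅ l k0)
      (srcD Bg.pl.w e (wpl_ne e)) (srcD Bg.pl.w (fun i => (lTr t).E (e i)) (wpl_ne _)) (rr l k0)
      (dpS Bg.pl.w ∅ l k0 e) (dpS Bg.pl.w ∅ l k0 fun i => (lTr t).E (e i))
      (K0P Bg.pl (mpar J lam R V β z) e l k0)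
      (K0P Bg.pl (mpar J lam R V β z) (fun i => (lTr t).E (e i)) l k0) :=
  pEq_pl D (mpar J lam R V β z) l k0 (Or.inl ⟨t, rfl⟩) rfl
    (fun i => by rw [show ((gTau t).φ : ℤ × ℤ → ℤ × ℤ) = (lTr t).ψ from gTau_φ t]; exact (lTr t).faE (e i))
    (fun i => tau_b' t (e i))
    (K0_plSym (fun A z => hV.trans A z) (fun A h => hV.range A h) (fun S => hV.rot S)
      (fun S => hV.refl S) l k0)
    (K0C_tau (fun A z => hV.trans A z) (fun A h => hV.range A h) l k0 t e)

/-- **rotation** -/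
theorem pEq_rho (hV : VHyp R V) (e : Fin m → EG ℤ) :
    PEq (m := m) (gRho 0).φ (gRho 0).psh (flow0 Bg.pl (mpar J lam R V β z) D ∅ l k0)
      (flow0 Bg.pl (mpar J lam R V β z) D ∅ l k0)
      (srcD Bg.pl.w e (wpl_ne e)) (srcD Bg.pl.w (fun i => lRho.E (e i)) (wpl_ne _)) (rr l k0)
      (dpS Bg.pl.w ∅ l k0 e) (dpS Bg.pl.w ∅ l k0 fun i => lRho.E (e i))
      (K0P Bg.pl (mpar J lam R V β z) e l k0)
      (K0P Bg.pl (mpar J lam R V β z) (fun i => lRho.E (e i)) l k0) :=
  pEq_pl D (mpar J lam R V β z) l k0 (Or.inr (Or.inl rfl)) rfl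
    (fun i => by rw [show ((gRho 0).φ : ℤ × ℤ → ℤ × ℤ) = lRho.ψ from rot0_eq]; exact lRho.faE (e i))
    (fun i => rho_b' (e i))
    (K0_plSym (fun A z => hV.trans A z) (fun A h => hV.range A h) (fun S => hV.rot S)
      (fun S => hV.refl S) l k0)
    (K0C_rho (fun A z => hV.trans A z) (fun A h => hV.range A h) (fun S => hV.rot S) l k0 e)

theorem lTr_E (t : ℤ × ℤ) (e : EG ℤ) : (lTr t).E e = (e.1 + t, e.2) := rfl

theorem lRho_E0 (z : ℤ × ℤ) : lRho.E (z, 0) = ((-z.2 + 1, z.1), 1) := by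
  show (lTr (1, 0)).E (rotEd (z, 0)) = _
  rw [rotEd, if_pos rfl, lTr_E]
  ext <;> simp [rotate]

/-- **the running coefficients do not depend on the bond** -/
theorem zPl_bond (hV : VHyp R V) (e : EG ℤ) (n : ℕ) :
    zPl D (mpar J lam R V β z) l k0 ![e] n 0 =
      zPl D (mpar J lam R V β z) l k0 ![((0, 0), 0)] n 0 := by
  have ht : ∀ (t : ℤ × ℤ) (e : EG ℤ), zPl D (mpar J lam R V β z) l k0 ![(e.1 + t, e.2)] n 0 =
      zPl D (mpar J lam R V β z) l k0 ![e] n 0 := by
    intro t e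
    have h := (pEq_tau (J := J) (lam := lam) (β := β) (z := z) D l k0 hV t ![e]).zeta
      (f₁ := fldUS fun i => faE (![e] i)) (f₂ := fldUS fun i => faE (![(e.1 + t, e.2)] i))
      (fun _ => 1) n 0
    have he : (fun i => (lTr t).E ((![e] : Fin 1 → EG ℤ) i)) = ![(e.1 + t, e.2)] := by
      funext i; fin_cases i; rfl
    simp only [he] at h
    exact h
  have hr : ∀ z' : ℤ × ℤ, zPl D (mpar J lam R V β z) l k0 ![((-z'.2 + 1, z'.1), 1)] n 0 =
      zPl D (mpar J lam R V β z) l k0 ![(z', 0)] n 0 := by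
    intro z'
    have h := (pEq_rho (J := J) (lam := lam) (β := β) (z := z) D l k0 hV ![(z', 0)]).zeta
      (f₁ := fldUS fun i => faE ((![(z', 0)] : Fin 1 → EG ℤ) i))
      (f₂ := fldUS fun i => faE ((![((-z'.2 + 1, z'.1), 1)] : Fin 1 → EG ℤ) i))
      (fun _ => 1) n 0
    have he : (fun i => lRho.E ((![(z', 0)] : Fin 1 → EG ℤ) i)) = ![((-z'.2 + 1, z'.1), 1)] := by
      funext i; fin_cases i; exact lRho_E0 z'
    simp only [he] at h
    exact h
  obtain ⟨w, j⟩ := e
  have h1 := ht (-w) (w, j)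
  simp only [add_neg_cancel] at h1
  rw [← h1]
  have hj : ∀ j : Fin 2, zPl D (mpar J lam R V β z) l k0 ![(0, j)] n 0 =
      zPl D (mpar J lam R V β z) l k0 ![((0, 0), 0)] n 0 := by
    intro j
    fin_cases j
    · rfl
    · have h2 := hr (0, 0)
      have h3 := ht (-(1, 0)) ((1, 0), 1)
      simp only [neg_zero, zero_add, add_neg_cancel] at h2 h3
      exact h3.trans h2
  exact hj j

/-- **the increments of the constants do not depend on the bond** -/
theorem incS_bond (hV : VHyp R V) (e : EG ℤ) (n : ℕ) :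
    incS (plP D (mpar J lam R V β z) l k0 ![e]) 0 n =
      incS (plP D (mpar J lam R V β z) l k0 ![((0, 0), 0)]) 0 n := by
  have ht : ∀ (t : ℤ × ℤ) (e : EG ℤ),
      incS (plP D (mpar J lam R V β z) l k0 ![(e.1 + t, e.2)]) 0 n =
      incS (plP D (mpar J lam R V β z) l k0 ![e]) 0 n := by
    intro t e
    have h := (pEq_tau (J := J) (lam := lam) (β := β) (z := z) D l k0 hV t ![e]).incS
      (f₁ := fldUS fun i => faE (![e] i)) (f₂ := fldUS fun i => faE (![(e.1 + t, e.2)] i)) n 0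
    have he : (fun i => (lTr t).E ((![e] : Fin 1 → EG ℤ) i)) = ![(e.1 + t, e.2)] := by
      funext i; fin_cases i; rfl
    simp only [he] at h
    exact h
  have hr : ∀ z' : ℤ × ℤ,
      incS (plP D (mpar J lam R V β z) l k0 ![((-z'.2 + 1, z'.1), 1)]) 0 n =
      incS (plP D (mpar J lam R V β z) l k0 ![(z', 0)]) 0 n := by
    intro z'
    have h := (pEq_rho (J := J) (lam := lam) (β := β) (z := z) D l k0 hV ![(z', 0)]).incS
      (f₁ := fldUS fun i => faE ((![(z', 0)] : Fin 1 → EG ℤ) i))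
      (f₂ := fldUS fun i => faE ((![((-z'.2 + 1, z'.1), 1)] : Fin 1 → EG ℤ) i)) n 0
    have he : (fun i => lRho.E ((![(z', 0)] : Fin 1 → EG ℤ) i)) = ![((-z'.2 + 1, z'.1), 1)] := by
      funext i; fin_cases i; exact lRho_E0 z'
    simp only [he] at h
    exact h
  obtain ⟨w, j⟩ := e
  have h1 := ht (-w) (w, j)
  simp only [add_neg_cancel] at h1
  rw [← h1]
  have hj : ∀ j : Fin 2, incS (plP D (mpar J lam R V β z) l k0 ![(0, j)]) 0 n =
      incS (plP D (mpar J lam R V β z) l k0 ![((0, 0), 0)]) 0 n := by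
    intro j
    fin_cases j
    · rfl
    · have h2 := hr (0, 0)
      have h3 := ht (-(1, 0)) ((1, 0), 1)
      simp only [neg_zero, zero_add, add_neg_cancel] at h2 h3
      exact h3.trans h2
  exact hj j

end bonds

section names

variable (J : ℝ) (R : ℕ) (V : Finset (ℤ × ℤ) → ℝ) (c : Cst) (lam β z : ℝ)

/-- the plane flow with the bond source `((0,0), j)` -/
abbrev plE (c : Cst) (P : MPar) (j : Fin 2) : Sys (ℤ × ℤ) (VS (Fld ℤ) 1) :=
  flowP Bg.pl P DD ∅ ![((0, 0), j)] (wpl_ne _) c.p c.k0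

/-- the running coefficient of the bond `((0,0), j)` in the plane -/
def zE (j : Fin 2) (n : ℕ) : ℝ :=
  zeP Bg.pl (mpar J lam R V β z) DD ∅ ![((0, 0), j)] (wpl_ne _) c.p c.k0 n 0

/-- **the energy renormalisation** -/
def Ze : ℝ := limUnder atTop (zE J R V c lam β z 0)

/-- **the bond mean** -/
def eb (j : Fin 2) : ℝ := 1 + ∑' k, incS (plE c (mpar J lam R V β z) j) 0 k

variable {J R V c lam β z}

theorem zE_dir (hV : VHyp R V) (j : Fin 2) (n : ℕ) :
    zE J R V c lam β z j n = zE J R V c lam β z 0 n :=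
  (zPl_bond DD c.p c.k0 hV ((0, 0), j) n).trans rfl

theorem zE_zero (j : Fin 2) : zE J R V c lam β z j 0 = 1 := rfl

theorem incS_dir (hV : VHyp R V) (j : Fin 2) (n : ℕ) :
    incS (plE c (mpar J lam R V β z) j) 0 n = incS (plE c (mpar J lam R V β z) 0) 0 n :=
  incS_bond DD c.p c.k0 hV ((0, 0), j) n

theorem eb_dir (hV : VHyp R V) (j : Fin 2) : eb J R V c lam β z j = eb J R V c lam β z 0 := by
  unfold eb
  simp only [incS_dir hV j]

/-- the running coefficient of any bond of the plane -/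
theorem zeP_eq_zE (hV : VHyp R V) (e : EG ℤ) (n : ℕ) :
    zeP Bg.pl (mpar J lam R V β z) DD ∅ ![e] (wpl_ne _) c.p c.k0 n 0 = zE J R V c lam β z 0 n :=
  zPl_bond DD c.p c.k0 hV e n

/-- increments bounded by a geometric sequence: the limit and the rate -/
theorem Ze_of_step {M σ : ℝ} (hσ : 0 ≤ σ) (hσ1 : σ < 1)
    (h : ∀ n, |zE J R V c lam β z 0 (n + 1) - zE J R V c lam β z 0 n| ≤ M * σ ^ n) :
    Tendsto (zE J R V c lam β z 0) atTop (𝓝 (Ze J R V c lam β z)) ∧
      ∀ n, |zE J R V c lam β z 0 n - Ze J R V c lam β z| ≤ M / (1 - σ) * σ ^ n := by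
  have h1 : ∀ n, dist (zE J R V c lam β z 0 n) (zE J R V c lam β z 0 (n + 1)) ≤ M * σ ^ n :=
    fun n => by rw [Real.dist_eq, abs_sub_comm]; exact h n
  have h2 : CauchySeq (zE J R V c lam β z 0) := cauchySeq_of_le_geometric σ M hσ1 h1
  have h3 : Tendsto (zE J R V c lam β z 0) atTop (𝓝 (Ze J R V c lam β z)) := h2.tendsto_limUnder
  refine ⟨h3, fun n => ?_⟩
  have h4 := dist_le_of_le_geometric_of_tendsto σ M hσ1 h1 h3 n
  rw [Real.dist_eq] at h4
  refine h4.trans (le_of_eq (by ring))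

theorem Ze_one_of_step {M σ : ℝ} (hσ : 0 ≤ σ) (hσ1 : σ < 1)
    (h : ∀ n, |zE J R V c lam β z 0 (n + 1) - zE J R V c lam β z 0 n| ≤ M * σ ^ n) :
    |Ze J R V c lam β z - 1| ≤ M / (1 - σ) := by
  have h1 := (Ze_of_step hσ hσ1 h).2 0
  rw [zE_zero, pow_zero, mul_one, abs_sub_comm] at h1
  exact h1

end names

end Crest.Agent.R165.ZeEbx922
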