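import Crest.Agent.R165.SrcCstG_484
import Crest.Agent.R165.SrcDomE_697
import Crest.Agent.R165.SrcCh_485
import Crest.Agent.R165.PlBond_898
import Crest.Agent.R165.ZeEb_922
import Crest.Agent.R165.SrcFlow_54
import Crest.Agent.R165.EnFine_811

/-!
# Row 165 (S0250), leaf P11: the fine phase at one scale (helper484)

* `FineC` : the conditions on the constants; `fineC_ev`
* `ppP_empty`, `tot_of_Tot`
* `pG_beta_plane`, `hsl_pl` : norms of the leading forms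
* `run_fine` : the runs
* `fineAt_of` : the state after `K` steps from the bounds of the total norms
-/

set_option autoImplicit false
set_option linter.unusedSectionVars false
set_option linter.unusedVariables false

noncomputable section

namespace Crest.Agent.R165.SrcFinex484

open Finset Filter Topology
open scoped ENNReal
open Crest.ProbabilityR.IsingModel
open Crest.Agent.R165.FinBx900 Crest.Agent.R165.KStepx892
open Crest.Agent.R165.Gr0x606 Crest.Agent.R165.Gr1x606 Crest.Agent.R165.GeOpsx337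
  Crest.Agent.R165.ExpGx337 Crest.Agent.R165.PNormx417 Crest.Agent.R165.KFlowx337
  Crest.Agent.R165.SrcDefx991 Crest.Agent.R165.SrcFinx441 Crest.Agent.R165.GrLocx337
open Crest.Agent.R165.SrcFinBx441 (Nw EEG_bd ra_pG)
open Crest.Agent.R165.SrcCmpx441
open Crest.Agent.R165.Packx915 (PD Conn)
open Crest.Agent.R165.Latx683 (BW wDom wX wPl Fld HE)
open Crest.Agent.R165.GDefx387 Crest.Agent.R165.GSysx387
  Crest.Agent.R165.BgIsox432 Crest.Agent.R165.CmpBgx432 Crest.Agent.R165.FRDPolyx439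
open Crest.Agent.R165.SrcSysx991 Crest.Agent.R165.SrcInsx991
open Crest.Agent.R165.Bkgx683 (MPar mpar Bg isF)
open Crest.Agent.R165.J4Geox126 (faE)
open Crest.Agent.R165.Outx683 (DD amp)
open Crest.Agent.R165.PEndx683 (Cst EvC)
open Crest.Agent.R165.SrcInvx336
open Crest.Agent.R165.SrcCstx484
open Crest.Agent.R165.SrcLimx697
open Crest.Agent.R165.SrcChx485 (SrcCh)
open Crest.Agent.R165.SrcSymx922 (wpl_ne)
open Crest.Agent.R165.SrcRecx54 (Tot)
open Crest.Agent.R165.SrcStepx54 (Tout Sout)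
open Crest.Agent.R165.SrcDomx697 (pG_beta_le abs_uB_le tail_bd)
open Crest.Agent.R165.W2x812 (BkReg)
open Crest.Agent.R165.ZeEbx922 (zE Ze eb plE)
open Crest.Agent.R165.FRDLatx439 (gw)
open Crest.Agent.R165.SrcFlowx54 (totP)
open Crest.Agent.R165.SrcDomx697 (c0D)
open Crest.Agent.R165.EnFinex811 (FineAt)

/-! ### constants -/

/-- **the conditions on the constants** -/
structure FineC (c : Cst) (R : ℕ) : Prop where
  p4 : 4 ≤ c.p
  h5 : 5 ≤ c.p * (c.k0 + 1)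
  r16 : 16 ≤ rr c.p c.k0 0
  nR : 2 * max R 1 + 1 ≤ nearR c.p c.k0 0
  A0 : 1 ≤ c.A0
  cold : GSysOKx439.c0 DD.C c.p c.k0 ≤ c.A0
  δ0 : 0 ≤ c.δ
  δ2 : (1 + c.δ) ^ 2 ≤ 2
  Γ4 : 4 * 2 ^ c.p ≤ c.Γ

section consts

variable {c : Cst} {R : ℕ} (hc : FineC c R)
include hc

theorem FineC.Γ1 : 1 ≤ c.Γ := by
  have h1 : (1 : ℝ) ≤ 2 ^ c.p := one_le_pow₀ (by norm_num)
  have := hc.Γ4
  linarith

theorem FineC.A0p : 0 < c.A0 := lt_of_lt_of_le one_pos hc.A0

theorem FineC.ampp (k : ℕ) : 0 < amp c k := amp_pos hc.A0p hc.δ0 k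

theorem FineC.r16k (k : ℕ) : 16 ≤ rr c.p c.k0 k := hc.r16.trans (rr_mono c.p c.k0 (Nat.zero_le k))

theorem FineC.A0_le_amp (k : ℕ) : c.A0 ≤ amp c k := by
  unfold amp
  have h1 := mul_nonneg hc.δ0 (Nat.cast_nonneg (α := ℝ) k)
  have h2 := hc.A0p
  nlinarith [mul_nonneg h2.le h1]

theorem FineC.cold1 (k : ℕ) : GSysOKx439.c0 DD.C c.p c.k0 / amp c k ≤ 1 := by
  rw [div_le_one (hc.ampp k)]
  exact hc.cold.trans (hc.A0_le_amp k)

/-- the weights of the steps against `wU` at the old scale -/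
theorem FineC.gw_le {w : BW ℤ} (hw : ∀ z j, |w z j| ≤ 1) (k : ℕ) (U : Finset (ℤ × ℤ))
    (x : Fld ℤ) : gw DD w (lo c.p c.k0 k) (hi c.p c.k0 k) x ≤
      wU w (amp c k) (rr c.p c.k0 k) U x := by
  refine (GSysOKx439.gw_step_le_wU_old DD (by decide) w hw c.p c.k0 k (hc.ampp k) U x).trans ?_
  calc ENNReal.ofReal (GSysOKx439.c0 DD.C c.p c.k0 / amp c k) *
        wU w (amp c k) (rr c.p c.k0 k) U x
      ≤ 1 * wU w (amp c k) (rr c.p c.k0 k) U x := by
        refine mul_le_mul_left ?_ _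
        rw [← ENNReal.ofReal_one]
        exact ENNReal.ofReal_le_ofReal (hc.cold1 k)
    _ = _ := one_mul _

end consts

/-- **the conditions hold eventually** -/
theorem fineC_ev (R : ℕ) : EvC fun c => FineC c R := by
  have h1 : EvC fun c => 4 ≤ c.p := Constx891.ev_p_ge 4
  have h2 : EvC fun c => 1 ≤ c.k0 := Constx891.ev_k0_ge fun _ _ => 1
  have h3 : EvC fun c => ∀ n, 2 * max R 1 + 16 ≤ rr c.p c.k0 n :=
    Constx891.ev_rr_ge fun _ _ => 2 * max R 1 + 16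
  have h4 : EvC fun c => 1 ≤ c.A0 := Constx891.ev_A0_ge fun _ _ _ => 1
  have h5 : EvC fun c => GSysOKx439.c0 DD.C c.p c.k0 ≤ c.A0 :=
    Constx891.ev_A0_ge fun p _ k0 => GSysOKx439.c0 DD.C p k0
  have h6 : EvC fun c => 0 < c.δ := Constx891.ev_δ_pos
  have h7 : EvC fun c => c.δ ≤ 1 / 4 := Constx891.ev_δ_le (fun _ _ _ _ => 1 / 4) fun _ _ _ _ => by norm_num
  have h8 : EvC fun c => 4 * 2 ^ c.p ≤ c.Γ := Constx891.ev_Γ_ge' fun p => 4 * 2 ^ p
  refine (h1.and (h2.and (h3.and (h4.and (h5.and (h6.and (h7.and h8))))))).mono ?_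
  rintro c ⟨h1, h2, h3, h4, h5, h6, h7, h8⟩
  refine ⟨h1, ?_, ?_, ?_, h4, h5, h6.le, ?_, h8⟩
  · calc 5 ≤ 4 * (1 + 1) := by norm_num
      _ ≤ c.p * (c.k0 + 1) := Nat.mul_le_mul h1 (by omega)
  · have := h3 0
    omega
  · have h9 := h3 0
    have h10 : 16 * rr c.p c.k0 0 ≤ rr c.p c.k0 1 := by
      rw [GSysx387.rr_succ]
      refine Nat.mul_le_mul_right _ ?_
      calc 16 = 2 ^ 4 := by norm_num
        _ ≤ 2 ^ c.p := Nat.pow_le_pow_right (by norm_num) h1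
    unfold nearR
    rw [show (0 : ℕ) + 1 = 1 from rfl]
    omega
  · nlinarith

/-! ### the remainder and its total norm -/

section tot

variable {m : ℕ} {B : Bg ℤ} {P : MPar} {M K : ℕ} {D : FRD 16 M K} {mk : Finset (ℤ × ℤ)}
  {e : Fin m → Bkgx683.EG ℤ} {he : ∀ i, B.w (e i).1 (e i).2 ≠ 0} {l k0 : ℕ}

theorem ppP_empty (n : ℕ) : ppP B P D mk e he l k0 n ∅ = 0 := by
  have h1 : (flowP B P D mk e he l k0).K n ∅ = 0 := by
    cases n with
    | zero => exact JVolx950.K0_empty B P _ _ l k0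
    | succ n => exact (flowP B P D mk e he l k0).K_empty n
  have h2 : (flow0 B P D mk l k0).K n ∅ = 0 := by
    cases n with
    | zero => exact JVolx950.K0_empty B P _ _ l k0
    | succ n => exact (flow0 B P D mk l k0).K_empty n
  have h3 : LEAD (srcD B.w e he) (zeP B P D mk e he l k0 n) ∅ = 0 := by
    unfold LEAD
    refine sum_eq_zero fun i hi => ?_
    have h4 : faE (e i) = ∅ := (mem_filter.1 hi).2
    exact absurd h4 ((srcD B.w e he).ne i).ne_empty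
  have h4 := flowP_K (B := B) (P := P) (D := D) (mk := mk) (e := e) (he := he) (l := l)
    (k0 := k0) n ∅
  rw [h1, h2, h3, map_zero, zero_add, zero_add] at h4
  exact h4.symm

/-- total norms in the two conventions -/
theorem tot_of_Tot {W : Finset (ℤ × ℤ) → Fld ℤ → ℝ≥0∞} {v Γ : ℝ} {r : ℕ}
    {K : Finset (ℤ × ℤ) → Ge (VS (Fld ℤ) m)} (hK : K ∅ = 0) (hΓ : 0 ≤ Γ) :
    ∑' U, ENNReal.ofReal (Γ ^ size r U) * Nw (W U) (fun _ => v) (K U) ≤
      Tot W (fun _ => ENNReal.ofReal v) (ENNReal.ofReal Γ) r K := by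
  unfold SrcRecx54.Tot SrcStepx54.Tout SrcStepx54.Sout
  refine ENNReal.tsum_le_tsum fun U => ?_
  by_cases hU : U.Nonempty
  · rw [Set.indicator_of_mem (by exact hU), ENNReal.ofReal_pow hΓ]
    exact le_rfl
  · rw [Finset.not_nonempty_iff_eq_empty.1 hU, hK]
    have : Nw (W ∅) (fun _ : Fin m => v) (0 : Ge (VS (Fld ℤ) m)) = 0 := by
      unfold SrcFinBx441.Nw
      exact pG_zero _
    rw [this, mul_zero]
    exact bot_le

end tot

/-! ### the runs -/

section runs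

variable {c : Cst} {R : ℕ} (hc : FineC c R) {P : MPar} {m : ℕ} {B : Bg ℤ}
  {e : Fin m → Bkgx683.EG ℤ} {he : ∀ i, B.w (e i).1 (e i).2 ≠ 0} {t Ce : ℝ}
include hc

/-- **the run of the fine phase** from the bounds of the total norms -/
theorem run_fine (hw : ∀ z j, |B.w z j| ≤ 1) (hinj : Function.Injective fun i => faE (e i))
    (ht : 0 < t) (hCe : 0 ≤ Ce) {Pk : ℕ → Prop}
    (hS : ∀ k, Pk k → totP c B P e he t k ≤ ENNReal.ofReal (Ce * (1 / 2) ^ k)) :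
    Run (flowP B P DD ∅ e he c.p c.k0) Pk (slC DD B.w c.p c.k0)
      (fun k => gw DD B.w (lo c.p c.k0 k) (hi c.p c.k0 k))
      (fun k => wU B.w (amp c k) (rr c.p c.k0 k)) (vS c t) c.Γ (fun k => Ce * (1 / 2) ^ k)
      (fun k => size (rr c.p c.k0 k)) (fun i => faE (e i))
      (zeP B P DD ∅ e he c.p c.k0) (fun i => beB B.w (e i)) (ppP B P DD ∅ e he c.p c.k0) := by
  refine run_flowP hinj (fun k _ => GSysOKx439.slC_gram DD B.w hw c.p c.k0 k)
    (fun k _ U x => hc.gw_le hw k U x) (fun k _ => vS_pos ht hc.A0p hc.δ0 k) hc.Γ1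
    (fun k _ => by positivity) (fun k hk => ?_)
  refine le_trans ?_ (hS k hk)
  exact tot_of_Tot (ppP_empty k) (zero_le_one.trans hc.Γ1)

end runs

/-! ### norms of the leading forms -/

section lead

variable {c : Cst} {R : ℕ} (hc : FineC c R) {t C : ℝ}
include hc

/-- **norm of the leading form of a source with a plane ball around it** -/
theorem pG_beta_plane (hC : BkReg C) {w : BW ℤ} (hw : ∀ z j, |w z j| ≤ 1) {e : Bkgx683.EG ℤ}
    {k : ℕ} (p : PlaneLike w (nbhd (s2 * rr c.p c.k0 k) {e.1})) (ht : 0 < t)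
    {U : Finset (ℤ × ℤ)} (hU : e.1 ∈ U) :
    pG (wU w (amp c k) (rr c.p c.k0 k) U) (beB w e) ≤
      ENNReal.ofReal (22 * C ^ 2 * t / vS c t k ^ 2) := by
  have ha := hc.ampp k
  have hr16 := hc.r16k k
  have hrp := rr_pos' c k
  have hs : s1 * rr c.p c.k0 k + MM + 1 ≤ s2 * rr c.p c.k0 k := by
    have h1 : s1 + (MM + 1) ≤ s2 := by decide
    have h2 : (s1 + (MM + 1)) * rr c.p c.k0 k ≤ s2 * rr c.p c.k0 k := Nat.mul_le_mul_right _ h1
    have h3 : (s1 + (MM + 1)) * rr c.p c.k0 k = s1 * rr c.p c.k0 k + (MM + 1) * rr c.p c.k0 k := by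
      ring
    have h4 : MM + 1 ≤ (MM + 1) * rr c.p c.k0 k := Nat.le_mul_of_pos_right _ (by omega)
    omega
  have hd : SrcDat w (s2 * rr c.p c.k0 k) e.1 e.2 (uB w e) (muB w e) (beB w e) :=
    srcDat_of_plane (w := w) (z := e.1) (Nat.mul_pos (by decide) (by omega)) p e.2
  have h1 := pG_beta_le hd hC ha hr16 hs hU
  refine h1.trans (ENNReal.ofReal_le_ofReal ?_)
  rw [vS_sq ht.le]
  have hu := abs_uB_le hw e
  have h3 : 0 ≤ 11 * C ^ 2 * amp c k ^ 2 / (rr c.p c.k0 k : ℝ) := by positivity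
  calc |uB w e| * (11 * C ^ 2 * amp c k ^ 2 / (rr c.p c.k0 k : ℝ))
      ≤ 2 * (11 * C ^ 2 * amp c k ^ 2 / (rr c.p c.k0 k : ℝ)) :=
        mul_le_mul_of_nonneg_right hu h3
    _ = 22 * C ^ 2 * t / (t * rr c.p c.k0 k / amp c k ^ 2) := by
        field_simp
        ring

/-- **the size of the unperturbed increments in the plane** -/
theorem hsl_pl (hC : BkReg C) (ht : 0 < t) (e : Bkgx683.EG ℤ) (k : ℕ) :
    vS c t k ^ 2 * |EEG (slC DD (wPl ℤ) c.p c.k0 k) (beB (wPl ℤ) e)| ≤ 22 * C ^ 2 * t := by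
  have hv := vS_pos ht hc.A0p hc.δ0 k
  have h1 := pG_beta_plane hc hC PlBondx898.wPl_le1 (e := e) (k := k)
    (plId _) ht (mem_singleton_self e.1)
  have h2 : pG (gw DD (wPl ℤ) (lo c.p c.k0 k) (hi c.p c.k0 k)) (beB (wPl ℤ) e) ≤
      pG (wU (wPl ℤ) (amp c k) (rr c.p c.k0 k) {e.1}) (beB (wPl ℤ) e) :=
    pnorm_le_pnorm (fun x => hc.gw_le PlBondx898.wPl_le1 k _ x) _
  have h3 := EEG_bd (GSysOKx439.slC_gram DD (wPl ℤ) PlBondx898.wPl_le1 c.p c.k0 k)
    (t := 22 * C ^ 2 * t / vS c t k ^ 2) (by positivity) (h2.trans h1)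
  rw [le_div_iff₀ (by positivity)] at h3
  rwa [mul_comm]

end lead

/-! ### the state after `K` steps -/

/-- **the fine phase, generic form** -/
theorem fineAt_of {J : ℝ} {R : ℕ} {V : Finset (ℤ × ℤ) → ℝ} {c : Cst} {lam β z : ℝ}
    (hc : FineC c R) {C : ℝ} (hC : BkReg C) {T : Finset (ℤ × ℤ)} {b : BoundaryCondition}
    {n m : ℕ} {X : Fin n → ℤ × ℤ} {e : Fin m → Bkgx683.EG ℤ}
    {he : ∀ i, (Bg.dom T b X).w (e i).1 (e i).2 ≠ 0} {Λ : Finset (ℤ × ℤ)}
    (hΛ : ∀ U, ¬ U ⊆ Λ → K0P (Bg.dom T b X) (mpar J lam R V β z) e c.p c.k0 U = 0)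
    {K ρ : ℕ} (hch : SrcCh (T : Set (ℤ × ℤ)) X e ρ) (hρ : (s2 + 2) * rr c.p c.k0 K + 1 ≤ ρ)
    (hρm : m * rr c.p c.k0 K ≤ ρ) {t Ce Cz : ℝ} (ht : 0 < t) (hCe : 0 ≤ Ce) (hCz : 0 ≤ Cz)
    (hS : ∀ k ≤ K, totP c (Bg.dom T b X) (mpar J lam R V β z) e he t k ≤
      ENNReal.ofReal (Ce * (1 / 2) ^ k))
    (hP : ∀ (j : Fin 2) (k : ℕ), totP c Bg.pl (mpar J lam R V β z) ![((0, 0), j)] (wpl_ne _) t k ≤
      ENNReal.ofReal (Ce * (1 / 2) ^ k))
    (hz : ∀ (j : Fin 2) (k : ℕ),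
      |zE J R V c lam β z j k - Ze J R V c lam β z| ≤ Cz * (1 / 2) ^ k)
    (hZe : |Ze J R V c lam β z| ≤ 2) :
    FineAt c (Bg.dom T b X) (mpar J lam R V β z) e he Λ K (amp c K) (vS c t K)
      ((5 * Ce + (88 * C ^ 2 * t + 1) * Cz) * (1 / 2) ^ K) (44 * C ^ 2 * t)
      (Ze J R V c lam β z) (fun i => eb J R V c lam β z (e i).2) := by
  have hw : ∀ z j, |(Bg.dom T b X).w z j| ≤ 1 := Fin3x315.abs_wX_le _ _ _
  have hr0 := rr_pos c.p c.k0 K
  have hs2 : s2 = 128 := rfl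
  have hρ2 : 2 ≤ ρ := by
    have h1 : 1 ≤ (s2 + 2) * rr c.p c.k0 K := Nat.mul_pos (by omega) hr0
    omega
  have hinj : Function.Injective fun i => faE (e i) := by
    intro i j hij
    by_contra hne
    have h1 := hch.faces hne (SrcChx485.fst_mem_faE (e i))
      (show (e i).1 ∈ faE (e j) from by
        rw [← show faE (e i) = faE (e j) from hij]
        exact SrcChx485.fst_mem_faE (e i))
    rw [fd_self] at h1
    omega
  set ρ1 := (s2 + 2) * rr c.p c.k0 K with hρ1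
  have hρ1p : 1 ≤ ρ1 := Nat.mul_pos (by omega) hr0
  have hX : ∀ i, ∀ j, ρ1 < fd (e i).1 (X j) := fun i j => by
    have := hch.sp i j
    omega
  have hZ : ∀ i, ∀ f ∈ ball (e i).1 ρ1, cornersIn (T : Set (ℤ × ℤ)) f := fun i =>
    hch.corners i hρ
  have hsep : ∀ i, ∀ i', i' ≠ i → ρ1 < fd (e i).1 (e i').1 := fun i i' hi => by
    have := hch.sep i i' hi.symm
    omega
  have hmk : ∀ i, ∀ f ∈ (∅ : Finset (ℤ × ℤ)), ρ1 < fd (e i).1 f := fun i f hf =>
    absurd hf (notMem_empty f)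
  have hl1 : 1 ≤ c.p := by have := hc.p4; omega
  have hnR : 2 * (mpar J lam R V β z).R + 1 ≤ nearR c.p c.k0 0 := hc.nR
  -- the runs
  have hrun := run_fine hc (P := mpar J lam R V β z) (he := he) hw hinj ht hCe
    (Pk := fun k => k < K) (fun k hk => hS k hk.le)
  have hpl : ∀ j : Fin 2, Run (flowP Bg.pl (mpar J lam R V β z) DD ∅ ![((0, 0), j)] (wpl_ne _)
      c.p c.k0) (fun _ => True) (slC DD (wPl ℤ) c.p c.k0)
      (fun k => gw DD (wPl ℤ) (lo c.p c.k0 k) (hi c.p c.k0 k))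
      (fun k => wU (wPl ℤ) (amp c k) (rr c.p c.k0 k)) (vS c t) c.Γ (fun k => Ce * (1 / 2) ^ k)
      (fun k => size (rr c.p c.k0 k))
      (fun i => faE ((![((0, 0), j)] : Fin 1 → Bkgx683.EG ℤ) i))
      (zeP Bg.pl (mpar J lam R V β z) DD ∅ ![((0, 0), j)] (wpl_ne _) c.p c.k0)
      (fun i => beB (wPl ℤ) ((![((0, 0), j)] : Fin 1 → Bkgx683.EG ℤ) i))
      (ppP Bg.pl (mpar J lam R V β z) DD ∅ ![((0, 0), j)] (wpl_ne _) c.p c.k0) := fun j =>
    run_fine hc (B := Bg.pl) (P := mpar J lam R V β z) (he := wpl_ne _) PlBondx898.wPl_le1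
      (Function.injective_of_subsingleton _) ht hCe (Pk := fun _ => True) (fun k _ => hP j k)
  -- numbers
  have hv : ∀ k, 0 < vS c t k := fun k => vS_pos ht hc.A0p hc.δ0 k
  have hv1 : ∀ k, 2 * vS c t k ^ 2 ≤ vS c t (k + 1) ^ 2 := fun k =>
    vS_lo ht hc.A0p hc.δ0 hc.δ2 (by have := hc.p4; omega) k
  have hv2 : ∀ k, vS c t (k + 1) ^ 2 ≤ 2 ^ c.p * vS c t k ^ 2 := fun k =>
    vS_hi ht hc.A0p hc.δ0 k
  have hL : (1 : ℝ) ≤ 2 ^ c.p := one_le_pow₀ (by norm_num)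
  have hΓ : 2 * 2 ^ c.p ≤ c.Γ * (1 / 2) := by have := hc.Γ4; linarith
  have hCs : (0 : ℝ) ≤ 22 * C ^ 2 * t := by positivity
  have hσK : (0 : ℝ) < (1 / 2) ^ K := by positivity
  have hc0 : ∀ i, c0D DD (Bg.dom T b X).w c.p c.k0 K (e i) =
      -∑' k, EEG (slC DD (wPl ℤ) c.p c.k0 (k + K)) (beB (wPl ℤ) ((0, 0), (e i).2)) := fun i =>
    SrcSlx813.c0D_dom DD hl1 (by norm_num) (hch.iso (isF b) i hρ)
      (Nat.mul_le_mul_right _ (by omega)) (PlBondx898.hasSum_plane (0, 0) (e i).2 hl1 c.k0)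
  refine ⟨hv K, by positivity, by positivity, hinj, ?_, ?_, hZe, ?_, ?_, ?_, ?_⟩
  · refine (hS K le_rfl).trans (ENNReal.ofReal_le_ofReal ?_)
    have h1 : 0 ≤ (4 * Ce + (88 * C ^ 2 * t + 1) * Cz) * (1 / 2) ^ K := by positivity
    nlinarith
  · intro i
    rw [zeP_dom (heP := wpl_ne _) hρ1p (hX i) (hZ i) (hsep i) (hmk i) hc.p4 (by norm_num) hc.h5 K
      (Nat.mul_le_mul_right _ (by omega))]
    refine (hz (e i).2 K).trans ?_
    have h1 : 0 ≤ (5 * Ce + 88 * C ^ 2 * t * Cz) * (1 / 2) ^ K := by positivity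
    nlinarith
  · intro i
    rw [hc0 i]
    have hcmp := cmpH_dom (P := mpar J lam R V β z) (D := DD) (heD := he)
      (heP := wpl_ne ![((0, 0), (e i).2)]) hρ1p (hX i) (hZ i) (hsep i) (hmk i) hc.p4
      (by norm_num) hc.h5 hnR (N := K) le_rfl
    obtain ⟨_, h2⟩ := hrun.constants (hpl (e i).2) (fun _ => trivial) (fun k U => flowP_GS k U)
      (Λ := Λ) (fun k U hU => flowP_supp hc.p4 hnR hΛ k U hU) i 0 (fun k hk => hk) hcmp
      (L := 2 ^ c.p) (σ := 1 / 2) (Ze := Ze J R V c lam β z) (Ce := Ce) (Cz := Cz)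
      (Cs := 22 * C ^ 2 * t) hv hL hv1 hv2 (by norm_num) (by norm_num) hΓ hCe hCz hCs
      (fun k => hz (e i).2 k) (fun k => hsl_pl hc hC ht _ k) (fun k => le_rfl)
      (fun k _ => le_rfl)
    refine h2.trans ?_
    have h1 : 0 ≤ (Ce + Cz) * (1 / 2) ^ K := by positivity
    nlinarith
  · intro I hI
    have h1 := hrun.high (fun k U => flowP_GS k U) (Λ := Λ)
      (fun k U hU => flowP_supp hc.p4 hnR hΛ k U hU) hI (N := K) (fun k hk => hk)
      (flowP_hbig hc.p4 hnR (fun i j hij => hρm.trans (hch.sep i j hij).le) hI)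
      (L := 2 ^ c.p) (σ := 1 / 2) (Ce := Ce) hv hL hv2 (by norm_num) hc.Γ1 ?_ hCe
      (fun k _ => le_rfl)
    · refine h1.trans ?_
      have h2 : 0 ≤ (4 * Ce + (88 * C ^ 2 * t + 1) * Cz) * (1 / 2) ^ K := by positivity
      nlinarith
    · have h2 : (2 * 2 ^ c.p) ^ (m + 1) ≤ (c.Γ * (1 / 2)) ^ (m + 1) :=
        pow_le_pow_left₀ (by positivity) hΓ _
      have h3 : 2 * ((2 : ℝ) ^ c.p) ^ m ≤ (2 * 2 ^ c.p) ^ (m + 1) := by
        rw [mul_pow]
        have h4 : (2 : ℝ) ≤ 2 ^ (m + 1) := by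
          calc (2 : ℝ) = 2 ^ 1 := (pow_one _).symm
            _ ≤ _ := pow_le_pow_right₀ (by norm_num) (by omega)
        have h5 : ((2 : ℝ) ^ c.p) ^ m ≤ (2 ^ c.p) ^ (m + 1) := pow_le_pow_right₀ hL (by omega)
        have h6 : (0 : ℝ) ≤ (2 ^ c.p) ^ m := by positivity
        nlinarith
      have h7 : (c.Γ * (1 / 2)) ^ (m + 1) ≤ c.Γ ^ (m + 1) * (1 / 2) := by
        have hG := hc.Γ1
        rw [mul_pow]
        refine mul_le_mul_of_nonneg_left ?_ (by positivity)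
        calc ((1 : ℝ) / 2) ^ (m + 1) ≤ (1 / 2) ^ 1 :=
              pow_le_pow_of_le_one (by norm_num) (by norm_num) (by omega)
          _ = 1 / 2 := pow_one _
      linarith
  · intro i
    rw [hc0 i, abs_neg]
    refine (tail_bd hv hv1 (fun k => hsl_pl hc hC ht ((0, 0), (e i).2) k) K).2.trans
      (le_of_eq ?_)
    ring
  · intro i
    have hp : PlaneLike (Bg.dom T b X).w (nbhd (s2 * rr c.p c.k0 K) {(e i).1}) := by
      rw [nbhd_single]
      exact DefRecx915.plMono ((hch.iso (isF b) i hρ).toPlane)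
        (ball_mono _ (Nat.mul_le_mul_right _ (by omega)))
    have h1 := pG_beta_plane hc hC hw hp ht (SrcChx485.fst_mem_faE (e i))
    refine h1.trans (ENNReal.ofReal_le_ofReal ?_)
    have h2 : 0 < vS c t K ^ 2 := by have := hv K; positivity
    exact div_le_div_of_nonneg_right (by nlinarith [mul_nonneg (sq_nonneg C) ht.le]) h2.le

end Crest.Agent.R165.SrcFinex484
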