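import Crest.Agent.R165.ZeEb_922
import Crest.Agent.R165.SrcRec_54
import Crest.Agent.R165.SrcLim_697

/-!
# Row 165 (S0250), P11: the plane with one bond source, consumer side (helper922)

* `ZInc J R V` : the increments of the running coefficient, `EvC` form
* `ZA J R V` : increments and total norms of the remainders of the plane, one source
* `oneP_Ze` : `OneP J (PF J R V) (Ze J R V)`
* `hz_of` : `|zE j n - Ze| ≤ 2 M |lam| (1/2)^n` for both directions
-/

set_option autoImplicit false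
set_option linter.all false

noncomputable section

open Filter Topology
open scoped ENNReal
open Crest.ProbabilityR.IsingModel
open Crest.Agent.R165.Gr0x606 Crest.Agent.R165.Gr1x606 Crest.Agent.R165.GeOpsx337
open Crest.Agent.R165.KFlowx337 Crest.Agent.R165.GSysx387 Crest.Agent.R165.GDefx387
open Crest.Agent.R165.SrcDefx991 Crest.Agent.R165.SrcSysx991 Crest.Agent.R165.SrcInsx991
open Crest.Agent.R165.SrcCstx484 Crest.Agent.R165.SrcSymx922 Crest.Agent.R165.SrcRecx54
open Crest.Agent.R165.SrcLimx697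
open Crest.Agent.R165.FRDPolyx439 Crest.Agent.R165.Bkgx683
open Crest.Agent.R165.Topx683 (VHyp)
open Crest.Agent.R165.PEndx683 Crest.Agent.R165.Outx683
open Crest.Agent.R165.Latx683 (xc wPl Fld)

namespace Crest.Agent.R165.ZeEbx922

/-- the increments of the running coefficient of the plane -/
def ZInc (J : ℝ) (R : ℕ) (V : Finset (ℤ × ℤ) → ℝ) : Prop :=
  EvC fun c => ∀ C : ℝ, ∃ ε > 0, ∃ M : ℝ, ∀ lam β z : ℝ, |lam| < ε →
    NearP J C lam β z → PF J R V C c lam β z →
      ∀ n, |zE J R V c lam β z 0 (n + 1) - zE J R V c lam β z 0 n| ≤ M * |lam| * (1 / 2) ^ n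

/-- **the plane flow with one bond source is controlled** -/
def ZA (J : ℝ) (R : ℕ) (V : Finset (ℤ × ℤ) → ℝ) : Prop :=
  EvC fun c => ∀ C : ℝ, ∃ ε > 0, ∃ T1 > 0, ∃ M > 0, ∀ lam β z : ℝ, |lam| < ε →
    NearP J C lam β z → PF J R V C c lam β z →
      (∀ j n, |zE J R V c lam β z j n| ≤ 2) ∧
      (∀ j n, |zE J R V c lam β z j (n + 1) - zE J R V c lam β z j n| ≤
        M * |lam| * (1 / 2) ^ n) ∧
      ∀ T : ℝ, 0 < T → T ≤ T1 → ∀ (j : Fin 2) (n : ℕ),
        Tot (fun U => wU (wPl ℤ) (amp c n) (rr c.p c.k0 n) U)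
          (fun _ : Fin 1 => ENNReal.ofReal (vS c T n)) (ENNReal.ofReal c.Γ) (rr c.p c.k0 n)
          (ppP Bg.pl (mpar J lam R V β z) DD ∅ ![((0, 0), j)] (wpl_ne _) c.p c.k0 n) ≤
            ENNReal.ofReal (M * |lam| * T * (1 / 2) ^ n)

variable {J : ℝ} {R : ℕ} {V : Finset (ℤ × ℤ) → ℝ}

theorem ZA.inc (h : ZA J R V) : ZInc J R V := by
  refine h.mono fun c hc C => ?_
  obtain ⟨ε, hε, T1, hT1, M, hM, H⟩ := hc C
  exact ⟨ε, hε, M, fun lam β z hl hn hp n => (H lam β z hl hn hp).2.1 0 n⟩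

/-- the limit, for both directions -/
theorem hz_point (hV : VHyp R V) {c : Cst} {lam β z M : ℝ}
    (h : ∀ n, |zE J R V c lam β z 0 (n + 1) - zE J R V c lam β z 0 n| ≤ M * |lam| * (1 / 2) ^ n)
    (j : Fin 2) (n : ℕ) :
    |zE J R V c lam β z j n - Ze J R V c lam β z| ≤ 2 * (M * |lam|) * (1 / 2) ^ n := by
  rw [zE_dir hV]
  refine ((Ze_of_step (by norm_num) (by norm_num) h).2 n).trans (le_of_eq ?_)
  ring

theorem tendsto_point (hV : VHyp R V) {c : Cst} {lam β z M : ℝ}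
    (h : ∀ n, |zE J R V c lam β z 0 (n + 1) - zE J R V c lam β z 0 n| ≤ M * |lam| * (1 / 2) ^ n)
    (j : Fin 2) : Tendsto (zE J R V c lam β z j) atTop (𝓝 (Ze J R V c lam β z)) := by
  have : zE J R V c lam β z j = zE J R V c lam β z 0 := funext fun n => zE_dir hV j n
  rw [this]
  exact (Ze_of_step (by norm_num) (by norm_num) h).1

/-- **`Ze = 1 + O(lam)`** -/
theorem oneP_Ze (h : ZInc J R V) : OneP J (PF J R V) (Ze J R V) := by
  refine h.mono fun c hc C => ?_
  obtain ⟨ε, hε, M, H⟩ := hc C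
  refine ⟨ε, hε, 2 * M, fun lam β z hl hn hp => ?_⟩
  refine (Ze_one_of_step (by norm_num) (by norm_num) (H lam β z hl hn hp)).trans (le_of_eq ?_)
  ring

/-- **the rate of the running coefficients and the size of the limit** -/
theorem hz_ev (hV : VHyp R V) (h : ZInc J R V) : EvC fun c => ∀ C : ℝ, ∃ ε > 0, ∃ M > 0,
    ∀ lam β z : ℝ, |lam| < ε → NearP J C lam β z → PF J R V C c lam β z →
      |Ze J R V c lam β z| ≤ 2 ∧ (∀ j n, |zE J R V c lam β z j n| ≤ 2) ∧
      ∀ j n, |zE J R V c lam β z j n - Ze J R V c lam β z| ≤ M * |lam| * (1 / 2) ^ n := by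
  refine h.mono fun c hc C => ?_
  obtain ⟨ε, hε, M, H⟩ := hc C
  have hM : 0 < 4 * (|M| + 1) := by positivity
  refine ⟨min ε (1 / (4 * (|M| + 1))), lt_min hε (by positivity), 2 * (|M| + 1), by positivity,
    fun lam β z hl hn hp => ?_⟩
  have h1 := H lam β z (hl.trans_le (min_le_left _ _)) hn hp
  have h2 : |lam| * (4 * (|M| + 1)) < 1 := by
    have := hl.trans_le (min_le_right _ _)
    rwa [lt_div_iff₀ hM] at this
  have h3 : M * |lam| ≤ |M| * |lam| := mul_le_mul_of_nonneg_right (le_abs_self M) (abs_nonneg _)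
  have h4 : 0 ≤ |lam| := abs_nonneg _
  have hz : ∀ j n, |zE J R V c lam β z j n - Ze J R V c lam β z| ≤
      2 * (|M| + 1) * |lam| * (1 / 2) ^ n := fun j n => by
    refine (hz_point hV h1 j n).trans ?_
    have h5 : (0 : ℝ) ≤ (1 / 2) ^ n := by positivity
    refine mul_le_mul_of_nonneg_right ?_ h5
    nlinarith
  have h6 : |1 - Ze J R V c lam β z| ≤ 1 / 2 := by
    have h7 := hz 0 0
    rw [zE_zero, pow_zero, mul_one] at h7
    nlinarith
  have h8 := abs_le.1 h6
  refine ⟨abs_le.2 ⟨by linarith, by linarith⟩, fun j n => ?_, hz⟩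
  have h9 := hz j n
  have h10 : (1 / 2 : ℝ) ^ n ≤ 1 := pow_le_one₀ (by norm_num) (by norm_num)
  have h11 : 2 * (|M| + 1) * |lam| * (1 / 2) ^ n ≤ 1 / 2 := by
    have h12 : 0 ≤ 2 * (|M| + 1) * |lam| := by positivity
    nlinarith
  have h13 := abs_le.1 (h9.trans h11)
  exact abs_le.2 ⟨by linarith, by linarith⟩

end Crest.Agent.R165.ZeEbx922
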