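import Crest.Agent.R165.ZeA_915
import Crest.Agent.R165.ZeEb2_922

/-!
# Row 165 (S0250), leaf P11 (sources): the plane, literal forms of helper922 (helper915)

* `zA_all` : `VHyp R V → ZA J R V`;  `zInc`, `oneP` : consequences
-/

set_option autoImplicit false
set_option linter.unusedSectionVars false

noncomputable section

open scoped ENNReal

namespace Crest.Agent.R165.ZeAx915

open Crest.Agent.R165.PEndx683 Crest.Agent.R165.Outx683 Crest.Agent.R165.ZeEbx922
open Crest.Agent.R165.SrcSymx922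

variable {J : ℝ} {R : ℕ} {V : Finset (ℤ × ℤ) → ℝ}

/-- **the plane with one bond source**, in the form of `ZeEb2_922` -/
theorem zA_all (hV : Topx683.VHyp R V) : ZA J R V := by
  refine (zA (J := J) hV).mono fun c hc C => ?_
  obtain ⟨T1, hT1, hc⟩ := hc
  obtain ⟨ε, hε, M, hM, h⟩ := hc C
  refine ⟨ε, hε, T1, hT1, M, hM, fun lam β z hl hn hp => ⟨fun j n => ?_, fun j n => ?_, ?_⟩⟩
  · exact (h lam β z hl hn hp ![((0, 0), j)] T1 hT1 le_rfl n).2.1
  · exact (h lam β z hl hn hp ![((0, 0), j)] T1 hT1 le_rfl n).2.2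
  · intro T hT hT' j n
    exact (h lam β z hl hn hp ![((0, 0), j)] T hT hT' n).1

theorem zInc (hV : Topx683.VHyp R V) : ZInc J R V := (zA_all hV).inc

/-- **the field `one` of `EnR`** -/
theorem oneP (hV : Topx683.VHyp R V) : OneP J (PF J R V) (Ze J R V) :=
  oneP_Ze (zInc hV)

end Crest.Agent.R165.ZeAx915
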