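import Crest.Agent.R165.SrcDiscG_359
import Crest.Agent.R165.EnPNum_622
import Crest.Agent.R165.SrcFine_484
import Crest.Agent.R165.ZeB_915
import Crest.Agent.R165.SrcCh_485
import Crest.Agent.R165.BkEx_812

/-!
# Row 165 (S0250), leaf EnR: the fine phase of the large discs (helper375)

* `vol_of_volS`, `K0P_zero` : supports of the initial activities in an admissible volume
* `fineD` : `EnFinex811.FineD` for `Ze`, `eb` of `ZeEb_922`
-/

set_option autoImplicit false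

noncomputable section

open Filter Topology
open scoped ENNReal
open Crest.ProbabilityR.IsingModel

namespace Crest.Agent.R165.FineDx375

open Crest.Agent.R165.GSysx387 Crest.Agent.R165.GDefx387 Crest.Agent.R165.FRDPolyx439
  Crest.Agent.R165.Latx683 Crest.Agent.R165.PEndx683
  Crest.Agent.R165.Outx683 Crest.Agent.R165.SrcInsx991 Crest.Agent.R165.SrcChx485
  Crest.Agent.R165.SrcLimx697 Crest.Agent.R165.ZeEbx922 Crest.Agent.R165.SrcSymx922
  Crest.Agent.R165.BgIsox432 Crest.Agent.R165.DiscKx892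
open Crest.Agent.R165.SrcDefx991 (VS Src)
open Crest.Agent.R165.Bkgx683 (MPar mpar Bg bondSrc)
open Crest.Agent.R165.JRunSx408 (eb xb VolS)
open Crest.Agent.R165.JVolx950 (Vol)
open Crest.Agent.R165.J4Geox126 (faE)

/-- admissible volumes of 408 are admissible for 950 -/
theorem vol_of_volS {T : Finset (ℤ × ℤ)} {b : BoundaryCondition} {R m : ℕ}
    {e : Fin m → Bkgx683.EG ℤ} {Λ : Finset (ℤ × ℤ)} (v : VolS T b R e Λ) :
    Vol T b R (fun k => faE (e k)) Λ :=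
  ⟨fun _ h => v.cor _ (JVolx950.mem_Wf.1 h), fun h hh => v.nbr h (JVolx950.mem_Wf.1 hh), v.shp,
    v.src⟩

/-- the initial activities vanish outside an admissible volume -/
theorem K0P_zero {T : Finset (ℤ × ℤ)} {b : BoundaryCondition} {n m : ℕ} {X : Fin n → ℤ × ℤ}
    {e : Fin m → Bkgx683.EG ℤ} {Λ : Finset (ℤ × ℤ)} {J lam : ℝ} {R : ℕ}
    {V : Finset (ℤ × ℤ) → ℝ} {β z : ℝ} (v : VolS T b (max R 1) e Λ) (l k0 : ℕ)
    (U : Finset (ℤ × ℤ)) (hU : ¬ U ⊆ Λ) :
    K0P (Bg.dom T b X) (mpar J lam R V β z) e l k0 U = 0 :=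
  Vol.supp1 (P := mpar J lam R V β z) (src := bondSrc (Fld ℤ) e) (vol_of_volS v)
    (LinearMap.inl ℝ (Fld ℤ) (Src m)) l k0 U hU

/-- **the fine phase of the large discs** -/
theorem fineD {J : ℝ} {R : ℕ} {V : Finset (ℤ × ℤ) → ℝ} (hV : Topx683.VHyp R V) :
    ForP J (PF J R V) fun c lam β z =>
      EnFinex811.FineD J lam R V β z c (Ze J R V c lam β z) (eb J R V c lam β z) := by
  unfold ForP
  obtain ⟨Cb, hCb, hreg⟩ := BkExx812.exists_bkReg
  refine (EvC.and (EvC.and (SrcGenx359.sA_disc (J := J) hV) (ZeAx915.zA_all (J := J) hV))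
    (EvC.and (hz_ev (J := J) hV (ZeAx915.zInc hV)) (SrcFinex484.fineC_ev R))).mono
    fun c hc C => ?_
  obtain ⟨⟨⟨hstd, T1, hT1, h1⟩, h2⟩, h3, hfc⟩ := hc
  obtain ⟨ε₁, hε₁, M₁, hM₁, h1⟩ := h1 C
  obtain ⟨ε₂, hε₂, T2, hT2, M₂, hM₂, h2⟩ := h2 C
  obtain ⟨ε₃, hε₃, M₃, hM₃, h3⟩ := h3 C
  refine ⟨min ε₁ (min ε₂ ε₃), lt_min hε₁ (lt_min hε₂ hε₃), fun lam β z hl hn hp => ?_⟩
  have hl1 : |lam| < ε₁ := hl.trans_le (min_le_left _ _)
  have hl2 : |lam| < ε₂ := hl.trans_le ((min_le_right _ _).trans (min_le_left _ _))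
  have hl3 : |lam| < ε₃ := hl.trans_le ((min_le_right _ _).trans (min_le_right _ _))
  obtain ⟨hzE, -, hpl⟩ := h2 lam β z hl2 hn hp
  obtain ⟨hZe, -, hzr⟩ := h3 lam β z hl3 hn hp
  intro n m hm hev x y j hinj
  have hm0 : (0 : ℝ) < m := by exact_mod_cast hm
  set t : ℝ := min (T1 / m) T2 with ht
  have ht0 : 0 < t := lt_min (by positivity) hT2
  have htm : m * t ≤ T1 := by
    calc (m : ℝ) * t ≤ m * (T1 / m) := mul_le_mul_of_nonneg_left (min_le_left _ _) hm0.le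
      _ = T1 := by field_simp
  obtain ⟨u1, hu1, h1⟩ := h1 n m hev hm x y j hinj
  obtain ⟨u2, hu2, hch⟩ := srcCh_dl hinj j (max (s2 + 3) m)
  refine ⟨min u1 u2, lt_min hu1 hu2, fun u hu huu => ?_⟩
  have hQ := (h1 u hu (huu.trans (min_le_left _ _))).and
    (hch u hu (huu.trans (min_le_right _ _)) c.p c.k0)
  set Ce : ℝ := max (M₁ * |lam| * (m * t)) (M₂ * |lam| * t) with hCe
  have hCe0 : 0 ≤ Ce := le_max_of_le_right (by positivity)
  refine ⟨1 / 2, 5 * Ce + (88 * Cb ^ 2 * t + 1) * (M₃ * |lam|), 44 * Cb ^ 2 * t,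
    t * (u / 2 ^ c.p), fun a => vS c t (k1 c.p c.k0 u a), by norm_num, by norm_num,
    by positivity, by positivity, by positivity, ?_⟩
  have hp1 : 1 ≤ c.p := (by norm_num : 1 ≤ 4).trans hfc.p4
  filter_upwards [EnPNumx622.vS_k1_ev ht0 (one_pos.trans_le hfc.A0) hfc.δ0 hp1 u,
    eventually_curry_iff.1 hQ] with a hκ ha
  refine ⟨hκ, ?_⟩
  filter_upwards [ha] with B hB T hT Λ hΛ he
  obtain ⟨hB1, hB2⟩ := hB
  have hch' := hB2 (k1 c.p c.k0 u a) le_rfl
  rw [← hT] at hch'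
  have hrr : 1 ≤ rr c.p c.k0 (k1 c.p c.k0 u a) := rr_pos _ _ _
  refine SrcFinex484.fineAt_of hfc hreg (fun U hU => K0P_zero hΛ c.p c.k0 U hU) hch' ?_
    (Nat.mul_le_mul_right _ (le_max_right _ _)) ht0 hCe0 (by positivity) ?_ ?_ hzr hZe
  · calc (s2 + 2) * rr c.p c.k0 (k1 c.p c.k0 u a) + 1 ≤
        (s2 + 3) * rr c.p c.k0 (k1 c.p c.k0 u a) := by
          rw [show s2 + 3 = (s2 + 2) + 1 by ring, add_mul (s2 + 2) 1, one_mul]
          omega
      _ ≤ _ := Nat.mul_le_mul_right _ (le_max_left _ _)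
  · intro k hk
    refine (hB1 lam β z hl1 hn hp (hzE 0) T hT .plus he t ht0 htm k hk).trans
      (ENNReal.ofReal_le_ofReal ?_)
    exact mul_le_mul_of_nonneg_right (le_max_left _ _) (by positivity)
  · intro jj k
    refine (hpl t ht0 (min_le_right _ _) jj k).trans (ENNReal.ofReal_le_ofReal ?_)
    exact mul_le_mul_of_nonneg_right (le_max_right _ _) (by positivity)

end Crest.Agent.R165.FineDx375
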