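import Crest.Agent.R165.Fr4_802
import Crest.Agent.R165.UFin_420

/-!
# Row 165 (S0250), leaf FREE TRANSFER, part 5 (helper802): kernel limits, two points

* `cor η B z z'` : the correction form `∑ η_i(z) (B⁻¹)_ij η_j(z')`
* `tw b` : `b(-i·, i·)`
* `lim_SX`, `lim_psi`, `lim_S` : limits of the bordered kernel, of the dual field of the free
  covariance, of the free covariance
-/

set_option autoImplicit false
set_option linter.unusedSimpArgs false
set_option linter.unusedSectionVars false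

noncomputable section

open Filter Topology Finset
open Crest.ProbabilityR.IsingModel

namespace Crest.Agent.R165.Fr5x802

open Crest.Agent.R165.Latx683 (BW HE wX wDom ray IsCov)
open Crest.Agent.R165.UKerx420 (kap edir hb cB kap_sq)
open Crest.Agent.R165.FrIx802
open Crest.Agent.R165.Fr1x802 (wp wd ys st OK cw du)
open Crest.Agent.R165.Fr2x802 (FS BM KL NN SX Vs Gh psi_SX)
open Crest.Agent.R165.Fr3x802 Crest.Agent.R165.Fr4x802

/-! ### forms -/

section forms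
variable {n : ℕ}

/-- the correction form -/
def cor (η : Fin n → ℂ → ℂ →ₗ[ℝ] ℝ) (B : Matrix (Fin n) (Fin n) ℝ) (z z' : ℂ) :
    LinearMap.BilinForm ℝ ℂ :=
  ∑ i, ∑ j, (B⁻¹ i j) • (η i z).smulRight (η j z')

theorem cor_apply (η : Fin n → ℂ → ℂ →ₗ[ℝ] ℝ) (B : Matrix (Fin n) (Fin n) ℝ) (z z' c c' : ℂ) :
    cor η B z z' c c' = ∑ i, ∑ j, η i z c * B⁻¹ i j * η j z' c' := by
  unfold cor
  simp only [LinearMap.sum_apply, LinearMap.smul_apply, LinearMap.smulRight_apply, smul_eq_mul]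
  exact sum_congr rfl fun i _ => sum_congr rfl fun j _ => by ring

/-- the twist `b(-i·, i·)` -/
def tw (b : LinearMap.BilinForm ℝ ℂ) : LinearMap.BilinForm ℝ ℂ :=
  b.compl₁₂ (LinearMap.mulLeft ℝ (-Complex.I)) (LinearMap.mulLeft ℝ Complex.I)

theorem tw_apply (b : LinearMap.BilinForm ℝ ℂ) (c c' : ℂ) :
    tw b c c' = b (-Complex.I * c) (Complex.I * c') := rfl

end forms

theorem edir0 : edir 0 = ⟨-(Real.sqrt 2 / 2), Real.sqrt 2 / 2⟩ := rfl
theorem edir1 : edir 1 = 1 := rfl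
theorem edir2 : edir 2 = ⟨-(Real.sqrt 2 / 2), -(Real.sqrt 2 / 2)⟩ := rfl
theorem edir3 : edir 3 = Complex.I := rfl

theorem I_edir0 : Complex.I * edir 0 = edir 2 := by
  rw [edir0, edir2]; apply Complex.ext <;> simp
theorem I_edir1 : Complex.I * edir 1 = edir 3 := by
  rw [edir1, edir3]; simp
theorem I_edir2 : Complex.I * edir 2 = -edir 0 := by
  rw [edir0, edir2]; apply Complex.ext <;> simp
theorem I_edir3 : Complex.I * edir 3 = -edir 1 := by
  rw [edir1, edir3]; simp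

theorem sq2 : Real.sqrt 2 * Real.sqrt 2 = 2 := Real.mul_self_sqrt (by norm_num)
theorem sq2_ne : Real.sqrt 2 ≠ 0 := (Real.sqrt_pos.2 (by norm_num)).ne'
theorem sq2_pow : Real.sqrt 2 ^ 2 = 2 := by rw [sq]; exact sq2

theorem nI_edir0 : -Complex.I * edir 0 = (Real.sqrt 2)⁻¹ • (edir 1 + edir 3) := by
  have h := sq2_ne
  rw [edir0, edir1, edir3]; apply Complex.ext <;> simp
theorem nI_edir2 : -Complex.I * edir 2 = (Real.sqrt 2)⁻¹ • (edir 3 - edir 1) := by
  have h := sq2_ne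
  rw [edir2, edir1, edir3]; apply Complex.ext <;> simp
theorem nI_edir3 : -Complex.I * edir 3 = (Real.sqrt 2)⁻¹ • (-(edir 2 + edir 0)) := by
  have h := sq2_ne
  rw [edir0, edir2, edir3]; apply Complex.ext <;> simp
  field_simp
  rw [sq2_pow]; norm_num
theorem nI_edir1 : -Complex.I * edir 1 = (Real.sqrt 2)⁻¹ • (edir 2 - edir 0) := by
  have h := sq2_ne
  rw [edir0, edir2, edir1]; apply Complex.ext <;> simp
  field_simp
  rw [sq2_pow]; norm_num

/-! ### faces tending to a point -/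

theorem mesh_shift {a : ℕ → ℝ} (lim : Tendsto a atTop (𝓝 0)) {p : ℕ → ℤ × ℤ} {z : ℂ}
    (h : Tendsto (fun k => meshPoint (a k) (p k)) atTop (𝓝 z)) (c d : ℤ) :
    Tendsto (fun k => meshPoint (a k) ((p k).1 + c, (p k).2 + d)) atTop (𝓝 z) := by
  have h1 : Tendsto (fun k => meshPoint (a k) (p k) + ((a k : ℝ) : ℂ) * ((c : ℂ) + (d : ℂ) * Complex.I))
      atTop (𝓝 (z + ((0 : ℝ) : ℂ) * ((c : ℂ) + (d : ℂ) * Complex.I))) :=
    h.add (((Complex.continuous_ofReal.tendsto _).comp lim).mul_const _)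
  rw [Complex.ofReal_zero, zero_mul, add_zero] at h1
  refine h1.congr fun k => ?_
  apply Complex.ext
  · simp [meshPoint]; ring
  · simp [meshPoint]; ring

theorem ev_ne {a : ℕ → ℝ} {p q : ℕ → ℤ × ℤ} {z z' : ℂ} (hzz : z ≠ z')
    (h : Tendsto (fun k => meshPoint (a k) (p k)) atTop (𝓝 z))
    (h' : Tendsto (fun k => meshPoint (a k) (q k)) atTop (𝓝 z')) : ∀ᶠ k in atTop, p k ≠ q k := by
  have h1 := (h.sub h').eventually_ne (sub_ne_zero.2 hzz)
  filter_upwards [h1] with k hk e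
  apply hk
  rw [e, sub_self]

theorem ev_notin {a : ℕ → ℝ} (lim : Tendsto a atTop (𝓝 0)) {p q : ℕ → ℤ × ℤ} {z z' : ℂ}
    (hzz : z ≠ z') (h : Tendsto (fun k => meshPoint (a k) (p k)) atTop (𝓝 z))
    (h' : Tendsto (fun k => meshPoint (a k) (q k)) atTop (𝓝 z')) :
    ∀ᶠ k in atTop, p k ∉ Vs (q k) := by
  have h0 := ev_ne hzz h h'
  have h1 := ev_ne hzz h (mesh_shift lim h' 1 0)
  have h2 := ev_ne hzz h (mesh_shift lim h' 0 1)
  have h3 := ev_ne hzz h (mesh_shift lim h' 1 1)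
  filter_upwards [h0, h1, h2, h3] with k h0 h1 h2 h3
  unfold Vs
  simp only [mem_insert, mem_singleton, not_or]
  simp only [add_zero] at h1 h2
  exact ⟨h0, h1, h2, h3⟩

/-! ### the situation -/

/-- a sequence of meshes, with dual covariances -/
structure Sit (D : Set ℂ) {n : ℕ} (x : Fin n → ℂ) (bl : ℂ → ℂ → LinearMap.BilinForm ℝ ℂ)
    (rg : ℂ → LinearMap.BilinForm ℝ ℂ) (η : Fin n → ℂ → ℂ →ₗ[ℝ] ℝ)
    (B : Matrix (Fin n) (Fin n) ℝ) (a : ℕ → ℝ) (Sd : ℕ → HE ℤ → HE ℤ → ℝ) : Prop where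
  op : IsOpen D
  bd : Bornology.IsBounded D
  mem : ∀ i, x i ∈ D
  inj : Function.Injective x
  H : PlusIn D x bl rg η B
  det : IsUnit B.det
  pos : ∀ k, 0 < a k
  lim : Tendsto a atTop (𝓝 0)
  cov : ∀ k, IsCov (wX (yS (domainSites D (a k))) (fun i => meshIndex (a k) (x i))) (Sd k)

/-- the insertions -/
def VV {n : ℕ} (x : Fin n → ℂ) (a : ℝ) : Fin n → ℤ × ℤ := fun i => meshIndex a (x i)

section sit
variable {D : Set ℂ} {n : ℕ} {x : Fin n → ℂ} {bl : ℂ → ℂ → LinearMap.BilinForm ℝ ℂ}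
  {rg : ℂ → LinearMap.BilinForm ℝ ℂ} {η : Fin n → ℂ → ℂ →ₗ[ℝ] ℝ} {B : Matrix (Fin n) (Fin n) ℝ}
  {a : ℕ → ℝ} {Sd : ℕ → HE ℤ → HE ℤ → ℝ}

theorem Sit.tip (h : Sit D x bl rg η B a Sd) (i : Fin n) :
    Tendsto (fun k => meshPoint (a k) (VV x (a k) i)) atTop (𝓝 (x i)) := by
  have h1 := (UKerx420.tendsto_mesh (x i) 0).comp
    (tendsto_nhdsWithin_iff.2 ⟨h.lim, Eventually.of_forall h.pos⟩)
  refine h1.congr fun k => ?_
  simp [VV]

theorem Sit.latB (h : Sit D x bl rg η B a Sd) :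
    LatB D x a (fun k => yS (domainSites D (a k))) (fun k => VV x (a k)) :=
  latB_dual h.op h.bd h.pos h.lim h.tip

theorem Sit.lim_BM (h : Sit D x bl rg η B a Sd) (i j : Fin n) :
    Tendsto (fun k => BM (Sd k) (VV x (a k)) i j) atTop (𝓝 (B i j)) := by
  refine (h.H.bb a _ _ h.latB Sd h.cov i j).congr fun k => ?_
  have e1 : kb x (VV x (a k)) i = 1 := kb_mesh x (a k) i
  have e2 : kb x (VV x (a k)) j = 1 := kb_mesh x (a k) j
  rw [e1, e2, one_mul, one_mul]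
  rfl

theorem Sit.lim_mat (h : Sit D x bl rg η B a Sd) :
    Tendsto (fun k => BM (Sd k) (VV x (a k))) atTop (𝓝 B) := by
  exact tendsto_pi_nhds.2 fun i => tendsto_pi_nhds.2 fun j => h.lim_BM i j

theorem Sit.ev_det (h : Sit D x bl rg η B a Sd) :
    ∀ᶠ k in atTop, IsUnit (BM (Sd k) (VV x (a k))).det := by
  have h1 : Tendsto (fun k => (BM (Sd k) (VV x (a k))).det) atTop (𝓝 B.det) :=
    ((continuous_id.matrix_det).tendsto B).comp h.lim_mat
  filter_upwards [h1.eventually_ne h.det.ne_zero] with k hk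
  exact isUnit_iff_ne_zero.2 hk

theorem Sit.lim_BMi (h : Sit D x bl rg η B a Sd) (i j : Fin n) :
    Tendsto (fun k => (BM (Sd k) (VV x (a k)))⁻¹ i j) atTop (𝓝 (B⁻¹ i j)) := by
  have h1 : Tendsto (fun k => (BM (Sd k) (VV x (a k))).det) atTop (𝓝 B.det) :=
    ((continuous_id.matrix_det).tendsto B).comp h.lim_mat
  have h2 : Tendsto (fun k => (BM (Sd k) (VV x (a k))).adjugate) atTop (𝓝 B.adjugate) :=
    ((continuous_id.matrix_adjugate).tendsto B).comp h.lim_mat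
  have h3 : Tendsto (fun k => (BM (Sd k) (VV x (a k))).adjugate i j) atTop (𝓝 (B.adjugate i j)) :=
    (tendsto_pi_nhds.1 (tendsto_pi_nhds.1 h2 i)) j
  have h4 := (h1.inv₀ h.det.ne_zero).mul h3
  simp only [Matrix.inv_def, Ring.inverse_eq_inv', Matrix.smul_apply, smul_eq_mul]
  exact h4

theorem Sit.lim_KL (h : Sit D x bl rg η B a Sd) {z : ℂ} (hz : z ∈ D) (hx : ∀ i, x i ≠ z)
    (j : Fin n) (b : Fin 4) {p : ℕ → ℤ × ℤ}
    (hp : Tendsto (fun k => meshPoint (a k) (p k)) atTop (𝓝 z)) :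
    Tendsto (fun k => (Real.sqrt (a k))⁻¹ * (kap x (VV x (a k)) z (p k) *
      KL (Sd k) (VV x (a k) j) (p k, b))) atTop (𝓝 (η j z (edir b))) := by
  refine (h.H.eta a _ _ h.latB Sd h.cov z hz hx j b p hp).congr fun k => ?_
  have e2 : kb x (VV x (a k)) j = 1 := kb_mesh x (a k) j
  rw [e2, mul_one]
  rfl

/-- limit of the bordered kernel -/
theorem Sit.lim_SX (h : Sit D x bl rg η B a Sd) {z z' : ℂ} (hz : z ∈ D) (hz' : z' ∈ D)
    (hzz : z ≠ z') (hx : ∀ i, x i ≠ z) (hx' : ∀ i, x i ≠ z') (b b' : Fin 4) {p q : ℕ → ℤ × ℤ}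
    (hp : Tendsto (fun k => meshPoint (a k) (p k)) atTop (𝓝 z))
    (hq : Tendsto (fun k => meshPoint (a k) (q k)) atTop (𝓝 z')) :
    Tendsto (fun k => (a k)⁻¹ * (kap x (VV x (a k)) z (p k) * kap x (VV x (a k)) z' (q k) *
      SX (Sd k) (VV x (a k)) (p k, b) (q k, b'))) atTop
      (𝓝 ((bl z z' + cor η B z z') (edir b) (edir b'))) := by
  have h1 := h.H.off a _ _ h.latB Sd h.cov z z' hz hz' hzz hx hx' b b' p q hp hq
  have h2 := tendsto_finsetSum (univ : Finset (Fin n)) fun i _ =>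
    tendsto_finsetSum (univ : Finset (Fin n)) fun j _ =>
      ((h.lim_KL hz hx i b hp).mul (h.lim_BMi i j)).mul (h.lim_KL hz' hx' j b' hq)
  rw [LinearMap.add_apply, LinearMap.add_apply, cor_apply]
  refine (h1.add h2).congr fun k => ?_
  have e : (a k)⁻¹ = (Real.sqrt (a k))⁻¹ * (Real.sqrt (a k))⁻¹ := by
    rw [← mul_inv, Real.mul_self_sqrt (h.pos k).le]
  unfold SX
  rw [mul_add, mul_add]
  congr 1
  simp only [Finset.mul_sum]
  refine sum_congr rfl fun i _ => sum_congr rfl fun j _ => ?_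
  rw [e]
  ring

end sit

end Crest.Agent.R165.Fr5x802
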