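import Crest.Agent.R165.Fr5_802

/-!
# Row 165 (S0250), leaf FREE TRANSFER, part 6 (helper802): kernel limits of the free covariance

* `Sit.lim_psi` : limit of the dual field of a column of the free covariance
* `Sit.lim_S` : `a⁻¹ κ κ' S^free((f,i),(f',i')) → (bl + cor) (-i e_i) (i e_i')`
* `Sit.lim_diag` : one bond
-/

set_option autoImplicit false
set_option linter.unusedSimpArgs false
set_option linter.unusedSectionVars false

noncomputable section

open Filter Topology Finset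
open Crest.ProbabilityR.IsingModel

namespace Crest.Agent.R165.Fr6x802

open Crest.Agent.R165.Latx683 (BW HE wX wDom ray IsCov)
open Crest.Agent.R165.UKerx420 (kap edir hb cB kap_sq)
open Crest.Agent.R165.FrIx802
open Crest.Agent.R165.Fr1x802 (wp wd ys st OK cw du inv_S inv_N inv_W inv_E)
open Crest.Agent.R165.Fr2x802 (FS BM KL NN SX Vs Gh psi_SX SX_anti)
open Crest.Agent.R165.Fr3x802 Crest.Agent.R165.Fr4x802 Crest.Agent.R165.Fr5x802

section sit
variable {D : Set ℂ} {n : ℕ} {x : Fin n → ℂ} {bl : ℂ → ℂ → LinearMap.BilinForm ℝ ℂ}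
  {rg : ℂ → LinearMap.BilinForm ℝ ℂ} {η : Fin n → ℂ → ℂ →ₗ[ℝ] ℝ} {B : Matrix (Fin n) (Fin n) ℝ}
  {a : ℕ → ℝ} {Sd S : ℕ → HE ℤ → HE ℤ → ℝ}

theorem ev_sign (h : Sit D x bl rg η B a Sd) {z : ℂ} (hx : ∀ i, x i ≠ z) {f : ℕ → ℤ × ℤ}
    (hf : Tendsto (fun k => meshPoint (a k) (f k)) atTop (𝓝 z)) :
    ∀ᶠ k in atTop, kap x (VV x (a k)) z ((f k).1, (f k).2 + 1) =
      kap x (VV x (a k)) z (f k) * rs (VV x (a k)) ((f k).1, (f k).2 + 1) := by
  have h1 := ray_kap h.pos h.tip hx (mesh_shift h.lim hf 0 1)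
  filter_upwards [h1] with k hk
  simp only [add_zero, add_sub_cancel_right, Prod.mk.eta] at hk
  rw [hk]
  linear_combination (-kap x (VV x (a k)) z ((f k).1, (f k).2 + 1)) * kap_sq x (VV x (a k)) z (f k)

/-- the dual field -/
def Ps (D : Set ℂ) (x : Fin n → ℂ) (a : ℝ) (S : HE ℤ → HE ℤ → ℝ) (h' k : HE ℤ) : ℝ :=
  du (wDom (domainSites D a) true) (rs (VV x a)) (fun h => S h h') k

theorem fs_VV (h : Sit D x bl rg η B a Sd) :
    ∀ᶠ k in atTop, Function.Injective (VV x (a k)) := by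
  have key : ∀ i j, i ≠ j → ∀ᶠ k in atTop, VV x (a k) i ≠ VV x (a k) j := fun i j hij =>
    ev_ne (fun e => hij (h.inj e)) (h.tip i) (h.tip j)
  have h1 : ∀ᶠ k in atTop, ∀ i j, i ≠ j → VV x (a k) i ≠ VV x (a k) j := by
    rw [eventually_all]; intro i
    rw [eventually_all]; intro j
    by_cases hij : i = j
    · exact Eventually.of_forall fun k hne => absurd hij hne
    · exact (key i j hij).mono fun k hk _ => hk
  filter_upwards [h1] with k hk i j e
  by_contra hij
  exact hk i j hij e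

theorem fin_T (h : Sit D x bl rg η B a Sd) (k : ℕ) : (domainSites D (a k)).Finite :=
  Redx541.domainSites_finite h.bd (h.pos k)

/-- the exact formula, eventually -/
theorem ev_psi (h : Sit D x bl rg η B a Sd)
    (hS : ∀ k, IsCov (wX (wDom (domainSites D (a k)) true) (VV x (a k))) (S k))
    {z' : ℂ} (hx' : ∀ i, x i ≠ z') {q : ℕ → ℤ × ℤ}
    (hq : Tendsto (fun k => meshPoint (a k) (q k)) atTop (𝓝 z')) :
    ∀ᶠ k in atTop, ∀ (i' : Fin 4) (k' : HE ℤ), Ps D x (a k) (S k) (q k, i') k' =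
      ∑ v ∈ Vs (q k), ∑ i, SX (Sd k) (VV x (a k)) k' (v, i) *
        Gh (rs (VV x (a k))) (q k, i') (v, i) := by
  have h1 : ∀ᶠ k in atTop, ∀ i, VV x (a k) i ∉ Vs (q k) := by
    rw [eventually_all]
    exact fun i => ev_notin h.lim (hx' i) (h.tip i) hq
  filter_upwards [h1, h.ev_det, fs_VV h] with k h1 h2 h3 i' k'
  exact psi_SX (fs_free _ h3) (finv_dual (fin_T h k) (h.cov k)) (isInv_free (hS k)) h2 (q k, i') k' h1

/-- limit of the dual field -/
theorem lim_psi (h : Sit D x bl rg η B a Sd)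
    (hS : ∀ k, IsCov (wX (wDom (domainSites D (a k)) true) (VV x (a k))) (S k))
    {z z' : ℂ} (hz : z ∈ D) (hz' : z' ∈ D) (hzz : z ≠ z') (hx : ∀ i, x i ≠ z) (hx' : ∀ i, x i ≠ z')
    (b i' : Fin 4) {p q : ℕ → ℤ × ℤ}
    (hp : Tendsto (fun k => meshPoint (a k) (p k)) atTop (𝓝 z))
    (hq : Tendsto (fun k => meshPoint (a k) (q k)) atTop (𝓝 z')) :
    Tendsto (fun k => (a k)⁻¹ * (kap x (VV x (a k)) z (p k) * kap x (VV x (a k)) z' (q k) *
      Ps D x (a k) (S k) (q k, i') (p k, b))) atTop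
      (𝓝 ((bl z z' + cor η B z z') (edir b) (Complex.I * edir i'))) := by
  have L := fun (c d : ℤ) (j : Fin 4) =>
    h.lim_SX hz hz' hzz hx hx' b j hp (mesh_shift h.lim hq c d)
  have L0 := fun (j : Fin 4) => h.lim_SX hz hz' hzz hx hx' b j hp hq
  have hps := ev_psi h hS hx' hq
  have hsg := ev_sign h hx' hq
  set β := bl z z' + cor η B z z' with hβ
  fin_cases i'
  · show Tendsto (fun k => (a k)⁻¹ * (kap x (VV x (a k)) z (p k) * kap x (VV x (a k)) z' (q k) *
      Ps D x (a k) (S k) (q k, 0) (p k, b))) atTop (𝓝 (β (edir b) (Complex.I * edir 0)))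
    have e : β (edir b) (Complex.I * edir 0) =
        (-β (edir b) (edir 0) - β (edir b) (edir 1) + β (edir b) (edir 2) + β (edir b) (edir 3)) / 2 +
        (β (edir b) (edir 0) + β (edir b) (edir 1) + β (edir b) (edir 2) - β (edir b) (edir 3)) / 2 := by
      rw [I_edir0]; ring
    rw [e]
    refine Tendsto.congr' ?_ ((((((L0 0).neg.sub (L0 1)).add (L0 2)).add (L0 3)).div_const 2).add
      ((((((L 1 0 0).add (L 1 0 1)).add (L 1 0 2)).sub (L 1 0 3)).div_const 2)))
    filter_upwards [hps] with k hk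
    rw [hk 0, sum_Gh0]
    have e1 : kap x (VV x (a k)) z' ((q k).1 + 1, (q k).2 + 0) = kap x (VV x (a k)) z' (q k) :=
      kap_row _ _ _ (by simp)
    rw [e1]
    simp only [add_zero]
    ring
  · show Tendsto (fun k => (a k)⁻¹ * (kap x (VV x (a k)) z (p k) * kap x (VV x (a k)) z' (q k) *
      Ps D x (a k) (S k) (q k, 1) (p k, b))) atTop (𝓝 (β (edir b) (Complex.I * edir 1)))
    have e : β (edir b) (Complex.I * edir 1) =
        -(β (edir b) (edir 0) + β (edir b) (edir 1) + β (edir b) (edir 2) - β (edir b) (edir 3)) / 2 +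
        (β (edir b) (edir 0) + β (edir b) (edir 1) + β (edir b) (edir 2) + β (edir b) (edir 3)) / 2 := by
      rw [I_edir1]; ring
    rw [e]
    refine Tendsto.congr' ?_ (((((((L 1 0 0).add (L 1 0 1)).add (L 1 0 2)).sub
      (L 1 0 3)).neg.div_const 2)).add
      ((((((L 1 1 0).add (L 1 1 1)).add (L 1 1 2)).add (L 1 1 3)).div_const 2)))
    filter_upwards [hps, hsg] with k hk hs
    rw [hk 1, sum_Gh1]
    have e1 : kap x (VV x (a k)) z' ((q k).1 + 1, (q k).2 + 0) = kap x (VV x (a k)) z' (q k) :=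
      kap_row _ _ _ (by simp)
    have e2 : kap x (VV x (a k)) z' ((q k).1 + 1, (q k).2 + 1) =
        kap x (VV x (a k)) z' (q k) * rs (VV x (a k)) ((q k).1, (q k).2 + 1) :=
      (kap_row _ _ _ rfl).trans hs
    rw [e1, e2]
    simp only [add_zero]
    ring
  · show Tendsto (fun k => (a k)⁻¹ * (kap x (VV x (a k)) z (p k) * kap x (VV x (a k)) z' (q k) *
      Ps D x (a k) (S k) (q k, 2) (p k, b))) atTop (𝓝 (β (edir b) (Complex.I * edir 2)))
    have e : β (edir b) (Complex.I * edir 2) =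
        (-β (edir b) (edir 0) + β (edir b) (edir 1) + β (edir b) (edir 2) + β (edir b) (edir 3)) / 2 -
        (β (edir b) (edir 0) + β (edir b) (edir 1) + β (edir b) (edir 2) + β (edir b) (edir 3)) / 2 := by
      rw [I_edir2, map_neg]; ring
    rw [e]
    refine Tendsto.congr' ?_ (((((((L 0 1 0).neg.add (L 0 1 1)).add (L 0 1 2)).add
      (L 0 1 3)).div_const 2)).sub
      ((((((L 1 1 0).add (L 1 1 1)).add (L 1 1 2)).add (L 1 1 3)).div_const 2)))
    filter_upwards [hps, hsg] with k hk hs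
    rw [hk 2, sum_Gh2]
    have e1 : kap x (VV x (a k)) z' ((q k).1 + 0, (q k).2 + 1) =
        kap x (VV x (a k)) z' (q k) * rs (VV x (a k)) ((q k).1, (q k).2 + 1) :=
      (kap_row _ _ _ rfl).trans hs
    have e2 : kap x (VV x (a k)) z' ((q k).1 + 1, (q k).2 + 1) =
        kap x (VV x (a k)) z' (q k) * rs (VV x (a k)) ((q k).1, (q k).2 + 1) :=
      (kap_row _ _ _ rfl).trans hs
    rw [e1, e2]
    simp only [add_zero]
    ring
  · show Tendsto (fun k => (a k)⁻¹ * (kap x (VV x (a k)) z (p k) * kap x (VV x (a k)) z' (q k) *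
      Ps D x (a k) (S k) (q k, 3) (p k, b))) atTop (𝓝 (β (edir b) (Complex.I * edir 3)))
    have e : β (edir b) (Complex.I * edir 3) =
        (-β (edir b) (edir 0) - β (edir b) (edir 1) + β (edir b) (edir 2) + β (edir b) (edir 3)) / 2 -
        (-β (edir b) (edir 0) + β (edir b) (edir 1) + β (edir b) (edir 2) + β (edir b) (edir 3)) / 2 := by
      rw [I_edir3, map_neg]; ring
    rw [e]
    refine Tendsto.congr' ?_ ((((((L0 0).neg.sub (L0 1)).add (L0 2)).add (L0 3)).div_const 2).sub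
      ((((((L 0 1 0).neg.add (L 0 1 1)).add (L 0 1 2)).add (L 0 1 3)).div_const 2)))
    filter_upwards [hps, hsg] with k hk hs
    rw [hk 3, sum_Gh3]
    have e1 : kap x (VV x (a k)) z' ((q k).1 + 0, (q k).2 + 1) =
        kap x (VV x (a k)) z' (q k) * rs (VV x (a k)) ((q k).1, (q k).2 + 1) :=
      (kap_row _ _ _ rfl).trans hs
    rw [e1]
    simp only [add_zero]
    ring

/-- sites near an interior point are in the domain -/
theorem ev_in (h : Sit D x bl rg η B a Sd) {z : ℂ} (hz : z ∈ D) {f : ℕ → ℤ × ℤ}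
    (hf : Tendsto (fun k => meshPoint (a k) (f k)) atTop (𝓝 z)) :
    ∀ᶠ k in atTop, f k ∈ domainSites D (a k) := hf.eventually (h.op.mem_nhds hz)

/-- interior bonds -/
theorem ev_bond (h : Sit D x bl rg η B a Sd) {z : ℂ} (hz : z ∈ D) {f : ℕ → ℤ × ℤ}
    (hf : Tendsto (fun k => meshPoint (a k) (f k)) atTop (𝓝 z)) (j : Fin 2) :
    ∀ᶠ k in atTop, 1 + wDom (domainSites D (a k)) true (f k) j = Real.sqrt 2 := by
  have h1 : Tendsto (fun k => meshPoint (a k) (f k + unitVec j)) atTop (𝓝 z) :=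
    mesh_shift h.lim hf (unitVec j).1 (unitVec j).2
  filter_upwards [ev_in h hz hf, ev_in h hz h1] with k h2 h3
  rw [wDom_free_in h2 h3]
  unfold Latx683.xc
  ring

/-- **limit of the free covariance, two different points** -/
theorem lim_S (h : Sit D x bl rg η B a Sd)
    (hS : ∀ k, IsCov (wX (wDom (domainSites D (a k)) true) (VV x (a k))) (S k))
    {z z' : ℂ} (hz : z ∈ D) (hz' : z' ∈ D) (hzz : z ≠ z') (hx : ∀ i, x i ≠ z) (hx' : ∀ i, x i ≠ z')
    (i i' : Fin 4) {p q : ℕ → ℤ × ℤ}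
    (hp : Tendsto (fun k => meshPoint (a k) (p k)) atTop (𝓝 z))
    (hq : Tendsto (fun k => meshPoint (a k) (q k)) atTop (𝓝 z')) :
    Tendsto (fun k => (a k)⁻¹ * (kap x (VV x (a k)) z (p k) * kap x (VV x (a k)) z' (q k) *
      S k (p k, i) (q k, i'))) atTop
      (𝓝 (tw (bl z z' + cor η B z z') (edir i) (edir i'))) := by
  have L := fun (c d : ℤ) (j : Fin 4) =>
    lim_psi h hS hz hz' hzz hx hx' j i' (mesh_shift h.lim hp c d) hq
  have L0 := fun (j : Fin 4) => lim_psi h hS hz hz' hzz hx hx' j i' hp hq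
  have hsg := ev_sign h hx hp
  have h2 := sq2_ne
  rw [tw_apply]
  set β := bl z z' + cor η B z z' with hβ
  fin_cases i
  · show Tendsto (fun k => (a k)⁻¹ * (kap x (VV x (a k)) z (p k) * kap x (VV x (a k)) z' (q k) *
      S k (p k, 0) (q k, i'))) atTop (𝓝 (β (-Complex.I * edir 0) (Complex.I * edir i')))
    rw [nI_edir0, map_smul, LinearMap.smul_apply, map_add, LinearMap.add_apply, smul_eq_mul]
    refine Tendsto.congr' ?_ (((L0 1).add (L 1 0 3)).const_mul (Real.sqrt 2)⁻¹)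
    filter_upwards [ev_bond h hz hp 0] with k hb
    have e := inv_S (wDom (domainSites D (a k)) true) (rs (VV x (a k)))
      (fun h => S k h (q k, i')) (p k)
    have e1 : kap x (VV x (a k)) z ((p k).1 + 1, (p k).2 + 0) = kap x (VV x (a k)) z (p k) :=
      kap_row _ _ _ (by simp)
    rw [hb] at e
    rw [e1]
    unfold Ps
    simp only [add_zero]
    rw [inv_mul_eq_iff_eq_mul₀ h2]
    linear_combination (-(a k)⁻¹ * (kap x (VV x (a k)) z (p k) * kap x (VV x (a k)) z' (q k))) * e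
  · show Tendsto (fun k => (a k)⁻¹ * (kap x (VV x (a k)) z (p k) * kap x (VV x (a k)) z' (q k) *
      S k (p k, 1) (q k, i'))) atTop (𝓝 (β (-Complex.I * edir 1) (Complex.I * edir i')))
    rw [nI_edir1, map_smul, LinearMap.smul_apply, map_sub, LinearMap.sub_apply, smul_eq_mul]
    refine Tendsto.congr' ?_ (((L 1 0 2).sub (L 1 1 0)).const_mul (Real.sqrt 2)⁻¹)
    have hsg' := ev_sign h hx (mesh_shift h.lim hp 1 0)
    filter_upwards [ev_bond h hz (mesh_shift h.lim hp 1 0) 1, hsg'] with k hb hs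
    have e := inv_E (wDom (domainSites D (a k)) true) (rs (VV x (a k)))
      (fun h => S k h (q k, i')) ((p k).1 + 1, (p k).2 + 0) (ok_free _ _)
    have e1 : kap x (VV x (a k)) z ((p k).1 + 1, (p k).2 + 0) = kap x (VV x (a k)) z (p k) :=
      kap_row _ _ _ (by simp)
    rw [hb] at e
    simp only [add_zero, add_sub_cancel_right, Prod.mk.eta] at e hs e1 ⊢
    rw [hs, e1]
    unfold Ps
    rw [inv_mul_eq_iff_eq_mul₀ h2]
    linear_combination (-(a k)⁻¹ * (kap x (VV x (a k)) z (p k) * kap x (VV x (a k)) z' (q k))) * e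
  · show Tendsto (fun k => (a k)⁻¹ * (kap x (VV x (a k)) z (p k) * kap x (VV x (a k)) z' (q k) *
      S k (p k, 2) (q k, i'))) atTop (𝓝 (β (-Complex.I * edir 2) (Complex.I * edir i')))
    rw [nI_edir2, map_smul, LinearMap.smul_apply, map_sub, LinearMap.sub_apply, smul_eq_mul]
    refine Tendsto.congr' ?_ (((L 1 1 3).sub (L 0 1 1)).const_mul (Real.sqrt 2)⁻¹)
    filter_upwards [ev_bond h hz (mesh_shift h.lim hp 0 1) 0, hsg] with k hb hs
    have e := inv_N (wDom (domainSites D (a k)) true) (rs (VV x (a k)))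
      (fun h => S k h (q k, i')) ((p k).1 + 0, (p k).2 + 1) (ok_free _ _)
    have e1 : kap x (VV x (a k)) z ((p k).1 + 1, (p k).2 + 1) =
        kap x (VV x (a k)) z ((p k).1, (p k).2 + 1) := kap_row _ _ _ rfl
    rw [hb] at e
    simp only [add_zero, add_sub_cancel_right, Prod.mk.eta] at e hs e1 ⊢
    rw [e1, hs]
    unfold Ps
    rw [inv_mul_eq_iff_eq_mul₀ h2]
    linear_combination (-(a k)⁻¹ * (kap x (VV x (a k)) z (p k) * kap x (VV x (a k)) z' (q k))) * e
  · show Tendsto (fun k => (a k)⁻¹ * (kap x (VV x (a k)) z (p k) * kap x (VV x (a k)) z' (q k) *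
      S k (p k, 3) (q k, i'))) atTop (𝓝 (β (-Complex.I * edir 3) (Complex.I * edir i')))
    rw [nI_edir3, map_smul, LinearMap.smul_apply, map_neg, LinearMap.neg_apply, map_add,
      LinearMap.add_apply, smul_eq_mul]
    refine Tendsto.congr' ?_ (((L0 2).add (L 0 1 0)).neg.const_mul (Real.sqrt 2)⁻¹)
    filter_upwards [ev_bond h hz hp 1, hsg] with k hb hs
    have e := inv_W (wDom (domainSites D (a k)) true) (rs (VV x (a k)))
      (fun h => S k h (q k, i')) (p k) (ok_free _ _)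
    rw [hb] at e
    simp only [add_zero, add_sub_cancel_right, Prod.mk.eta] at e hs ⊢
    rw [hs]
    unfold Ps
    rw [inv_mul_eq_iff_eq_mul₀ h2]
    linear_combination (-(a k)⁻¹ * (kap x (VV x (a k)) z (p k) * kap x (VV x (a k)) z' (q k))) * e

end sit

end Crest.Agent.R165.Fr6x802
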