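import Crest.Agent.R165.Fr6_802

/-!
# Row 165 (S0250), leaf FREE TRANSFER, part 7 (helper802): the kernel limits of the free covariance

* `Sit.lim_diag` : one bond
* `kerD_free` : `KerD true D x (blF ..) (rgF ..)` from `PlusIn D x bl rg η B`, `det B ≠ 0`
* `kerCov_free` : covariance, from `PlusCov`
* `KerD.unique` : uniqueness of the limits (given existence of the covariances)
-/

set_option autoImplicit false
set_option linter.unusedSimpArgs false
set_option linter.unusedSectionVars false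

noncomputable section

open Filter Topology Finset
open Crest.ProbabilityR.IsingModel

namespace Crest.Agent.R165.Fr7x802

open Crest.Agent.R165.Latx683 (BW HE wX wDom ray IsCov)
open Crest.Agent.R165.UDomBx420 (ed cP)
open Crest.Agent.R165.UKerx420 (kap edir hb cB kap_sq edir_hb KerD KerCov wD fpt)
open Crest.Agent.R165.FrIx802
open Crest.Agent.R165.Fr1x802 (wp wd ys st OK cw du)
open Crest.Agent.R165.Fr2x802 (FS BM KL NN SX Vs Gh psi_SX SX_anti BM_transpose)
open Crest.Agent.R165.Fr3x802 Crest.Agent.R165.Fr4x802 Crest.Agent.R165.Fr5x802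
open Crest.Agent.R165.Fr6x802

/-! ### antisymmetric matrices, alternating forms -/

theorem inv_anti {n : ℕ} {M : Matrix (Fin n) (Fin n) ℝ} (hM : M.transpose = -M) (i j : Fin n) :
    M⁻¹ i j = -M⁻¹ j i := by
  have h1 : (M⁻¹).transpose = -M⁻¹ := by
    rw [Matrix.transpose_nonsing_inv, hM]
    by_cases hu : IsUnit M.det
    · apply Matrix.inv_eq_left_inv
      rw [neg_mul_neg, Matrix.nonsing_inv_mul _ hu]
    · have hu' : ¬IsUnit (-M).det := by
        rw [Matrix.det_neg]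
        intro hc
        exact hu (isUnit_of_mul_isUnit_right hc)
      rw [Matrix.nonsing_inv_apply_not_isUnit _ hu', Matrix.nonsing_inv_apply_not_isUnit _ hu,
        neg_zero]
  have h2 := congrFun (congrFun h1 j) i
  rw [Matrix.transpose_apply, Matrix.neg_apply] at h2
  exact h2

theorem cor_skew {n : ℕ} {η : Fin n → ℂ → ℂ →ₗ[ℝ] ℝ} {B : Matrix (Fin n) (Fin n) ℝ}
    (hB : B.transpose = -B) (z z' c c' : ℂ) : cor η B z z' c c' = -cor η B z' z c' c := by
  rw [cor_apply, cor_apply, sum_comm, ← sum_neg_distrib]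
  refine sum_congr rfl fun i _ => ?_
  rw [← sum_neg_distrib]
  refine sum_congr rfl fun j _ => ?_
  rw [inv_anti hB j i]
  ring

theorem alt_swap {b : LinearMap.BilinForm ℝ ℂ} (hb : ∀ c, b c c = 0) (c c' : ℂ) :
    b c c' = -b c' c := by
  have h := hb (c + c')
  simp only [map_add, LinearMap.add_apply, hb, zero_add, add_zero] at h
  linarith

theorem edir0_eq : edir 0 = (Real.sqrt 2 / 2) • (edir 3 - edir 1) := by
  rw [edir0, edir1, edir3]; apply Complex.ext <;> simp
theorem edir2_eq : edir 2 = (Real.sqrt 2 / 2) • (-(edir 3 + edir 1)) := by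
  rw [edir2, edir1, edir3]; apply Complex.ext <;> simp

theorem half_sq : Real.sqrt 2 / 2 * (Real.sqrt 2 / 2) = 1 / 2 := by
  linear_combination (1 / 4) * sq2

theorem alt_SN {b : LinearMap.BilinForm ℝ ℂ} (hb : ∀ c, b c c = 0) :
    b (edir 0) (edir 2) = b (edir 1) (edir 3) := by
  rw [edir0_eq, edir2_eq]
  simp only [map_smul, LinearMap.smul_apply, map_sub, map_neg, map_add, LinearMap.sub_apply,
    LinearMap.neg_apply, LinearMap.add_apply, smul_eq_mul, hb]
  rw [alt_swap hb (edir 3) (edir 1)]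
  linear_combination 2 * (b (edir 1) (edir 3)) * half_sq

theorem tw_EW {b : LinearMap.BilinForm ℝ ℂ} (hb : ∀ c, b c c = 0) :
    tw b (edir 1) (edir 3) = -b (edir 1) (edir 3) := by
  rw [tw_apply, I_edir3, nI_edir1, ← alt_SN hb]
  have h2 := sq2_ne
  have e : (Real.sqrt 2)⁻¹ • (edir 2 - edir 0) = -edir 3 := by
    rw [edir0, edir2, edir3]; apply Complex.ext <;> simp
    field_simp
    rw [sq2_pow]; norm_num
  rw [e]
  simp only [map_neg, LinearMap.neg_apply]
  rw [alt_SN hb, alt_swap hb (edir 3) (edir 1)]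
  ring

theorem tw_SN {b : LinearMap.BilinForm ℝ ℂ} (hb : ∀ c, b c c = 0) :
    tw b (edir 0) (edir 2) = -b (edir 1) (edir 3) := by
  rw [tw_apply, I_edir2, nI_edir0]
  have h2 := sq2_ne
  have e : (Real.sqrt 2)⁻¹ • (edir 1 + edir 3) = -edir 2 := by
    rw [edir2, edir1, edir3]; apply Complex.ext <;> simp
  rw [e]
  simp only [map_neg, LinearMap.neg_apply]
  rw [alt_swap hb (edir 2) (edir 0), alt_SN hb]
  ring

theorem tw_alt {b : LinearMap.BilinForm ℝ ℂ} (hb : ∀ c, b c c = 0) (c : ℂ) : tw b c c = 0 := by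
  rw [tw_apply]
  have e : -Complex.I * c = -(Complex.I * c) := by ring
  rw [e, map_neg, LinearMap.neg_apply, hb, neg_zero]

section sit
variable {D : Set ℂ} {n : ℕ} {x : Fin n → ℂ} {bl : ℂ → ℂ → LinearMap.BilinForm ℝ ℂ}
  {rg : ℂ → LinearMap.BilinForm ℝ ℂ} {η : Fin n → ℂ → ℂ →ₗ[ℝ] ℝ} {B : Matrix (Fin n) (Fin n) ℝ}
  {a : ℕ → ℝ} {Sd S : ℕ → HE ℤ → HE ℤ → ℝ}

theorem sit_anti (h : Sit D x bl rg η B a Sd) : B.transpose = -B := by
  ext i j
  rw [Matrix.transpose_apply, Matrix.neg_apply]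
  have h1 := h.lim_BM j i
  have h2 := (h.lim_BM i j).neg
  refine tendsto_nhds_unique h1 (h2.congr fun k => ?_)
  have := congrFun (congrFun (BM_transpose (X := VV x (a k)) (h.cov k).skew) i) j
  rw [Matrix.transpose_apply, Matrix.neg_apply] at this
  exact this.symm

theorem sit_alt (h : Sit D x bl rg η B a Sd) {z : ℂ} (hz : z ∈ D) (hx : ∀ i, x i ≠ z) (c : ℂ) :
    (rg z + cor η B z z) c c = 0 := by
  rw [LinearMap.add_apply, LinearMap.add_apply, h.H.alt z hz hx c]
  have := cor_skew (η := η) (sit_anti h) z z c c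
  linarith

/-- limit of the bordered kernel at one bond -/
theorem lim_SXd (h : Sit D x bl rg η B a Sd) {z : ℂ} (hz : z ∈ D) (hx : ∀ i, x i ≠ z)
    (j : Fin 2) {p : ℕ → ℤ × ℤ} (hp : Tendsto (fun k => meshPoint (a k) (p k)) atTop (𝓝 z)) :
    Tendsto (fun k => (a k)⁻¹ * (kap x (VV x (a k)) z (hb (p k) j 0).1 *
      kap x (VV x (a k)) z (hb (p k) j 1).1 *
      SX (Sd k) (VV x (a k)) (hb (p k) j 0) (hb (p k) j 1) - cP)) atTop
      (𝓝 ((rg z + cor η B z z) (ed j 0) (ed j 1))) := by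
  have h1 := h.H.diag a _ _ h.latB Sd h.cov z hz hx j 0 1 p hp
  have hcB : cB 0 1 = cP := by simp [cB]
  rw [hcB] at h1
  have hk : ∀ i : Fin 2, Tendsto (fun k => meshPoint (a k) (hb (p k) j i).1) atTop (𝓝 z) := by
    intro i
    fin_cases j <;> fin_cases i
    · exact hp
    · have := mesh_shift h.lim hp 0 (-1)
      refine this.congr fun k => ?_
      simp [hb, Latx683.hq, sub_eq_add_neg]
    · have := mesh_shift h.lim hp (-1) 0
      refine this.congr fun k => ?_
      simp [hb, Latx683.hp, sub_eq_add_neg]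
    · exact hp
  have hdir : ∀ (i : Fin 2) (v : ℤ × ℤ), (hb v j i).2 = (hb 0 j i).2 := by
    intro i v
    fin_cases j <;> fin_cases i <;> rfl
  have hh : ∀ (i : Fin 2) (v : ℤ × ℤ), hb v j i = ((hb v j i).1, (hb 0 j i).2) := fun i v => by
    rw [← hdir i v]
  have h2 := tendsto_finsetSum (univ : Finset (Fin n)) fun i _ =>
    tendsto_finsetSum (univ : Finset (Fin n)) fun i' _ =>
      ((h.lim_KL hz hx i (hb 0 j 0).2 (hk 0)).mul (h.lim_BMi i i')).mul
        (h.lim_KL hz hx i' (hb 0 j 1).2 (hk 1))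
  rw [LinearMap.add_apply, LinearMap.add_apply, cor_apply]
  rw [edir_hb, edir_hb] at h2
  refine (h1.add h2).congr fun k => ?_
  have e : (a k)⁻¹ = (Real.sqrt (a k))⁻¹ * (Real.sqrt (a k))⁻¹ := by
    rw [← mul_inv, Real.mul_self_sqrt (h.pos k).le]
  rw [← hh, ← hh]
  unfold SX
  rw [mul_add, add_sub_right_comm, mul_add ((a k)⁻¹)]
  congr 1
  simp only [Finset.mul_sum]
  refine sum_congr rfl fun i _ => sum_congr rfl fun j _ => ?_
  rw [e]
  ring

/-- limit of the free covariance at one bond -/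
theorem lim_diag01 (h : Sit D x bl rg η B a Sd)
    (hS : ∀ k, IsCov (wX (wDom (domainSites D (a k)) true) (VV x (a k))) (S k))
    {z : ℂ} (hz : z ∈ D) (hx : ∀ i, x i ≠ z) (j : Fin 2) {p : ℕ → ℤ × ℤ}
    (hp : Tendsto (fun k => meshPoint (a k) (p k)) atTop (𝓝 z)) :
    Tendsto (fun k => (a k)⁻¹ * (kap x (VV x (a k)) z (hb (p k) j 0).1 *
      kap x (VV x (a k)) z (hb (p k) j 1).1 * S k (hb (p k) j 0) (hb (p k) j 1) - cP)) atTop
      (𝓝 (tw (rg z + cor η B z z) (ed j 0) (ed j 1))) := by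
  have hval : (Real.sqrt 2)⁻¹ = Real.sqrt 2 / 2 := by
    rw [inv_eq_iff_eq_inv, inv_div, eq_div_iff sq2_ne]; exact sq2
  have hxc : 1 + Latx683.xc = Real.sqrt 2 := by unfold Latx683.xc; ring
  have halt := fun c => sit_alt h hz hx c
  fin_cases j
  · -- horizontal bond
    have e : tw (rg z + cor η B z z) (ed 0 0) (ed 0 1) =
        -(rg z + cor η B z z) (ed 1 0) (ed 1 1) := tw_SN halt
    show Tendsto _ atTop (𝓝 (tw (rg z + cor η B z z) (ed 0 0) (ed 0 1)))
    rw [e]
    refine Tendsto.congr' ?_ (lim_SXd h hz hx 1 (mesh_shift h.lim hp 1 0)).neg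
    have hv : ∀ᶠ k in atTop, ∀ i, VV x (a k) i ∉ Vs ((p k).1, (p k).2 - 1) := by
      rw [eventually_all]
      intro i
      have := ev_notin h.lim (hx i) (h.tip i) (mesh_shift h.lim hp 0 (-1))
      refine this.mono fun k hk => ?_
      simpa [sub_eq_add_neg] using hk
    have hin := ev_in h hz hp
    have hin' : ∀ᶠ k in atTop, p k + unitVec 0 ∈ domainSites D (a k) :=
      ev_in h hz (mesh_shift h.lim hp (unitVec 0).1 (unitVec 0).2)
    filter_upwards [hv, h.ev_det, fs_VV h, hin, hin', ray_kap h.pos h.tip hx hp]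
      with k h1 h2 h3 h4 h5 h6
    have key := bond_h (fs_free _ h3) (finv_dual (fin_T h k) (h.cov k)) (isInv_free (hS k)) h2
      (p k) h1
    rw [wDom_free_in h4 h5, st_xc, hxc] at key
    show -((a k)⁻¹ * (kap x (VV x (a k)) z ((p k).1 + 1 - 1, (p k).2 + 0) *
        kap x (VV x (a k)) z ((p k).1 + 1, (p k).2 + 0) *
        SX (Sd k) (VV x (a k)) (((p k).1 + 1 - 1, (p k).2 + 0), 1) (((p k).1 + 1, (p k).2 + 0), 3)
        - cP)) = (a k)⁻¹ * (kap x (VV x (a k)) z (p k) *
        kap x (VV x (a k)) z ((p k).1, (p k).2 - 1) * S k (p k, 0) (((p k).1, (p k).2 - 1), 2) - cP)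
    simp only [add_sub_cancel_right, add_zero, Prod.mk.eta]
    have e1 : kap x (VV x (a k)) z ((p k).1 + 1, (p k).2) = kap x (VV x (a k)) z (p k) :=
      kap_row _ _ _ rfl
    rw [e1, kap_sq, ← h6]
    have key2 : S k (p k, 0) (((p k).1, (p k).2 - 1), 2) = rs (VV x (a k)) (p k) *
        (Real.sqrt 2 / 2 - SX (Sd k) (VV x (a k)) (p k, 1) (((p k).1 + 1, (p k).2), 3)) := by
      rw [← hval]
      have := sq2_ne
      field_simp
      linear_combination key
    rw [key2]
    have hs := rs_sq (VV x (a k)) (p k)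
    unfold cP
    linear_combination (-(a k)⁻¹ * (Real.sqrt 2 / 2 -
      SX (Sd k) (VV x (a k)) (p k, 1) (((p k).1 + 1, (p k).2), 3))) * hs
  · -- vertical bond
    have e : tw (rg z + cor η B z z) (ed 1 0) (ed 1 1) =
        -(rg z + cor η B z z) (ed 0 0) (ed 0 1) :=
      (tw_EW halt).trans (congrArg Neg.neg (alt_SN halt).symm)
    show Tendsto _ atTop (𝓝 (tw (rg z + cor η B z z) (ed 1 0) (ed 1 1)))
    rw [e]
    refine Tendsto.congr' ?_ (lim_SXd h hz hx 0 (mesh_shift h.lim hp 0 1)).neg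
    have hv : ∀ᶠ k in atTop, ∀ i, VV x (a k) i ∉ Vs (p k) := by
      rw [eventually_all]
      exact fun i => ev_notin h.lim (hx i) (h.tip i) hp
    have hin := ev_in h hz hp
    have hin' : ∀ᶠ k in atTop, p k + unitVec 1 ∈ domainSites D (a k) :=
      ev_in h hz (mesh_shift h.lim hp (unitVec 1).1 (unitVec 1).2)
    filter_upwards [hv, h.ev_det, fs_VV h, hin, hin', ev_sign h hx hp] with k h1 h2 h3 h4 h5 h6
    have key := bond_v (fs_free _ h3) (finv_dual (fin_T h k) (h.cov k)) (isInv_free (hS k)) h2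
      (p k) h1
    rw [wDom_free_in h4 h5, st_xc, hxc] at key
    show -((a k)⁻¹ * (kap x (VV x (a k)) z ((p k).1 + 0, (p k).2 + 1) *
        kap x (VV x (a k)) z ((p k).1 + 0, (p k).2 + 1 - 1) *
        SX (Sd k) (VV x (a k)) (((p k).1 + 0, (p k).2 + 1), 0) (((p k).1 + 0, (p k).2 + 1 - 1), 2)
        - cP)) = (a k)⁻¹ * (kap x (VV x (a k)) z ((p k).1 - 1, (p k).2) *
        kap x (VV x (a k)) z (p k) * S k (((p k).1 - 1, (p k).2), 1) (p k, 3) - cP)
    simp only [add_sub_cancel_right, add_zero, Prod.mk.eta]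
    have e1 : kap x (VV x (a k)) z ((p k).1 - 1, (p k).2) = kap x (VV x (a k)) z (p k) :=
      kap_row _ _ _ rfl
    rw [e1, kap_sq, h6]
    have key2 : S k (((p k).1 - 1, (p k).2), 1) (p k, 3) = Real.sqrt 2 / 2 -
        rs (VV x (a k)) ((p k).1, (p k).2 + 1) *
          SX (Sd k) (VV x (a k)) (((p k).1, (p k).2 + 1), 0) (p k, 2) := by
      rw [← hval]
      have := sq2_ne
      field_simp
      linear_combination key
    rw [key2]
    have hs := kap_sq x (VV x (a k)) z (p k)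
    unfold cP
    linear_combination (-(a k)⁻¹ * (rs (VV x (a k)) ((p k).1, (p k).2 + 1) *
          SX (Sd k) (VV x (a k)) (((p k).1, (p k).2 + 1), 0) (p k, 2))) * hs

end sit

/-! ### the theorem -/

/-- reduction of the limit `a → 0+` to sequences -/
theorem seq_red {F : ℝ → ℝ} {l : Filter ℝ} {P : ℝ → Prop} (hP : ∀ᶠ a in 𝓝[>] (0 : ℝ), P a)
    (h : ∀ a : ℕ → ℝ, (∀ k, 0 < a k) → Tendsto a atTop (𝓝 0) → (∀ k, P (a k)) →
      Tendsto (fun k => F (a k)) atTop l) : Tendsto F (𝓝[>] 0) l := by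
  refine tendsto_of_seq_tendsto fun u hu => ?_
  have h1 : ∀ᶠ k in atTop, 0 < u k ∧ P (u k) :=
    (hu.eventually self_mem_nhdsWithin).and (hu.eventually hP)
  obtain ⟨N, hN⟩ := eventually_atTop.1 h1
  have h2 := h (fun k => u (k + N)) (fun k => (hN _ (Nat.le_add_left _ _)).1)
    ((tendsto_nhdsWithin_iff.1 hu).1.comp (tendsto_add_atTop_nat N))
    (fun k => (hN _ (Nat.le_add_left _ _)).2)
  exact (tendsto_add_atTop_iff_nat (f := F ∘ u) N).1 h2

section final
variable {D : Set ℂ} {n : ℕ} {x : Fin n → ℂ} {bl : ℂ → ℂ → LinearMap.BilinForm ℝ ℂ}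
  {rg : ℂ → LinearMap.BilinForm ℝ ℂ} {η : Fin n → ℂ → ℂ →ₗ[ℝ] ℝ} {B : Matrix (Fin n) (Fin n) ℝ}

theorem exists_sit (hD : IsOpen D) (hbd : Bornology.IsBounded D) (hx : ∀ i, x i ∈ D)
    (hinj : Function.Injective x) (H : PlusIn D x bl rg η B) (hB : IsUnit B.det) {a : ℕ → ℝ}
    (pos : ∀ k, 0 < a k) (lim : Tendsto a atTop (𝓝 0)) : ∃ Sd, Sit D x bl rg η B a Sd := by
  have h := fun k => isCov_dual (Redx541.domainSites_finite hbd (pos k))
    (fun i => meshIndex (a k) (x i))
  choose Sd hSd using h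
  exact ⟨Sd, ⟨hD, hbd, hx, hinj, H, hB, pos, lim, hSd⟩⟩

theorem B_anti (hD : IsOpen D) (hbd : Bornology.IsBounded D) (hx : ∀ i, x i ∈ D)
    (hinj : Function.Injective x) (H : PlusIn D x bl rg η B) (hB : IsUnit B.det) :
    B.transpose = -B := by
  obtain ⟨Sd, h⟩ := exists_sit hD hbd hx hinj H hB (a := fun k : ℕ => 1 / ((k : ℝ) + 1))
    (fun k => by positivity) tendsto_one_div_add_atTop_nhds_zero_nat
  exact sit_anti h

open Classical in
/-- the limit kernel of the free covariance -/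
def blF (x : Fin n → ℂ) (bl : ℂ → ℂ → LinearMap.BilinForm ℝ ℂ) (η : Fin n → ℂ → ℂ →ₗ[ℝ] ℝ)
    (B : Matrix (Fin n) (Fin n) ℝ) (z z' : ℂ) : LinearMap.BilinForm ℝ ℂ :=
  if (∀ i, x i ≠ z) ∧ ∀ i, x i ≠ z' then tw (bl z z' + cor η B z z') else 0

open Classical in
/-- its regular part -/
def rgF (x : Fin n → ℂ) (rg : ℂ → LinearMap.BilinForm ℝ ℂ) (η : Fin n → ℂ → ℂ →ₗ[ℝ] ℝ)
    (B : Matrix (Fin n) (Fin n) ℝ) (z : ℂ) : LinearMap.BilinForm ℝ ℂ :=
  if ∀ i, x i ≠ z then tw (rg z + cor η B z z) else 0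

theorem blF_eq {z z' : ℂ} (h : ∀ i, x i ≠ z) (h' : ∀ i, x i ≠ z') :
    blF x bl η B z z' = tw (bl z z' + cor η B z z') := by
  unfold blF
  rw [if_pos ⟨h, h'⟩]

theorem rgF_eq {z : ℂ} (h : ∀ i, x i ≠ z) : rgF x rg η B z = tw (rg z + cor η B z z) := by
  unfold rgF
  rw [if_pos h]

/-- **the kernel limits of the free covariance** -/
theorem kerD_free (hD : IsOpen D) (hbd : Bornology.IsBounded D) (hx : ∀ i, x i ∈ D)
    (hinj : Function.Injective x) (H : PlusIn D x bl rg η B) (hB : IsUnit B.det) :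
    KerD true D x (blF x bl η B) (rgF x rg η B) where
  off S hS z z' hz hz' hzz hxz hxz' i i' f f' hf hf' := by
    rw [blF_eq hxz hxz']
    refine seq_red hS fun a pos lim hSa => ?_
    obtain ⟨Sd, h⟩ := exists_sit hD hbd hx hinj H hB pos lim
    have ha : Tendsto a atTop (𝓝[>] 0) := tendsto_nhdsWithin_iff.2 ⟨lim, Eventually.of_forall pos⟩
    exact lim_S h hSa hz hz' hzz hxz hxz' i i' (hf.comp ha) (hf'.comp ha)
  diag S hS z hz hxz j i i' := by
    rw [rgF_eq hxz]
    refine seq_red hS fun a pos lim hSa => ?_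
    obtain ⟨Sd, h⟩ := exists_sit hD hbd hx hinj H hB pos lim
    have ha : Tendsto a atTop (𝓝[>] 0) := tendsto_nhdsWithin_iff.2 ⟨lim, Eventually.of_forall pos⟩
    have hf : Tendsto (fun k => meshPoint (a k) (meshIndex (a k) z)) atTop (𝓝 z) := by
      have := (UKerx420.tendsto_mesh z 0).comp ha
      refine this.congr fun k => ?_
      simp
    have key := lim_diag01 h hSa hz hxz j hf
    have halt := fun c => tw_alt (sit_alt h hz hxz) c
    by_cases hii : i = i'
    · subst hii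
      rw [halt]
      refine tendsto_const_nhds.congr fun k => ?_
      have e0 : S (a k) (hb (meshIndex (a k) z) j i) (hb (meshIndex (a k) z) j i) = 0 := by
        have := (hSa k).skew (hb (meshIndex (a k) z) j i) (hb (meshIndex (a k) z) j i)
        linarith
      have e1 : cB i i = 0 := by
        unfold cB
        fin_cases i <;> simp
      rw [e0, e1]
      ring
    · have h01 : (i = 0 ∧ i' = 1) ∨ (i = 1 ∧ i' = 0) := by
        fin_cases i <;> fin_cases i' <;> simp_all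
      rcases h01 with ⟨rfl, rfl⟩ | ⟨rfl, rfl⟩
      · have e1 : cB 0 1 = cP := by simp [cB]
        rw [e1]
        exact key
      · have e1 : cB 1 0 = -cP := by simp [cB]
        rw [e1, alt_swap halt]
        refine key.neg.congr fun k => ?_
        have e2 := (hSa k).skew (hb (meshIndex (a k) z) j 1) (hb (meshIndex (a k) z) j 0)
        show -((a k)⁻¹ * (_ * _ * S (a k) _ _ - cP)) = _
        rw [e2]
        show -((a k)⁻¹ * (kap x (VV x (a k)) z _ * kap x (VV x (a k)) z _ * _ - cP)) =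
          (a k)⁻¹ * (kap x (VV x (a k)) z _ * kap x (VV x (a k)) z _ * _ - -cP)
        ring
  skew z z' hz hz' hzz c c' := by
    by_cases h : (∀ i, x i ≠ z) ∧ ∀ i, x i ≠ z'
    · rw [blF_eq h.1 h.2, blF_eq h.2 h.1, tw_apply, tw_apply]
      have h1 := H.skew z z' hz hz' hzz h.1 h.2
      have h2 := cor_skew (η := η) (B_anti hD hbd hx hinj H hB) z z'
      simp only [LinearMap.add_apply]
      rw [h1, h2]
      have e : ∀ u : ℂ, -Complex.I * u = -(Complex.I * u) := fun u => by ring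
      simp only [e, map_neg, LinearMap.neg_apply]
      ring
    · have e1 : blF x bl η B z z' = 0 := by unfold blF; rw [if_neg h]
      have e2 : blF x bl η B z' z = 0 := by unfold blF; rw [if_neg (fun hh => h ⟨hh.2, hh.1⟩)]
      rw [e1, e2]
      simp
  alt z hz c := by
    by_cases h : ∀ i, x i ≠ z
    · rw [rgF_eq h]
      refine tw_alt (fun c => ?_) c
      rw [LinearMap.add_apply, LinearMap.add_apply, H.alt z hz h c]
      have := cor_skew (η := η) (B_anti hD hbd hx hinj H hB) z z c c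
      linarith
    · have e1 : rgF x rg η B z = 0 := by unfold rgF; rw [if_neg h]
      rw [e1]
      simp

end final

/-! ### covariance -/

section cov
variable {D : Set ℂ} {n : ℕ} {x : Fin n → ℂ} {φ : ℂ → ℂ}
  {bl bl' : ℂ → ℂ → LinearMap.BilinForm ℝ ℂ} {rg rg' : ℂ → LinearMap.BilinForm ℝ ℂ}
  {η η' : Fin n → ℂ → ℂ →ₗ[ℝ] ℝ} {B B' : Matrix (Fin n) (Fin n) ℝ}

theorem inv_conj {n : ℕ} {B B' : Matrix (Fin n) (Fin n) ℝ} {ε : Fin n → ℝ} (hε : ∀ i, ε i ^ 2 = 1)
    (h : ∀ i j, B i j = ε i * ε j * B' i j) (i j : Fin n) : B⁻¹ i j = ε i * ε j * B'⁻¹ i j := by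
  have hE : Matrix.diagonal ε * Matrix.diagonal ε = 1 := by
    rw [Matrix.diagonal_mul_diagonal, ← Matrix.diagonal_one]
    congr 1
    funext k
    rw [← sq, hε]
  have e1 : B = Matrix.diagonal ε * B' * Matrix.diagonal ε := by
    ext i j
    rw [Matrix.mul_diagonal, Matrix.diagonal_mul, h]
    ring
  have e2 : (Matrix.diagonal ε)⁻¹ = Matrix.diagonal ε := Matrix.inv_eq_left_inv hE
  rw [e1, Matrix.mul_inv_rev, Matrix.mul_inv_rev, e2, ← mul_assoc, Matrix.mul_diagonal,
    Matrix.diagonal_mul]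
  ring

/-- **covariance of the kernel limits of the free covariance** -/
theorem kerCov_free (h : PlusCov D x φ bl bl' rg rg' η η' B B')
    (hφ : Set.InjOn φ D) (hx : ∀ i, x i ∈ D) :
    KerCov D x φ (blF x bl η B) (blF (fun i => φ (x i)) bl' η' B') (rgF x rg η B)
      (rgF (fun i => φ (x i)) rg' η' B') := by
  obtain ⟨r, ε, hε, hr, h1, h2, h3, h4⟩ := h
  have hne : ∀ z ∈ D, (∀ i, x i ≠ z) → ∀ i, φ (x i) ≠ φ z := fun z hz hxz i e =>
    hxz i (hφ (hx i) hz e)
  have hcor : ∀ z z', z ∈ D → z' ∈ D → (∀ i, x i ≠ z) → (∀ i, x i ≠ z') → ∀ c c',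
      cor η B z z' c c' = cor η' B' (φ z) (φ z') (r z * c) (r z' * c') := by
    intro z z' hz hz' hxz hxz' c c'
    rw [cor_apply, cor_apply]
    refine sum_congr rfl fun i _ => sum_congr rfl fun j _ => ?_
    rw [h3 i z hz hxz, h3 j z' hz' hxz', inv_conj hε h4 i j]
    linear_combination (η' i (φ z) (r z * c) * B'⁻¹ i j * η' j (φ z') (r z' * c')) *
      (ε j ^ 2 * hε i + hε j)
  refine ⟨r, hr, fun z z' hz hz' hzz hxz hxz' c c' => ?_, fun z hz hxz c c' => ?_⟩
  · rw [blF_eq hxz hxz', blF_eq (hne z hz hxz) (hne z' hz' hxz'), tw_apply, tw_apply]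
    simp only [LinearMap.add_apply]
    rw [h1 z z' hz hz' hzz hxz hxz', hcor z z' hz hz' hxz hxz']
    have e1 : r z * (-Complex.I * c) = -Complex.I * (r z * c) := by ring
    have e2 : r z' * (Complex.I * c') = Complex.I * (r z' * c') := by ring
    rw [e1, e2]
  · rw [rgF_eq hxz, rgF_eq (hne z hz hxz), tw_apply, tw_apply]
    simp only [LinearMap.add_apply]
    rw [h2 z hz hxz, hcor z z hz hz hxz hxz]
    have e1 : r z * (-Complex.I * c) = -Complex.I * (r z * c) := by ring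
    have e2 : r z * (Complex.I * c') = Complex.I * (r z * c') := by ring
    rw [e1, e2]

end cov

end Crest.Agent.R165.Fr7x802
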