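import Crest.Agent.R165.UCov_894
import Crest.Agent.R165.FrI_802

/-!
# Row 165 (S0250), leaf FREE TRANSFER (helper894): `PlusIn`, `PlusCov` of `FrI_802`

* `of_fam` : limits along families `a ↓ 0` give limits along sequences (extension by a default family)
* `PData`, `exists_pdata : MacLeaf → BrLeaf → ..` : `PlusIn` with data given by the continuum spinors
* `plusCov_of : Uniq → ..` : `PlusCov`
* `plus_all` : everything, all domains at once
-/

set_option autoImplicit false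

noncomputable section

open Filter Topology Set
open Crest.ProbabilityR.IsingModel

namespace Crest.Agent.R165.FrWx894

open Crest.Agent.R165.Latx683 (BW HE wDom wX IsCov)
open Crest.Agent.R165.UDomBx420 (ed)
open Crest.Agent.R165.UKerx420
open Crest.Agent.R165.U5Px422 (LApp)
open Crest.Agent.R165.ConfTopx641 Crest.Agent.R165.UB3x641 Crest.Agent.R165.U3x719
open Crest.Agent.R165.FrIx802 Crest.Agent.R165.UCovx894

/-! ### sequences and families -/

open Classical in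
/-- extension of the data `u k` at the points `b k` by the default `v` -/
def ext {α : Type} (b : ℕ → ℝ) (u : ℕ → α) (v : ℝ → α) (t : ℝ) : α :=
  if h : ∃ k, b k = t then u h.choose else v t

theorem ext_at {α : Type} {b : ℕ → ℝ} (hb : StrictAnti b) (u : ℕ → α) (v : ℝ → α) (k : ℕ) :
    ext b u v (b k) = u k := by
  unfold ext
  have h : ∃ j, b j = b k := ⟨k, rfl⟩
  rw [dif_pos h, hb.injective h.choose_spec]

theorem ext_ev {α : Type} {b : ℕ → ℝ} (hb : StrictAnti b) (hpos : ∀ k, 0 < b k) (u : ℕ → α)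
    (v : ℝ → α) {P : ℝ → α → Prop} (h1 : ∀ᶠ k in atTop, P (b k) (u k))
    (h2 : ∀ᶠ t in 𝓝[>] (0 : ℝ), P t (v t)) : ∀ᶠ t in 𝓝[>] (0 : ℝ), P t (ext b u v t) := by
  obtain ⟨N, hN⟩ := eventually_atTop.1 h1
  have h3 : ∀ᶠ t in 𝓝[>] (0 : ℝ), t < b N := mem_nhdsWithin_of_mem_nhds (Iio_mem_nhds (hpos N))
  filter_upwards [h2, h3] with t h2 h3
  by_cases h : ∃ k, b k = t
  · obtain ⟨k, rfl⟩ := h
    rw [ext_at hb]
    exact hN k (hb.lt_iff_gt.1 h3).le
  · unfold ext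
    rw [dif_neg h]
    exact h2

theorem ext_tend {α β : Type} [TopologicalSpace β] {b : ℕ → ℝ} (hb : StrictAnti b)
    (hpos : ∀ k, 0 < b k) (u : ℕ → α) (v : ℝ → α) {g : ℝ → α → β} {l : β}
    (h1 : Tendsto (fun k => g (b k) (u k)) atTop (𝓝 l))
    (h2 : Tendsto (fun t => g t (v t)) (𝓝[>] 0) (𝓝 l)) :
    Tendsto (fun t => g t (ext b u v t)) (𝓝[>] 0) (𝓝 l) := by
  intro s hs
  exact ext_ev hb hpos u v (P := fun t x => g t x ∈ s) (h1.eventually hs) (h2.eventually hs)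

/-- **families give sequences** -/
theorem of_fam {α : Type} (Good : (ℝ → α) → Prop) (Q : ℝ → α → ℝ) (L : ℝ)
    (hfam : ∀ F, Good F → Tendsto (fun t => Q t (F t)) (𝓝[>] 0) (𝓝 L)) {a : ℕ → ℝ}
    (ha0 : ∀ k, 0 < a k) (ha : Tendsto a atTop (𝓝 0)) (u : ℕ → α) (v : ℝ → α)
    (hgood : ∀ φ : ℕ → ℕ, Tendsto φ atTop atTop → StrictAnti (a ∘ φ) →
      Good (ext (a ∘ φ) (u ∘ φ) v)) :
    Tendsto (fun k => Q (a k) (u k)) atTop (𝓝 L) := by
  refine tendsto_of_subseq_tendsto fun ns hns => ?_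
  have h1 : Tendsto (fun k => (a (ns k))⁻¹) atTop atTop := by
    refine Tendsto.inv_tendsto_nhdsGT_zero ?_
    rw [tendsto_nhdsWithin_iff]
    exact ⟨ha.comp hns, Eventually.of_forall fun k => ha0 _⟩
  obtain ⟨ψ, hψ, hψ2⟩ := strictMono_subseq_of_tendsto_atTop h1
  have hanti : StrictAnti (a ∘ (ns ∘ ψ)) := by
    intro i j hij
    have h := hψ2 hij
    simp only [Function.comp] at h ⊢
    exact (inv_lt_inv₀ (ha0 _) (ha0 _)).1 h
  have hto : Tendsto (ns ∘ ψ) atTop atTop := hns.comp hψ.tendsto_atTop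
  refine ⟨ψ, ?_⟩
  have h2 := hfam _ (hgood (ns ∘ ψ) hto hanti)
  have h3 : Tendsto (a ∘ (ns ∘ ψ)) atTop (𝓝[>] 0) := by
    rw [tendsto_nhdsWithin_iff]
    exact ⟨ha.comp hto, Eventually.of_forall fun k => ha0 _⟩
  refine (h2.comp h3).congr fun k => ?_
  simp only [Function.comp]
  rw [show a (ns (ψ k)) = (a ∘ (ns ∘ ψ)) k from rfl, ext_at hanti]
  rfl

/-- the data of one mesh -/
structure Dat (n : ℕ) where
  w : BW ℤ
  X : Fin n → ℤ × ℤ
  S : HE ℤ → HE ℤ → ℝ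
  f : ℤ × ℤ
  g : ℤ × ℤ

/-- the admissible families -/
structure Good (D : Set ℂ) {n : ℕ} (x : Fin n → ℂ) (z z' : ℂ) (F : ℝ → Dat n) : Prop where
  bg : BgFam D fun t => (F t).w
  app : LApp (fun t => (F t).X) x
  cov : ∀ᶠ t in 𝓝[>] (0 : ℝ), IsCov (wX (F t).w (F t).X) (F t).S
  ff : Tendsto (fun t => fpt t (F t).f) (𝓝[>] 0) (𝓝 z)
  gg : Tendsto (fun t => fpt t (F t).g) (𝓝[>] 0) (𝓝 z')

variable {D : Set ℂ} {n : ℕ} {x : Fin n → ℂ}

/-- default data -/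
def dflt (D : Set ℂ) (x : Fin n → ℂ) (z z' : ℂ) (t : ℝ) : Dat n where
  w := wDom (domainSites D t) false
  X := fun i => meshIndex t (x i)
  S := Sof (wD false D t fun i => meshIndex t (x i))
  f := meshIndex t z
  g := meshIndex t z'

theorem fpt_mesh (z : ℂ) : Tendsto (fun t : ℝ => fpt t (meshIndex t z)) (𝓝[>] 0) (𝓝 z) := by
  have h1 := UKerx420.tendsto_mesh z 0
  simp only [add_zero] at h1
  exact h1

theorem good_ext (hD : IsC2JordanDomain D) (hx : x ∈ Conf n D) {a : ℕ → ℝ} {y : ℕ → BW ℤ}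
    {V : ℕ → Fin n → ℤ × ℤ} (H : LatB D x a y V) {S : ℕ → HE ℤ → HE ℤ → ℝ}
    (hS : ∀ k, IsCov (wX (y k) (V k)) (S k)) {z z' : ℂ} {f g : ℕ → ℤ × ℤ}
    (hf : Tendsto (fun k => meshPoint (a k) (f k)) atTop (𝓝 z))
    (hg : Tendsto (fun k => meshPoint (a k) (g k)) atTop (𝓝 z'))
    (φ : ℕ → ℕ) (hφ : Tendsto φ atTop atTop) (hanti : StrictAnti (a ∘ φ)) :
    Good D x z z' (ext (a ∘ φ) ((fun k => Dat.mk (y k) (V k) (S k) (f k) (g k)) ∘ φ)
      (dflt D x z z')) := by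
  have hpos : ∀ k, 0 < (a ∘ φ) k := fun k => H.pos _
  have hb := bgFam_dom hD
  refine ⟨⟨?_, fun K hK hKD => ?_, fun K hK hKD => ?_⟩, fun i => ?_, ?_, ?_, ?_⟩
  · exact ext_ev hanti hpos _ _ (P := fun _ (d : Dat n) => ∀ z j, d.w z j = 0 ∨ d.w z j = Latx683.xc)
      (Eventually.of_forall fun k z j => (H.val (φ k) z j).symm) hb.val
  · exact ext_ev hanti hpos _ _
      (P := fun t (d : Dat n) => ∀ z j, meshPoint t z ∈ K → d.w z j = Latx683.xc)
      ((hφ.eventually (H.ins K hK hKD)).mono fun k h z j hz => h z hz j) (hb.inn K hK hKD)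
  · refine ext_ev hanti hpos _ _ (P := fun t (d : Dat n) => ∀ z j, meshPoint t z ∈ K → d.w z j = 0)
      ?_ (hb.out K hK hKD)
    obtain ⟨R, hR⟩ := H.bdd
    have hc : IsCompact (K ∩ Metric.closedBall 0 R) := (isCompact_closedBall _ _).inter_left hK
    filter_upwards [hφ.eventually (H.out _ hc (hKD.mono_left inter_subset_left))] with k hk z j hz
    by_cases h : ‖meshPoint (a (φ k)) z‖ ≤ R
    · exact hk z ⟨hz, by simpa using h⟩ j
    · exact hR (φ k) z (not_le.1 h).le j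
  · exact ext_tend hanti hpos _ _ (g := fun t (d : Dat n) => meshPoint t (d.X i)) ((H.tip i).comp hφ)
      (U5Px422.lapp_meshIndex x i)
  · refine ext_ev hanti hpos _ _ (P := fun _ (d : Dat n) => IsCov (wX d.w d.X) d.S)
      (Eventually.of_forall fun k => hS (φ k)) ?_
    exact (UJ4x420.exCov .plus n (Or.inl rfl) D hD x hx.1 hx.2).mono fun t h => Sof_spec h
  · exact ext_tend hanti hpos _ _ (g := fun t (d : Dat n) => fpt t d.f) (hf.comp hφ) (fpt_mesh z)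
  · exact ext_tend hanti hpos _ _ (g := fun t (d : Dat n) => fpt t d.g) (hg.comp hφ) (fpt_mesh z')

/-- limits along `LatB` sequences from limits along `BgFam` families -/
theorem seq_lim (hD : IsC2JordanDomain D) (hx : x ∈ Conf n D) {z z' : ℂ} {Q : ℝ → Dat n → ℝ}
    {L : ℝ} (hfam : ∀ F, Good D x z z' F → Tendsto (fun t => Q t (F t)) (𝓝[>] 0) (𝓝 L))
    {a : ℕ → ℝ} {y : ℕ → BW ℤ} {V : ℕ → Fin n → ℤ × ℤ} (H : LatB D x a y V)
    {S : ℕ → HE ℤ → HE ℤ → ℝ} (hS : ∀ k, IsCov (wX (y k) (V k)) (S k)) {f g : ℕ → ℤ × ℤ}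
    (hf : Tendsto (fun k => meshPoint (a k) (f k)) atTop (𝓝 z))
    (hg : Tendsto (fun k => meshPoint (a k) (g k)) atTop (𝓝 z')) :
    Tendsto (fun k => Q (a k) ⟨y k, V k, S k, f k, g k⟩) atTop (𝓝 L) :=
  of_fam (Good D x z z') Q L hfam H.pos H.lim (fun k => Dat.mk (y k) (V k) (S k) (f k) (g k))
    (dflt D x z z') fun φ hφ h => good_ext hD hx H hS hf hg φ hφ h

/-! ### the data -/

/-- lattice kernels described by continuum spinors, constants `c1`, `c2` of `BrLeaf` -/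
structure PData (c1 c2 : ℝ) (D : Set ℂ) (x : Fin n → ℂ) (gk : ℂ → ℂ → ℂ → ℂ)
    (gb : Fin n → ℂ → ℂ) (bl : ℂ → ℂ → LinearMap.BilinForm ℝ ℂ)
    (rg : ℂ → LinearMap.BilinForm ℝ ℂ) (η : Fin n → ℂ → ℂ →ₗ[ℝ] ℝ)
    (B : Matrix (Fin n) (Fin n) ℝ) : Prop where
  ker : U3Covx67.KerFam D x gk
  br : ∀ i, IsBrN D x i (gb i)
  bl_eq : ∀ z ∈ D, ∀ y ∈ D, z ≠ y → (∀ i, x i ≠ z) → (∀ i, x i ≠ y) → ∀ c c',
    bl z y c c' = kerB x gk z y c c' / (2 * Real.pi * Latx683.xc)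
  rg_eq : ∀ y ∈ D, (∀ i, x i ≠ y) → ∀ c c',
    rg y c c' = kerR x gk y c c' / (2 * Real.pi * Latx683.xc)
  eta_eq : ∀ j z c, η j z c = c1 * (c * e8 * (gb j z / rXa x z)).re
  B_eq : ∀ i j, B i j = if i = j then 0 else c2 * (gb j (x i) / (Complex.I * gsrc x i)).re
  inn : PlusIn D x bl rg η B

/-- the form `c ↦ c1 Re (c e^{iπ/4} u)` -/
def etaF (c1 : ℝ) (u : ℂ) : ℂ →ₗ[ℝ] ℝ where
  toFun c := c1 * (c * e8 * u).re
  map_add' c c' := by rw [add_mul, add_mul, Complex.add_re]; ring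
  map_smul' r c := by
    simp only [Complex.real_smul, RingHom.id_apply, smul_eq_mul]
    rw [show (r : ℂ) * c * e8 * u = (r : ℂ) * (c * e8 * u) by ring, Complex.re_ofReal_mul]
    ring

theorem sqrt_inv_eq {t : ℝ} (ht : 0 < t) : (Real.sqrt t)⁻¹ = t ^ (-(1 : ℝ) / 2) := by
  rw [Real.sqrt_eq_rpow, ← Real.rpow_neg ht.le]
  congr 1
  norm_num

theorem skew_sum {S : HE ℤ → HE ℤ → ℝ} (h : ∀ a b, S a b = -S b a) (v : ℤ × ℤ) :
    ∑ b : Fin 4, ∑ b' : Fin 4, S (v, b) (v, b') = 0 := by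
  have h1 : ∑ b : Fin 4, ∑ b' : Fin 4, S (v, b) (v, b') =
      -∑ b : Fin 4, ∑ b' : Fin 4, S (v, b) (v, b') := by
    conv_lhs => rw [Finset.sum_comm]
    rw [← Finset.sum_neg_distrib]
    refine Finset.sum_congr rfl fun b _ => ?_
    rw [← Finset.sum_neg_distrib]
    exact Finset.sum_congr rfl fun b' _ => h _ _
  linarith

/-- the branch constants -/
structure BrC (c1 c2 : ℝ) : Prop where
  h1 : c1 ≠ 0
  h2 : c2 ^ 2 = 1
  lim : ∀ D : Set ℂ, IsC2JordanDomain D → ∀ (n : ℕ) (x : Fin n → ℂ),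
    x ∈ Conf n D → ∃ g : Fin n → ℂ → ℂ, (∀ i, IsBrN D x i (g i)) ∧
      ∀ (w : ℝ → BW ℤ) (X : ℝ → Fin n → ℤ × ℤ), BgFam D w → LApp X x → BrF c1 c2 D x w X g

theorem exists_brC (hB : BrLeaf) : ∃ c1 c2 : ℝ, BrC c1 c2 := by
  obtain ⟨c1, c2, h1, h2, h⟩ := hB
  exact ⟨c1, c2, h1, h2, h⟩

/-- **`PlusIn` from `MacLeaf` and `BrLeaf`** -/
theorem exists_pdata (hM : MacLeaf) {c1 c2 : ℝ} (hB : BrC c1 c2) (hD : IsC2JordanDomain D)
    (hx : x ∈ Conf n D) : ∃ gk gb bl rg η B, PData c1 c2 D x gk gb bl rg η B := by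
  obtain ⟨bl, rg, gk, k1, k2, k3, k4, k5, k6⟩ := hM D hD n x hx
  obtain ⟨gb, b1, b2⟩ := hB.lim D hD n x hx
  refine ⟨gk, gb, bl, rg, fun j z => etaF c1 (gb j z / rXa x z),
    fun i j => if i = j then 0 else c2 * (gb j (x i) / (Complex.I * gsrc x i)).re,
    fun y hy hxy c => k1 y hy hxy c, b1, k2, k3, fun _ _ _ => rfl, fun _ _ => rfl, ?_⟩
  refine ⟨?_, ?_, fun z z' hz hz' hne _ _ => k4 z z' hz hz' hne, fun z hz _ => k5 z hz, ?_, ?_⟩
  · intro a y V H S hS z z' hz hz' hne hxz hxz' i i' f f' hf hf'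
    exact seq_lim hD hx (Q := fun t d => t⁻¹ * (kap x d.X z d.f * kap x d.X z' d.g *
      d.S (d.f, i) (d.g, i'))) (fun F G => (k6 _ _ G.bg G.app).off (fun t => (F t).S) G.cov z z'
        hz hz' hne hxz hxz' i i' _ _ G.ff G.gg) H hS hf hf'
  · intro a y V H S hS z hz hxz j i i' f hf
    exact seq_lim hD hx (Q := fun t d => t⁻¹ * (kap x d.X z (hb d.f j i).1 *
      kap x d.X z (hb d.f j i').1 * d.S (hb d.f j i) (hb d.f j i') - cB i i'))
      (fun F G => (k6 _ _ G.bg G.app).diag (fun t => (F t).S) G.cov z hz hxz _ G.ff j i i')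
      H hS hf hf
  · intro a y V H S hS z hz hxz j i f hf
    have h1 := seq_lim hD hx (Q := fun t d => t ^ (-(1 : ℝ) / 2) * (kap x d.X z d.f *
      kapX x d.X j * cS d.S (d.f, i) (d.X j)))
      (fun F G => (b2 _ _ G.bg G.app).eta (fun t => (F t).S) G.cov z hz hxz j i _ G.ff)
      H hS hf hf
    refine h1.congr fun k => ?_
    rw [← sqrt_inv_eq (H.pos k)]
    rfl
  · intro a y V H S hS i j
    by_cases hij : i = j
    · subst hij
      simp only [if_true]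
      refine tendsto_const_nhds.congr fun k => ?_
      rw [skew_sum (hS k).skew, mul_zero]
    · simp only [if_neg hij]
      exact seq_lim hD hx (Q := fun t d => kapX x d.X i * kapX x d.X j *
        cSS d.S (d.X i) (d.X j)) (fun F G => (b2 _ _ G.bg G.app).cor (fun t => (F t).S) G.cov
          j i (Ne.symm hij)) H hS (H.tip i) (H.tip i)

/-! ### covariance -/

theorem gsrc_ne (hinj : Function.Injective x) (i : Fin n) : gsrc x i ≠ 0 := by
  intro h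
  have h1 := gsrc_sq x i
  rw [h] at h1
  have h2 := mul_ne_zero Complex.I_ne_zero (U3Covx67.wX_ne hinj i)
  exact h2 (by rw [← h1]; ring)

/-- **`PlusCov` from uniqueness** -/
theorem plusCov_of (hU : Uniq) {c1 c2 : ℝ} {D' : Set ℂ} (hD : IsC2JordanDomain D)
    (hD' : IsC2JordanDomain D') {φ : ℂ → ℂ} (hφ : DifferentiableOn ℂ φ D)
    (hbij : Set.BijOn φ D D') (hx : x ∈ Conf n D)
    {gk gk' : ℂ → ℂ → ℂ → ℂ} {gb gb' : Fin n → ℂ → ℂ}
    {bl bl' : ℂ → ℂ → LinearMap.BilinForm ℝ ℂ} {rg rg' : ℂ → LinearMap.BilinForm ℝ ℂ}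
    {η η' : Fin n → ℂ → ℂ →ₗ[ℝ] ℝ} {B B' : Matrix (Fin n) (Fin n) ℝ}
    (P : PData c1 c2 D x gk gb bl rg η B)
    (P' : PData c1 c2 D' (fun i => φ (x i)) gk' gb' bl' rg' η' B') :
    PlusCov D x φ bl bl' rg rg' η η' B B' := by
  rcases D.eq_empty_or_nonempty with he | hne
  · refine ⟨fun _ => 0, fun _ => 1, fun _ => by norm_num, fun z hz => ?_, fun z _ hz => ?_,
      fun z hz => ?_, fun _ z hz => ?_, fun i => ?_⟩
    · rw [he] at hz; exact absurd hz (Set.notMem_empty _)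
    · rw [he] at hz; exact absurd hz (Set.notMem_empty _)
    · rw [he] at hz; exact absurd hz (Set.notMem_empty _)
    · rw [he] at hz; exact absurd hz (Set.notMem_empty _)
    · have hz := hx.1 i
      rw [he] at hz; exact absurd hz (Set.notMem_empty _)
  obtain ⟨⟨r, M, hCD⟩, hL⟩ := biL_of hD hD' hφ hbij hne
  obtain ⟨q, hq⟩ := U3Covx67.exists_q hCD hφ hbij.injOn x hx.1
  have hinj' : Function.Injective (fun i => φ (x i)) := fun i j e =>
    hx.2 (hbij.injOn (hx.1 i) (hx.1 j) e)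
  -- the signs
  have key : ∀ j, ∃ s : ℝ, s ^ 2 = 1 ∧ ∀ z ∈ D, gb j z = (s : ℂ) * (q z * gb' j (φ z)) := by
    intro j
    rcases U3Covx67.IsBr.unique hU hCD hx.2 hx.1 (P.br j).br
      (U3Covx67.br_pull hL hx.1 hq (P'.br j).br) with h | h
    · exact ⟨1, by norm_num, fun z hz => by rw [h hz]; simp⟩
    · exact ⟨-1, by norm_num, fun z hz => by rw [h hz]; simp⟩
  choose s hs hgs using key
  have hne' : ∀ z, z ∈ D → (∀ i, x i ≠ z) → ∀ i, φ (x i) ≠ φ z := fun z hz hxz i e =>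
    hxz i (hbij.injOn (hx.1 i) hz e)
  refine ⟨U3Covx67.rr φ x q, s, hs, fun z hz hxz => ?_, ?_, ?_, ?_, ?_⟩
  · exact U3Covx67.rr_sq hq hCD.isOpen hφ hbij.injOn hx.1 hz hxz
  · intro z z' hz hz' hzz hxz hxz' c c'
    have hzz' : φ z ≠ φ z' := fun e => hzz (hbij.injOn hz hz' e)
    rw [P.bl_eq z hz z' hz' hzz hxz hxz' c c',
      P'.bl_eq _ (hbij.mapsTo hz) _ (hbij.mapsTo hz') hzz' (hne' z hz hxz) (hne' z' hz' hxz') _ _,
      U3Covx67.kerB_cov hU hCD hL hx.2 hx.1 hq P.ker P'.ker hz hz' hzz hxz hxz']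
  · intro z hz hxz c c'
    rw [P.rg_eq z hz hxz c c', P'.rg_eq _ (hbij.mapsTo hz) (hne' z hz hxz) _ _,
      U3Covx67.kerR_cov hU hCD hL hx.2 hx.1 hq P.ker P'.ker hz hxz]
  · intro j z hz hxz c
    rw [P.eta_eq, P'.eta_eq, hgs j z hz]
    have h1 : rXa x z ≠ 0 := U3Covx67.rXa_ne hxz
    have h2 : rXa (fun i => φ (x i)) (φ z) ≠ 0 := U3Covx67.rXa_ne (hne' z hz hxz)
    have h3 : c * e8 * ((s j : ℂ) * (q z * gb' j (φ z)) / rXa x z) =
        (s j : ℂ) * (U3Covx67.rr φ x q z * c * e8 *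
          (gb' j (φ z) / rXa (fun i => φ (x i)) (φ z))) := by
      unfold U3Covx67.rr
      field_simp
    rw [h3, Complex.re_ofReal_mul]
    ring
  · intro i j
    rw [P.B_eq, P'.B_eq]
    by_cases hij : i = j
    · rw [if_pos hij, if_pos hij, mul_zero]
    · rw [if_neg hij, if_neg hij]
      have hi := hgs i (x i) (hx.1 i)
      rw [(P.br i).nrm, (P'.br i).nrm] at hi
      have hj := hgs j (x i) (hx.1 i)
      have h1 : gsrc x i ≠ 0 := gsrc_ne hx.2 i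
      have h2 : gsrc (fun i => φ (x i)) i ≠ 0 := gsrc_ne hinj' i
      have hq0 : q (x i) ≠ 0 := hq.ne _ (hx.1 i)
      have hsi : ((s i : ℝ) : ℂ) * (s i : ℂ) = 1 := by
        rw [← Complex.ofReal_mul, ← pow_two, hs i, Complex.ofReal_one]
      have h3 : gb j (x i) / (Complex.I * gsrc x i) = ((s i * s j : ℝ) : ℂ) *
          (gb' j (φ (x i)) / (Complex.I * gsrc (fun i => φ (x i)) i)) := by
        have hs0 : (s i : ℂ) ≠ 0 := by
          intro h
          rw [h, zero_mul] at hsi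
          exact zero_ne_one hsi
        rw [hj, hi]
        push_cast
        field_simp
        linear_combination (-(s j : ℂ) * gb' j (φ (x i))) * hsi
      rw [h3, Complex.re_ofReal_mul]
      ring

/-- **everything about plus, all domains at once** -/
theorem plus_all (hU : Uniq) (hM : MacLeaf) (hB : BrLeaf) (n : ℕ) :
    ∃ (bl : Set ℂ → (Fin n → ℂ) → ℂ → ℂ → LinearMap.BilinForm ℝ ℂ)
      (rg : Set ℂ → (Fin n → ℂ) → ℂ → LinearMap.BilinForm ℝ ℂ)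
      (η : Set ℂ → (Fin n → ℂ) → Fin n → ℂ → ℂ →ₗ[ℝ] ℝ)
      (B : Set ℂ → (Fin n → ℂ) → Matrix (Fin n) (Fin n) ℝ),
      (∀ D, IsC2JordanDomain D → ∀ x : Fin n → ℂ, x ∈ Conf n D →
        PlusIn D x (bl D x) (rg D x) (η D x) (B D x)) ∧
      ∀ D D', IsC2JordanDomain D → IsC2JordanDomain D' → ∀ φ : ℂ → ℂ, DifferentiableOn ℂ φ D →
        Set.BijOn φ D D' → ∀ x : Fin n → ℂ, x ∈ Conf n D →
          PlusCov D x φ (bl D x) (bl D' (fun i => φ (x i))) (rg D x)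
            (rg D' (fun i => φ (x i))) (η D x) (η D' (fun i => φ (x i))) (B D x)
            (B D' (fun i => φ (x i))) := by
  classical
  obtain ⟨c1, c2, hC⟩ := exists_brC hB
  have h : ∀ (D : Set ℂ) (x : Fin n → ℂ), ∃ (gk : ℂ → ℂ → ℂ → ℂ) (gb : Fin n → ℂ → ℂ)
      (bl : ℂ → ℂ → LinearMap.BilinForm ℝ ℂ) (rg : ℂ → LinearMap.BilinForm ℝ ℂ)
      (η : Fin n → ℂ → ℂ →ₗ[ℝ] ℝ) (B : Matrix (Fin n) (Fin n) ℝ),
      IsC2JordanDomain D → x ∈ Conf n D → PData c1 c2 D x gk gb bl rg η B := by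
    intro D x
    by_cases h : IsC2JordanDomain D ∧ x ∈ Conf n D
    · obtain ⟨gk, gb, bl, rg, η, B, h⟩ := exists_pdata hM hC h.1 h.2
      exact ⟨gk, gb, bl, rg, η, B, fun _ _ => h⟩
    · exact ⟨fun _ _ _ => 0, fun _ _ => 0, 0, 0, 0, 0, fun h1 h2 => absurd ⟨h1, h2⟩ h⟩
  choose gk gb bl rg η B h using h
  refine ⟨bl, rg, η, B, fun D hD x hx => (h D x hD hx).inn,
    fun D D' hD hD' φ hφ hbij x hx => ?_⟩
  have hx' : (fun i => φ (x i)) ∈ Conf n D' :=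
    ⟨fun i => hbij.mapsTo (hx.1 i), fun i j e => hx.2 (hbij.injOn (hx.1 i) (hx.1 j) e)⟩
  exact plusCov_of hU hD hD' hφ hbij hx (h D x hD hx) (h D' _ hD' hx')

end Crest.Agent.R165.FrWx894
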