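import Mathlib
import Crest.Agent.R165.GeoH_65

/-!
# Row 165, block GEO (helper65), file I: deep lattice paths

`deep_join`: for an open connected `D` and compact `K ⊆ D` there is a compact `K' ⊆ D` such that for all small
mesh any two sites with mesh points in `K` are joined by a nearest neighbour path of length `≤ C/a` with all
mesh points in `K'` (in particular at distance `≥ δ > 0` from the complement).
-/

set_option autoImplicit false

open Set Topology Filter Metric

namespace Crest.Agent.R165.GeoIx65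

open Crest.Agent.R165.Geo
open Crest.Agent.R165.GeoHx65
open Crest.ProbabilityR.IsingModel

/-- straight lattice path between two sites: all its mesh points are within `3 b` of the point `p` if both
ends are within `b` -/
theorem straight {a : ℝ} (ha : 0 < a) {p : ℂ} {b : ℝ} {u v : ℤ × ℤ} (hu : ‖meshPoint a u - p‖ ≤ b)
    (hv : ‖meshPoint a v - p‖ ≤ b) :
    ∃ n : ℕ, (n:ℝ) ≤ 4 * b / a ∧ PathIn {z | ‖meshPoint a z - p‖ ≤ 2 * b} u v n := by
  have hre : ∀ w : ℤ × ℤ, ‖meshPoint a w - p‖ ≤ b → |a * w.1 - p.re| ≤ b ∧ |a * w.2 - p.im| ≤ b :=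
    fun w hw => ⟨by
      have := (Complex.abs_re_le_norm _).trans hw
      simpa [meshPoint] using this, by
      have := (Complex.abs_im_le_norm _).trans hw
      simpa [meshPoint] using this⟩
  obtain ⟨hu1, hu2⟩ := hre u hu
  obtain ⟨hv1, hv2⟩ := hre v hv
  have hmem : ∀ x y : ℤ, |a * x - p.re| ≤ b → |a * y - p.im| ≤ b →
      (x, y) ∈ {z : ℤ × ℤ | ‖meshPoint a z - p‖ ≤ 2 * b} := fun x y hx hy => by
    refine (Complex.norm_le_abs_re_add_abs_im _).trans ?_
    simp only [meshPoint, Complex.sub_re, Complex.sub_im]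
    linarith
  -- monotone interpolation
  have hint : ∀ (s t i : ℤ) (q : ℝ), |a * s - q| ≤ b → |a * t - q| ≤ b → min s t ≤ i → i ≤ max s t →
      |a * i - q| ≤ b := fun s t i q hs ht h1 h2 => by
    have hs' := abs_le.1 hs
    have ht' := abs_le.1 ht
    rw [abs_le]
    rcases le_total s t with hst | hst
    · rw [min_eq_left hst] at h1
      rw [max_eq_right hst] at h2
      have h3 : (s:ℝ) ≤ i := by exact_mod_cast h1
      have h4 : (i:ℝ) ≤ t := by exact_mod_cast h2
      constructor <;> nlinarith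
    · rw [min_eq_right hst] at h1
      rw [max_eq_left hst] at h2
      have h3 : (t:ℝ) ≤ i := by exact_mod_cast h1
      have h4 : (i:ℝ) ≤ s := by exact_mod_cast h2
      constructor <;> nlinarith
  obtain ⟨u1, u2⟩ := u
  obtain ⟨v1, v2⟩ := v
  simp only at hu1 hu2 hv1 hv2
  have p1 : PathIn {z : ℤ × ℤ | ‖meshPoint a z - p‖ ≤ 2 * b} (u1, u2) (v1, u2) (v1 - u1).natAbs :=
    PathIn.horiz' fun i h1 h2 => hmem i u2 (hint u1 v1 i _ hu1 hv1 h1 h2) hu2
  have p2 : PathIn {z : ℤ × ℤ | ‖meshPoint a z - p‖ ≤ 2 * b} (v1, u2) (v1, v2) (v2 - u2).natAbs :=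
    PathIn.vert' fun i h1 h2 => hmem v1 i hv1 (hint u2 v2 i _ hu2 hv2 h1 h2)
  refine ⟨(v1 - u1).natAbs + (v2 - u2).natAbs, ?_, p1.trans p2⟩
  have hlen : ∀ (s t : ℤ) (q : ℝ), |a * s - q| ≤ b → |a * t - q| ≤ b →
      ((t - s).natAbs : ℝ) ≤ 2 * b / a := fun s t q hs ht => by
    rw [le_div_iff₀ ha]
    have h1 : (((t - s).natAbs : ℕ) : ℝ) = |(t:ℝ) - s| := by
      rw [Nat.cast_natAbs]; push_cast; rfl
    have h2 : |(t:ℝ) - s| * a = |(a * t - q) - (a * s - q)| := by
      rw [show (a * t - q) - (a * s - q) = ((t:ℝ) - s) * a by ring, abs_mul, abs_of_pos ha]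
    rw [h1, h2]
    have h3 := abs_sub (a * t - q) (a * s - q)
    linarith
  have h1 := hlen u1 v1 _ hu1 hv1
  have h2 := hlen u2 v2 _ hu2 hv2
  have e : 4 * b / a = 2 * b / a + 2 * b / a := by ring
  rw [e, Nat.cast_add]
  exact add_le_add h1 h2

theorem isPreconnected_thickening {K : Set ℂ} (hK : IsPreconnected K) (δ : ℝ) :
    IsPreconnected (thickening δ K) := by
  rcases le_or_gt δ 0 with hδ | hδ
  · rw [thickening_of_nonpos hδ]; exact isPreconnected_empty
  rcases K.eq_empty_or_nonempty with he | hne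
  · rw [he, thickening_empty]; exact isPreconnected_empty
  obtain ⟨x₀, hx₀⟩ := hne
  rw [thickening_eq_biUnion_ball]
  refine isPreconnected_of_forall x₀ fun y hy => ?_
  simp only [mem_iUnion] at hy
  obtain ⟨x, hx, hxy⟩ := hy
  refine ⟨K ∪ ball x δ, ?_, Or.inl hx₀, Or.inr hxy, ?_⟩
  · rintro z (hz | hz)
    · exact mem_iUnion₂.2 ⟨z, hz, mem_ball_self hδ⟩
    · exact mem_iUnion₂.2 ⟨x, hx, hz⟩
  · exact IsPreconnected.union x hx (mem_ball_self hδ) hK (convex_ball x δ).isPreconnected

/-- **deep paths** -/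
theorem deep_join {D : Set ℂ} (hO : IsOpen D) (hc : IsConnected D) {K : Set ℂ} (hK : IsCompact K)
    (hKD : K ⊆ D) : ∃ K' : Set ℂ, IsCompact K' ∧ K' ⊆ D ∧ ∃ C : ℝ, ∀ᶠ a in 𝓝[>] (0:ℝ),
      ∀ u v : ℤ × ℤ, meshPoint a u ∈ K → meshPoint a v ∈ K →
        ∃ n : ℕ, (n:ℝ) ≤ C / a ∧ PathIn {z | meshPoint a z ∈ K'} u v n := by
  obtain ⟨K1, hK1c, hK1p, hKK1, hK1D⟩ := exists_compact_connected hO hc hK hKD
  obtain ⟨δ, hδ, hδD⟩ := hK1c.exists_cthickening_subset_open hO hK1D
  set A : Set ℂ := thickening (δ / 4) K1 with hA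
  have hAo : IsOpen A := isOpen_thickening
  have hAp : IsPreconnected A := isPreconnected_thickening hK1p _
  have hKA : K ⊆ A := hKK1.trans (self_subset_thickening (by positivity) K1)
  have hK' : IsCompact (cthickening δ K1) := hK1c.cthickening
  have hAcl : IsCompact (closure A) :=
    hK'.of_isClosed_subset isClosed_closure ((closure_thickening_subset_cthickening _ _).trans
      (cthickening_mono (by linarith) _))
  refine ⟨cthickening δ K1, hK', hδD, ?_⟩
  have key := chain_join hAp subset_closure hAcl (fun a => {z | meshPoint a z ∈ A})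
    (fun a => {z | meshPoint a z ∈ cthickening δ K1}) (fun a z hz => hz) (by
      intro p hp
      refine ⟨ball p (δ / 8), isOpen_ball, mem_ball_self (by positivity), 4 * (δ / 8), ?_⟩
      filter_upwards [self_mem_nhdsWithin] with a ha u _ v _ huU hvU
      rw [mem_ball, Complex.dist_eq] at huU hvU
      obtain ⟨n, hn, hpath⟩ := straight ha huU.le hvU.le
      refine ⟨n, hn, hpath.mono fun z hz => ?_⟩
      -- `p` is within `δ/4` of `K1`, `z` within `δ/4` of `p`
      have h1 : p ∈ cthickening (δ / 4) K1 := closure_thickening_subset_cthickening _ _ hp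
      rw [hK1c.cthickening_eq_biUnion_closedBall (by positivity)] at h1
      simp only [mem_iUnion, mem_closedBall] at h1
      obtain ⟨x, hx, hpx⟩ := h1
      refine mem_cthickening_of_dist_le _ x _ _ hx ?_
      have h2 : dist (meshPoint a z) p ≤ 2 * (δ / 8) := by rw [Complex.dist_eq]; exact hz
      have h3 := dist_triangle (meshPoint a z) p x
      linarith) (by
      rintro U hU ⟨q, hqU, hqA⟩
      filter_upwards [dense_open (hU.inter hAo) ⟨hqU, hqA⟩] with a ha
      exact ⟨meshIndex a q, ha.2, ha.1⟩)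
  obtain ⟨C, hC⟩ := key
  refine ⟨C, ?_⟩
  filter_upwards [hC] with a ha u v hu hv
  exact ha u (hKA hu) v (hKA hv)

end Crest.Agent.R165.GeoIx65
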