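import Crest.Agent.R161.Gks_375
import Crest.Prelude.Def_PerturbedIsing

/-!
# Row 165 (S0250): Griffiths inequalities for Ising models on finite site sets (helper422)

Sites `V`, bonds `κ` with end points `p q : κ → V`, coupling `K ≥ 0`. A finite set `T` of active sites
(all other spins are `+`) and a finite set `E` of bonds. `minusOn A` is the configuration that is `-`
exactly on `A`.

* `ZZ K p q T E F = ∑_{A ⊆ T} wt(E) F`,  `EX = ZZ F / ZZ 1`
* `PosV F` : `F` is a positive combination of characters after restriction to every `T`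
* `gks` : Griffiths II; `EX_mono_bonds`, `EX_anti_sites`: monotonicity in bonds, antitonicity in sites
* `EX_congr_bonds`, `EX_drop_sites`, `EX_union`: irrelevant bonds / sites, factorisation
-/

set_option autoImplicit false
set_option linter.unusedSectionVars false
set_option linter.unusedVariables false

noncomputable section

open Finset
open Crest.ProbabilityR.IsingModel (spinSign)

namespace Crest.Agent.R165.Gk0x422

open Crest.Agent.R161

variable {V κ : Type*} [DecidableEq V]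

/-! ### configurations -/

/-- the configuration that is minus exactly on `A` -/
def minusOn (A : Finset V) (v : V) : Bool := decide (v ∉ A)

theorem spin_minusOn (A : Finset V) (v : V) :
    spinSign (minusOn A v) = if v ∈ A then -1 else 1 := by
  unfold spinSign minusOn
  by_cases h : v ∈ A <;> simp [h]

theorem spin_sq (b : Bool) : spinSign b * spinSign b = 1 := by
  cases b <;> simp [spinSign]

theorem spin_minusOn_of_mem {A : Finset V} {v : V} (h : v ∈ A) : spinSign (minusOn A v) = -1 := by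
  rw [spin_minusOn, if_pos h]

theorem spin_minusOn_of_notMem {A : Finset V} {v : V} (h : v ∉ A) : spinSign (minusOn A v) = 1 := by
  rw [spin_minusOn, if_neg h]

/-- the configuration of `τ : T → ℤˣ`, plus outside -/
def sOf (T : Finset V) (τ : T → ℤˣ) (v : V) : Bool :=
  if h : v ∈ T then decide (τ ⟨v, h⟩ = 1) else true

/-- the minus set of `τ` -/
def mset (T : Finset V) (τ : T → ℤˣ) : Finset V :=
  (univ.filter fun v : T => τ v ≠ 1).map (Function.Embedding.subtype _)

theorem mem_mset {T : Finset V} {τ : T → ℤˣ} {v : V} :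
    v ∈ mset T τ ↔ ∃ h : v ∈ T, τ ⟨v, h⟩ ≠ 1 := by
  unfold mset
  simp only [mem_map, mem_filter, mem_univ, true_and, Function.Embedding.coe_subtype,
    Subtype.exists, exists_and_right, exists_eq_right]

theorem mset_subset (T : Finset V) (τ : T → ℤˣ) : mset T τ ⊆ T := fun v hv => (mem_mset.1 hv).1

theorem sOf_eq (T : Finset V) (τ : T → ℤˣ) : sOf T τ = minusOn (mset T τ) := by
  funext v
  unfold sOf minusOn
  by_cases h : v ∈ T
  · simp only [h, dif_pos]
    by_cases h2 : τ ⟨v, h⟩ = 1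
    · have : v ∉ mset T τ := by
        rw [mem_mset]; rintro ⟨h3, h4⟩; exact h4 h2
      simp [h2, this]
    · have : v ∈ mset T τ := mem_mset.2 ⟨h, h2⟩
      simp [h2, this]
  · have : v ∉ mset T τ := fun h2 => h (mset_subset T τ h2)
    simp [h, this]

/-- sums over configurations of `T` as sums over subsets -/
theorem sum_sOf (T : Finset V) (G : (V → Bool) → ℝ) :
    ∑ τ : T → ℤˣ, G (sOf T τ) = ∑ A ∈ T.powerset, G (minusOn A) := by
  refine Finset.sum_bij' (fun τ _ => mset T τ)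
    (fun A _ => fun v : T => if (v : V) ∈ A then (-1 : ℤˣ) else 1) ?_ ?_ ?_ ?_ ?_
  · intro τ _
    exact mem_powerset.2 (mset_subset T τ)
  · intro A _; exact mem_univ _
  · intro τ _
    funext v
    by_cases h : (v : V) ∈ mset T τ
    · rw [if_pos h]
      obtain ⟨h1, h2⟩ := mem_mset.1 h
      rcases Int.units_eq_one_or (τ v) with h3 | h3
      · exact absurd h3 h2
      · exact h3.symm
    · rw [if_neg h]
      by_contra h2
      exact h (mem_mset.2 ⟨v.2, fun h3 => h2 h3.symm⟩)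
  · intro A hA
    ext v
    rw [mem_mset]
    constructor
    · rintro ⟨h1, h2⟩
      by_contra h3
      exact h2 (by simp [h3])
    · intro hv
      exact ⟨mem_powerset.1 hA hv, by simp [hv]⟩
  · intro τ _
    rw [sOf_eq]

/-! ### positive and ferromagnetic functions of the full configuration -/

/-- positive combination of characters after restriction to every finite set -/
def PosV (F : (V → Bool) → ℝ) : Prop :=
  ∀ T : Finset V, Gks375.Pos fun τ : T → ℤˣ => F (sOf T τ)

/-- ferromagnetic after restriction to every finite set -/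
def FerroV (F : (V → Bool) → ℝ) : Prop :=
  ∀ T : Finset V, Gks375.Ferro fun τ : T → ℤˣ => F (sOf T τ)

theorem FerroV.pos {F : (V → Bool) → ℝ} (h : FerroV F) : PosV F := fun T => (h T).pos

theorem PosV.const {r : ℝ} (hr : 0 ≤ r) : PosV (fun _ : V → Bool => r) :=
  fun _ => Gks375.Pos.const hr

theorem PosV.mul {F G : (V → Bool) → ℝ} (hF : PosV F) (hG : PosV G) :
    PosV fun s => F s * G s := fun T => (hF T).mul (hG T)

theorem PosV.add {F G : (V → Bool) → ℝ} (hF : PosV F) (hG : PosV G) :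
    PosV fun s => F s + G s := fun T => (hF T).add (hG T)

theorem PosV.congr {F G : (V → Bool) → ℝ} (hF : PosV F) (h : ∀ s, G s = F s) : PosV G :=
  fun T => (hF T).congr fun _ => h _

theorem PosV.prod {ι : Type*} (S : Finset ι) {F : ι → (V → Bool) → ℝ}
    (hF : ∀ k ∈ S, PosV (F k)) : PosV fun s => ∏ k ∈ S, F k s :=
  fun T => Gks375.Pos.prod S fun k hk => hF k hk T

theorem FerroV.mul {F G : (V → Bool) → ℝ} (hF : FerroV F) (hG : FerroV G) :
    FerroV fun s => F s * G s := fun T => (hF T).mul (hG T)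

theorem FerroV.prod {ι : Type*} (S : Finset ι) {F : ι → (V → Bool) → ℝ}
    (hF : ∀ k ∈ S, FerroV (F k)) : FerroV fun s => ∏ k ∈ S, F k s :=
  fun T => Gks375.Ferro.prod S fun k hk => hF k hk T

theorem spin_sOf (T : Finset V) (τ : T → ℤˣ) (v : V) :
    spinSign (sOf T τ v) = if h : v ∈ T then ((τ ⟨v, h⟩ : ℤ) : ℝ) else 1 := by
  unfold sOf
  by_cases h : v ∈ T
  · simp only [h, dif_pos]
    rcases Int.units_eq_one_or (τ ⟨v, h⟩) with h3 | h3 <;> simp [h3, spinSign]
  · simp [h, spinSign]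

theorem PosV.spin (v : V) : PosV fun s => spinSign (s v) := by
  intro T
  by_cases h : v ∈ T
  · refine (Gks375.Pos.spin (⟨v, h⟩ : T)).congr fun τ => ?_
    show spinSign (sOf T τ v) = _
    rw [spin_sOf, dif_pos h]
  · refine (Gks375.Pos.one).congr fun τ => ?_
    show spinSign (sOf T τ v) = _
    rw [spin_sOf, dif_neg h]

theorem exp_spin (K : ℝ) {x : ℝ} (hx : x = 1 ∨ x = -1) :
    Real.exp (K * x) = Real.cosh K + Real.sinh K * x := by
  rcases hx with h | h
  · rw [h, mul_one, mul_one, Real.cosh_add_sinh]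
  · rw [h, mul_neg, mul_neg, mul_one, mul_one, ← sub_eq_add_neg, Real.cosh_sub_sinh]

theorem spin_or (b : Bool) : spinSign b = 1 ∨ spinSign b = -1 := by
  cases b <;> simp [spinSign]

theorem spin_mul_or (b c : Bool) : spinSign b * spinSign c = 1 ∨ spinSign b * spinSign c = -1 := by
  cases b <;> cases c <;> simp [spinSign]

/-- the pair of spins as a character of `T` -/
theorem pair_chi (T : Finset V) (u v : V) : ∃ S : Finset T, ∀ τ : T → ℤˣ,
    spinSign (sOf T τ u) * spinSign (sOf T τ v) = Gks375.chi S τ := by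
  by_cases hu : u ∈ T
  · by_cases hv : v ∈ T
    · by_cases huv : u = v
      · subst huv
        exact ⟨∅, fun τ => by rw [Gks375.chi_empty, spin_sq]⟩
      · refine ⟨{⟨u, hu⟩, ⟨v, hv⟩}, fun τ => ?_⟩
        have hne : (⟨u, hu⟩ : T) ≠ ⟨v, hv⟩ := fun h => huv (congrArg Subtype.val h)
        rw [spin_sOf, spin_sOf, dif_pos hu, dif_pos hv]
        simp [Gks375.chi, Finset.prod_pair hne]
    · refine ⟨{⟨u, hu⟩}, fun τ => ?_⟩
      rw [spin_sOf, spin_sOf, dif_pos hu, dif_neg hv]
      simp [Gks375.chi]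
  · by_cases hv : v ∈ T
    · refine ⟨{⟨v, hv⟩}, fun τ => ?_⟩
      rw [spin_sOf, spin_sOf, dif_neg hu, dif_pos hv]
      simp [Gks375.chi]
    · refine ⟨∅, fun τ => ?_⟩
      rw [spin_sOf, spin_sOf, dif_neg hu, dif_neg hv]
      simp [Gks375.chi]

theorem sinh_le_cosh (K : ℝ) : Real.sinh K ≤ Real.cosh K := by
  have := Real.cosh_sub_sinh K
  have := Real.exp_pos (-K)
  linarith

theorem FerroV.bond {K : ℝ} (hK : 0 ≤ K) (u v : V) :
    FerroV fun s : V → Bool => Real.exp (K * (spinSign (s u) * spinSign (s v))) := by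
  intro T
  obtain ⟨S, hS⟩ := pair_chi T u v
  refine (Gks375.Ferro.affine (Real.sinh_nonneg_iff.2 hK) (sinh_le_cosh K) S).congr fun τ => ?_
  show Real.exp (K * (spinSign (sOf T τ u) * spinSign (sOf T τ v))) = _
  rw [exp_spin K (spin_mul_or _ _), hS]

/-! ### the model -/

/-- Boltzmann weight of the bonds in `E` -/
def wt (K : ℝ) (p q : κ → V) (E : Finset κ) (s : V → Bool) : ℝ :=
  ∏ e ∈ E, Real.exp (K * (spinSign (s (p e)) * spinSign (s (q e))))

/-- unnormalised expectation -/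
def ZZ (K : ℝ) (p q : κ → V) (T : Finset V) (E : Finset κ) (F : (V → Bool) → ℝ) : ℝ :=
  ∑ A ∈ T.powerset, wt K p q E (minusOn A) * F (minusOn A)

/-- expectation -/
def EX (K : ℝ) (p q : κ → V) (T : Finset V) (E : Finset κ) (F : (V → Bool) → ℝ) : ℝ :=
  ZZ K p q T E F / ZZ K p q T E fun _ => 1

variable {K : ℝ} {p q : κ → V} {T T' : Finset V} {E E' : Finset κ} {F G : (V → Bool) → ℝ}

theorem wt_pos (s : V → Bool) : 0 < wt K p q E s := Finset.prod_pos fun _ _ => Real.exp_pos _

theorem ferro_wt (hK : 0 ≤ K) (p q : κ → V) (E : Finset κ) : FerroV (wt K p q E) :=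
  FerroV.prod E fun _ _ => FerroV.bond hK _ _

theorem ZZ_one_pos : 0 < ZZ K p q T E fun _ => 1 := by
  unfold ZZ
  refine Finset.sum_pos (fun A _ => ?_) ⟨∅, by simp⟩
  rw [mul_one]
  exact wt_pos _

theorem ZZ_eq_sum (F : (V → Bool) → ℝ) :
    ZZ K p q T E F = ∑ τ : T → ℤˣ, wt K p q E (sOf T τ) * F (sOf T τ) :=
  (sum_sOf T fun s => wt K p q E s * F s).symm

theorem ZZ_nonneg (hK : 0 ≤ K) (hF : PosV F) : 0 ≤ ZZ K p q T E F := by
  rw [ZZ_eq_sum]
  exact (((ferro_wt hK p q E).pos.mul hF) T).sum_nonneg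

theorem EX_nonneg (hK : 0 ≤ K) (hF : PosV F) : 0 ≤ EX K p q T E F :=
  div_nonneg (ZZ_nonneg hK hF) ZZ_one_pos.le

theorem ZZ_congr (h : ∀ A ⊆ T, F (minusOn A) = G (minusOn A)) :
    ZZ K p q T E F = ZZ K p q T E G :=
  Finset.sum_congr rfl fun A hA => by rw [h A (mem_powerset.1 hA)]

/-- Griffiths II, unnormalised -/
theorem gksZ (hK : 0 ≤ K) (hF : PosV F) (hG : PosV G) :
    ZZ K p q T E F * ZZ K p q T E G ≤
      (ZZ K p q T E fun _ => 1) * ZZ K p q T E fun s => F s * G s := by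
  have h := Gks375.gks2 (w := fun τ : T → ℤˣ => wt K p q E (sOf T τ))
    (ferro_wt hK p q E T) (hF T) (hG T)
  rw [ZZ_eq_sum, ZZ_eq_sum, ZZ_eq_sum, ZZ_eq_sum]
  simpa only [mul_one] using h

/-- Griffiths II -/
theorem gks (hK : 0 ≤ K) (hF : PosV F) (hG : PosV G) :
    EX K p q T E F * EX K p q T E G ≤ EX K p q T E fun s => F s * G s := by
  have h := gksZ (p := p) (q := q) (T := T) (E := E) hK hF hG
  have h0 : 0 < ZZ K p q T E fun _ => 1 := ZZ_one_pos
  unfold EX
  rw [div_mul_div_comm, div_le_div_iff₀ (mul_pos h0 h0) h0]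
  calc _ ≤ ((ZZ K p q T E fun _ => 1) * ZZ K p q T E fun s => F s * G s) *
        (ZZ K p q T E fun _ => 1) := mul_le_mul_of_nonneg_right h h0.le
    _ = _ := by ring

/-- more bonds, larger expectations -/
theorem EX_mono_bonds [DecidableEq κ] (hK : 0 ≤ K) (hF : PosV F) (h : E ⊆ E') :
    EX K p q T E F ≤ EX K p q T E' F := by
  have hw : ∀ s : V → Bool, wt K p q E' s = wt K p q E s * wt K p q (E' \ E) s := by
    intro s
    unfold wt
    rw [mul_comm, Finset.prod_sdiff h]
  have e1 : ∀ H : (V → Bool) → ℝ, ZZ K p q T E' H =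
      ZZ K p q T E fun s => H s * wt K p q (E' \ E) s := by
    intro H
    unfold ZZ
    refine Finset.sum_congr rfl fun A _ => ?_
    rw [hw]; ring
  have h1 := gksZ (p := p) (q := q) (T := T) (E := E) hK hF (ferro_wt hK p q (E' \ E)).pos
  have h0 : 0 < ZZ K p q T E fun _ => 1 := ZZ_one_pos
  have h2 : 0 < ZZ K p q T E' fun _ => 1 := ZZ_one_pos
  have e2 : (ZZ K p q T E' fun _ => 1) = ZZ K p q T E (wt K p q (E' \ E)) := by
    rw [e1]; simp only [one_mul]
  unfold EX
  rw [div_le_div_iff₀ h0 h2, e1 F, e2, mul_comm _ (ZZ K p q T E fun _ => 1)]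
  exact h1

/-- fixing spins to plus increases expectations -/
theorem EX_anti_sites (hK : 0 ≤ K) (hF : PosV F) (h : T' ⊆ T) :
    EX K p q T E F ≤ EX K p q T' E F := by
  set g : (V → Bool) → ℝ := fun s => ∏ v ∈ T \ T', (1 / 2 + 1 / 2 * spinSign (s v)) with hg
  have hgp : PosV g := PosV.prod _ fun v _ =>
    (PosV.const (by norm_num : (0:ℝ) ≤ 1 / 2)).add
      ((PosV.const (by norm_num : (0:ℝ) ≤ 1 / 2)).mul (PosV.spin v))
  have hg1 : ∀ A ⊆ T', g (minusOn A) = 1 := by
    intro A hA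
    refine Finset.prod_eq_one fun v hv => ?_
    rw [spin_minusOn_of_notMem fun hvA => (mem_sdiff.1 hv).2 (hA hvA)]
    norm_num
  have hg0 : ∀ A ⊆ T, ¬ A ⊆ T' → g (minusOn A) = 0 := by
    intro A hA hA'
    obtain ⟨v, hv1, hv2⟩ := Finset.not_subset.1 hA'
    refine Finset.prod_eq_zero (i := v) (mem_sdiff.2 ⟨hA hv1, hv2⟩) ?_
    rw [spin_minusOn_of_mem hv1]
    norm_num
  have e1 : ∀ H : (V → Bool) → ℝ, ZZ K p q T' E H = ZZ K p q T E fun s => H s * g s := by
    intro H
    unfold ZZ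
    rw [← Finset.sum_subset (Finset.powerset_mono.2 h)]
    · refine Finset.sum_congr rfl fun A hA => ?_
      show _ = wt K p q E (minusOn A) * (H (minusOn A) * g (minusOn A))
      rw [hg1 A (mem_powerset.1 hA), mul_one]
    · intro A hA hA'
      show wt K p q E (minusOn A) * (H (minusOn A) * g (minusOn A)) = 0
      rw [hg0 A (mem_powerset.1 hA) fun h2 => hA' (mem_powerset.2 h2), mul_zero, mul_zero]
  have h1 := gksZ (p := p) (q := q) (T := T) (E := E) hK hF hgp
  have h0 : 0 < ZZ K p q T E fun _ => 1 := ZZ_one_pos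
  have h2 : 0 < ZZ K p q T' E fun _ => 1 := ZZ_one_pos
  have e2 : (ZZ K p q T' E fun _ => 1) = ZZ K p q T E g := by
    rw [e1]; simp only [one_mul]
  unfold EX
  rw [div_le_div_iff₀ h0 h2, e1 F, e2, mul_comm _ (ZZ K p q T E fun _ => 1)]
  exact h1

/-- bonds with both ends inactive do not matter -/
theorem EX_congr_bonds [DecidableEq κ] (h : E ⊆ E')
    (h2 : ∀ e ∈ E' \ E, p e ∉ T ∧ q e ∉ T) : EX K p q T E' F = EX K p q T E F := by
  set c : ℝ := ∏ _e ∈ E' \ E, Real.exp K with hc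
  have hc0 : c ≠ 0 := (Finset.prod_pos fun _ _ => Real.exp_pos _).ne'
  have hw : ∀ A ⊆ T, wt K p q E' (minusOn A) = c * wt K p q E (minusOn A) := by
    intro A hA
    unfold wt
    rw [← Finset.prod_sdiff h]
    congr 1
    refine Finset.prod_congr rfl fun e he => ?_
    obtain ⟨h3, h4⟩ := h2 e he
    rw [spin_minusOn_of_notMem fun h5 => h3 (hA h5), spin_minusOn_of_notMem fun h5 => h4 (hA h5),
      mul_one, mul_one]
  have e1 : ∀ H : (V → Bool) → ℝ, ZZ K p q T E' H = c * ZZ K p q T E H := by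
    intro H
    unfold ZZ
    rw [Finset.mul_sum]
    refine Finset.sum_congr rfl fun A hA => ?_
    rw [hw A (mem_powerset.1 hA), mul_assoc]
  unfold EX
  rw [e1 F, e1 fun _ => 1, mul_div_mul_left _ _ hc0]

/-- sum over the subsets of a disjoint union -/
theorem sum_powerset_union (T₁ T₂ : Finset V) (h : Disjoint T₁ T₂) (f : Finset V → ℝ) :
    ∑ A ∈ (T₁ ∪ T₂).powerset, f A = ∑ A ∈ T₁.powerset, ∑ B ∈ T₂.powerset, f (A ∪ B) := by
  rw [← Finset.sum_product']
  refine Finset.sum_bij' (fun A _ => (A ∩ T₁, A ∩ T₂)) (fun P _ => P.1 ∪ P.2) ?_ ?_ ?_ ?_ ?_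
  · intro A _
    simp
  · intro P hP
    simp only [mem_product, mem_powerset] at hP ⊢
    exact union_subset_union hP.1 hP.2
  · intro A hA
    simp only
    rw [← Finset.inter_union_distrib_left, inter_eq_left.2 (mem_powerset.1 hA)]
  · intro P hP
    simp only [mem_product, mem_powerset] at hP
    have h1 : P.2 ∩ T₁ = ∅ := by
      rw [← disjoint_iff_inter_eq_empty]
      exact (h.mono_right hP.2).symm
    have h2 : P.1 ∩ T₂ = ∅ := by
      rw [← disjoint_iff_inter_eq_empty]
      exact h.mono_left hP.1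
    simp only [union_inter_distrib_right, h1, h2, union_empty, empty_union,
      inter_eq_left.2 hP.1, inter_eq_left.2 hP.2]
  · intro A hA
    simp only
    rw [← Finset.inter_union_distrib_left, inter_eq_left.2 (mem_powerset.1 hA)]

/-- sites touched by nothing do not matter -/
theorem EX_drop_sites (h : T' ⊆ T) (hE : ∀ e ∈ E, p e ∉ T \ T' ∧ q e ∉ T \ T')
    (hF : ∀ A B : Finset V, A ⊆ T' → B ⊆ T \ T' → F (minusOn (A ∪ B)) = F (minusOn A)) :
    EX K p q T E F = EX K p q T' E F := by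
  have hT : T' ∪ (T \ T') = T := Finset.union_sdiff_of_subset h
  have hsp : ∀ A B : Finset V, B ⊆ T \ T' → ∀ v, v ∉ T \ T' →
      minusOn (A ∪ B) v = minusOn A v := by
    intro A B hB v hv
    unfold minusOn
    have : v ∉ B := fun h2 => hv (hB h2)
    simp [this]
  have hw : ∀ A B : Finset V, B ⊆ T \ T' →
      wt K p q E (minusOn (A ∪ B)) = wt K p q E (minusOn A) := by
    intro A B hB
    unfold wt
    refine Finset.prod_congr rfl fun e he => ?_
    rw [hsp A B hB _ (hE e he).1, hsp A B hB _ (hE e he).2]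
  have e1 : ∀ H : (V → Bool) → ℝ,
      (∀ A B : Finset V, A ⊆ T' → B ⊆ T \ T' → H (minusOn (A ∪ B)) = H (minusOn A)) →
      ZZ K p q T E H = ((T \ T').powerset.card : ℝ) * ZZ K p q T' E H := by
    intro H hH
    unfold ZZ
    conv_lhs => rw [← hT]
    rw [sum_powerset_union T' (T \ T') Finset.disjoint_sdiff, Finset.mul_sum]
    refine Finset.sum_congr rfl fun A hA => ?_
    rw [Finset.sum_congr rfl (g := fun _ => wt K p q E (minusOn A) * H (minusOn A)),
      Finset.sum_const, nsmul_eq_mul]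
    intro B hB
    rw [hw A B (mem_powerset.1 hB), hH A B (mem_powerset.1 hA) (mem_powerset.1 hB)]
  have hc : ((T \ T').powerset.card : ℝ) ≠ 0 := by
    rw [Finset.card_powerset]; positivity
  unfold EX
  rw [e1 F hF, e1 (fun _ => 1) fun _ _ _ _ => rfl, mul_div_mul_left _ _ hc]

/-- factorisation over two non-touching pieces -/
theorem EX_union [DecidableEq κ] {T₁ T₂ : Finset V} {E₁ E₂ : Finset κ} (hT : Disjoint T₁ T₂)
    (hE : Disjoint E₁ E₂)
    (h1 : ∀ e ∈ E₁, p e ∉ T₂ ∧ q e ∉ T₂) (h2 : ∀ e ∈ E₂, p e ∉ T₁ ∧ q e ∉ T₁)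
    (hF : ∀ A B : Finset V, A ⊆ T₁ → B ⊆ T₂ → F (minusOn (A ∪ B)) = F (minusOn A))
    (hG : ∀ A B : Finset V, A ⊆ T₁ → B ⊆ T₂ → G (minusOn (A ∪ B)) = G (minusOn B)) :
    EX K p q (T₁ ∪ T₂) (E₁ ∪ E₂) (fun s => F s * G s) = EX K p q T₁ E₁ F * EX K p q T₂ E₂ G := by
  have hw : ∀ A B : Finset V, A ⊆ T₁ → B ⊆ T₂ → wt K p q (E₁ ∪ E₂) (minusOn (A ∪ B)) =
      wt K p q E₁ (minusOn A) * wt K p q E₂ (minusOn B) := by
    intro A B hA hB
    unfold wt
    rw [Finset.prod_union hE]
    congr 1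
    · refine Finset.prod_congr rfl fun e he => ?_
      have h3 : ∀ v, v ∉ T₂ → minusOn (A ∪ B) v = minusOn A v := by
        intro v hv
        have : v ∉ B := fun h => hv (hB h)
        simp [minusOn, this]
      rw [h3 _ (h1 e he).1, h3 _ (h1 e he).2]
    · refine Finset.prod_congr rfl fun e he => ?_
      have h3 : ∀ v, v ∉ T₁ → minusOn (A ∪ B) v = minusOn B v := by
        intro v hv
        have : v ∉ A := fun h => hv (hA h)
        simp [minusOn, this]
      rw [h3 _ (h2 e he).1, h3 _ (h2 e he).2]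
  have e1 : ∀ H L : (V → Bool) → ℝ,
      (∀ A B : Finset V, A ⊆ T₁ → B ⊆ T₂ → H (minusOn (A ∪ B)) = H (minusOn A)) →
      (∀ A B : Finset V, A ⊆ T₁ → B ⊆ T₂ → L (minusOn (A ∪ B)) = L (minusOn B)) →
      ZZ K p q (T₁ ∪ T₂) (E₁ ∪ E₂) (fun s => H s * L s) =
        ZZ K p q T₁ E₁ H * ZZ K p q T₂ E₂ L := by
    intro H L hH hL
    unfold ZZ
    rw [sum_powerset_union T₁ T₂ hT, Finset.sum_mul_sum]
    refine Finset.sum_congr rfl fun A hA => Finset.sum_congr rfl fun B hB => ?_
    have hA' := mem_powerset.1 hA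
    have hB' := mem_powerset.1 hB
    show wt K p q (E₁ ∪ E₂) (minusOn (A ∪ B)) * (H (minusOn (A ∪ B)) * L (minusOn (A ∪ B))) = _
    rw [hw A B hA' hB', hH A B hA' hB', hL A B hA' hB']
    ring
  have e2 := e1 (fun _ => 1) (fun _ => 1) (fun _ _ _ _ => rfl) fun _ _ _ _ => rfl
  simp only [mul_one] at e2
  unfold EX
  rw [e1 F G hF hG, e2, div_mul_div_comm]

end Crest.Agent.R165.Gk0x422
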