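import Crest.Agent.R165.Gk0_422

/-!
# Row 165 (S0250): Griffiths facts for the unperturbed model on `ℤ²` and on tori (helper422)

* `domainExpect_plus`, `domainExpect_free`: `domainExpect` at `lam = 0` is `EX` on `ℤ²`
* `torusExpect_eq`: `torusExpect` at `lam = 0` is `EX` on the torus
* `Gp T u`, `Gf T u`: plus / free spin correlations of a finite `T ⊆ ℤ²` (coupling `K`)
* `Gp_anti`, `Gf_mono`, `Gp_mul_le`, `Gf_mul_le`, `Gp_split`, `Gf_le_Gp`, `free_le_torus`, `torus_le_plus`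
-/

set_option autoImplicit false
set_option linter.unusedSectionVars false
set_option linter.unusedVariables false

noncomputable section

open Finset
open Crest.ProbabilityR.IsingModel

namespace Crest.Agent.R165.Gk1x422

open Crest.Agent.R165.Gk0x422

/-! ### transfer between two systems -/

section transfer

variable {V₁ V₂ κ₁ κ₂ : Type*} [DecidableEq V₁] [DecidableEq V₂] [DecidableEq κ₁] [DecidableEq κ₂]

theorem EX_transfer {K : ℝ} {p₁ q₁ : κ₁ → V₁} {p₂ q₂ : κ₂ → V₂} (φ : V₁ → V₂) (ψ : κ₁ → κ₂)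
    {T : Finset V₁} {E : Finset κ₁} {F₁ : (V₁ → Bool) → ℝ} {F₂ : (V₂ → Bool) → ℝ}
    (hψ : Set.InjOn ψ E)
    (hp : ∀ e ∈ E, p₂ (ψ e) = φ (p₁ e)) (hq : ∀ e ∈ E, q₂ (ψ e) = φ (q₁ e))
    (hT : Set.InjOn φ T)
    (hpT : ∀ e ∈ E, ∀ v ∈ T, φ (p₁ e) = φ v → p₁ e = v)
    (hqT : ∀ e ∈ E, ∀ v ∈ T, φ (q₁ e) = φ v → q₁ e = v)
    (hF : ∀ A ⊆ T, F₁ (minusOn A) = F₂ (minusOn (A.image φ))) :
    EX K p₁ q₁ T E F₁ = EX K p₂ q₂ (T.image φ) (E.image ψ) F₂ := by
  have hmem : ∀ A ⊆ T, ∀ v : V₁, (∀ w ∈ T, φ v = φ w → v = w) →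
      minusOn (A.image φ) (φ v) = minusOn A v := by
    intro A hA v hv
    unfold minusOn
    have : φ v ∈ A.image φ ↔ v ∈ A := by
      constructor
      · intro h
        obtain ⟨w, hw, hw2⟩ := mem_image.1 h
        rw [hv w (hA hw) hw2.symm]; exact hw
      · exact fun h => mem_image_of_mem _ h
    simp [this]
  have hw : ∀ A ⊆ T, wt K p₁ q₁ E (minusOn A) = wt K p₂ q₂ (E.image ψ) (minusOn (A.image φ)) := by
    intro A hA
    unfold wt
    rw [Finset.prod_image hψ]
    refine Finset.prod_congr rfl fun e he => ?_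
    rw [hp e he, hq e he, hmem A hA _ (hpT e he), hmem A hA _ (hqT e he)]
  have key : ∀ (G₁ : (V₁ → Bool) → ℝ) (G₂ : (V₂ → Bool) → ℝ),
      (∀ A ⊆ T, G₁ (minusOn A) = G₂ (minusOn (A.image φ))) →
      ZZ K p₁ q₁ T E G₁ = ZZ K p₂ q₂ (T.image φ) (E.image ψ) G₂ := by
    intro G₁ G₂ hG
    unfold ZZ
    refine Finset.sum_bij (fun A _ => A.image φ) ?_ ?_ ?_ ?_
    · intro A hA
      exact mem_powerset.2 (image_subset_image (mem_powerset.1 hA))
    · intro A hA B hB hAB
      have hA' := mem_powerset.1 hA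
      have hB' := mem_powerset.1 hB
      ext v
      constructor
      · intro hv
        obtain ⟨w, hw, hw2⟩ := mem_image.1 (hAB ▸ mem_image_of_mem φ hv : φ v ∈ B.image φ)
        rw [← hT (hB' hw) (hA' hv) hw2]; exact hw
      · intro hv
        obtain ⟨w, hw, hw2⟩ := mem_image.1 (hAB.symm ▸ mem_image_of_mem φ hv : φ v ∈ A.image φ)
        rw [← hT (hA' hw) (hB' hv) hw2]; exact hw
    · intro B hB
      have hB' := mem_powerset.1 hB
      refine ⟨T.filter fun v => φ v ∈ B, mem_powerset.2 (filter_subset _ _), ?_⟩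
      ext w
      simp only [mem_image, mem_filter]
      constructor
      · rintro ⟨v, ⟨-, hv⟩, rfl⟩; exact hv
      · intro hw
        obtain ⟨v, hv, rfl⟩ := mem_image.1 (hB' hw)
        exact ⟨v, ⟨hv, hw⟩, rfl⟩
    · intro A hA
      have hA' := mem_powerset.1 hA
      rw [hw A hA', hG A hA']
  unfold EX
  rw [key F₁ F₂ hF, key (fun _ => 1) (fun _ => 1) fun _ _ => rfl]

end transfer

/-! ### spin products -/

/-- product of spins -/
def sp {V : Type*} {n : ℕ} (u : Fin n → V) (s : V → Bool) : ℝ := ∏ i, spinSign (s (u i))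

theorem sp_pos {V : Type*} [DecidableEq V] {n : ℕ} (u : Fin n → V) : PosV (sp u) :=
  PosV.prod _ fun i _ => PosV.spin (u i)

theorem sp_abs {V : Type*} {n : ℕ} (u : Fin n → V) (s : V → Bool) : sp u s = 1 ∨ sp u s = -1 := by
  have h : sp u s * sp u s = 1 := by
    unfold sp
    rw [← Finset.prod_mul_distrib]
    exact Finset.prod_eq_one fun i _ => spin_sq _
  exact mul_self_eq_one_iff.mp h

theorem sp_append {V : Type*} {n m : ℕ} (u : Fin n → V) (v : Fin m → V) (s : V → Bool) :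
    sp (Fin.append u v) s = sp u s * sp v s := by
  unfold sp
  rw [Fin.prod_univ_add]
  simp [Fin.append_left, Fin.append_right]

theorem spin_congr {V : Type*} [DecidableEq V] {A B : Finset V} {v : V} (h : v ∈ A ↔ v ∈ B) :
    minusOn A v = minusOn B v := by
  unfold minusOn; simp [h]

/-! ### the plane lattice -/

/-- bonds of `ℤ²`: base point and direction -/
abbrev ZB : Type := (ℤ × ℤ) × Fin 2

def zp (e : ZB) : ℤ × ℤ := e.1
def zq (e : ZB) : ℤ × ℤ := e.1 + unitVec e.2

/-- bonds touching `T` -/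
def plusE (T : Finset (ℤ × ℤ)) : Finset ZB :=
  (T ×ˢ univ) ∪ ((T ×ˢ (univ : Finset (Fin 2))).image fun e => (e.1 - unitVec e.2, e.2))

/-- bonds inside `T` -/
def freeE (T : Finset (ℤ × ℤ)) : Finset ZB :=
  (T ×ˢ univ).filter fun e => zq e ∈ T

theorem mem_plusE {T : Finset (ℤ × ℤ)} {e : ZB} : e ∈ plusE T ↔ zp e ∈ T ∨ zq e ∈ T := by
  unfold plusE zp zq
  simp only [mem_union, mem_product, mem_univ, and_true, mem_image]
  constructor
  · rintro (h | ⟨w, h, rfl⟩)
    · exact Or.inl h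
    · right; simpa using h
  · rintro (h | h)
    · exact Or.inl h
    · right
      exact ⟨(e.1 + unitVec e.2, e.2), h, by ext <;> simp⟩

theorem mem_freeE {T : Finset (ℤ × ℤ)} {e : ZB} : e ∈ freeE T ↔ zp e ∈ T ∧ zq e ∈ T := by
  unfold freeE zp
  simp only [mem_filter, mem_product, mem_univ, and_true]

theorem freeE_subset_plusE (T : Finset (ℤ × ℤ)) : freeE T ⊆ plusE T := fun e he =>
  mem_plusE.2 (Or.inl (mem_freeE.1 he).1)

theorem plusE_mono {T T' : Finset (ℤ × ℤ)} (h : T ⊆ T') : plusE T ⊆ plusE T' := fun e he =>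
  mem_plusE.2 ((mem_plusE.1 he).imp (fun x => h x) (fun x => h x))

theorem freeE_mono {T T' : Finset (ℤ × ℤ)} (h : T ⊆ T') : freeE T ⊆ freeE T' := fun e he =>
  mem_freeE.2 ⟨h (mem_freeE.1 he).1, h (mem_freeE.1 he).2⟩

/-- plus correlations -/
def Gp (K : ℝ) (T : Finset (ℤ × ℤ)) {n : ℕ} (u : Fin n → ℤ × ℤ) : ℝ :=
  EX K zp zq T (plusE T) (sp u)

/-- free correlations -/
def Gf (K : ℝ) (T : Finset (ℤ × ℤ)) {n : ℕ} (u : Fin n → ℤ × ℤ) : ℝ :=
  EX K zp zq T (freeE T) (sp u)

variable {K : ℝ} {T T' : Finset (ℤ × ℤ)} {n m : ℕ}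

theorem Gp_nonneg (hK : 0 ≤ K) (T : Finset (ℤ × ℤ)) (u : Fin n → ℤ × ℤ) : 0 ≤ Gp K T u :=
  EX_nonneg hK (sp_pos u)

theorem Gf_nonneg (hK : 0 ≤ K) (T : Finset (ℤ × ℤ)) (u : Fin n → ℤ × ℤ) : 0 ≤ Gf K T u :=
  EX_nonneg hK (sp_pos u)

/-- Griffiths II, plus -/
theorem Gp_mul_le (hK : 0 ≤ K) (T : Finset (ℤ × ℤ)) (u : Fin n → ℤ × ℤ) (v : Fin m → ℤ × ℤ) :
    Gp K T u * Gp K T v ≤ Gp K T (Fin.append u v) := by
  have h := gks (p := zp) (q := zq) (T := T) (E := plusE T) hK (sp_pos u) (sp_pos v)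
  have e : sp (Fin.append u v) = fun s => sp u s * sp v s := funext (sp_append u v)
  unfold Gp
  rw [e]; exact h

/-- Griffiths II, free -/
theorem Gf_mul_le (hK : 0 ≤ K) (T : Finset (ℤ × ℤ)) (u : Fin n → ℤ × ℤ) (v : Fin m → ℤ × ℤ) :
    Gf K T u * Gf K T v ≤ Gf K T (Fin.append u v) := by
  have h := gks (p := zp) (q := zq) (T := T) (E := freeE T) hK (sp_pos u) (sp_pos v)
  have e : sp (Fin.append u v) = fun s => sp u s * sp v s := funext (sp_append u v)
  unfold Gf
  rw [e]; exact h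

/-- smaller domains have larger plus correlations -/
theorem Gp_anti (hK : 0 ≤ K) (h : T' ⊆ T) (u : Fin n → ℤ × ℤ) : Gp K T u ≤ Gp K T' u := by
  have h1 := EX_anti_sites (p := zp) (q := zq) (E := plusE T) hK (sp_pos u) h
  have h2 := EX_congr_bonds (K := K) (p := zp) (q := zq) (T := T') (F := sp u) (plusE_mono h)
    (fun e he => by
      have := fun h3 => (mem_sdiff.1 he).2 (mem_plusE.2 h3)
      exact ⟨fun h3 => this (Or.inl h3), fun h3 => this (Or.inr h3)⟩)
  unfold Gp
  rw [← h2]; exact h1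

theorem sp_minusOn_union {u : Fin n → ℤ × ℤ} {A B : Finset (ℤ × ℤ)} (h : ∀ i, u i ∉ B) :
    sp u (minusOn (A ∪ B)) = sp u (minusOn A) := by
  unfold sp
  refine Finset.prod_congr rfl fun i _ => ?_
  rw [spin_congr (A := A ∪ B) (B := A)]
  simp [h i]

/-- free correlations of a subgraph `(T', E')` of `T` -/
theorem free_sub_le (hK : 0 ≤ K) (h : T' ⊆ T) {E' : Finset ZB} (hE : E' ⊆ freeE T')
    {u : Fin n → ℤ × ℤ} (hu : ∀ i, u i ∈ T') : EX K zp zq T' E' (sp u) ≤ Gf K T u := by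
  have h1 := EX_drop_sites (K := K) (p := zp) (q := zq) (T := T) (T' := T') (E := E')
    (F := sp u) h
    (fun e he => by
      have := mem_freeE.1 (hE he)
      exact ⟨fun h3 => (mem_sdiff.1 h3).2 this.1, fun h3 => (mem_sdiff.1 h3).2 this.2⟩)
    (fun A B _ hB => sp_minusOn_union fun i h3 => (mem_sdiff.1 (hB h3)).2 (hu i))
  rw [← h1]
  exact EX_mono_bonds hK (sp_pos u) (hE.trans (freeE_mono h))

/-- larger domains have larger free correlations -/
theorem Gf_mono (hK : 0 ≤ K) (h : T' ⊆ T) {u : Fin n → ℤ × ℤ} (hu : ∀ i, u i ∈ T') :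
    Gf K T' u ≤ Gf K T u := free_sub_le hK h (Finset.Subset.refl _) hu

theorem Gf_le_Gp (hK : 0 ≤ K) (T : Finset (ℤ × ℤ)) (u : Fin n → ℤ × ℤ) : Gf K T u ≤ Gp K T u :=
  EX_mono_bonds hK (sp_pos u) (freeE_subset_plusE T)

/-- no bond joins `T₁` and `T₂` -/
def NonTouch (T₁ T₂ : Finset (ℤ × ℤ)) : Prop :=
  Disjoint T₁ T₂ ∧ ∀ e : ZB, ¬ (zp e ∈ T₁ ∧ zq e ∈ T₂) ∧ ¬ (zp e ∈ T₂ ∧ zq e ∈ T₁)

theorem not_mem_of_plusE {T₁ T₂ : Finset (ℤ × ℤ)} (h : NonTouch T₁ T₂) {e : ZB}
    (he : e ∈ plusE T₁) : zp e ∉ T₂ ∧ zq e ∉ T₂ := by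
  have hd : ∀ v, v ∈ T₁ → v ∉ T₂ := fun v h1 h2 => (Finset.disjoint_left.1 h.1) h1 h2
  rcases mem_plusE.1 he with h1 | h1
  · exact ⟨hd _ h1, fun h2 => (h.2 e).1 ⟨h1, h2⟩⟩
  · exact ⟨fun h2 => (h.2 e).2 ⟨h2, h1⟩, hd _ h1⟩

theorem NonTouch.symm {T₁ T₂ : Finset (ℤ × ℤ)} (h : NonTouch T₁ T₂) : NonTouch T₂ T₁ :=
  ⟨h.1.symm, fun e => ⟨(h.2 e).2, (h.2 e).1⟩⟩

/-- **splitting**: two non-touching subdomains decouple the plus correlations from above -/
theorem Gp_split (hK : 0 ≤ K) {T₁ T₂ : Finset (ℤ × ℤ)} (h : NonTouch T₁ T₂) (hT : T₁ ∪ T₂ ⊆ T)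
    {u : Fin n → ℤ × ℤ} {v : Fin m → ℤ × ℤ} (hu : ∀ i, u i ∈ T₁) (hv : ∀ i, v i ∈ T₂) :
    Gp K T (Fin.append u v) ≤ Gp K T₁ u * Gp K T₂ v := by
  refine (Gp_anti hK hT _).trans (le_of_eq ?_)
  have hdE : Disjoint (plusE T₁) (plusE T₂) := by
    rw [Finset.disjoint_left]
    intro e h1 h2
    have h3 := not_mem_of_plusE h h1
    rcases mem_plusE.1 h2 with h4 | h4
    · exact h3.1 h4
    · exact h3.2 h4
  have hE : plusE (T₁ ∪ T₂) = plusE T₁ ∪ plusE T₂ := by
    ext e
    simp only [mem_plusE, mem_union]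
    tauto
  have hd : ∀ w, w ∈ T₁ → w ∉ T₂ := fun w h1 h2 => (Finset.disjoint_left.1 h.1) h1 h2
  have e : sp (Fin.append u v) = fun s => sp u s * sp v s := funext (sp_append u v)
  unfold Gp
  rw [hE, e]
  refine EX_union h.1 hdE (fun e he => not_mem_of_plusE h he)
    (fun e he => not_mem_of_plusE h.symm he) ?_ ?_
  · intro A B _ hB
    exact sp_minusOn_union fun i h3 => hd _ (hu i) (hB h3)
  · intro A B hA _
    rw [Finset.union_comm]
    exact sp_minusOn_union fun i h3 => hd _ (hA h3) (hv i)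

/-! ### `domainExpect` at `lam = 0` -/

theorem sum_extendConfig (T : Finset (ℤ × ℤ)) (b : BoundaryCondition) (hb : b.exterior = true)
    (G : (ℤ × ℤ → Bool) → ℝ) :
    ∑ σ : T → Bool, G (extendConfig T b σ) = ∑ A ∈ T.powerset, G (minusOn A) := by
  refine Finset.sum_bij' (fun σ _ => (univ.filter fun v : T => σ v = false).map
      (Function.Embedding.subtype _))
    (fun A _ => fun v : T => decide ((v : ℤ × ℤ) ∉ A)) ?_ ?_ ?_ ?_ ?_
  · intro σ _
    rw [mem_powerset]
    intro v hv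
    simp only [mem_map, mem_filter, mem_univ, true_and, Function.Embedding.coe_subtype,
      Subtype.exists, exists_and_right, exists_eq_right] at hv
    exact hv.1
  · intro A _; exact mem_univ _
  · intro σ _
    funext v
    by_cases h : σ v = false
    · have : (v : ℤ × ℤ) ∈ (univ.filter fun v : T => σ v = false).map
          (Function.Embedding.subtype _) := by
        simp only [mem_map, mem_filter, mem_univ, true_and, Function.Embedding.coe_subtype]
        exact ⟨v, h, rfl⟩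
      simp [h]
    · simp [h]
  · intro A hA
    ext v
    simp only [mem_map, mem_filter, mem_univ, true_and, Function.Embedding.coe_subtype,
      Subtype.exists, exists_and_right, exists_eq_right, decide_eq_false_iff_not, not_not]
    exact ⟨fun h => h.2, fun h => ⟨mem_powerset.1 hA h, h⟩⟩
  · intro σ _
    congr 1
    funext v
    unfold extendConfig minusOn
    by_cases h : v ∈ T
    · by_cases h2 : σ ⟨v, h⟩ = false
      · simp [h, h2]
      · simp only [Bool.not_eq_false] at h2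
        simp [h, h2]
    · simp [h, hb]

theorem plus_energy (T : Finset (ℤ × ℤ)) (J : ℝ) (R : ℕ) (V : Finset (ℤ × ℤ) → ℝ) (β : ℝ)
    (s : ℤ × ℤ → Bool) :
    Real.exp (-β * domainEnergy T .plus J 0 R V s) = wt (β * J) zp zq (plusE T) s := by
  unfold wt
  rw [← Real.exp_sum]
  congr 1
  unfold domainEnergy
  rw [← Finset.mul_sum]
  have hE : plusE T = (T ×ˢ univ) ∪ (((T ×ˢ (univ : Finset (Fin 2))).filter
      fun e => e.1 - unitVec e.2 ∉ T).image fun e => (e.1 - unitVec e.2, e.2)) := by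
    ext e
    rw [mem_plusE]
    simp only [mem_union, mem_product, mem_univ, and_true, mem_image, mem_filter,
      zp, zq]
    constructor
    · intro h
      by_cases h1 : e.1 ∈ T
      · exact Or.inl h1
      · rcases h with h | h
        · exact absurd h h1
        · right
          refine ⟨(e.1 + unitVec e.2, e.2), ⟨h, ?_⟩, by ext <;> simp⟩
          simpa using h1
    · rintro (h | ⟨w, ⟨h, h2⟩, rfl⟩)
      · exact Or.inl h
      · right; simpa using h
  have hd : Disjoint (T ×ˢ (univ : Finset (Fin 2))) (((T ×ˢ (univ : Finset (Fin 2))).filter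
      fun e => e.1 - unitVec e.2 ∉ T).image fun e => (e.1 - unitVec e.2, e.2)) := by
    rw [Finset.disjoint_left]
    intro e h1 h2
    simp only [mem_product, mem_univ, and_true, mem_image, mem_filter] at h1 h2
    obtain ⟨w, ⟨h, h3⟩, rfl⟩ := h2
    exact h3 h1
  rw [hE, Finset.sum_union hd, Finset.sum_image, Finset.sum_filter, Finset.sum_product,
    Finset.sum_product]
  · simp only [zp, zq, sub_add_cancel, ne_eq, reduceCtorEq, not_false_eq_true, true_and,
      false_and, if_false, zero_mul, sub_zero]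
    ring
  · intro e he e' he' h
    simp only [Prod.mk.injEq] at h
    obtain ⟨h1, h2⟩ := h
    ext
    · have := congrArg Prod.fst h1
      rw [h2] at this
      simpa using this
    · have := congrArg Prod.snd h1
      rw [h2] at this
      simpa using this
    · rw [h2]

theorem free_energy (T : Finset (ℤ × ℤ)) (J : ℝ) (R : ℕ) (V : Finset (ℤ × ℤ) → ℝ) (β : ℝ)
    (s : ℤ × ℤ → Bool) :
    Real.exp (-β * domainEnergy T .free J 0 R V s) = wt (β * J) zp zq (freeE T) s := by
  unfold wt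
  rw [← Real.exp_sum]
  congr 1
  unfold domainEnergy freeE
  rw [← Finset.mul_sum, Finset.sum_filter, Finset.sum_product]
  have h1 : ∀ z ∈ T, ∀ j : Fin 2,
      (if (BoundaryCondition.free = BoundaryCondition.free ∧ z + unitVec j ∉ T) then (0 : ℝ)
        else spinSign (s z) * spinSign (s (z + unitVec j))) =
      if zq (z, j) ∈ T then spinSign (s (zp (z, j))) * spinSign (s (zq (z, j))) else 0 := by
    intro z _ j
    by_cases h : z + unitVec j ∈ T <;> simp [h, zp, zq]
  rw [Finset.sum_congr rfl fun z hz => Finset.sum_congr rfl fun j _ => h1 z hz j]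
  simp
  ring

theorem domainExpect_eq_EX (D : Set ℂ) (a : ℝ) (b : BoundaryCondition) (J : ℝ) (R : ℕ)
    (V : Finset (ℤ × ℤ) → ℝ) (β : ℝ) (h : (domainSites D a).Finite) (hb : b.exterior = true)
    (E : Finset ZB)
    (hE : ∀ s, Real.exp (-β * domainEnergy h.toFinset b J 0 R V s) = wt (β * J) zp zq E s)
    (f : (ℤ × ℤ → Bool) → ℝ) :
    domainExpect D a b J 0 R V β f = EX (β * J) zp zq h.toFinset E f := by
  unfold domainExpect EX ZZ
  rw [dif_pos h]
  rw [sum_extendConfig h.toFinset b hb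
      (fun s => f s * Real.exp (-β * domainEnergy h.toFinset b J 0 R V s)),
    sum_extendConfig h.toFinset b hb
      (fun s => Real.exp (-β * domainEnergy h.toFinset b J 0 R V s))]
  congr 1
  · refine Finset.sum_congr rfl fun A _ => ?_
    rw [hE, mul_comm]
  · refine Finset.sum_congr rfl fun A _ => ?_
    rw [hE, mul_one]

theorem domainExpect_plus (D : Set ℂ) (a : ℝ) (J : ℝ) (R : ℕ)
    (V : Finset (ℤ × ℤ) → ℝ) (β : ℝ) (h : (domainSites D a).Finite)
    (f : (ℤ × ℤ → Bool) → ℝ) :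
    domainExpect D a .plus J 0 R V β f = EX (β * J) zp zq h.toFinset (plusE h.toFinset) f :=
  domainExpect_eq_EX D a .plus J R V β h rfl _ (plus_energy _ J R V β) f

theorem domainExpect_free (D : Set ℂ) (a : ℝ) (J : ℝ) (R : ℕ)
    (V : Finset (ℤ × ℤ) → ℝ) (β : ℝ) (h : (domainSites D a).Finite)
    (f : (ℤ × ℤ → Bool) → ℝ) :
    domainExpect D a .free J 0 R V β f = EX (β * J) zp zq h.toFinset (freeE h.toFinset) f :=
  domainExpect_eq_EX D a .free J R V β h rfl _ (free_energy _ J R V β) f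

/-! ### the torus -/

section torus

variable (L : ℕ) [NeZero L]

abbrev TB : Type := (ZMod L × ZMod L) × Fin 2

def tp (e : TB L) : ZMod L × ZMod L := e.1
def tq (e : TB L) : ZMod L × ZMod L := e.1 + toTorus L (unitVec e.2)

theorem toTorus_add (x y : ℤ × ℤ) : toTorus L (x + y) = toTorus L x + toTorus L y := by
  unfold toTorus
  ext <;> simp

theorem sum_torusConfig (G : (ZMod L × ZMod L → Bool) → ℝ) :
    ∑ σ : TorusConfig L, G σ = ∑ A ∈ (univ : Finset (ZMod L × ZMod L)).powerset,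
      G (minusOn A) := by
  refine Finset.sum_bij' (fun σ _ => univ.filter fun v => σ v = false)
    (fun A _ => minusOn A) ?_ ?_ ?_ ?_ ?_
  · intro σ _; simp
  · intro A _; exact mem_univ _
  · intro σ _
    funext v
    unfold minusOn
    cases h : σ v <;> simp [h]
  · intro A _
    ext v
    simp [minusOn]
  · intro σ _
    congr 1
    funext v
    unfold minusOn
    cases h : σ v <;> simp [h]

theorem torus_energy (J : ℝ) (R : ℕ) (V : Finset (ℤ × ℤ) → ℝ) (β : ℝ) (s : TorusConfig L) :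
    Real.exp (-β * energy L J 0 R V s) = wt (β * J) (tp L) (tq L) univ s := by
  unfold wt
  rw [← Real.exp_sum]
  congr 1
  unfold energy
  rw [← Finset.mul_sum]
  have hsum : ∑ e : TB L, spinSign (s (tp L e)) * spinSign (s (tq L e)) =
      ∑ u : ZMod L × ZMod L, ∑ j : Fin 2,
        spinSign (s (tp L (u, j))) * spinSign (s (tq L (u, j))) := by
    rw [← Finset.sum_product', Finset.univ_product_univ]
  rw [hsum]
  simp only [Fin.sum_univ_two, tp, tq, zero_mul, sub_zero]
  have e0 : toTorus L (unitVec 0) = (1, 0) := by simp [toTorus, unitVec]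
  have e1 : toTorus L (unitVec 1) = (0, 1) := by simp [toTorus, unitVec]
  rw [e0, e1]
  have h : ∀ u : ZMod L × ZMod L, (u.1 + 1, u.2) = u + (1, 0) ∧ (u.1, u.2 + 1) = u + (0, 1) := by
    intro u
    constructor <;> ext <;> simp
  simp only [fun u => (h u).1, fun u => (h u).2]
  ring

theorem torusExpect_eq (J : ℝ) (R : ℕ) (V : Finset (ℤ × ℤ) → ℝ) (β : ℝ)
    (f : TorusConfig L → ℝ) :
    torusExpect L J 0 R V β f = EX (β * J) (tp L) (tq L) univ univ f := by
  unfold torusExpect EX ZZ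
  rw [sum_torusConfig L fun s => f s * Real.exp (-β * energy L J 0 R V s),
    sum_torusConfig L fun s => Real.exp (-β * energy L J 0 R V s)]
  congr 1
  · refine Finset.sum_congr rfl fun A _ => ?_
    rw [torus_energy, mul_comm]
  · refine Finset.sum_congr rfl fun A _ => ?_
    rw [torus_energy, mul_one]

/-- torus correlations -/
def Gt (K : ℝ) {n : ℕ} (u : Fin n → ℤ × ℤ) : ℝ :=
  EX K (tp L) (tq L) univ univ (sp fun i => toTorus L (u i))

/-- the box `[-N, N]²` embeds in the torus -/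
theorem toTorus_inj {N : ℤ} (hN : 2 * N < L) {u v : ℤ × ℤ}
    (hu : |u.1| ≤ N ∧ |u.2| ≤ N) (hv : |v.1| ≤ N ∧ |v.2| ≤ N)
    (h : toTorus L u = toTorus L v) : u = v := by
  have key : ∀ x y : ℤ, |x| ≤ N → |y| ≤ N → ((x : ZMod L) = (y : ZMod L)) → x = y := by
    intro x y hx hy hxy
    rw [ZMod.intCast_eq_intCast_iff_dvd_sub] at hxy
    by_contra hne
    have h1 : 0 < |y - x| := abs_pos.2 fun h => hne (by linarith)
    have h2 : (L : ℤ) ≤ |y - x| := Int.le_of_dvd h1 ((dvd_abs _ _).2 hxy)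
    have h3 : |y - x| ≤ |y| + |x| := abs_sub _ _
    linarith
  unfold toTorus at h
  rw [Prod.mk.injEq] at h
  ext
  · exact key _ _ hu.1 hv.1 h.1
  · exact key _ _ hu.2 hv.2 h.2

/-- `T` with its neighbours lies in the box of size `N` -/
def InBox (T : Finset (ℤ × ℤ)) (N : ℤ) : Prop := ∀ v ∈ T, |v.1| + 1 ≤ N ∧ |v.2| + 1 ≤ N

theorem unitVec_abs (j : Fin 2) : |(unitVec j).1| ≤ 1 ∧ |(unitVec j).2| ≤ 1 := by
  fin_cases j <;> simp [unitVec]

theorem plusE_box {T : Finset (ℤ × ℤ)} {N : ℤ} (h : InBox T N) {e : ZB} (he : e ∈ plusE T) :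
    (|(zp e).1| ≤ N ∧ |(zp e).2| ≤ N) ∧ (|(zq e).1| ≤ N ∧ |(zq e).2| ≤ N) := by
  have hj := unitVec_abs e.2
  have hq : zq e = zp e + unitVec e.2 := rfl
  have h1 : (zq e).1 = (zp e).1 + (unitVec e.2).1 := by rw [hq]; rfl
  have h2 : (zq e).2 = (zp e).2 + (unitVec e.2).2 := by rw [hq]; rfl
  have a1 := abs_le.1 hj.1
  have a2 := abs_le.1 hj.2
  rcases mem_plusE.1 he with h3 | h3
  · have h4 := h _ h3
    have b1 := abs_le.1 (show |(zp e).1| ≤ N - 1 by linarith [h4.1])
    have b2 := abs_le.1 (show |(zp e).2| ≤ N - 1 by linarith [h4.2])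
    refine ⟨⟨abs_le.2 ⟨by linarith, by linarith⟩, abs_le.2 ⟨by linarith, by linarith⟩⟩,
      ⟨abs_le.2 ⟨by linarith, by linarith⟩, abs_le.2 ⟨by linarith, by linarith⟩⟩⟩
  · have h4 := h _ h3
    have b1 := abs_le.1 (show |(zq e).1| ≤ N - 1 by linarith [h4.1])
    have b2 := abs_le.1 (show |(zq e).2| ≤ N - 1 by linarith [h4.2])
    refine ⟨⟨abs_le.2 ⟨by linarith, by linarith⟩, abs_le.2 ⟨by linarith, by linarith⟩⟩,
      ⟨abs_le.2 ⟨by linarith, by linarith⟩, abs_le.2 ⟨by linarith, by linarith⟩⟩⟩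

/-- bond map to the torus -/
def tb (e : ZB) : TB L := (toTorus L e.1, e.2)

variable {L}

theorem transfer_torus {N : ℤ} (hN : 2 * N < L) {T : Finset (ℤ × ℤ)} (hT : InBox T N)
    {E : Finset ZB} (hE : E ⊆ plusE T) {n : ℕ} {u : Fin n → ℤ × ℤ} (hu : ∀ i, u i ∈ T) :
    EX K zp zq T E (sp u) =
      EX K (tp L) (tq L) (T.image (toTorus L)) (E.image (tb L)) (sp fun i => toTorus L (u i)) := by
  have hTb : ∀ v ∈ T, |v.1| ≤ N ∧ |v.2| ≤ N := fun v hv =>
    ⟨by linarith [(hT v hv).1], by linarith [(hT v hv).2]⟩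
  refine EX_transfer (toTorus L) (tb L) ?_ ?_ ?_ ?_ ?_ ?_ ?_
  · intro e he e' he' h
    unfold tb at h
    rw [Prod.mk.injEq] at h
    have := toTorus_inj L hN (plusE_box hT (hE he)).1 (plusE_box hT (hE he')).1 h.1
    exact Prod.ext this h.2
  · intro e _; rfl
  · intro e _
    show toTorus L e.1 + toTorus L (unitVec e.2) = toTorus L (zq e)
    rw [← toTorus_add]; rfl
  · intro v hv w hw h
    exact toTorus_inj L hN (hTb v hv) (hTb w hw) h
  · intro e he v hv h
    exact toTorus_inj L hN (plusE_box hT (hE he)).1 (hTb v hv) h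
  · intro e he v hv h
    exact toTorus_inj L hN (plusE_box hT (hE he)).2 (hTb v hv) h
  · intro A hA
    unfold sp
    refine Finset.prod_congr rfl fun i _ => ?_
    congr 1
    unfold minusOn
    have : toTorus L (u i) ∈ A.image (toTorus L) ↔ u i ∈ A := by
      constructor
      · intro h
        obtain ⟨w, hw, hw2⟩ := mem_image.1 h
        rw [← toTorus_inj L hN (hTb w (hA hw)) (hTb _ (hu i)) hw2]; exact hw
      · exact fun h => mem_image_of_mem _ h
    simp [this]

/-- torus correlations are below the plus correlations -/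
theorem torus_le_plus (hK : 0 ≤ K) {N : ℤ} (hN : 2 * N < L) {T : Finset (ℤ × ℤ)}
    (hT : InBox T N) {n : ℕ} {u : Fin n → ℤ × ℤ} (hu : ∀ i, u i ∈ T) :
    Gt L K u ≤ Gp K T u := by
  have h1 := EX_anti_sites (K := K) (p := tp L) (q := tq L) (E := univ) hK
    (sp_pos fun i => toTorus L (u i)) (subset_univ (T.image (toTorus L)))
  have h2 := EX_congr_bonds (K := K) (p := tp L) (q := tq L) (T := T.image (toTorus L))
    (F := sp fun i => toTorus L (u i)) (subset_univ ((plusE T).image (tb L))) ?_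
  · unfold Gt Gp
    rw [transfer_torus hN hT (Finset.Subset.refl _) hu, ← h2]
    exact h1
  · intro e he
    have he2 := (mem_sdiff.1 he).2
    constructor
    · intro h3
      obtain ⟨v, hv, hv2⟩ := mem_image.1 h3
      exact he2 (mem_image.2 ⟨(v, e.2), mem_plusE.2 (Or.inl hv), Prod.ext hv2 rfl⟩)
    · intro h3
      obtain ⟨v, hv, hv2⟩ := mem_image.1 h3
      refine he2 (mem_image.2 ⟨(v - unitVec e.2, e.2), mem_plusE.2 (Or.inr ?_), Prod.ext ?_ rfl⟩)
      · show v - unitVec e.2 + unitVec e.2 ∈ T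
        rw [sub_add_cancel]; exact hv
      · show toTorus L (v - unitVec e.2) = e.1
        have : toTorus L (v - unitVec e.2) + toTorus L (unitVec e.2) = e.1 + toTorus L (unitVec e.2) := by
          rw [← toTorus_add, sub_add_cancel]; exact hv2
        exact add_right_cancel this

/-- free correlations of a subgraph are below the torus correlations -/
theorem free_sub_le_torus (hK : 0 ≤ K) {N : ℤ} (hN : 2 * N < L) {T : Finset (ℤ × ℤ)}
    (hT : InBox T N) {E : Finset ZB} (hE : E ⊆ freeE T) {n : ℕ} {u : Fin n → ℤ × ℤ}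
    (hu : ∀ i, u i ∈ T) : EX K zp zq T E (sp u) ≤ Gt L K u := by
  have h0 := transfer_torus (K := K) hN hT (hE.trans (freeE_subset_plusE T)) hu
  have h1 := EX_drop_sites (K := K) (p := tp L) (q := tq L) (T := univ)
    (T' := T.image (toTorus L)) (E := E.image (tb L)) (F := sp fun i => toTorus L (u i))
    (subset_univ _) ?_ ?_
  · rw [h0, ← h1]
    exact EX_mono_bonds hK (sp_pos _) (subset_univ _)
  · intro e he
    obtain ⟨e', he', rfl⟩ := mem_image.1 he
    have h3 := mem_freeE.1 (hE he')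
    constructor
    · intro h4
      exact (mem_sdiff.1 h4).2 (mem_image_of_mem _ h3.1)
    · intro h4
      refine (mem_sdiff.1 h4).2 ?_
      have : tq L (tb L e') = toTorus L (zq e') := by
        show toTorus L e'.1 + toTorus L (unitVec e'.2) = toTorus L (zq e')
        rw [← toTorus_add]; rfl
      rw [this]
      exact mem_image_of_mem _ h3.2
  · intro A B _ hB
    unfold sp
    refine Finset.prod_congr rfl fun i _ => ?_
    have : toTorus L (u i) ∉ B := fun h3 => (mem_sdiff.1 (hB h3)).2 (mem_image_of_mem _ (hu i))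
    rw [spin_congr (A := A ∪ B) (B := A)]
    simp [this]

theorem free_le_torus (hK : 0 ≤ K) {N : ℤ} (hN : 2 * N < L) {T : Finset (ℤ × ℤ)}
    (hT : InBox T N) {n : ℕ} {u : Fin n → ℤ × ℤ} (hu : ∀ i, u i ∈ T) : Gf K T u ≤ Gt L K u :=
  free_sub_le_torus hK hN hT (Finset.Subset.refl _) hu

theorem exists_inBox (T : Finset (ℤ × ℤ)) : ∃ N : ℤ, InBox T N := by
  refine ⟨∑ v ∈ T, (|v.1| + |v.2| + 1), fun v hv => ?_⟩
  have h := Finset.single_le_sum (f := fun v : ℤ × ℤ => |v.1| + |v.2| + 1)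
    (fun w _ => by positivity) hv
  have h1 := abs_nonneg v.1
  have h2 := abs_nonneg v.2
  exact ⟨by linarith, by linarith⟩

end torus

end Crest.Agent.R165.Gk1x422
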