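import Crest.Agent.R165.InitDat_541
import Crest.Agent.R165.PlaneNum_901

/-!
# Row 165 (S0250), P7: algebraic facts for the first step (helper541)

* `Kex_sub`, `Kex_empty`, `Kex_conn`, `alQ_Kex`, `beQ_Kex`
* `QlG_cst` : constants do not contribute
* `coef_crude` : bounds of `alQ`, `beQ` without symmetry
-/

set_option autoImplicit false
set_option linter.unusedSectionVars false

noncomputable section

open scoped ENNReal
open Crest.ProbabilityR.IsingModel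
open Crest.Agent.R165.Gr0x606 Crest.Agent.R165.Gr1x606 Crest.Agent.R165.Latx683
open Crest.Agent.R165.PNormx417 Crest.Agent.R165.GDefx387 Crest.Agent.R165.GSysx387
open Crest.Agent.R165.GeOpsx337 Crest.Agent.R165.KFlowx337 Crest.Agent.R165.Bridgex915
open Crest.Agent.R165.NSumx915
open Crest.Agent.R165.PlaneModesx901 Crest.Agent.R165.PlaneLocx901 Crest.Agent.R165.PlaneCovx901
open Crest.Agent.R165.PlaneSumx901 Crest.Agent.R165.PlaneCoefx901
open Crest.Agent.R165.Bkgx683 Crest.Agent.R165.PEndx683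
open Crest.Agent.R165.J4Geox126 Crest.Agent.R165.J4Defx653
open Crest.Agent.R165.PStepx417 Crest.Agent.R165.PStepIdx901 Crest.Agent.R165.GBulkx417

namespace Crest.Agent.R165.Initx541

/-! ### the families of translates -/

section tr

variable {A : Type*} [AddCommGroup A] [Module ℝ A]

theorem trF_smul (c : ℝ) (Y : Finset Fc) (a : Fc → A) (U : Finset Fc) :
    trF Y (fun u => c • a u) U = c • trF Y a U := by
  rw [trF, trF, Finset.smul_sum]
  exact Finset.sum_congr rfl fun u _ => by split_ifs <;> simp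

theorem trF_empty (Y : Finset Fc) (a : Fc → A) : trF Y a ∅ = 0 := by
  rw [trF, Finset.sum_empty]

theorem trF_ne {Y : Finset Fc} {a : Fc → A} {U : Finset Fc} (h : trF Y a U ≠ 0) :
    ∃ u ∈ U, Y.image (fz u) = U := by
  by_contra hc
  push Not at hc
  exact h (Finset.sum_eq_zero fun u hu => if_neg (hc u hu))

end tr

theorem fd_fz_le {a b : Fc} {s : ℕ} (h1 : (a.1 - b.1).natAbs ≤ s) (h2 : (a.2 - b.2).natAbs ≤ s)
    (u : Fc) : fd (fz u a) (fz u b) ≤ s := by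
  have e : ∀ z : ℤ × ℤ, fz u z = u + z := fun z => PlaneNumx901.fz_int u z
  rw [e, e]
  show max ((u + a).1 - (u + b).1).natAbs ((u + a).2 - (u + b).2).natAbs ≤ s
  refine max_le ?_ ?_
  · rwa [Prod.fst_add, Prod.fst_add, add_sub_add_left_eq_sub]
  · rwa [Prod.snd_add, Prod.snd_add, add_sub_add_left_eq_sub]

theorem conn_of_image {Y : Finset Fc} {s R : ℕ} (hs : s ≤ R)
    (hY : ∀ a ∈ Y, ∀ b ∈ Y, (a.1 - b.1).natAbs ≤ s ∧ (a.2 - b.2).natAbs ≤ s) {U : Finset Fc}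
    (u : Fc) (hU : Y.image (fz u) = U) : Packx915.Conn fd R U := by
  subst hU
  refine Packx915.conn_of_diam ?_
  intro x hx y hy
  obtain ⟨a, ha, rfl⟩ := Finset.mem_image.1 hx
  obtain ⟨b, hb, rfl⟩ := Finset.mem_image.1 hy
  exact (fd_fz_le (hY a ha b hb).1 (hY a ha b hb).2 u).trans hs

/-! ### the explicit family -/

theorem Kex_eq (p z : ℝ) (U : Finset Fc) :
    Kex p z U = PlaneNumx901.KxG frP.b frP.I4 p z U := by
  have e0 : ∀ Y : Finset Fc, ∀ j : Fin 2,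
      PlaneNumx901.anc Y (fun u => (-(2 * xc * p)) • frP.b (u, j)) U =
        (-(2 * xc * p)) • trF Y (bu j) U := fun Y j => trF_smul _ Y (bu j) U
  have e1 : ∀ Y : Finset Fc, ∀ j : Fin 2,
      PlaneNumx901.anc Y (fun u => xc • frP.b (u, j)) U = xc • trF Y (bu j) U :=
    fun Y j => trF_smul _ Y (bu j) U
  have e2 : PlaneNumx901.anc {((0 : ℤ), (0 : ℤ))} frP.I4 U = trF {0} frP.I4 U := rfl
  unfold PlaneNumx901.KxG Kex Kp Kz
  simp only [e0, e1, e2, ← Finset.smul_sum]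
  rw [smul_smul]
  congr 2
  ring

theorem coe_b (e : Bkgx683.EG ℤ) : ((frP.b e : Ge (Fld ℤ)) : Gr (Fld ℤ)) = PlaneNumx901.bE e := rfl

theorem Kex_sub (p z p' z' : ℝ) (U : Finset Fc) :
    Kex p z U - Kex p' z' U = Kex (p - p') (z - z') U := by
  unfold Kex
  rw [sub_smul, sub_smul]
  abel

theorem Kex_empty (p z : ℝ) : Kex p z ∅ = 0 := by
  unfold Kex Kp Kz
  simp only [trF_empty, Finset.sum_const_zero, smul_zero, add_zero]

theorem Kex_conn {R : ℕ} (hR : 2 ≤ R) (p z : ℝ) (U : Finset Fc) (h : Kex p z U ≠ 0) :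
    Packx915.Conn fd R U := by
  have key : ∀ Y : Finset Fc, (∀ a ∈ Y, ∀ b ∈ Y, (a.1 - b.1).natAbs ≤ 2 ∧
      (a.2 - b.2).natAbs ≤ 2) → ∀ a : Fc → Ge (Fld ℤ), trF Y a U ≠ 0 →
      Packx915.Conn fd R U := by
    intro Y hY a ha
    obtain ⟨u, -, hu⟩ := trF_ne ha
    exact conn_of_image hR hY u hu
  by_contra hc
  apply h
  have z1 : ∀ j : Fin 2, trF (Yf (pr ((0 : ℤ × ℤ), j))) (bu j) U = 0 := by
    intro j
    by_contra h0
    refine hc (key _ ?_ _ h0)
    fin_cases j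
    · have e : Yf (pr ((0 : ℤ × ℤ), (0 : Fin 2))) = _ := PlaneNumx901.Yf0
      simp only [Fin.zero_eta]
      rw [e]
      decide
    · have e : Yf (pr ((0 : ℤ × ℤ), (1 : Fin 2))) = _ := PlaneNumx901.Yf1
      simp only [Fin.mk_one]
      rw [e]
      decide
  have z2 : ∀ j : Fin 2, trF (faE ((0 : ℤ × ℤ), j)) (bu j) U = 0 := by
    intro j
    by_contra h0
    refine hc (key _ ?_ _ h0)
    fin_cases j
    · have e : faE (((0 : ℤ × ℤ), (0 : Fin 2)) : Bkgx683.EG ℤ) = _ := PlaneNumx901.faE0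
      simp only [Fin.zero_eta]
      rw [e]
      decide
    · have e : faE (((0 : ℤ × ℤ), (1 : Fin 2)) : Bkgx683.EG ℤ) = _ := PlaneNumx901.faE1
      simp only [Fin.mk_one]
      rw [e]
      decide
  have z3 : trF {0} frP.I4 U = 0 := by
    by_contra h0
    refine hc (key _ ?_ _ h0)
    intro a ha b hb
    rw [Finset.mem_singleton] at ha hb
    subst ha hb
    simp
  unfold Kex Kp Kz
  simp only [z1, z2, z3, Finset.sum_const_zero, smul_zero, add_zero]

theorem coe_frI4 (f : Fc) : ((frP.I4 f : Ge (Fld ℤ)) : Gr (Fld ℤ)) = PlaneNumx901.i4 f := by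
  show (((frG LinearMap.id).I4 f : Ge (Fld ℤ)) : Gr (Fld ℤ)) = _
  rw [frG_I4, ge_coe_sum, PlaneNumx901.i4, Finset.sum_filter, Fintype.sum_prod_type]
  simp only [Fin.sum_univ_succ, Rescx950.P6, Rescx950.Q6]
  simp
  abel_nf

theorem coe_Kex (p z : ℝ) (U : Finset Fc) :
    ((Kex p z U : Ge (Fld ℤ)) : Gr (Fld ℤ)) = PlaneNumx901.Kx p z U := by
  rw [Kex_eq]
  exact PlaneNumx901.coe_KxG coe_b coe_frI4 p z U

theorem alQ_Kex (S : Cov (Fld ℤ)) {r : ℕ} (hr : 2 ≤ r) (p z : ℝ) :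
    alQ S r (Kex p z) = 4 * xc * p := PlaneNumx901.alQ_Kx S hr p z (coe_Kex p z)

theorem beQ_Kex (S : Cov (Fld ℤ)) {r : ℕ} (hr : 2 ≤ r) (p z : ℝ) :
    beQ S r (Kex p z) = 2 * xc * p - xc * z := PlaneNumx901.beQ_Kx S hr p z (coe_Kex p z)

/-! ### constants -/

theorem smul_one_eq (c : ℝ) : c • (1 : Ge (Fld ℤ)) = algebraMap ℝ (Ge (Fld ℤ)) c :=
  (Algebra.algebraMap_eq_smul_one c).symm

theorem alQ_cst (S : Cov (Fld ℤ)) (r : ℕ) {K : Fam}
    (h : ∀ U, ∃ c : ℝ, K U = c • (1 : Ge (Fld ℤ))) : alQ S r K = 0 := by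
  choose c hc using h
  rw [← PlaneNumx901.alQ_const S r c]
  exact congrArg _ (funext fun U => by rw [hc, smul_one_eq])

theorem beQ_cst (S : Cov (Fld ℤ)) (r : ℕ) {K : Fam}
    (h : ∀ U, ∃ c : ℝ, K U = c • (1 : Ge (Fld ℤ))) : beQ S r K = 0 := by
  choose c hc using h
  rw [← PlaneNumx901.beQ_const S r c]
  exact congrArg _ (funext fun U => by rw [hc, smul_one_eq])

theorem LocAt_const (f : Fc) (c : ℝ) : LocAt f (algebraMap ℝ (Gr (Fld ℤ)) c) = 0 := by
  rw [LocAt_expand]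
  simp only [Locx901.form_algebraMap, zero_smul, add_zero, cMass, Locx901.formL_apply]

theorem QlG_cst (S : Cov (Fld ℤ)) (r : ℕ) {K : Fam}
    (h : ∀ U, ∃ c : ℝ, K U = c • (1 : Ge (Fld ℤ))) (U : Finset Fc) : QlG S r K U = 0 := by
  obtain ⟨c, hc⟩ := h U
  refine ge_ext ?_
  have e : ((K U : Ge (Fld ℤ)) : Gr (Fld ℤ)) = algebraMap ℝ (Gr (Fld ℤ)) c := by
    rw [hc, smul_one_eq, ge_coe_algebraMap]
  rw [coe_QlG, Qlin, e, conv_algebraMap]
  simp only [LocAt_const, Finset.sum_const_zero, smul_zero, ite_self, sub_zero]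
  rw [hom_zero_eq, AlgHom.commutes, Algebra.algebraMap_self_apply, sub_self]
  rfl

theorem QlG_add (S : Cov (Fld ℤ)) (r : ℕ) (Q Q' : Fam) (U : Finset Fc) :
    QlG S r (fun U => Q U + Q' U) U = QlG S r Q U + QlG S r Q' U := by
  have h := QlG_sub S r (fun U => Q U + Q' U) Q' U
  simp only [add_sub_cancel_right] at h
  rw [h, sub_add_cancel]

/-! ### the coefficients, without symmetry -/

theorem sAt_le_NK (a : ℝ) (r : ℕ) {Γ : ℝ≥0∞} (hΓ : 1 ≤ Γ) (K : Finset Fc → Gr (Fld ℤ)) :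
    sAt a r K 0 ≤ NK w₀ a r Γ (fun _ => True) K := by
  refine le_trans ?_ (sum_sAt_le a r hΓ K)
  refine Finset.single_le_sum (f := fun f => sAt a r K f) (fun _ _ => zero_le) ?_
  rw [Set.Finite.mem_toFinset, mem_ball]
  show fd (0 : Fc) 0 ≤ r
  rw [fd_self]
  exact Nat.zero_le _

section step

variable {a : ℝ} {r r' R R' : ℕ} {Γ : ℝ≥0∞} {S : Cov (Fld ℤ)} {g : Fld ℤ → ℝ≥0∞}
  {p0 p1 q2 q0 C : ℝ≥0∞} {Cb : ℝ}

/-- the coefficients of a family without symmetry -/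
theorem coef_crude (h : PHyp a r r' R R' Γ S g p0 p1 q2 q0 C Cb) {Q : Fam} {s : ℝ} (hs : 0 ≤ s)
    (hQ : nk a r Γ Q ≤ ENNReal.ofReal s) :
    |alQ S r Q| ≤ PlaneCoefx901.cM / a ^ 2 * r * s ∧
      |beQ S r Q| ≤ PlaneCoefx901.cK / a ^ 2 * r ^ 2 * s := by
  have hfin : nk a r Γ Q ≠ ∞ := ne_top_of_le_ne_top ENNReal.ofReal_ne_top hQ
  have hM := cM_nonneg
  have hK := cK_nonneg
  have ha := h.a_pos
  have hfin' : NK w₀ a r Γ (fun _ => True) (cof Q) ≠ ∞ := by rwa [NK_cof]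
  have hgw : ∀ U : Finset Fc, ∀ l, g l ≤ q0 * wU w₀ a r U l := fun U l =>
    le_mul_wU h.num.q0_ne fun x _ hl => h.blk.W0 x l hl
  have hsum : sAt a r (cof Q) 0 ≤ ENNReal.ofReal s := by
    refine (sAt_le_NK a r h.one_le _).trans ?_
    rwa [NK_cof]
  constructor
  · have h1 := avgAt_conv_T ha h.r_pos h.one_le h.gram h.num.q0_le hgw hfin' cMass cMass_hom2
      (fun U _ _ F hF => enorm_form_m0_m0 ha h.r_pos hF)
    have h2 : ‖alQ S r Q‖ₑ ≤ ENNReal.ofReal (PlaneCoefx901.cM / a ^ 2 * r) * ENNReal.ofReal s :=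
      h1.trans (mul_le_mul_right hsum _)
    rw [Real.enorm_eq_ofReal_abs, ← ENNReal.ofReal_mul (by positivity)] at h2
    exact (ENNReal.ofReal_le_ofReal_iff (by positivity)).1 h2
  · have h1 := avgAt_conv_T ha h.r_pos h.one_le h.gram h.num.q0_le hgw hfin' (cKin 0)
      (cKin_hom2 0) (fun U h0 hU F hF => enorm_form_m0_m1 ha h.r_pos h0 hU hF)
    have h2 : ‖beQ S r Q‖ₑ ≤ ENNReal.ofReal (PlaneCoefx901.cK / a ^ 2 * r ^ 2) *
        ENNReal.ofReal s := h1.trans (mul_le_mul_right hsum _)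
    rw [Real.enorm_eq_ofReal_abs, ← ENNReal.ofReal_mul (by positivity)] at h2
    exact (ENNReal.ofReal_le_ofReal_iff (by positivity)).1 h2

end step

end Crest.Agent.R165.Initx541
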