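import Crest.Agent.R165.P7_337
import Crest.Agent.R165.Const_891

/-!
# Row 165 (S0250), block G, (P7): the choice of the constants for the step `0` (helper337)

* `p7L_of` : **(P7)** from the inequalities of the step `0` with a linear influence
  `ζ ≥ Cz Γ / r₁` (then `k0` is chosen after `p`, `Γ` so that `Cz Γ / r₁ ≤ ζ₀(p)`)
-/

set_option autoImplicit false

noncomputable section

open scoped ENNReal
open Filter Topology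
open Crest.Agent.R165.GSysx387 Crest.Agent.R165.PEndx683 Crest.Agent.R165.Constx891
open Crest.Agent.R165.W2x812 (BkReg)

namespace Crest.Agent.R165.P7x337

/-- **(P7)** from the step `0` -/
theorem p7L_of {J : ℝ} {R : ℕ} {V : Finset (ℤ × ℤ) → ℝ}
    (h : ∀ Cb : ℝ, BkReg Cb → ∃ (Cz : ℝ) (N₁ : ℕ), ∀ c : Cst, 4 ≤ c.p → 3 ≤ c.Γ → 1 ≤ c.A0 →
      Pl c Cb → (∀ n, N₁ ≤ rr c.p c.k0 n) →
      ∀ ζ : ℝ, 0 < ζ → Cz * c.Γ / (rr c.p c.k0 1 : ℕ) ≤ ζ → Init J R V c ζ (Mc c.p)) :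
    PTopx386.P7L J R V := by
  obtain ⟨Cb, -, hreg, hpl⟩ := exists_pl
  obtain ⟨Cz, N₁, h⟩ := h Cb hreg
  have hsh := fun p : ℕ => Sht3x541.orbit.{0} (κ := 1 / 8) (r := 1 / 4) (M := Mc p) (by norm_num)
    (by norm_num) (by norm_num) (PStepx417.cM3_nonneg _)
  choose K ζ₀ hK hζ₀ hsh using hsh
  have h1 : EvC fun c => ∀ n, max N₁ ⌈|Cz * c.Γ| / ζ₀ c.p⌉₊ ≤ rr c.p c.k0 n :=
    ev_rr_ge fun p Γ => max N₁ ⌈|Cz * Γ| / ζ₀ p⌉₊
  refine (hpl.and h1).mono fun c hc => ?_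
  obtain ⟨⟨h2, h3, h4, -, -, h5⟩, h6⟩ := hc
  have hz := hζ₀ c.p
  have h7 : Cz * c.Γ / (rr c.p c.k0 1 : ℕ) ≤ ζ₀ c.p := by
    have hr : (0 : ℝ) < (rr c.p c.k0 1 : ℕ) := Nat.cast_pos.2 (rr_pos _ _ _)
    rw [div_le_iff₀ hr]
    have h8 : |Cz * c.Γ| / ζ₀ c.p ≤ (rr c.p c.k0 1 : ℕ) :=
      (Nat.le_ceil _).trans (Nat.cast_le.2 ((le_max_right _ _).trans (h6 1)))
    rw [div_le_iff₀ hz] at h8
    calc Cz * c.Γ ≤ |Cz * c.Γ| := le_abs_self _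
      _ ≤ ζ₀ c.p * (rr c.p c.k0 1 : ℕ) := by rw [mul_comm (ζ₀ c.p)]; exact h8
  exact glue hreg (by omega) h4 h5 (hK c.p) hz rfl (hsh c.p)
    (h c h2 h3 h4 h5 (fun n => (le_max_left _ _).trans (h6 n)) _ hz h7)

end Crest.Agent.R165.P7x337
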