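import Crest.Agent.R165.InitDef_541
import Crest.Agent.R165.PStep4_417

/-!
# Row 165 (S0250), P7: the data of the initial activities of the plane (helper541)

* `Kpl J lam R V l k0 p z` : the initial activities of the plane at `β = β_c + p / J`
* `InitData a r R Γ C ρ K Kc` : everything that the first step of the flow needs about the family
  `K lam p z` (to be proved for `Kpl` by 871/682/126/950)
-/

set_option autoImplicit false

noncomputable section

open scoped ENNReal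
open Crest.ProbabilityR.IsingModel
open Crest.Agent.R165.Gr0x606 Crest.Agent.R165.Gr1x606 Crest.Agent.R165.Latx683
open Crest.Agent.R165.GDefx387 Crest.Agent.R165.GSysx387
open Crest.Agent.R165.PlaneModesx901 Crest.Agent.R165.Bkgx683 Crest.Agent.R165.PEndx683
open Crest.Agent.R165.J4Geox126 Crest.Agent.R165.J4Defx653
open Crest.Agent.R165.PStepx417 Crest.Agent.R165.PStepIdx901

namespace Crest.Agent.R165.Initx541

/-- the initial activities of the plane at `β = β_c + p / J` (= `(plF c (mpar ..)).K 0`) -/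
def Kpl (J : ℝ) (R : ℕ) (V : Finset (ℤ × ℤ) → ℝ) (l k0 : ℕ) (lam p z : ℝ) : Fam :=
  Bg.pl.K0 (mpar J lam R V (criticalBeta J + p / J) z) LinearMap.id (noSrc ℤ (Ge (Fld ℤ))) l k0

/-- **the data of the initial activities**: `K lam p z = Kex p z + Kc p + rest`, `Kc` constants,
`rest = O(|lam| + s²)` with its Lipschitz bound -/
structure InitData (a : ℝ) (r R : ℕ) (Γ : ℝ≥0∞) (C ρ : ℝ) (K : ℝ → ℝ → ℝ → Fam)
    (Kc : ℝ → Fam) : Prop where
  C_nonneg : 0 ≤ C
  ρ_pos : 0 < ρ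
  sym : ∀ lam p z, PlS (K lam p z)
  conn : ∀ lam p z U, K lam p z U ≠ 0 → Packx915.Conn fd R U
  emp : ∀ lam p z, K lam p z ∅ = 0
  cst : ∀ p U, ∃ c : ℝ, Kc p U = c • (1 : Ge (Fld ℤ))
  cconn : ∀ p U, Kc p U ≠ 0 → Packx915.Conn fd R U
  cemp : ∀ p, Kc p ∅ = 0
  size : ∀ lam p z s, |lam| ≤ s → |p| ≤ s → |z| ≤ s → s ≤ ρ →
    nk a r Γ (K lam p z) ≤ ENNReal.ofReal (C * (|lam| + |p| + |z|))
  lip : ∀ lam p z p' z' s, |lam| ≤ s → |p| ≤ s → |z| ≤ s → |p'| ≤ s → |z'| ≤ s → s ≤ ρ →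
    nk a r Γ (fun U => K lam p z U - K lam p' z' U) ≤
      ENNReal.ofReal (C * (|p - p'| + |z - z'|))
  rest : ∀ lam p z s, |lam| ≤ s → |p| ≤ s → |z| ≤ s → s ≤ ρ →
    nk a r Γ (fun U => K lam p z U - Kex p z U - Kc p U) ≤ ENNReal.ofReal (C * (|lam| + s ^ 2))
  rlip : ∀ lam p z p' z' s, |lam| ≤ s → |p| ≤ s → |z| ≤ s → |p'| ≤ s → |z'| ≤ s → s ≤ ρ →
    nk a r Γ (fun U => (K lam p z U - Kex p z U - Kc p U) -
        (K lam p' z' U - Kex p' z' U - Kc p' U)) ≤
      ENNReal.ofReal (C * (|lam| + s) * (|p - p'| + |z - z'|))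

end Crest.Agent.R165.Initx541
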