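import Crest.Agent.R165.Out_683
import Crest.Agent.R165.J4K0B_126

/-!
# Row 165 (S0250), P7: the explicit first order part of the initial activities (helper541)

* `trF Y a U`   : the family of the translates of the anchored support `Y`, value `a u` at the anchor
* `Kp` : the response to the bond coupling (shapes of the nearest neighbour pairs),
  `Kz` : the response to the field strength;  `Kex p z = p • Kp + z • Kz`
* `beI`, `zzI` : the physical parameters as linear functions of the flow variables `(ν, z)` of step 0
-/

set_option autoImplicit false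

noncomputable section

open scoped ENNReal
open Crest.ProbabilityR.IsingModel
open Crest.Agent.R165.Gr0x606 Crest.Agent.R165.Gr1x606 Crest.Agent.R165.Latx683
open Crest.Agent.R165.GDefx387 Crest.Agent.R165.GSysx387
open Crest.Agent.R165.PlaneModesx901 Crest.Agent.R165.Bkgx683 Crest.Agent.R165.PEndx683
open Crest.Agent.R165.J4Geox126 Crest.Agent.R165.J4Defx653

namespace Crest.Agent.R165.Initx541

/-- the family of the translates of an anchored support -/
def trF {A : Type*} [AddCommMonoid A] (Y : Finset Fc) (a : Fc → A) (U : Finset Fc) : A :=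
  ∑ u ∈ U, if Y.image (fz u) = U then a u else 0

/-- the algebraic frame of the plane -/
abbrev frP : J4K0x126.Fr ℤ (Ge (Fld ℤ)) := frG LinearMap.id

/-- the bilinear of the bond `(u, j)` -/
def bu (j : Fin 2) (u : Fc) : Ge (Fld ℤ) := frP.b (u, j)

/-- response to the bond coupling: `THETA` of the two nearest neighbour shapes, without constants -/
def Kp (U : Finset Fc) : Ge (Fld ℤ) :=
  (-(2 * xc)) • ∑ j : Fin 2, trF (Yf (pr (0, j))) (bu j) U

/-- response to the field strength -/
def Kz (U : Finset Fc) : Ge (Fld ℤ) :=
  trF {0} frP.I4 U + xc • ∑ j : Fin 2, trF (faE ((0 : ℤ × ℤ), j)) (bu j) U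

/-- **the explicit first order part** -/
def Kex (p z : ℝ) (U : Finset Fc) : Ge (Fld ℤ) := p • Kp U + z • Kz U

/-! ### the physical parameters in terms of the flow variables of step `0` -/

/-- the coupling `p = (β - β_c) J` in terms of `ν = r₀ ν̂` -/
def pI (r : ℕ) (ν : ℝ) : ℝ := ν / (4 * xc * r)

/-- the field strength -/
def zzI (r : ℕ) (ν z : ℝ) : ℝ := 2 * pI r ν - z / xc

/-- the inverse temperature -/
def beI (J : ℝ) (r : ℕ) (ν : ℝ) : ℝ := criticalBeta J + pI r ν / J

end Crest.Agent.R165.Initx541
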