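import Crest.Agent.R165.PStep1_417
import Crest.Agent.R165.ConstA_729
import Crest.Agent.R165.ANorm_915
import Crest.Agent.R165.Out_683

/-!
# Row 165 (S0250), P7: the linear part of step 0 on families with small supports

* `nk_Ql4` : the family `(1 - Loc) K`, supports of diameter `≤ 4`, has norm `≤ C / r'` at scale `r'`
-/

set_option autoImplicit false
set_option linter.unusedSectionVars false

noncomputable section

open scoped ENNReal NNReal
open Crest.Agent.R165.Gr0x606 Crest.Agent.R165.Gr1x606 Crest.Agent.R165.Latx683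
open Crest.Agent.R165.PNormx417 Crest.Agent.R165.GDefx387 Crest.Agent.R165.GeOpsx337
open Crest.Agent.R165.KFlowx337 Crest.Agent.R165.Packx915 Crest.Agent.R165.Bridgex915
open Crest.Agent.R165.NSumx915 Crest.Agent.R165.FRDPolyx439 Crest.Agent.R165.FRDLatx439
open Crest.Agent.R165.PlaneModesx901 Crest.Agent.R165.PlaneLocx901 Crest.Agent.R165.PlaneCovx901
open Crest.Agent.R165.PlaneSumx901 Crest.Agent.R165.PlaneCoefx901 Crest.Agent.R165.W2x812
open Crest.Agent.R165.Locx901 Crest.Agent.R165.GBulkx417 Crest.Agent.R165.PStepx417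
open Crest.Agent.R165.GSysx387 Crest.Agent.R165.GSysOKx439 Crest.Agent.R165.PEndx683
open Crest.Agent.R165.ConstAx729

namespace Crest.Agent.R165.InitQlx417

/-- the zero covariance is Gram with zero weights -/
theorem gram_zero {V : Type*} [AddCommGroup V] [Module ℝ V] :
    Gram (0 : Cov V) (fun _ => 0) := by
  intro L
  cases L with
  | nil => rw [mono_nil, mwt_nil, EE_apply, conv_zero]; simp
  | cons l L => rw [mono_cons, EE_apply, conv_zero]; simp

/-- real numbers: the constants of the step `4 → r'` -/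
theorem sq_four (r' : ℕ) (hr : 64 ≤ r') :
    Real.sqrt r' / Real.sqrt (4 : ℕ) * (((4 : ℕ) : ℝ) / r') = Real.sqrt (4 / r') := by
  have hr0 : (0 : ℝ) < r' := by exact_mod_cast (by omega : 0 < r')
  have h4 : Real.sqrt ((4 : ℕ) : ℝ) = 2 := by
    rw [show ((4 : ℕ) : ℝ) = 2 ^ 2 by norm_num]
    exact Real.sqrt_sq (by norm_num)
  have h5 : Real.sqrt (4 / (r' : ℝ)) = 2 / Real.sqrt r' := by
    rw [Real.sqrt_div (by norm_num), show (4 : ℝ) = 2 ^ 2 by norm_num, Real.sqrt_sq (by norm_num)]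
  have h6 : 0 < Real.sqrt r' := Real.sqrt_pos.2 hr0
  have h7 : Real.sqrt r' * Real.sqrt r' = r' := Real.mul_self_sqrt hr0.le
  rw [h4, h5]
  field_simp
  push_cast
  nlinarith

/-- **the linear part of step 0** -/
theorem nk_Ql4 {C : ℝ} (h : BkReg C) : ∃ (C' : ℝ) (R1 : ℕ), 0 ≤ C' ∧
    ∀ (a : ℝ) (r' : ℕ) (Γ : ℝ≥0∞) (K Ql : Fam), 1 ≤ a → R1 ≤ r' → 1 ≤ Γ → Γ ≠ ∞ →
      (∀ U, K U ≠ 0 → U.Nonempty ∧ size 4 U ≤ 1) →
      (∀ U, (Ql U : Gr (Fld ℤ)) =
        Qlin 0 (fun f => loc2 (md f).P0 (md f).P1) 4 (cof K) U) →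
      nk a r' Γ Ql ≤ ENNReal.ofReal (C' / r') * nk a 4 Γ K := by
  have hC := h.nonneg
  set M : ℝ := 340000 * C + 2 with hMd
  have hM : 1 ≤ M := by linarith
  have hM0 : 0 ≤ M := by linarith
  refine ⟨25728 * M ^ 4, ⌈4 * (20100 * M ^ 4) ^ 2⌉₊ + 64, by positivity, ?_⟩
  intro a r' Γ K Ql ha hr' hΓ hΓt hK hQl
  have ha0 : 0 < a := by linarith
  have hr64 : 64 ≤ r' := by omega
  have hr0 : (0 : ℝ) < r' := by exact_mod_cast (by omega : 0 < r')
  set t : ℝ := Real.sqrt (4 / r') with htd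
  have ht : 0 < t := Real.sqrt_pos.2 (by positivity)
  have ht2 : t ^ 2 = 4 / r' := Real.sq_sqrt (by positivity)
  have hsm : 20100 * M ^ 4 * t ≤ 1 := by
    have h1 : 4 * (20100 * M ^ 4) ^ 2 ≤ r' := by
      refine (Nat.le_ceil _).trans ?_
      exact_mod_cast (by omega : ⌈4 * (20100 * M ^ 4) ^ 2⌉₊ ≤ r')
    have h2 : (20100 * M ^ 4 * t) ^ 2 ≤ 1 := by
      rw [mul_pow, ht2, mul_div_assoc', div_le_one hr0]
      linarith
    have h3 : 0 ≤ 20100 * M ^ 4 * t := by positivity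
    nlinarith
  have hM41 : 1 ≤ M ^ 4 := one_le_pow₀ hM
  have ht1 : t ≤ 1 := by nlinarith
  set c : ℝ := 516 * C + 1 with hcd
  have hc : 0 ≤ c := by positivity
  set x0 : ℝ := (340000 * C + 1) * t with hx0
  set x1 : ℝ := (160000 * C + 1) * t ^ 3 with hx1
  set x2 : ℝ := (170000 * C + 1) * t ^ 5 with hx2
  set x3 : ℝ := t ^ 5 / (1 + c) with hx3
  have p0 : 0 < x0 := by positivity
  have p1 : 0 < x1 := by positivity
  have p2 : 0 < x2 := by positivity
  have p3 : 0 < x3 := by positivity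
  have b0 : x0 ≤ M * t := by
    rw [hx0]; gcongr; linarith
  have b1 : x1 ≤ M * t ^ 3 := by
    rw [hx1]; gcongr; linarith
  have b2 : x2 ≤ M * t ^ 5 := by
    rw [hx2]; gcongr; linarith
  have b3 : x3 * (1 + c) = t ^ 5 := by
    rw [hx3, div_mul_cancel₀ _ (by positivity)]
  have hκ := kapR_le hM ht.le ht1 p0.le p1.le p2.le p3.le hc b0 b1 b2 b3.le
  have hM4 : M ≤ M ^ 4 := le_self_pow₀ hM (by norm_num)
  have hMt : 20100 * (M * t) ≤ 1 := by
    refine le_trans ?_ hsm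
    calc 20100 * (M * t) = 20100 * M * t := by ring
      _ ≤ 20100 * M ^ 4 * t := by gcongr
  have t31 : t ^ 3 ≤ t := pow_le_of_le_one ht.le ht1 (by norm_num)
  have t51 : t ^ 5 ≤ t := pow_le_of_le_one ht.le ht1 (by norm_num)
  have mt : t ≤ M * t := le_mul_of_one_le_left ht.le hM
  have x3c : x3 + x3 * c = t ^ 5 := by linarith [b3, mul_add x3 1 c, mul_one x3]
  have x3le : x3 ≤ t ^ 5 := by nlinarith [mul_nonneg p3.le hc]
  have Mt3 : M * t ^ 3 ≤ M * t := by gcongr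
  have Mt5 : M * t ^ 5 ≤ M * t := by gcongr
  have quarter : (1 / 4 : ℝ≥0∞) = ENNReal.ofReal (1 / 4) := by
    rw [ENNReal.ofReal_div_of_pos (by norm_num)]; simp
  have one : (1 : ℝ≥0∞) = ENNReal.ofReal 1 := ENNReal.ofReal_one.symm
  have s1 : ENNReal.ofReal x1 + ENNReal.ofReal x2 + ENNReal.ofReal x3 +
      ENNReal.ofReal x3 * ENNReal.ofReal c = ENNReal.ofReal (x1 + x2 + x3 + x3 * c) := by
    rw [← ENNReal.ofReal_mul p3.le, ← ENNReal.ofReal_add p1.le p2.le,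
      ← ENNReal.ofReal_add (by positivity) p3.le, ← ENNReal.ofReal_add (by positivity)
        (by positivity)]
  have s2 : ENNReal.ofReal x0 + ENNReal.ofReal x3 * ENNReal.ofReal c =
      ENNReal.ofReal (x0 + x3 * c) := by
    rw [← ENNReal.ofReal_mul p3.le, ← ENNReal.ofReal_add p0.le (by positivity)]
  have hx123 : x1 + x2 + x3 + x3 * c ≤ x0 + x3 * c := by
    have e3 : M * t ^ 3 ≤ t / 10 := by
      have : M * t ^ 3 = (M * t) * t ^ 2 := by ring
      have h2 : t ^ 2 ≤ t := pow_le_of_le_one ht.le ht1 (by norm_num)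
      rw [this]
      calc (M * t) * t ^ 2 ≤ (1 / 10) * t := by
            refine mul_le_mul (by linarith) h2 (by positivity) (by norm_num)
        _ = t / 10 := by ring
    have e5 : M * t ^ 5 ≤ t / 10 := by
      refine le_trans ?_ e3
      gcongr M * ?_
      exact pow_le_pow_of_le_one ht.le ht1 (by norm_num)
    have e6 : t ^ 5 ≤ M * t ^ 5 := le_mul_of_one_le_left (by positivity) hM
    have e7 : t ≤ x0 := by
      rw [hx0]
      exact le_mul_of_one_le_left ht.le (by linarith)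
    linarith
  have N : BulkNum (ENNReal.ofReal x0) (ENNReal.ofReal x1) (ENNReal.ofReal x2)
      (ENNReal.ofReal x3) (ENNReal.ofReal c) := by
    refine ⟨?_, ?_, ?_, ?_, ENNReal.ofReal_ne_top, ENNReal.ofReal_ne_top, ?_, ?_, ?_, ?_⟩
    · exact (ENNReal.ofReal_pos.2 p0).ne'
    · exact (ENNReal.ofReal_pos.2 p1).ne'
    · exact (ENNReal.ofReal_pos.2 p2).ne'
    · exact (ENNReal.ofReal_pos.2 p3).ne'
    · rw [quarter]; exact ENNReal.ofReal_le_ofReal (by linarith)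
    · rw [s1, quarter]; exact ENNReal.ofReal_le_ofReal (by linarith)
    · rw [s1, s2]; exact ENNReal.ofReal_le_ofReal hx123
    · rw [← ENNReal.ofReal_add p0.le p3.le, one]; exact ENNReal.ofReal_le_ofReal (by linarith)
  have hr16 : 16 * 4 ≤ r' := hr64
  have H0 := h.bulkHyp (a := a) (a' := a) (r := 4) (r' := r') Outx683.DD (by decide) ha0 ha0
    (by norm_num) hr16 (j₁ := 2) (j₂ := 0) (N := 1) (by norm_num) (by norm_num)
  have e0 : a * Real.sqrt r' / (a * Real.sqrt ((4 : ℕ) : ℝ)) *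
      ((340000 * C + 1) * ((((4 : ℕ) : ℝ)) / r')) = x0 := by
    rw [mul_div_mul_left _ _ ha0.ne', hx0, htd, ← sq_four r' hr64]; ring
  have e1 : a * Real.sqrt r' / (a * Real.sqrt ((4 : ℕ) : ℝ)) *
      ((160000 * C + 1) * ((((4 : ℕ) : ℝ)) / r') ^ 2) = x1 := by
    rw [mul_div_mul_left _ _ ha0.ne', hx1, show t ^ 3 = t * t ^ 2 by ring, ht2]
    rw [show (4 : ℝ) / r' = ((4 : ℕ) : ℝ) / r' by norm_num, htd, ← sq_four r' hr64]; ring
  have e2 : a * Real.sqrt r' / (a * Real.sqrt ((4 : ℕ) : ℝ)) *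
      ((170000 * C + 1) * ((((4 : ℕ) : ℝ)) / r') ^ 3) = x2 := by
    rw [mul_div_mul_left _ _ ha0.ne', hx2, show t ^ 5 = t * t ^ 2 * t ^ 2 by ring, ht2]
    rw [show (4 : ℝ) / r' = ((4 : ℕ) : ℝ) / r' by norm_num, htd, ← sq_four r' hr64]; ring
  rw [e0, e1, e2] at H0
  have H : BulkHyp w₀ a a 4 r' (fun _ => 0) (fun f => (md f).P0) (fun f => (md f).P1)
      (ENNReal.ofReal x0) (ENNReal.ofReal x1) (ENNReal.ofReal x2) (ENNReal.ofReal x3)
      (ENNReal.ofReal c) :=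
    { g_semi := ⟨rfl, fun _ _ => zero_le, fun _ _ => zero_le⟩
      W0 := fun _ _ _ => zero_le
      W1 := H0.W1
      W2a := H0.W2a
      W2b := H0.W2b
      W2c := H0.W2c
      W2d := H0.W2d }
  have key : nk a r' Γ Ql ≤ kap (ENNReal.ofReal x0) (ENNReal.ofReal x1) (ENNReal.ofReal x2)
      (ENNReal.ofReal x3) (ENNReal.ofReal c) * (((2 * (r' / 4) + 3) ^ 2 : ℕ) * nk a 4 Γ K) := by
    refine DefRecx915.NN_step2 (fun U hU => ?_) (cov_fd (by norm_num) r')
    have hKU : K U ≠ 0 := by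
      intro h0
      apply hU
      rw [pG_def, hQl, Qlin_zero _ _ _ (show cof K U = 0 by rw [cof, h0]; rfl), pnorm_zero]
    obtain ⟨hne, hs⟩ := hK U hKU
    have h1 : pG (wU w₀ a r' U) (Ql U) ≤ kap (ENNReal.ofReal x0) (ENNReal.ofReal x1)
        (ENNReal.ofReal x2) (ENNReal.ofReal x3) (ENNReal.ofReal c) * pG (wU w₀ a 4 U) (K U) := by
      rw [pG_def, hQl, pG_def]
      exact pnorm_Qlin_small H N gram_zero fin_P0 rank_P0 (isEv_cof K) hne hs
    have h2 : Γ ^ pack fd r' U ≤ Γ ^ pack fd 4 U :=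
      pow_le_pow_right₀ hΓ (pack_anti (by omega))
    calc Γ ^ pack fd r' U * pG (wU w₀ a r' U) (Ql U) ≤ Γ ^ pack fd 4 U * (kap
          (ENNReal.ofReal x0) (ENNReal.ofReal x1) (ENNReal.ofReal x2) (ENNReal.ofReal x3)
          (ENNReal.ofReal c) * pG (wU w₀ a 4 U) (K U)) := mul_le_mul' h2 h1
      _ = _ := by ring
  refine key.trans ?_
  rw [← mul_assoc]
  refine mul_le_mul_left ?_ _
  rw [kap_ofReal p0.le p1.le p2.le p3.le hc]
  have hn : ((((2 * (r' / 4) + 3) ^ 2 : ℕ)) : ℝ) ≤ (r' : ℝ) ^ 2 := by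
    have h1 : 2 * (r' / 4) + 3 ≤ r' := by omega
    exact_mod_cast Nat.pow_le_pow_left h1 2
  rw [← ENNReal.ofReal_natCast, ← ENNReal.ofReal_mul (kapR_nonneg p0.le p1.le p2.le p3.le hc)]
  refine ENNReal.ofReal_le_ofReal ?_
  have ht6 : t ^ 6 = 64 / (r' : ℝ) ^ 3 := by
    rw [show t ^ 6 = (t ^ 2) ^ 3 by ring, ht2, div_pow]; norm_num
  calc kapR x0 x1 x2 x3 c * ((((2 * (r' / 4) + 3) ^ 2 : ℕ)) : ℝ)
      ≤ (402 * M ^ 4 * t ^ 6) * (r' : ℝ) ^ 2 := by
        refine mul_le_mul hκ hn (by positivity) (by positivity)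
    _ = 25728 * M ^ 4 / r' := by
        rw [ht6]; field_simp; ring

end Crest.Agent.R165.InitQlx417
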