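import Crest.Agent.R165.Init0_541
import Crest.Agent.R165.InitN_682
import Crest.Agent.R165.InitQl_417

/-!
# Row 165 (S0250), P7: the explicit first order part through the linear step (helper877)

* `Kex_shape`   : the supports of `Kex` have diameter `≤ 2`
* `QlG_Kex_eq`  : `QlG S r (Kex p z) = Qlin 0 .. 4 (Kex p z)` for every `S` and `r ≥ 2`
* `nk_Kex_le`   : `nk a 4 Γ (Kex p z) ≤ Γ * 12675 a² (|p| + |z|)`
* `nk_QlG_Kex`  : `nk a r' Γ (QlG S r (Kex p z)) ≤ Γ * C' a² (|p| + |z|) / r'`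
-/

set_option autoImplicit false

noncomputable section

open scoped ENNReal
open Crest.ProbabilityR.IsingModel
open Crest.Agent.R165.Gr0x606 Crest.Agent.R165.Gr1x606 Crest.Agent.R165.Latx683
open Crest.Agent.R165.PNormx417 Crest.Agent.R165.GDefx387
open Crest.Agent.R165.GeOpsx337 Crest.Agent.R165.Bridgex915
open Crest.Agent.R165.NSumx915
open Crest.Agent.R165.PlaneModesx901 Crest.Agent.R165.PlaneLocx901 Crest.Agent.R165.PlaneCoefx901
open Crest.Agent.R165.PEndx683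
open Crest.Agent.R165.J4Geox126 Crest.Agent.R165.J4Defx653 Crest.Agent.R165.J4Pathx653
open Crest.Agent.R165.PStepx417 Crest.Agent.R165.PStepIdx901 Crest.Agent.R165.GBulkx417
open Crest.Agent.R165.Initx541

namespace Crest.Agent.R165.InitExx877

/-- diameter at most two -/
def D2 (Y : Finset Fc) : Prop :=
  ∀ a ∈ Y, ∀ b ∈ Y, (a.1 - b.1).natAbs ≤ 2 ∧ (a.2 - b.2).natAbs ≤ 2

theorem d2_Yf (j : Fin 2) : D2 (Yf (pr ((0 : ℤ × ℤ), j))) := by
  unfold D2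
  fin_cases j
  · have e : Yf (pr ((0 : ℤ × ℤ), (0 : Fin 2))) = _ := PlaneNumx901.Yf0
    simp only [Fin.zero_eta]
    rw [e]
    decide
  · have e : Yf (pr ((0 : ℤ × ℤ), (1 : Fin 2))) = _ := PlaneNumx901.Yf1
    simp only [Fin.mk_one]
    rw [e]
    decide

theorem d2_faE (j : Fin 2) : D2 (faE ((0 : ℤ × ℤ), j)) := by
  unfold D2
  fin_cases j
  · have e : faE (((0 : ℤ × ℤ), (0 : Fin 2)) : Bkgx683.EG ℤ) = _ := PlaneNumx901.faE0
    simp only [Fin.zero_eta]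
    rw [e]
    decide
  · have e : faE (((0 : ℤ × ℤ), (1 : Fin 2)) : Bkgx683.EG ℤ) = _ := PlaneNumx901.faE1
    simp only [Fin.mk_one]
    rw [e]
    decide

theorem d2_zero : D2 {(0 : Fc)} := by
  intro a ha b hb
  rw [Finset.mem_singleton] at ha hb
  subst ha hb
  simp

theorem D2.fd_le {Y : Finset Fc} (hY : D2 Y) {U : Finset Fc} {u : Fc}
    (hU : Y.image (fz u) = U) : ∀ x ∈ U, ∀ y ∈ U, fd x y ≤ 2 := by
  subst hU
  intro x hx y hy
  obtain ⟨a, ha, rfl⟩ := Finset.mem_image.1 hx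
  obtain ⟨b, hb, rfl⟩ := Finset.mem_image.1 hy
  exact fd_fz_le (hY a ha b hb).1 (hY a ha b hb).2 u

/-- the supports of the explicit family -/
theorem Kex_shape {p z : ℝ} {U : Finset Fc} (h : Kex p z U ≠ 0) :
    U.Nonempty ∧ ∀ x ∈ U, ∀ y ∈ U, fd x y ≤ 2 := by
  have key : ∀ Y : Finset Fc, D2 Y → ∀ a : Fc → Ge (Fld ℤ), trF Y a U ≠ 0 →
      U.Nonempty ∧ ∀ x ∈ U, ∀ y ∈ U, fd x y ≤ 2 := by
    intro Y hY a ha
    obtain ⟨u, hu, hU⟩ := trF_ne ha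
    exact ⟨⟨u, hu⟩, hY.fd_le hU⟩
  by_contra hc
  apply h
  have z1 : ∀ j : Fin 2, trF (Yf (pr ((0 : ℤ × ℤ), j))) (bu j) U = 0 := fun j => by
    by_contra h0
    exact hc (key _ (d2_Yf j) _ h0)
  have z2 : ∀ j : Fin 2, trF (faE ((0 : ℤ × ℤ), j)) (bu j) U = 0 := fun j => by
    by_contra h0
    exact hc (key _ (d2_faE j) _ h0)
  have z3 : trF {0} frP.I4 U = 0 := by
    by_contra h0
    exact hc (key _ d2_zero _ h0)
  unfold Kex Kp Kz
  simp only [z1, z2, z3, Finset.sum_const_zero, smul_zero, add_zero]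

theorem Kex_size {p z : ℝ} {U : Finset Fc} {s : ℕ} (hs : 2 ≤ s) (h : Kex p z U ≠ 0) :
    size s U ≤ 1 :=
  size_le_one_iff.2 fun x hx y hy => ((Kex_shape h).2 x hx y hy).trans hs

/-! ### the linear step does not see the covariance -/

theorem QlG_Kex_eq (S : Cov (Fld ℤ)) {r : ℕ} (hr : 2 ≤ r) (p z : ℝ) (U : Finset Fc) :
    ((QlG S r (Kex p z) U : Ge (Fld ℤ)) : Gr (Fld ℤ)) =
      Qlin 0 (fun f => loc2 (md f).P0 (md f).P1) 4 (cof (Kex p z)) U := by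
  have e : (fun f : Fc => loc2 (md f).P0 (md f).P1) = LocAt := funext loc2_md
  rw [coe_QlG, e]
  by_cases h0 : Kex p z U = 0
  · rw [Qlin_zero, Qlin_zero]
    · rw [cof, h0]; rfl
    · rw [h0]; rfl
  · obtain ⟨c, hc⟩ := PlaneNumx901.quad_Kx p z U S
    obtain ⟨c0, hc0⟩ := PlaneNumx901.quad_Kx p z U 0
    rw [← coe_Kex] at hc hc0
    rw [Qlin, Qlin, if_pos (Kex_size hr h0), if_pos (Kex_size (by norm_num) h0)]
    rw [cof, hc, hc0]
    have h00 : ∀ t : ℝ, hom 0 (algebraMap ℝ (Gr (Fld ℤ)) t) = algebraMap ℝ (Gr (Fld ℤ)) t := by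
      intro t
      rw [hom_zero_eq, AlgHom.commutes, Algebra.algebraMap_self_apply]
    simp only [map_add, LocAt_const, add_zero, h00]
    abel

/-! ### the size of the explicit family at scale four -/

theorem nk_trF_le {a : ℝ} {Γ : ℝ≥0∞} (hΓ : 1 ≤ Γ) {Y : Finset Fc} (hY : D2 Y)
    {b : Fc → Ge (Fld ℤ)} {B : ℝ≥0∞}
    (hB : ∀ u, pG (wU w₀ a 4 (Y.image (fz u))) (b u) ≤ B) :
    nk a 4 Γ (trF Y b) ≤ 169 * (Γ * B) := by
  refine iSup_le fun f => ?_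
  have h1 : bs fd 4 Γ (fun U => pG (wU w₀ a 4 U) (trF Y b U)) f ≤
      ∑' U, ∑ u ∈ MetGx723.boxG f 6, (if Y.image (fz u) = U then Γ * B else 0) := by
    refine ENNReal.tsum_le_tsum fun U => ?_
    by_cases hn : near fd 4 f U
    · rw [Set.indicator_of_mem (by exact hn)]
      by_cases hex : trF Y b U = 0
      · show Γ ^ Packx915.pack fd 4 U * pG (wU w₀ a 4 U) (trF Y b U) ≤ _
        rw [hex, pG_zero, mul_zero]
        exact zero_le
      obtain ⟨u0, hu0, hU0⟩ := trF_ne hex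
      have hd := hY.fd_le hU0
      have hp : Packx915.pack fd 4 U ≤ 1 :=
        (Packx915.pack_le_one_iff pd_fd).2 fun x hx y hy => (hd x hx y hy).trans (by norm_num)
      have hp' : Γ ^ Packx915.pack fd 4 U ≤ Γ := (pow_le_pow_right₀ hΓ hp).trans (pow_one _).le
      have h2 : pG (wU w₀ a 4 U) (trF Y b U) ≤
          ∑ u ∈ U, if Y.image (fz u) = U then B else 0 := by
        refine (pG_sum_le _ _ _).trans (Finset.sum_le_sum fun u _ => ?_)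
        split_ifs with h
        · have h3 := hB u
          rwa [h] at h3
        · rw [pG_zero]
      refine (mul_le_mul' hp' h2).trans ?_
      rw [← Finset.sum_filter, ← Finset.sum_filter, Finset.mul_sum]
      refine Finset.sum_le_sum_of_subset fun u hu => ?_
      rw [Finset.mem_filter] at hu ⊢
      refine ⟨?_, hu.2⟩
      rw [MetGx723.mem_boxG, ← fd_eq_dG, fd_comm]
      obtain ⟨v, hv, hfv⟩ := hn
      exact (fd_triangle f v u).trans (by have := hd v hv u hu.1; omega)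
    · rw [Set.indicator_of_notMem (by exact hn)]
      exact zero_le
  refine h1.trans ?_
  rw [Summable.tsum_finsetSum fun _ _ => ENNReal.summable]
  have h3 : ∀ u ∈ MetGx723.boxG f 6, (∑' U : Finset Fc, if Y.image (fz u) = U then Γ * B else 0) ≤
      Γ * B := by
    intro u _
    rw [tsum_eq_single (Y.image (fz u)) fun U hU => if_neg fun h => hU h.symm, if_pos rfl]
  refine (Finset.sum_le_sum h3).trans ?_
  rw [Finset.sum_const, nsmul_eq_mul]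
  refine mul_le_mul_left ?_ _
  have h4 := MetGx723.card_boxG_le f 6
  have h5 : ((MetGx723.boxG f 6).card : ℝ≥0∞) ≤ ((169 : ℕ) : ℝ≥0∞) :=
    Nat.cast_le.2 (h4.trans (by norm_num))
  exact h5

theorem faE_pair (u : ℤ × ℤ) (j : Fin 2) :
    (faE ((0 : ℤ × ℤ), j)).image (fz u) = faE (u, j) := by
  rw [← faE_ez]
  unfold ez
  simp

theorem faE_sub_Yf (u : ℤ × ℤ) (j : Fin 2) :
    faE (u, j) ⊆ (Yf (pr ((0 : ℤ × ℤ), j))).image (fz u) := by
  rw [← faE_pair]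
  refine Finset.image_subset_image (faE_subset ?_)
  have h1 : (0 : ℤ × ℤ) ∈ pr ((0 : ℤ × ℤ), j) := by simp [pr]
  have h2 : (0 : ℤ × ℤ) + unitVec j ∈ pr ((0 : ℤ × ℤ), j) := by simp [pr]
  exact ⟨subset_hull _ (Finset.mem_coe.2 h1), subset_hull _ (Finset.mem_coe.2 h2)⟩

theorem nk_Kex_le {a : ℝ} (ha : 1 ≤ a) {Γ : ℝ≥0∞} (hΓ : 1 ≤ Γ) (p z : ℝ) :
    nk a 4 Γ (Kex p z) ≤ Γ * ENNReal.ofReal (12675 * a ^ 2 * (|p| + |z|)) := by
  have hN := InitNx682.nhyp_id w₀ (by linarith : 0 ≤ a) 4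
  set c : ℝ := InitNx682.cB a 4 with hc
  have hc' : c ≤ 25 * a ^ 2 := by
    rw [hc, InitNx682.cB]
    push_cast
    nlinarith
  have hc0 : 0 ≤ c := zero_le_one.trans hN.c1
  set A : ℝ≥0∞ := 169 * (Γ * ENNReal.ofReal c) with hA
  have t1 : ∀ j : Fin 2, nk a 4 Γ (trF (Yf (pr ((0 : ℤ × ℤ), j))) (bu j)) ≤ A := fun j =>
    nk_trF_le hΓ (d2_Yf j) fun u => hN.b _ (u, j) (faE_sub_Yf u j)
  have t2 : ∀ j : Fin 2, nk a 4 Γ (trF (faE ((0 : ℤ × ℤ), j)) (bu j)) ≤ A := fun j =>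
    nk_trF_le hΓ (d2_faE j) fun u => hN.b _ (u, j) (faE_pair u j).symm.subset
  have t3 : nk a 4 Γ (trF {0} frP.I4) ≤ A :=
    nk_trF_le hΓ d2_zero fun u => hN.I4 _ u (by simp)
  have h2 : Real.sqrt 2 * Real.sqrt 2 = 2 := Real.mul_self_sqrt (by norm_num)
  have h3 : 0 ≤ Real.sqrt 2 := Real.sqrt_nonneg 2
  have hx0 : 0 ≤ xc := by unfold xc; nlinarith
  have hx1 : 2 * xc ≤ 1 := by unfold xc; nlinarith
  have e1 : ‖-(2 * xc)‖ₑ ≤ 1 := by
    rw [Real.enorm_eq_ofReal_abs, abs_neg, abs_of_nonneg (by linarith)]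
    exact ENNReal.ofReal_le_one.2 hx1
  have e2 : ‖xc‖ₑ ≤ 1 := by
    rw [Real.enorm_eq_ofReal_abs, abs_of_nonneg hx0]
    exact ENNReal.ofReal_le_one.2 (by linarith)
  have hpt : ∀ U : Finset Fc, pG (wU w₀ a 4 U) (Kex p z U) ≤
      ‖p‖ₑ * (pG (wU w₀ a 4 U) (trF (Yf (pr ((0 : ℤ × ℤ), 0))) (bu 0) U) +
        pG (wU w₀ a 4 U) (trF (Yf (pr ((0 : ℤ × ℤ), 1))) (bu 1) U)) +
      ‖z‖ₑ * (pG (wU w₀ a 4 U) (trF {0} frP.I4 U) +
        (pG (wU w₀ a 4 U) (trF (faE ((0 : ℤ × ℤ), 0)) (bu 0) U) +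
          pG (wU w₀ a 4 U) (trF (faE ((0 : ℤ × ℤ), 1)) (bu 1) U))) := by
    intro U
    unfold Kex Kp Kz
    rw [Fin.sum_univ_two, Fin.sum_univ_two]
    refine (pG_add_le _ _ _).trans (add_le_add ?_ ?_)
    · refine (pG_smul_le _ _ _).trans (mul_le_mul_right ?_ _)
      refine (pG_smul_le _ _ _).trans ((mul_le_of_le_one_left zero_le e1).trans ?_)
      exact pG_add_le _ _ _
    · refine (pG_smul_le _ _ _).trans (mul_le_mul_right ?_ _)
      refine (pG_add_le _ _ _).trans (add_le_add le_rfl ?_)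
      refine (pG_smul_le _ _ _).trans ((mul_le_of_le_one_left zero_le e2).trans ?_)
      exact pG_add_le _ _ _
  have hmain : nk a 4 Γ (Kex p z) ≤ ‖p‖ₑ * (A + A) + ‖z‖ₑ * (A + (A + A)) := by
    refine (NN_mono hpt).trans ((NN_add_le _ _).trans (add_le_add ?_ ?_))
    · refine (NN_smul_le _ _).trans (mul_le_mul_right ?_ _)
      exact (NN_add_le _ _).trans (add_le_add (t1 0) (t1 1))
    · refine (NN_smul_le _ _).trans (mul_le_mul_right ?_ _)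
      refine (NN_add_le _ _).trans (add_le_add t3 ?_)
      exact (NN_add_le _ _).trans (add_le_add (t2 0) (t2 1))
  refine hmain.trans ?_
  have h4 : ‖p‖ₑ * (A + A) + ‖z‖ₑ * (A + (A + A)) ≤ (‖p‖ₑ + ‖z‖ₑ) * (3 * A) := by
    have h5 : A + A ≤ 3 * A := by
      calc A + A ≤ A + A + A := le_self_add
        _ = 3 * A := by ring
    have h6 : A + (A + A) = 3 * A := by ring
    rw [h6, add_mul]
    exact add_le_add (mul_le_mul_right h5 _) le_rfl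
  refine h4.trans (le_of_eq_of_le (b := Γ * ENNReal.ofReal (507 * c * (|p| + |z|))) ?_ ?_)
  · rw [hA, Real.enorm_eq_ofReal_abs, Real.enorm_eq_ofReal_abs,
      ← ENNReal.ofReal_add (abs_nonneg _) (abs_nonneg _), ENNReal.ofReal_mul (by positivity),
      ENNReal.ofReal_mul (by norm_num)]
    rw [show ENNReal.ofReal 507 = 3 * 169 by norm_num]
    ring
  · refine mul_le_mul_right (ENNReal.ofReal_le_ofReal ?_) _
    refine mul_le_mul_of_nonneg_right ?_ (by positivity)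
    linarith

/-! ### assembly -/

/-- the linear step from scale four -/
def Lin4 : Prop := ∃ (C' : ℝ) (R1 : ℕ), 0 ≤ C' ∧ ∀ (a : ℝ) (r' : ℕ) (Γ : ℝ≥0∞) (K Ql : Fam),
  1 ≤ a → R1 ≤ r' → 1 ≤ Γ → Γ ≠ ⊤ → (∀ U, K U ≠ 0 → U.Nonempty ∧ size 4 U ≤ 1) →
  (∀ U, (Ql U : Gr (Fld ℤ)) = Qlin 0 (fun f => loc2 (md f).P0 (md f).P1) 4 (cof K) U) →
  nk a r' Γ Ql ≤ ENNReal.ofReal (C' / r') * nk a 4 Γ K

theorem nk_QlG_Kex_of (h : Lin4) : ∃ (C' : ℝ) (R1 : ℕ), 0 ≤ C' ∧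
    ∀ (a : ℝ) (r r' : ℕ) (Γ : ℝ≥0∞) (S : Cov (Fld ℤ)) (p z : ℝ), 1 ≤ a → 8 ≤ r → R1 ≤ r' →
      1 ≤ Γ → Γ ≠ ⊤ →
      nk a r' Γ (QlG S r (Kex p z)) ≤ Γ * ENNReal.ofReal (C' * a ^ 2 * (|p| + |z|) / r') := by
  obtain ⟨C', R1, hC, h⟩ := h
  refine ⟨C' * 12675, R1, by positivity, fun a r r' Γ S p z ha hr hr' hΓ hΓt => ?_⟩
  refine (h a r' Γ (Kex p z) (QlG S r (Kex p z)) ha hr' hΓ hΓt
    (fun U hU => ⟨(Kex_shape hU).1, Kex_size (by norm_num) hU⟩)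
    (fun U => QlG_Kex_eq S (by omega) p z U)).trans ?_
  refine (mul_le_mul_right (nk_Kex_le ha hΓ p z) _).trans (le_of_eq ?_)
  rw [mul_left_comm, ← ENNReal.ofReal_mul (by positivity)]
  congr 2
  ring

/-- **the explicit first order part through the first linear step** -/
theorem nk_QlG_Kex {C : ℝ} (h : W2x812.BkReg C) : ∃ (C' : ℝ) (R1 : ℕ), 0 ≤ C' ∧
    ∀ (a : ℝ) (r r' : ℕ) (Γ : ℝ≥0∞) (S : Cov (Fld ℤ)) (p z : ℝ), 1 ≤ a → 8 ≤ r → R1 ≤ r' →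
      1 ≤ Γ → Γ ≠ ⊤ →
      nk a r' Γ (QlG S r (Kex p z)) ≤ Γ * ENNReal.ofReal (C' * a ^ 2 * (|p| + |z|) / r') :=
  nk_QlG_Kex_of (InitQlx417.nk_Ql4 h)

end Crest.Agent.R165.InitExx877
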