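import Crest.Agent.R165.J4K0P_871

/-!
# Row 165 (S0250), block INIT: bounds of the explicit first order part (helper871)
-/

set_option autoImplicit false
set_option linter.unusedSectionVars false

noncomputable section

open Finset
open scoped ENNReal
open Crest.ProbabilityR.IsingModel

namespace Crest.Agent.R165.J4K0Qx871

open Crest.Agent.R165.J4Actx126
open Crest.Agent.R165.J4Datx126 Crest.Agent.R165.J4Geox126 Crest.Agent.R165.J4K0x126
open Crest.Agent.R165.J4K0Bx126 Crest.Agent.R165.J4K0Px871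
open Crest.Agent.R165.J4Defx653 Crest.Agent.R165.J4Pathx653
open Crest.Agent.R165.J4RRx653 Crest.Agent.R165.J4RRAx653
open Crest.Agent.R165.J1ax606 (HE EG pe qe pe_zero pe_one qe_zero qe_one)
open Crest.Agent.R165.Bkgx683 (MPar mpar Srcs noSrc Bg)
open Crest.Agent.R165.Latx683 (xc wPl)
open Crest.Agent.R165.KInitx892 Crest.Agent.R165.NSumx915

/-! ### norms of anchored families -/

section NI
variable {A : Type*} [CommRing A] [Algebra ℝ A] {N : Finset (ℤ × ℤ) → A → ℝ≥0∞} {Γ : ℝ≥0∞}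

theorem NI_anc_le (hN : ∀ U, FSemi (N U)) (Y₀ : Finset (ℤ × ℤ)) (a : ℤ × ℤ → A) {κ : ℝ≥0∞}
    (h : ∀ u, N (Y₀.image (fz u)) (a u) ≤ κ) (Γ : ℝ≥0∞) :
    NI (G := ℤ) Γ (fun U => N U (anc Y₀ a U)) ≤ Γ ^ Y₀.card * (Y₀.card * κ) := by
  classical
  unfold NI
  refine iSup_le fun f => ?_
  set S : Finset (ℤ × ℤ) := Y₀.image (fun y => f - y) with hS
  have hpt : ∀ U : Finset (ℤ × ℤ), Set.indicator {U : Finset (ℤ × ℤ) | f ∈ U}
      (fun U => Γ ^ U.card * N U (anc Y₀ a U)) U ≤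
      ∑ u ∈ S, (if U = Y₀.image (fz u) then Γ ^ Y₀.card * κ else 0) := by
    intro U
    by_cases hf : f ∈ U
    · rw [Set.indicator_of_mem (show U ∈ {U : Finset (ℤ × ℤ) | f ∈ U} from hf)]
      have h1 : N U (anc Y₀ a U) ≤ ∑ u ∈ U, (if Y₀.image (fz u) = U then κ else 0) := by
        unfold anc
        refine ((hN U).sum _ _).trans (Finset.sum_le_sum fun u _ => ?_)
        by_cases hu : Y₀.image (fz u) = U
        · rw [if_pos hu, if_pos hu]
          have := h u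
          rwa [hu] at this
        · rw [if_neg hu, if_neg hu, (hN U).zero]
      have h2 : ∑ u ∈ U, (if Y₀.image (fz u) = U then κ else 0) ≤
          ∑ u ∈ S, (if U = Y₀.image (fz u) then κ else 0) := by
        rw [← Finset.sum_filter, ← Finset.sum_filter]
        refine Finset.sum_le_sum_of_subset fun u hu => ?_
        rw [Finset.mem_filter] at hu ⊢
        refine ⟨?_, hu.2.symm⟩
        rw [← hu.2, Finset.mem_image] at hf
        obtain ⟨y, hy, hyf⟩ := hf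
        rw [hS, Finset.mem_image]
        refine ⟨y, hy, ?_⟩
        rw [← hyf, fz_int]
        abel
      calc Γ ^ U.card * N U (anc Y₀ a U)
          ≤ Γ ^ U.card * ∑ u ∈ S, (if U = Y₀.image (fz u) then κ else 0) := by
            gcongr; exact h1.trans h2
        _ = ∑ u ∈ S, (if U = Y₀.image (fz u) then Γ ^ Y₀.card * κ else 0) := by
            rw [Finset.mul_sum]
            refine Finset.sum_congr rfl fun u _ => ?_
            split_ifs with hu
            · rw [hu, card_image_fz]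
            · rw [mul_zero]
    · rw [Set.indicator_of_notMem (show U ∉ {U : Finset (ℤ × ℤ) | f ∈ U} from hf)]
      exact zero_le
  refine (ENNReal.tsum_le_tsum hpt).trans ?_
  rw [Summable.tsum_finsetSum fun _ _ => ENNReal.summable]
  have h3 : ∀ u ∈ S, ∑' U : Finset (ℤ × ℤ), (if U = Y₀.image (fz u) then Γ ^ Y₀.card * κ else 0) =
      Γ ^ Y₀.card * κ := fun u _ => tsum_ite_eq _ _
  rw [Finset.sum_congr rfl h3, Finset.sum_const, nsmul_eq_mul]
  have h4 : S.card ≤ Y₀.card := Finset.card_image_le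
  calc (S.card : ℝ≥0∞) * (Γ ^ Y₀.card * κ) ≤ (Y₀.card : ℝ≥0∞) * (Γ ^ Y₀.card * κ) := by gcongr
    _ = _ := by ring

theorem NI_mono {x y : Finset (ℤ × ℤ) → ℝ≥0∞} (h : ∀ U, x U ≤ y U) (Γ : ℝ≥0∞) :
    NI (G := ℤ) Γ x ≤ NI (G := ℤ) Γ y := by
  rw [← NN_eq_NI, ← NN_eq_NI]
  exact NN_mono h

theorem NI_add_le (hN : ∀ U, FSemi (N U)) (F F' : Finset (ℤ × ℤ) → A) :
    NI (G := ℤ) Γ (fun U => N U (F U + F' U)) ≤
      NI (G := ℤ) Γ (fun U => N U (F U)) + NI (G := ℤ) Γ (fun U => N U (F' U)) := by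
  refine (NI_mono (fun U => (hN U).add _ _) Γ).trans ?_
  rw [← NN_eq_NI, ← NN_eq_NI, ← NN_eq_NI]
  exact NN_add_le _ _

theorem NI_sum_le (hN : ∀ U, FSemi (N U)) {ι : Type*} (s : Finset ι)
    (F : ι → Finset (ℤ × ℤ) → A) :
    NI (G := ℤ) Γ (fun U => N U (∑ i ∈ s, F i U)) ≤
      ∑ i ∈ s, NI (G := ℤ) Γ (fun U => N U (F i U)) := by
  classical
  induction s using Finset.induction_on with
  | empty =>
    simp only [Finset.sum_empty]
    have : (fun U : Finset (ℤ × ℤ) => N U (0 : A)) = fun _ => 0 := by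
      funext U; exact (hN U).zero
    rw [this, ← NN_eq_NI, NN_zero]
  | insert i s hi ih =>
    simp only [Finset.sum_insert hi]
    exact (NI_add_le hN _ _).trans (add_le_add le_rfl ih)

theorem NI_smul_le (hN : ∀ U, FSemi (N U)) (r : ℝ) (F : Finset (ℤ × ℤ) → A) :
    NI (G := ℤ) Γ (fun U => N U (r • F U)) ≤ ‖r‖ₑ * NI (G := ℤ) Γ (fun U => N U (F U)) := by
  refine (NI_mono (fun U => (hN U).smul r _) Γ).trans ?_
  rw [← NN_eq_NI, ← NN_eq_NI]
  exact NN_smul_le _ _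

end NI

/-! ### elementary inequalities -/

theorem abs_exp_sub_one_le {x : ℝ} (hx : |x| ≤ 1) : |Real.exp x - 1| ≤ 3 * |x| := by
  have := abs_exp_sub_le (x := x) (y := 0) hx (by simp)
  simpa using this

theorem mem_Icc_of {x s : ℝ} (h : |x| ≤ s) : x ∈ Set.Icc (-s) s := ⟨(abs_le.1 h).1, (abs_le.1 h).2⟩

theorem abs_phi_sub_le {t t' s : ℝ} (hs : s ≤ 1) (ht : |t| ≤ s) (ht' : |t'| ≤ s) :
    |(Real.exp t - 1 - t) - (Real.exp t' - 1 - t')| ≤ 3 * s * |t - t'| := by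
  have h := Convex.norm_image_sub_le_of_norm_hasDerivWithin_le (𝕜 := ℝ)
    (f := fun t : ℝ => Real.exp t - 1 - t) (f' := fun t => Real.exp t - 1) (C := 3 * s)
    (s := Set.Icc (-s) s) (x := t') (y := t)
    (fun x _ => (((Real.hasDerivAt_exp x).sub_const 1).sub (hasDerivAt_id x)).hasDerivWithinAt)
    (fun x hx => ?_) (convex_Icc _ _) (mem_Icc_of ht') (mem_Icc_of ht)
  · simpa [Real.norm_eq_abs] using h
  · have hx' : |x| ≤ s := abs_le.2 ⟨hx.1, hx.2⟩
    rw [Real.norm_eq_abs]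
    exact (abs_exp_sub_one_le (hx'.trans hs)).trans (by linarith)

theorem abs_psi_sub_le {t t' s : ℝ} (hs : s ≤ 1) (ht : |t| ≤ s) (ht' : |t'| ≤ s) :
    |(Real.sinh t - t) - (Real.sinh t' - t')| ≤ 3 * s * |t - t'| := by
  have h := Convex.norm_image_sub_le_of_norm_hasDerivWithin_le (𝕜 := ℝ)
    (f := fun t : ℝ => Real.sinh t - t) (f' := fun t => Real.cosh t - 1) (C := 3 * s)
    (s := Set.Icc (-s) s) (x := t') (y := t)
    (fun x _ => ((Real.hasDerivAt_sinh x).sub (hasDerivAt_id x)).hasDerivWithinAt)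
    (fun x hx => ?_) (convex_Icc _ _) (mem_Icc_of ht') (mem_Icc_of ht)
  · simpa [Real.norm_eq_abs] using h
  · have hx' : |x| ≤ s := abs_le.2 ⟨hx.1, hx.2⟩
    rw [Real.norm_eq_abs]
    have := abs_cosh_sub_le (x := x) (y := 0) (hx'.trans hs) (by simp)
    rw [Real.cosh_zero, sub_zero] at this
    linarith

theorem abs_sinh_le {t : ℝ} (ht : |t| ≤ 1) : |Real.sinh t| ≤ 3 * |t| := by
  have := abs_sinh_sub_le (x := t) (y := 0) ht (by simp)
  simpa using this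

/-- first coefficient: size -/
theorem A1_le {t p s Λ : ℝ} (hs : |p| ≤ s) (hΛ : |t - p| ≤ Λ) (h1 : s + Λ ≤ 1) :
    |Real.exp t - 1 - p| ≤ 3 * (s + Λ) ^ 2 + Λ := by
  have h0 : 0 ≤ s := (abs_nonneg _).trans hs
  have h0' : 0 ≤ Λ := (abs_nonneg _).trans hΛ
  have ht : |t| ≤ s + Λ := by
    have e : t = p + (t - p) := by ring
    rw [e]; exact (abs_add_le _ _).trans (by linarith)
  have h := abs_phi_sub_le (t := t) (t' := 0) h1 ht (by rw [abs_zero]; linarith)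
  rw [Real.exp_zero, sub_self, sub_zero, sub_zero, sub_zero] at h
  have e : Real.exp t - 1 - p = (Real.exp t - 1 - t) + (t - p) := by ring
  rw [e]
  refine (abs_add_le _ _).trans (add_le_add (h.trans ?_) hΛ)
  nlinarith [abs_nonneg t]

/-- second coefficient: size -/
theorem A2_le {t p z s Λ : ℝ} (hs : |p| ≤ s) (hz : |z| ≤ s) (hΛ : |t - p| ≤ Λ)
    (h1 : s + Λ ≤ 1) : |Real.sinh t * (1 + z) - p| ≤ 6 * (s + Λ) ^ 2 + Λ := by
  have h0 : 0 ≤ s := (abs_nonneg _).trans hs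
  have h0' : 0 ≤ Λ := (abs_nonneg _).trans hΛ
  have ht : |t| ≤ s + Λ := by
    have e : t = p + (t - p) := by ring
    rw [e]; exact (abs_add_le _ _).trans (by linarith)
  have h := abs_psi_sub_le (t := t) (t' := 0) h1 ht (by rw [abs_zero]; linarith)
  rw [Real.sinh_zero, sub_self, sub_zero, sub_zero] at h
  have h3 := abs_sinh_le (ht.trans h1)
  have e : Real.sinh t * (1 + z) - p = (Real.sinh t - t) + (t - p) + z * Real.sinh t := by ring
  rw [e]
  refine (abs_add_le _ _).trans ?_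
  have h4 := abs_add_le (Real.sinh t - t) (t - p)
  rw [abs_mul]
  have h5 : |z| * |Real.sinh t| ≤ s * (3 * (s + Λ)) :=
    mul_le_mul hz (h3.trans (by linarith)) (abs_nonneg _) h0
  have h6 : 3 * (s + Λ) * |t| ≤ 3 * (s + Λ) * (s + Λ) :=
    mul_le_mul_of_nonneg_left ht (by positivity)
  nlinarith

/-- first coefficient: differences -/
theorem A1_sub_le {t t' p p' s Λ δ : ℝ} (hs : |p| ≤ s) (hs' : |p'| ≤ s)
    (hΛ : |t - p| ≤ Λ) (hΛ' : |t' - p'| ≤ Λ) (h1 : s + Λ ≤ 1) (hp : |p - p'| ≤ δ)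
    (hq : |(t - p) - (t' - p')| ≤ Λ * δ) :
    |(Real.exp t - 1 - p) - (Real.exp t' - 1 - p')| ≤ 7 * (s + Λ) * δ := by
  have h0 : 0 ≤ s := (abs_nonneg _).trans hs
  have h0' : 0 ≤ Λ := (abs_nonneg _).trans hΛ
  have h0'' : 0 ≤ δ := (abs_nonneg _).trans hp
  have ht : |t| ≤ s + Λ := by
    have e : t = p + (t - p) := by ring
    rw [e]; exact (abs_add_le _ _).trans (by linarith)
  have ht' : |t'| ≤ s + Λ := by
    have e : t' = p' + (t' - p') := by ring
    rw [e]; exact (abs_add_le _ _).trans (by linarith)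
  have htt : |t - t'| ≤ 2 * δ := by
    have e : t - t' = (p - p') + ((t - p) - (t' - p')) := by ring
    rw [e]
    refine (abs_add_le _ _).trans ?_
    nlinarith
  have h := abs_phi_sub_le h1 ht ht'
  have e : (Real.exp t - 1 - p) - (Real.exp t' - 1 - p') =
      ((Real.exp t - 1 - t) - (Real.exp t' - 1 - t')) + ((t - p) - (t' - p')) := by ring
  rw [e]
  refine (abs_add_le _ _).trans ?_
  have h2 : 3 * (s + Λ) * |t - t'| ≤ 3 * (s + Λ) * (2 * δ) :=
    mul_le_mul_of_nonneg_left htt (by positivity)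
  nlinarith [mul_nonneg h0 h0'']

/-- second coefficient: differences -/
theorem A2_sub_le {t t' p p' z z' s Λ δ : ℝ} (hs : |p| ≤ s) (hs' : |p'| ≤ s)
    (hz' : |z'| ≤ s)
    (hΛ : |t - p| ≤ Λ) (hΛ' : |t' - p'| ≤ Λ) (h1 : s + Λ ≤ 1) (hp : |p - p'| ≤ δ)
    (hzz : |z - z'| ≤ δ) (hq : |(t - p) - (t' - p')| ≤ Λ * δ) :
    |(Real.sinh t * (1 + z) - p) - (Real.sinh t' * (1 + z') - p')| ≤ 16 * (s + Λ) * δ := by
  have h0 : 0 ≤ s := (abs_nonneg _).trans hs
  have h0' : 0 ≤ Λ := (abs_nonneg _).trans hΛ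
  have h0'' : 0 ≤ δ := (abs_nonneg _).trans hp
  have ht : |t| ≤ s + Λ := by
    have e : t = p + (t - p) := by ring
    rw [e]; exact (abs_add_le _ _).trans (by linarith)
  have ht' : |t'| ≤ s + Λ := by
    have e : t' = p' + (t' - p') := by ring
    rw [e]; exact (abs_add_le _ _).trans (by linarith)
  have htt : |t - t'| ≤ 2 * δ := by
    have e : t - t' = (p - p') + ((t - p) - (t' - p')) := by ring
    rw [e]
    refine (abs_add_le _ _).trans ?_
    nlinarith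
  have h := abs_psi_sub_le h1 ht ht'
  have h3 := abs_sinh_le (ht.trans h1)
  have h4 := abs_sinh_sub_le (ht.trans h1) (ht'.trans h1)
  have e : (Real.sinh t * (1 + z) - p) - (Real.sinh t' * (1 + z') - p') =
      ((Real.sinh t - t) - (Real.sinh t' - t')) + ((t - p) - (t' - p')) +
        ((z - z') * Real.sinh t + z' * (Real.sinh t - Real.sinh t')) := by ring
  rw [e]
  refine (abs_add_le _ _).trans ?_
  have g1 := abs_add_le ((Real.sinh t - t) - (Real.sinh t' - t')) ((t - p) - (t' - p'))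
  have g2 := abs_add_le ((z - z') * Real.sinh t) (z' * (Real.sinh t - Real.sinh t'))
  rw [abs_mul, abs_mul] at g2
  have g3 : |z - z'| * |Real.sinh t| ≤ δ * (3 * (s + Λ)) :=
    mul_le_mul hzz (h3.trans (by linarith)) (abs_nonneg _) h0''
  have g4 : |z'| * |Real.sinh t - Real.sinh t'| ≤ s * (3 * (2 * δ)) :=
    mul_le_mul hz' (h4.trans (by linarith)) (abs_nonneg _) h0
  have h2 : 3 * (s + Λ) * |t - t'| ≤ 3 * (s + Λ) * (2 * δ) :=
    mul_le_mul_of_nonneg_left htt (by positivity)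
  nlinarith [mul_nonneg h0 h0'', mul_nonneg h0' h0'']

/-! ### item bounds -/

theorem xc_mem : 0 < xc ∧ xc ≤ 1 := by
  have h2 : Real.sqrt 2 * Real.sqrt 2 = 2 := Real.mul_self_sqrt (by norm_num)
  have h0 := Real.sqrt_nonneg 2
  unfold xc
  constructor <;> nlinarith

/-- parameters close to the explicit ones -/
structure Cl (P : MPar) (p s Λ : ℝ) : Prop where
  hR : 1 ≤ P.R
  hp : |p| ≤ s
  hz : |P.z| ≤ s
  hs : s ≤ 1 / 2
  one : s + Λ ≤ 1
  nn : ∀ j : Fin 2, |P.t (pr (0, j)) - p| ≤ Λ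
  ev : ∀ S ∈ evN P.R, |P.t S| ≤ Λ

/-- two sets of parameters -/
structure Cl2 (P P' : MPar) (p p' Λ δ : ℝ) : Prop where
  hR : P'.R = P.R
  hp : |p - p'| ≤ δ
  hz : |P.z - P'.z| ≤ δ
  nn : ∀ j : Fin 2, |(P.t (pr (0, j)) - p) - (P'.t (pr (0, j)) - p')| ≤ Λ * δ
  ev : ∀ S ∈ evN P.R, |P.t S - P'.t S| ≤ Λ * δ

section items
variable {A : Type*} [CommRing A] [Algebra ℝ A] {fr : Fr ℤ A}
  {N : Finset (ℤ × ℤ) → A → ℝ≥0∞} {c s Λ δ p p' : ℝ} {P P' : MPar}

theorem Cl.s0 (h : Cl P p s Λ) : 0 ≤ s := (abs_nonneg _).trans h.hp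
theorem Cl.Λ0 (h : Cl P p s Λ) : 0 ≤ Λ := (abs_nonneg _).trans (h.nn 0)
theorem Cl.z1 (h : Cl P p s Λ) : 0 ≤ 1 + P.z := by
  have h1 := h.hz
  have h2 := h.hs
  rw [abs_le] at h1
  linarith [h1.1]
theorem Cl2.δ0 (h : Cl2 P P' p p' Λ δ) : 0 ≤ δ := (abs_nonneg _).trans h.hp

theorem faE_pair (u : ℤ × ℤ) (j : Fin 2) :
    (faE ((0 : ℤ × ℤ), j)).image (fz u) = faE (u, j) := by
  rw [← faE_ez]
  unfold ez
  simp

theorem faE_sub_Yf (u : ℤ × ℤ) (j : Fin 2) :
    faE (u, j) ⊆ (Yf (pr ((0 : ℤ × ℤ), j))).image (fz u) := by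
  rw [← faE_pair]
  refine Finset.image_subset_image (faE_subset ?_)
  have h1 : (0 : ℤ × ℤ) ∈ pr ((0 : ℤ × ℤ), j) := by simp [pr]
  have h2 : (0 : ℤ × ℤ) + unitVec j ∈ pr ((0 : ℤ × ℤ), j) := by simp [pr]
  exact ⟨subset_hull _ (Finset.mem_coe.2 h1), subset_hull _ (Finset.mem_coe.2 h2)⟩

theorem gP_le (hN : NHyp fr N c) (h : Cl P p s Λ) (U : Finset (ℤ × ℤ)) (e : EG ℤ)
    (he : faE e ⊆ U) : N U (gP fr P e) ≤ ENNReal.ofReal (1 + 8 * c) := by
  unfold gP
  have hx := xc_mem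
  have hz := h.hz
  have hs := h.hs
  have h1 : |2 * (xc * (1 + P.z))| ≤ 8 := by
    rw [abs_mul, abs_mul, abs_of_pos (by norm_num : (0 : ℝ) < 2), abs_of_pos hx.1,
      abs_of_nonneg h.z1]
    rw [abs_le] at hz
    nlinarith [hz.2]
  have hc := hN.c1
  refine ((hN.semi U).sub _ _).trans ?_
  rw [ENNReal.ofReal_add (by norm_num) (by linarith), ENNReal.ofReal_one]
  exact add_le_add (hN.semi U).one (smul_le_real (hN.semi U) h1 (hN.b U e he))

theorem gP_sub_le (hN : NHyp fr N c) (h : Cl2 P P' p p' Λ δ) (U : Finset (ℤ × ℤ)) (e : EG ℤ)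
    (he : faE e ⊆ U) : N U (gP fr P e - gP fr P' e) ≤ ENNReal.ofReal (2 * δ * c) := by
  unfold gP
  have hx := xc_mem
  have e1 : (1 : A) - (2 * (xc * (1 + P.z))) • fr.b e - (1 - (2 * (xc * (1 + P'.z))) • fr.b e) =
      (-(2 * (xc * (P.z - P'.z)))) • fr.b e := by
    rw [sub_sub_sub_cancel_left, ← sub_smul]
    congr 1
    ring
  rw [e1]
  refine smul_le_real (hN.semi U) ?_ (hN.b U e he)
  rw [abs_neg, abs_mul, abs_mul, abs_of_pos (by norm_num : (0 : ℝ) < 2), abs_of_pos hx.1]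
  have := h.hz
  have := h.δ0
  nlinarith [abs_nonneg (P.z - P'.z)]

theorem vS_le (hN : NHyp fr N c) (h : Cl P p s Λ) {S : Finset (ℤ × ℤ)} (hS : S ∈ evN P.R)
    (u : ℤ × ℤ) : N ((Yf S).image (fz u)) (vS fr P S u) ≤ ENNReal.ofReal (6 * Λ * Mc P.R c) := by
  have hc := hN.c1
  have hm := mem_evN.1 hS
  have h1 : N ((Yf S).image (fz u)) (vS fr P S u) ≤
      nmE (fun _ => ENNReal.ofReal (wc c)) (em (ez u) (kB (P.t S) S)) := by
    unfold vS
    refine TH_le (hN.semi _) (gP fr P) (U := {e : EG ℤ | faE e ⊆ (Yf S).image (fz u)})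
      (c := fun _ => ENNReal.ofReal (wc c)) (fun _ => ENNReal.ofReal_ne_top) (fun e he => ?_)
      (Bk.em_kB_mem u (P.t S) S hm.2.1)
    refine (gP_le hN h _ e he).trans (ENNReal.ofReal_le_ofReal ?_)
    unfold wc; linarith
  refine h1.trans ((nmE_em_const (by
    rw [← ENNReal.ofReal_one]; exact ENNReal.ofReal_le_ofReal (wc_one hc)) _ _).trans ?_)
  exact nmE_kB_le (wc_one hc) (h.ev S hS) (by linarith [h.one, h.s0]) hm.1 hm.2.1

theorem vS_sub_le (hN : NHyp fr N c) (h : Cl P p s Λ) (h' : Cl P' p' s Λ)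
    (h2 : Cl2 P P' p p' Λ δ) {S : Finset (ℤ × ℤ)} (hS : S ∈ evN P.R) (u : ℤ × ℤ) :
    N ((Yf S).image (fz u)) (vS fr P S u - vS fr P' S u) ≤
      ENNReal.ofReal (18 * Λ * δ * Mc P.R c) := by
  have hc := hN.c1
  have hm := mem_evN.1 hS
  have hS' : S ∈ evN P'.R := by rw [h2.hR]; exact hS
  have hΛ := h.Λ0
  have hδ := h2.δ0
  set U := (Yf S).image (fz u) with hU
  have hΛ1 : Λ ≤ 1 := by linarith [h.one, h.s0]
  have hM := Mc_pos P.R hc
  have e1 : vS fr P S u - vS fr P' S u =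
      TH (gP fr P) (em (ez u) (kB (P.t S) S - kB (P'.t S) S)) +
      (TH (gP fr P) (em (ez u) (kB (P'.t S) S)) - TH (gP fr P') (em (ez u) (kB (P'.t S) S))) := by
    unfold vS
    rw [map_sub, map_sub]
    abel
  have hw : (1 : ℝ≥0∞) ≤ ENNReal.ofReal (wc c) := by
    rw [← ENNReal.ofReal_one]; exact ENNReal.ofReal_le_ofReal (wc_one hc)
  have g1 : N U (TH (gP fr P) (em (ez u) (kB (P.t S) S - kB (P'.t S) S))) ≤
      ENNReal.ofReal (6 * (Λ * δ) * Mc P.R c) := by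
    have g2 : N U (TH (gP fr P) (em (ez u) (kB (P.t S) S - kB (P'.t S) S))) ≤
        nmE (fun _ => ENNReal.ofReal (wc c)) (em (ez u) (kB (P.t S) S - kB (P'.t S) S)) := by
      refine TH_le (hN.semi _) (gP fr P) (U := {e : EG ℤ | faE e ⊆ U})
        (c := fun _ => ENNReal.ofReal (wc c)) (fun _ => ENNReal.ofReal_ne_top) (fun e he => ?_)
        ?_
      · refine (gP_le hN h _ e he).trans (ENNReal.ofReal_le_ofReal ?_)
        unfold wc; linarith
      · rw [map_sub]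
        exact Subalgebra.sub_mem _ (Bk.em_kB_mem u (P.t S) S hm.2.1) (Bk.em_kB_mem u (P'.t S) S hm.2.1)
    refine g2.trans ((nmE_em_const hw _ _).trans ?_)
    exact nmE_kB_sub_le (wc_one hc) ((h.ev S hS).trans hΛ1) ((h'.ev S hS').trans hΛ1)
      (h2.ev S hS) hm.1 hm.2.1
  have g3 : N U (TH (gP fr P) (em (ez u) (kB (P'.t S) S)) -
      TH (gP fr P') (em (ez u) (kB (P'.t S) S))) ≤
      ENNReal.ofReal (2 * δ) * ENNReal.ofReal (6 * Λ * Mc P.R c) := by
    have hsum : ENNReal.ofReal (1 + 8 * c) + ENNReal.ofReal (1 + 8 * c) =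
        ENNReal.ofReal (wc c) := by
      rw [← ENNReal.ofReal_add (by linarith) (by linarith)]
      unfold wc; congr 1; ring
    have g4 := TH_sub_le (hN.semi U) (gP fr P) (gP fr P') (U := {e : EG ℤ | faE e ⊆ U})
      (c := fun _ => ENNReal.ofReal (1 + 8 * c)) (d := fun _ => ENNReal.ofReal (1 + 8 * c))
      (η := ENNReal.ofReal (2 * δ)) ENNReal.ofReal_ne_top (fun _ => ENNReal.ofReal_ne_top)
      (fun _ => ENNReal.ofReal_ne_top) (fun e he => gP_le hN h U e he)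
      (fun e he => gP_le hN h' U e he) (fun e he => ?_) (Bk.em_kB_mem u (P'.t S) S hm.2.1)
    · refine g4.trans (mul_le_mul_right ?_ _)
      simp only [hsum]
      refine (nmE_em_const hw _ _).trans ?_
      exact nmE_kB_le (wc_one hc) (h'.ev S hS') hΛ1 hm.1 hm.2.1
    · refine (gP_sub_le hN h2 U e he).trans ?_
      rw [← ENNReal.ofReal_mul (by positivity)]
      refine ENNReal.ofReal_le_ofReal ?_
      nlinarith
  rw [e1]
  refine ((hN.semi U).add _ _).trans ((add_le_add g1 g3).trans ?_)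
  rw [← ENNReal.ofReal_mul (by positivity), ← ENNReal.ofReal_add (by positivity) (by positivity)]
  refine ENNReal.ofReal_le_ofReal (le_of_eq ?_)
  ring

theorem rN_le (hN : NHyp fr N c) (h : Cl P p s Λ) (j : Fin 2) (u : ℤ × ℤ) :
    N ((Yf (pr ((0 : ℤ × ℤ), j))).image (fz u)) (rN fr P p j u) ≤
      ENNReal.ofReal ((15 * (s + Λ) ^ 2 + 3 * Λ) * c) := by
  have hc := hN.c1
  have hx := xc_mem
  have h0 := h.Λ0
  have h0' := h.s0
  set U := (Yf (pr ((0 : ℤ × ℤ), j))).image (fz u) with hU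
  rw [rN_eq]
  have g1 := A1_le h.hp (h.nn j) h.one
  have g2 := A2_le h.hp h.hz (h.nn j) h.one
  refine ((hN.semi U).add _ _).trans ?_
  have k1 : N U ((Real.exp (P.t (pr (0, j))) - 1 - p) • (1 : A)) ≤
      ENNReal.ofReal ((3 * (s + Λ) ^ 2 + Λ) * 1) :=
    smul_le_real (hN.semi U) g1 (by rw [ENNReal.ofReal_one]; exact (hN.semi U).one)
  have k2 : N U ((-(2 * xc * (Real.sinh (P.t (pr (0, j))) * (1 + P.z) - p))) • fr.b (u, j)) ≤
      ENNReal.ofReal (2 * (6 * (s + Λ) ^ 2 + Λ) * c) := by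
    refine smul_le_real (hN.semi U) ?_ (hN.b U (u, j) (faE_sub_Yf u j))
    rw [abs_neg, abs_mul, abs_mul, abs_of_pos (by norm_num : (0 : ℝ) < 2), abs_of_pos hx.1]
    have := abs_nonneg (Real.sinh (P.t (pr (0, j))) * (1 + P.z) - p)
    nlinarith
  refine (add_le_add k1 k2).trans ?_
  rw [← ENNReal.ofReal_add (by positivity) (by positivity)]
  refine ENNReal.ofReal_le_ofReal ?_
  nlinarith [mul_nonneg (by positivity : (0 : ℝ) ≤ 3 * (s + Λ) ^ 2 + Λ) (sub_nonneg.2 hc)]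

theorem rN_sub_le (hN : NHyp fr N c) (h : Cl P p s Λ) (h' : Cl P' p' s Λ)
    (h2 : Cl2 P P' p p' Λ δ) (j : Fin 2) (u : ℤ × ℤ) :
    N ((Yf (pr ((0 : ℤ × ℤ), j))).image (fz u)) (rN fr P p j u - rN fr P' p' j u) ≤
      ENNReal.ofReal (39 * (s + Λ) * δ * c) := by
  have hc := hN.c1
  have hx := xc_mem
  have h0 := h.Λ0
  have h0' := h.s0
  have h0'' := h2.δ0
  set U := (Yf (pr ((0 : ℤ × ℤ), j))).image (fz u) with hU
  have g1 := A1_sub_le h.hp h'.hp (h.nn j) (h'.nn j) h.one h2.hp (h2.nn j)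
  have g2 := A2_sub_le (z := P.z) (z' := P'.z) h.hp h'.hp h'.hz (h.nn j) (h'.nn j) h.one h2.hp h2.hz
    (h2.nn j)
  have e1 : rN fr P p j u - rN fr P' p' j u =
      ((Real.exp (P.t (pr (0, j))) - 1 - p) - (Real.exp (P'.t (pr (0, j))) - 1 - p')) • (1 : A) +
      (-(2 * xc * ((Real.sinh (P.t (pr (0, j))) * (1 + P.z) - p) -
        (Real.sinh (P'.t (pr (0, j))) * (1 + P'.z) - p')))) • fr.b (u, j) := by
    rw [rN_eq, rN_eq]
    module
  rw [e1]
  refine ((hN.semi U).add _ _).trans ?_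
  have k1 : N U (((Real.exp (P.t (pr (0, j))) - 1 - p) -
      (Real.exp (P'.t (pr (0, j))) - 1 - p')) • (1 : A)) ≤
      ENNReal.ofReal (7 * (s + Λ) * δ * 1) :=
    smul_le_real (hN.semi U) g1 (by rw [ENNReal.ofReal_one]; exact (hN.semi U).one)
  have k2 : N U ((-(2 * xc * ((Real.sinh (P.t (pr (0, j))) * (1 + P.z) - p) -
        (Real.sinh (P'.t (pr (0, j))) * (1 + P'.z) - p')))) • fr.b (u, j)) ≤
      ENNReal.ofReal (2 * (16 * (s + Λ) * δ) * c) := by
    refine smul_le_real (hN.semi U) ?_ (hN.b U (u, j) (faE_sub_Yf u j))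
    rw [abs_neg, abs_mul, abs_mul, abs_of_pos (by norm_num : (0 : ℝ) < 2), abs_of_pos hx.1]
    have := abs_nonneg ((Real.sinh (P.t (pr (0, j))) * (1 + P.z) - p) -
        (Real.sinh (P'.t (pr (0, j))) * (1 + P'.z) - p'))
    nlinarith
  refine (add_le_add k1 k2).trans ?_
  rw [← ENNReal.ofReal_add (by positivity) (by positivity)]
  refine ENNReal.ofReal_le_ofReal ?_
  nlinarith [mul_nonneg (by positivity : (0 : ℝ) ≤ (s + Λ) * δ) (sub_nonneg.2 hc)]

theorem zI_le (hN : NHyp fr N c) (f : ℤ × ℤ) {r y : ℝ} (hr : |r| ≤ y) :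
    N (({0} : Finset (ℤ × ℤ)).image (fz f)) ((r / 2) • (fr.I4 f * fr.I4 f)) ≤
      ENNReal.ofReal (y * c ^ 2) := by
  have hc := hN.c1
  have hy : 0 ≤ y := (abs_nonneg _).trans hr
  have hI : ({0} : Finset (ℤ × ℤ)).image (fz f) = {f} := by
    rw [Finset.image_singleton, fz_zero]
  rw [hI]
  have h1 := hN.I4 {f} f (Finset.mem_singleton_self f)
  have h3 : N {f} (fr.I4 f * fr.I4 f) ≤ ENNReal.ofReal (c * c) := by
    rw [ENNReal.ofReal_mul (by linarith)]
    exact (hN.semi _).mul _ _ _ _ h1 h1 ENNReal.ofReal_ne_top ENNReal.ofReal_ne_top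
  have h4 : |r / 2| ≤ y := by
    rw [abs_div, abs_of_pos (by norm_num : (0 : ℝ) < 2)]
    linarith [abs_nonneg r]
  refine (smul_le_real (hN.semi _) h4 h3).trans (ENNReal.ofReal_le_ofReal (le_of_eq ?_))
  ring

end items

/-! ### norms of the first order remainder -/

section main
variable {A : Type*} [CommRing A] [Algebra ℝ A] {fr : Fr ℤ A}
  {N : Finset (ℤ × ℤ) → A → ℝ≥0∞} {c s Λ δ p p' Γ : ℝ} {P P' : MPar}

/-- number of faces of a shape of range `R` -/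
theorem card_Yf {R : ℕ} {S : Finset (ℤ × ℤ)} (hS : S ∈ Can R) : (Yf S).card ≤ m0 R :=
  card_Yf_le (mem_Can.1 hS).1

/-- anchored family with support of at most `m` faces -/
theorem NI_anc_real (hN : ∀ U, FSemi (N U)) (hΓ : 1 ≤ Γ) {Y₀ : Finset (ℤ × ℤ)} {m : ℕ}
    (hY : Y₀.card ≤ m) (a : ℤ × ℤ → A) {κ : ℝ} (_hκ : 0 ≤ κ)
    (h : ∀ u, N (Y₀.image (fz u)) (a u) ≤ ENNReal.ofReal κ) :
    NI (G := ℤ) (ENNReal.ofReal Γ) (fun U => N U (anc Y₀ a U)) ≤
      ENNReal.ofReal (Γ ^ m * m * κ) := by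
  refine (NI_anc_le hN Y₀ a h _).trans ?_
  have h1 : ENNReal.ofReal Γ ^ Y₀.card ≤ ENNReal.ofReal (Γ ^ m) := by
    rw [← ENNReal.ofReal_pow (by linarith)]
    exact ENNReal.ofReal_le_ofReal (pow_le_pow_right₀ hΓ hY)
  have h2 : ((Y₀.card : ℕ) : ℝ≥0∞) ≤ ENNReal.ofReal (m : ℝ) := by
    rw [ENNReal.ofReal_natCast]; exact_mod_cast hY
  calc ENNReal.ofReal Γ ^ Y₀.card * (Y₀.card * ENNReal.ofReal κ)
      ≤ ENNReal.ofReal (Γ ^ m) * (ENNReal.ofReal (m : ℝ) * ENNReal.ofReal κ) := by gcongr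
    _ = _ := by
        rw [← ENNReal.ofReal_mul (by positivity), ← ENNReal.ofReal_mul (by positivity)]
        congr 1; ring

theorem NI_sum_real (hN : ∀ U, FSemi (N U)) {ι : Type*} (t : Finset ι)
    (F : ι → Finset (ℤ × ℤ) → A) {κ : ℝ} (_hκ : 0 ≤ κ)
    (h : ∀ i ∈ t, NI (G := ℤ) (ENNReal.ofReal Γ) (fun U => N U (F i U)) ≤ ENNReal.ofReal κ) :
    NI (G := ℤ) (ENNReal.ofReal Γ) (fun U => N U (∑ i ∈ t, F i U)) ≤
      ENNReal.ofReal (t.card * κ) := by
  refine (NI_sum_le hN t F).trans ((Finset.sum_le_sum h).trans ?_)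
  rw [Finset.sum_const, nsmul_eq_mul, ENNReal.ofReal_mul (by positivity), ENNReal.ofReal_natCast]

/-- the constant -/
def C1 (R : ℕ) (Γ c : ℝ) : ℝ :=
  Γ ^ m0 R * m0 R * (18 * (Can R).card * Mc R c + 200 * c ^ 2)

theorem card_evN_le (R : ℕ) : (evN R).card ≤ (Can R).card := by
  refine Finset.card_le_card fun S hS => (mem_evN.1 hS).1

theorem pr_mem_Can {P : MPar} (hR : 1 ≤ P.R) (j : Fin 2) : pr ((0 : ℤ × ℤ), j) ∈ Can P.R :=
  pr_zero_mem_Can hR j

/-- **size of the remainder** -/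
theorem NI_R1_le (hN : NHyp fr N c) (hΓ : 1 ≤ Γ) (h : Cl P p s Λ) :
    NI (G := ℤ) (ENNReal.ofReal Γ) (fun U => N U (R1 fr P p U)) ≤
      ENNReal.ofReal (C1 P.R Γ c * (Λ + s ^ 2)) := by
  have hc := hN.c1
  have h0 := h.Λ0
  have h0' := h.s0
  have hM := Mc_pos P.R hc
  have hm0 : (0 : ℝ) ≤ m0 P.R := Nat.cast_nonneg _
  have hG : 0 ≤ Γ ^ m0 P.R := by positivity
  have hCan : (0 : ℝ) ≤ (Can P.R).card := Nat.cast_nonneg _
  simp only [R1_eq fr h.z1 h.hR]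
  refine (NI_add_le hN.semi _ _).trans ((add_le_add (NI_add_le hN.semi _ _) le_rfl).trans ?_)
  have k1 := NI_sum_real (Γ := Γ) hN.semi (evN P.R) (fun S => anc (Yf S) (vS fr P S))
    (κ := Γ ^ m0 P.R * m0 P.R * (6 * Λ * Mc P.R c)) (by positivity)
    (fun S hS => NI_anc_real hN.semi hΓ (card_Yf (mem_evN.1 hS).1) _ (by positivity)
      (fun u => vS_le hN h hS u))
  have k2 := NI_sum_real (Γ := Γ) hN.semi (univ : Finset (Fin 2))
    (fun j => anc (Yf (pr ((0 : ℤ × ℤ), j))) (rN fr P p j))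
    (κ := Γ ^ m0 P.R * m0 P.R * ((15 * (s + Λ) ^ 2 + 3 * Λ) * c)) (by positivity)
    (fun j _ => NI_anc_real hN.semi hΓ (card_Yf (pr_mem_Can h.hR j)) _ (by positivity)
      (fun u => rN_le hN h j u))
  have k3 := NI_anc_real (m := m0 P.R) hN.semi hΓ (Y₀ := {0}) (by
      rw [Finset.card_singleton]; have := two_le_m0 P.R; omega)
    (fun f => (P.z ^ 2 / 2) • (fr.I4 f * fr.I4 f)) (κ := s ^ 2 * c ^ 2) (by positivity)
    (fun u => zI_le hN u (by
      rw [abs_pow]; exact pow_le_pow_left₀ (abs_nonneg _) h.hz 2))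
  refine (add_le_add (add_le_add k1 k2) k3).trans ?_
  rw [← ENNReal.ofReal_add (by positivity) (by positivity),
    ← ENNReal.ofReal_add (by positivity) (by positivity)]
  refine ENNReal.ofReal_le_ofReal ?_
  have h1 : ((evN P.R).card : ℝ) ≤ (Can P.R).card := by exact_mod_cast card_evN_le P.R
  have hcard : ((univ : Finset (Fin 2)).card : ℝ) = 2 := by simp
  rw [hcard]
  unfold C1
  have g1 : ((evN P.R).card : ℝ) * (Γ ^ m0 P.R * m0 P.R * (6 * Λ * Mc P.R c)) ≤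
      Γ ^ m0 P.R * m0 P.R * (18 * (Can P.R).card * Mc P.R c * (Λ + s ^ 2)) := by
    calc ((evN P.R).card : ℝ) * (Γ ^ m0 P.R * m0 P.R * (6 * Λ * Mc P.R c))
        ≤ (Can P.R).card * (Γ ^ m0 P.R * m0 P.R * (6 * Λ * Mc P.R c)) := by gcongr
      _ = Γ ^ m0 P.R * m0 P.R * (6 * (Can P.R).card * Mc P.R c * Λ) := by ring
      _ ≤ _ := by
          gcongr
          · norm_num
          · nlinarith [sq_nonneg s]
  have hsL : (s + Λ) ^ 2 ≤ s ^ 2 + 2 * Λ := by
    have := h.one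
    nlinarith [mul_nonneg h0 h0', mul_nonneg h0 (sub_nonneg.2 h.one)]
  have g2 : 2 * (Γ ^ m0 P.R * m0 P.R * ((15 * (s + Λ) ^ 2 + 3 * Λ) * c)) +
      Γ ^ m0 P.R * m0 P.R * (s ^ 2 * c ^ 2) ≤
      Γ ^ m0 P.R * m0 P.R * (200 * c ^ 2 * (Λ + s ^ 2)) := by
    have e : 2 * (Γ ^ m0 P.R * m0 P.R * ((15 * (s + Λ) ^ 2 + 3 * Λ) * c)) +
      Γ ^ m0 P.R * m0 P.R * (s ^ 2 * c ^ 2) =
      Γ ^ m0 P.R * m0 P.R * (2 * (15 * (s + Λ) ^ 2 + 3 * Λ) * c + s ^ 2 * c ^ 2) := by ring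
    rw [e]
    refine mul_le_mul_of_nonneg_left ?_ (by positivity)
    have hcc : c ≤ c ^ 2 := by nlinarith
    have g3 : 2 * (15 * (s + Λ) ^ 2 + 3 * Λ) * c ≤ (30 * s ^ 2 + 66 * Λ) * c ^ 2 := by
      calc 2 * (15 * (s + Λ) ^ 2 + 3 * Λ) * c ≤ (30 * s ^ 2 + 66 * Λ) * c := by
            refine mul_le_mul_of_nonneg_right ?_ (by linarith)
            linarith
        _ ≤ _ := mul_le_mul_of_nonneg_left hcc (by positivity)
    nlinarith [mul_nonneg (sq_nonneg s) (sq_nonneg c), mul_nonneg h0 (sq_nonneg c)]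
  calc _ ≤ Γ ^ m0 P.R * m0 P.R * (18 * (Can P.R).card * Mc P.R c * (Λ + s ^ 2)) +
      Γ ^ m0 P.R * m0 P.R * (200 * c ^ 2 * (Λ + s ^ 2)) := by linarith
    _ = _ := by ring

/-- **differences of the remainders** -/
theorem NI_R1_sub_le (hN : NHyp fr N c) (hΓ : 1 ≤ Γ) (h : Cl P p s Λ) (h' : Cl P' p' s Λ)
    (h2 : Cl2 P P' p p' Λ δ) :
    NI (G := ℤ) (ENNReal.ofReal Γ) (fun U => N U (R1 fr P p U - R1 fr P' p' U)) ≤
      ENNReal.ofReal (C1 P.R Γ c * ((s + Λ) * δ)) := by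
  have hc := hN.c1
  have h0 := h.Λ0
  have h0' := h.s0
  have h0'' := h2.δ0
  have hM := Mc_pos P.R hc
  have hm0 : (0 : ℝ) ≤ m0 P.R := Nat.cast_nonneg _
  have hG : 0 ≤ Γ ^ m0 P.R := by positivity
  have hCan : (0 : ℝ) ≤ (Can P.R).card := Nat.cast_nonneg _
  have e0 : ∀ U, R1 fr P p U - R1 fr P' p' U =
      ∑ S ∈ evN P.R, anc (Yf S) (fun u => vS fr P S u - vS fr P' S u) U +
      ∑ j : Fin 2, anc (Yf (pr ((0 : ℤ × ℤ), j))) (fun u => rN fr P p j u - rN fr P' p' j u) U +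
      anc {0} (fun f => ((P.z ^ 2 - P'.z ^ 2) / 2) • (fr.I4 f * fr.I4 f)) U := by
    intro U
    rw [R1_eq fr h.z1 h.hR, R1_eq fr h'.z1 h'.hR, h2.hR]
    have e1 : ∀ S ∈ evN P.R, anc (Yf S) (fun u => vS fr P S u - vS fr P' S u) U =
        anc (Yf S) (vS fr P S) U - anc (Yf S) (vS fr P' S) U := fun S _ => anc_sub _ _ _ _
    have e2 : ∀ j : Fin 2, anc (Yf (pr ((0 : ℤ × ℤ), j)))
        (fun u => rN fr P p j u - rN fr P' p' j u) U =
        anc (Yf (pr ((0 : ℤ × ℤ), j))) (rN fr P p j) U -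
        anc (Yf (pr ((0 : ℤ × ℤ), j))) (rN fr P' p' j) U := fun j => anc_sub _ _ _ _
    have e3 : anc {0} (fun f => ((P.z ^ 2 - P'.z ^ 2) / 2) • (fr.I4 f * fr.I4 f)) U =
        anc {0} (fun f => (P.z ^ 2 / 2) • (fr.I4 f * fr.I4 f)) U -
        anc {0} (fun f => (P'.z ^ 2 / 2) • (fr.I4 f * fr.I4 f)) U := by
      rw [← anc_sub]
      refine anc_congr fun f _ => ?_
      rw [← sub_smul]
      congr 1; ring
    rw [Finset.sum_congr rfl e1, Finset.sum_sub_distrib, Finset.sum_congr rfl (fun j _ => e2 j),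
      Finset.sum_sub_distrib, e3]
    abel
  simp only [e0]
  refine (NI_add_le hN.semi _ _).trans ((add_le_add (NI_add_le hN.semi _ _) le_rfl).trans ?_)
  have k1 := NI_sum_real (Γ := Γ) hN.semi (evN P.R)
    (fun S => anc (Yf S) (fun u => vS fr P S u - vS fr P' S u))
    (κ := Γ ^ m0 P.R * m0 P.R * (18 * Λ * δ * Mc P.R c)) (by positivity)
    (fun S hS => NI_anc_real hN.semi hΓ (card_Yf (mem_evN.1 hS).1) _ (by positivity)
      (fun u => vS_sub_le hN h h' h2 hS u))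
  have k2 := NI_sum_real (Γ := Γ) hN.semi (univ : Finset (Fin 2))
    (fun j => anc (Yf (pr ((0 : ℤ × ℤ), j))) (fun u => rN fr P p j u - rN fr P' p' j u))
    (κ := Γ ^ m0 P.R * m0 P.R * (39 * (s + Λ) * δ * c)) (by positivity)
    (fun j _ => NI_anc_real hN.semi hΓ (card_Yf (pr_mem_Can h.hR j)) _ (by positivity)
      (fun u => rN_sub_le hN h h' h2 j u))
  have hzz : |P.z ^ 2 - P'.z ^ 2| ≤ 2 * s * δ := by
    have e : P.z ^ 2 - P'.z ^ 2 = (P.z - P'.z) * (P.z + P'.z) := by ring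
    rw [e, abs_mul]
    have g := abs_add_le P.z P'.z
    have := h.hz
    have := h'.hz
    calc |P.z - P'.z| * |P.z + P'.z| ≤ δ * (2 * s) :=
          mul_le_mul h2.hz (by linarith) (abs_nonneg _) h0''
      _ = _ := by ring
  have k3 := NI_anc_real (m := m0 P.R) hN.semi hΓ (Y₀ := {0}) (by
      rw [Finset.card_singleton]; have := two_le_m0 P.R; omega)
    (fun f => ((P.z ^ 2 - P'.z ^ 2) / 2) • (fr.I4 f * fr.I4 f)) (κ := 2 * s * δ * c ^ 2)
    (by positivity) (fun u => zI_le hN u hzz)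
  refine (add_le_add (add_le_add k1 k2) k3).trans ?_
  rw [← ENNReal.ofReal_add (by positivity) (by positivity),
    ← ENNReal.ofReal_add (by positivity) (by positivity)]
  refine ENNReal.ofReal_le_ofReal ?_
  have h1 : ((evN P.R).card : ℝ) ≤ (Can P.R).card := by exact_mod_cast card_evN_le P.R
  have hcard : ((univ : Finset (Fin 2)).card : ℝ) = 2 := by simp
  rw [hcard]
  unfold C1
  have g1 : ((evN P.R).card : ℝ) * (Γ ^ m0 P.R * m0 P.R * (18 * Λ * δ * Mc P.R c)) ≤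
      Γ ^ m0 P.R * m0 P.R * (18 * (Can P.R).card * Mc P.R c * ((s + Λ) * δ)) := by
    calc ((evN P.R).card : ℝ) * (Γ ^ m0 P.R * m0 P.R * (18 * Λ * δ * Mc P.R c))
        ≤ (Can P.R).card * (Γ ^ m0 P.R * m0 P.R * (18 * Λ * δ * Mc P.R c)) := by gcongr
      _ = Γ ^ m0 P.R * m0 P.R * (18 * (Can P.R).card * Mc P.R c * (Λ * δ)) := by ring
      _ ≤ _ := by
          gcongr
          linarith
  have g2 : 2 * (Γ ^ m0 P.R * m0 P.R * (39 * (s + Λ) * δ * c)) +
      Γ ^ m0 P.R * m0 P.R * (2 * s * δ * c ^ 2) ≤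
      Γ ^ m0 P.R * m0 P.R * (200 * c ^ 2 * ((s + Λ) * δ)) := by
    have e : 2 * (Γ ^ m0 P.R * m0 P.R * (39 * (s + Λ) * δ * c)) +
      Γ ^ m0 P.R * m0 P.R * (2 * s * δ * c ^ 2) =
      Γ ^ m0 P.R * m0 P.R * (78 * (s + Λ) * δ * c + 2 * s * δ * c ^ 2) := by ring
    rw [e]
    refine mul_le_mul_of_nonneg_left ?_ (by positivity)
    have hcc : c ≤ c ^ 2 := by nlinarith
    have g3 : 78 * (s + Λ) * δ * c ≤ 78 * (s + Λ) * δ * c ^ 2 :=
      mul_le_mul_of_nonneg_left hcc (by positivity)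
    have g4 : 2 * s * δ * c ^ 2 ≤ 2 * (s + Λ) * δ * c ^ 2 := by
      gcongr
      linarith
    nlinarith [mul_nonneg (mul_nonneg (add_nonneg h0' h0) h0'') (sq_nonneg c)]
  calc _ ≤ Γ ^ m0 P.R * m0 P.R * (18 * (Can P.R).card * Mc P.R c * ((s + Λ) * δ)) +
      Γ ^ m0 P.R * m0 P.R * (200 * c ^ 2 * ((s + Λ) * δ)) := by linarith
    _ = _ := by ring

/-! ### the explicit part -/

theorem Kex_sub (fr : Fr ℤ A) (p z p' z' : ℝ) (U : Finset (ℤ × ℤ)) :
    Kex fr p z U - Kex fr p' z' U = Kex fr (p - p') (z - z') U := by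
  unfold Kex
  have e1 : ∀ j : Fin 2, anc (Yf (pr ((0 : ℤ × ℤ), j)))
      (fun u => (-(2 * xc * (p - p'))) • fr.b (u, j)) U =
      anc (Yf (pr ((0 : ℤ × ℤ), j))) (fun u => (-(2 * xc * p)) • fr.b (u, j)) U -
      anc (Yf (pr ((0 : ℤ × ℤ), j))) (fun u => (-(2 * xc * p')) • fr.b (u, j)) U := by
    intro j
    rw [← anc_sub]
    refine anc_congr fun u _ => ?_
    rw [← sub_smul]
    congr 1; ring
  simp only [e1, Finset.sum_sub_distrib, sub_smul]
  abel

theorem Kct_sub (p p' : ℝ) (U : Finset (ℤ × ℤ)) :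
    Kct A p U - Kct A p' U = Kct A (p - p') U := by
  unfold Kct
  rw [← Finset.sum_sub_distrib]
  refine Finset.sum_congr rfl fun j _ => ?_
  rw [← anc_sub]
  refine anc_congr fun u _ => ?_
  rw [sub_smul]

theorem NI_Kex_le (hN : NHyp fr N c) (hΓ : 1 ≤ Γ) {R : ℕ} (hR : 1 ≤ R) (p z : ℝ) :
    NI (G := ℤ) (ENNReal.ofReal Γ) (fun U => N U (Kex fr p z U)) ≤
      ENNReal.ofReal (4 * Γ ^ m0 R * m0 R * c * (|p| + |z|)) := by
  have hc := hN.c1
  have hx := xc_mem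
  have hm0 : (0 : ℝ) ≤ m0 R := Nat.cast_nonneg _
  have e0 : ∀ U, Kex fr p z U =
      ∑ j : Fin 2, anc (Yf (pr ((0 : ℤ × ℤ), j))) (fun u => (-(2 * xc * p)) • fr.b (u, j)) U +
      (anc {0} (fun f => z • fr.I4 f) U +
      ∑ j : Fin 2, anc (faE ((0 : ℤ × ℤ), j)) (fun u => (z * xc) • fr.b (u, j)) U) := by
    intro U
    unfold Kex
    rw [smul_add, Finset.smul_sum, ← anc_smul]
    congr 2
    refine Finset.sum_congr rfl fun j _ => ?_
    rw [← anc_smul]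
    refine anc_congr fun u _ => ?_
    rw [smul_smul]
  simp only [e0]
  refine (NI_add_le hN.semi _ _).trans ((add_le_add le_rfl (NI_add_le hN.semi _ _)).trans ?_)
  have k1 := NI_sum_real (Γ := Γ) hN.semi (univ : Finset (Fin 2))
    (fun j => anc (Yf (pr ((0 : ℤ × ℤ), j))) (fun u => (-(2 * xc * p)) • fr.b (u, j)))
    (κ := Γ ^ m0 R * m0 R * (2 * |p| * c)) (by positivity)
    (fun j _ => NI_anc_real hN.semi hΓ (card_Yf (pr_zero_mem_Can hR j)) _ (by positivity)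
      (fun u => smul_le_real (hN.semi _) (by
        rw [abs_neg, abs_mul, abs_mul, abs_of_pos (by norm_num : (0 : ℝ) < 2), abs_of_pos hx.1]
        nlinarith [abs_nonneg p]) (hN.b _ (u, j) (faE_sub_Yf u j))))
  have k2 := NI_anc_real (m := m0 R) hN.semi hΓ (Y₀ := {0}) (by
      rw [Finset.card_singleton]; have := two_le_m0 R; omega)
    (fun f => z • fr.I4 f) (κ := |z| * c) (by positivity)
    (fun u => smul_le_real (hN.semi _) le_rfl (hN.I4 _ u (by
      rw [Finset.image_singleton, fz_zero]; exact Finset.mem_singleton_self u)))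
  have k3 := NI_sum_real (Γ := Γ) hN.semi (univ : Finset (Fin 2))
    (fun j => anc (faE ((0 : ℤ × ℤ), j)) (fun u => (z * xc) • fr.b (u, j)))
    (κ := Γ ^ m0 R * m0 R * (|z| * c)) (by positivity)
    (fun j _ => NI_anc_real hN.semi hΓ (by
        have h1 : (faE ((0 : ℤ × ℤ), j)).card ≤ 2 := by
          unfold faE
          exact (Finset.card_insert_le _ _).trans (by rw [Finset.card_singleton])
        have := two_le_m0 R
        omega) _ (by positivity)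
      (fun u => smul_le_real (hN.semi _) (by
        rw [abs_mul, abs_of_pos hx.1]
        nlinarith [abs_nonneg z]) (hN.b _ (u, j) (faE_pair u j).ge)))
  refine (add_le_add k1 (add_le_add k2 k3)).trans ?_
  rw [← ENNReal.ofReal_add (by positivity) (by positivity),
    ← ENNReal.ofReal_add (by positivity) (by positivity)]
  refine ENNReal.ofReal_le_ofReal ?_
  have hcard : ((univ : Finset (Fin 2)).card : ℝ) = 2 := by simp
  rw [hcard]
  have : 0 ≤ Γ ^ m0 R * m0 R * c * |z| := by positivity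
  nlinarith

theorem NI_Kct_le (hN : ∀ U, FSemi (N U)) (hΓ : 1 ≤ Γ) {R : ℕ} (hR : 1 ≤ R) (p : ℝ) :
    NI (G := ℤ) (ENNReal.ofReal Γ) (fun U => N U (Kct A p U)) ≤
      ENNReal.ofReal (2 * Γ ^ m0 R * m0 R * |p|) := by
  have hm0 : (0 : ℝ) ≤ m0 R := Nat.cast_nonneg _
  unfold Kct
  have k1 := NI_sum_real (Γ := Γ) hN (univ : Finset (Fin 2))
    (fun j => anc (Yf (pr ((0 : ℤ × ℤ), j))) (fun _ => p • (1 : A)))
    (κ := Γ ^ m0 R * m0 R * (|p| * 1)) (by positivity)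
    (fun j _ => NI_anc_real hN hΓ (card_Yf (pr_zero_mem_Can hR j)) _ (by positivity)
      (fun u => smul_le_real (hN _) le_rfl (by rw [ENNReal.ofReal_one]; exact (hN _).one)))
  refine k1.trans (ENNReal.ofReal_le_ofReal (le_of_eq ?_))
  have hcard : ((univ : Finset (Fin 2)).card : ℝ) = 2 := by simp
  rw [hcard]
  ring

end main

/-! ### the background hypotheses of 126 -/

section bh
variable {A : Type*} [CommRing A] [Algebra ℝ A] {s Λ δ p p' : ℝ} {P P' : MPar}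

theorem Cl.t_le (h : Cl P p s Λ) {S : Finset (ℤ × ℤ)} (hS : S ∈ Can P.R) (hev : Even S.card) :
    |P.t S| ≤ s + Λ := by
  by_cases hn : IsNN S
  · obtain ⟨j, rfl⟩ := isNN_Can hS hn
    have e : P.t (pr (0, j)) = p + (P.t (pr (0, j)) - p) := by ring
    rw [e]
    exact (abs_add_le _ _).trans (add_le_add h.hp (h.nn j))
  · have := h.ev S (mem_evN.2 ⟨hS, hev, hn⟩)
    linarith [h.s0]

theorem abs_sqrt_sub_le {x y : ℝ} (hx : |x| ≤ 1 / 2) (hy : |y| ≤ 1 / 2) :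
    |Real.sqrt (1 + x) - Real.sqrt (1 + y)| ≤ |x - y| := by
  rw [abs_le] at hx hy
  have h1 : 1 / 2 ≤ Real.sqrt (1 + x) := by
    rw [show (1 / 2 : ℝ) = Real.sqrt (1 / 4) by
      rw [show (1 / 4 : ℝ) = (1 / 2) ^ 2 by norm_num, Real.sqrt_sq (by norm_num)]]
    exact Real.sqrt_le_sqrt (by linarith [hx.1])
  have h2 : 1 / 2 ≤ Real.sqrt (1 + y) := by
    rw [show (1 / 2 : ℝ) = Real.sqrt (1 / 4) by
      rw [show (1 / 4 : ℝ) = (1 / 2) ^ 2 by norm_num, Real.sqrt_sq (by norm_num)]]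
    exact Real.sqrt_le_sqrt (by linarith [hy.1])
  have e1 := Real.mul_self_sqrt (show 0 ≤ 1 + x by linarith [hx.1])
  have e2 := Real.mul_self_sqrt (show 0 ≤ 1 + y by linarith [hy.1])
  have e3 : x - y = (Real.sqrt (1 + x) - Real.sqrt (1 + y)) *
      (Real.sqrt (1 + x) + Real.sqrt (1 + y)) := by linarith
  rw [e3, abs_mul, abs_of_nonneg (by linarith : 0 ≤ Real.sqrt (1 + x) + Real.sqrt (1 + y))]
  nlinarith [abs_nonneg (Real.sqrt (1 + x) - Real.sqrt (1 + y))]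

theorem Cl.bhyp (h : Cl P p s Λ) : BHyp (plB A P) (s + Λ) where
  θ0 := by linarith [h.s0, h.Λ0]
  θ1 := h.one
  y e := by
    rw [plB_y, abs_of_pos xc_mem.1]; exact xc_mem.2
  s f := by
    rw [plB_s]
    have h1 := abs_sqrt_sub_le (x := P.z) (y := 0) (h.hz.trans h.hs) (by norm_num)
    rw [add_zero, Real.sqrt_one, sub_zero] at h1
    linarith [h.hz, h.Λ0]
  t S hS hev := h.t_le hS hev

theorem Cl2.same (h2 : Cl2 P P' p p' Λ δ) : Same (plB A P) (plB A P') where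
  R := h2.hR
  Ys := rfl
  y := rfl
  as := rfl
  Fs := rfl
  ok := rfl

theorem Cl2.s_sub (h : Cl P p s Λ) (h' : Cl P' p' s Λ) (h2 : Cl2 P P' p p' Λ δ) (f : ℤ × ℤ) :
    |(plB A P).s f - (plB A P').s f| ≤ 2 * δ := by
  rw [plB_s, plB_s]
  have := abs_sqrt_sub_le (h.hz.trans h.hs) (h'.hz.trans h'.hs)
  linarith [h2.hz, h2.δ0]

theorem Cl2.t_sub (h : Cl P p s Λ) (h2 : Cl2 P P' p p' Λ δ) {S : Finset (ℤ × ℤ)}
    (hS : S ∈ Can P.R) (hev : Even S.card) : |P.t S - P'.t S| ≤ 2 * δ := by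
  have hΛ : Λ * δ ≤ δ := by nlinarith [h.one, h.s0, h.Λ0, h2.δ0]
  by_cases hn : IsNN S
  · obtain ⟨j, rfl⟩ := isNN_Can hS hn
    have e : P.t (pr (0, j)) - P'.t (pr (0, j)) =
      (p - p') + ((P.t (pr (0, j)) - p) - (P'.t (pr (0, j)) - p')) := by ring
    rw [e]
    exact (abs_add_le _ _).trans (by linarith [h2.hp, h2.nn j])
  · have := h2.ev S (mem_evN.2 ⟨hS, hev, hn⟩)
    linarith [h2.δ0]

end bh

/-! ### the parameters of the perturbed Ising model -/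

/-- the parameters with `(β - βc) J = p` -/
def par (J lam : ℝ) (R : ℕ) (V : Finset (ℤ × ℤ) → ℝ) (p z : ℝ) : MPar :=
  mpar J lam R V (criticalBeta J + p / J) z

theorem par_R (J lam : ℝ) (R : ℕ) (V : Finset (ℤ × ℤ) → ℝ) (p z : ℝ) :
    (par J lam R V p z).R = max R 1 := rfl

theorem par_z (J lam : ℝ) (R : ℕ) (V : Finset (ℤ × ℤ) → ℝ) (p z : ℝ) :
    (par J lam R V p z).z = z := rfl

theorem par_t_nn {J : ℝ} (hJ : 0 < J) (lam : ℝ) (R : ℕ) (V : Finset (ℤ × ℤ) → ℝ) (p z : ℝ)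
    (j : Fin 2) : (par J lam R V p z).t (pr (0, j)) - p =
      (criticalBeta J + p / J) * lam * V (pr (0, j)) := by
  change tpot J lam (criticalBeta J + p / J) V (pr (0, j)) - p = _
  unfold tpot
  rw [if_pos ⟨_, rfl⟩]
  field_simp
  ring

theorem par_t_ev (J lam : ℝ) (R : ℕ) (V : Finset (ℤ × ℤ) → ℝ) (p z : ℝ)
    {S : Finset (ℤ × ℤ)} (hS : ¬ IsNN S) : (par J lam R V p z).t S =
      (criticalBeta J + p / J) * lam * V S := by
  change tpot J lam (criticalBeta J + p / J) V S = _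
  unfold tpot
  rw [if_neg hS, mul_zero, add_zero]

/-- a bound for the potential -/
theorem exists_bd (R : ℕ) (V : Finset (ℤ × ℤ) → ℝ) :
    ∃ v : ℝ, 0 ≤ v ∧ ∀ S ∈ Can (max R 1), |V S| ≤ v :=
  ⟨∑ S ∈ Can (max R 1), |V S|, Finset.sum_nonneg fun _ _ => abs_nonneg _,
    fun S hS => Finset.single_le_sum (f := fun S => |V S|) (fun _ _ => abs_nonneg _) hS⟩

/-- **the parameters are close to the explicit ones** -/
theorem exists_cl {J : ℝ} (hJ : 0 < J) (R : ℕ) (V : Finset (ℤ × ℤ) → ℝ) :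
    ∃ K : ℝ, 0 ≤ K ∧ ∀ lam s p z : ℝ, |p| ≤ s → |z| ≤ s → s ≤ 1 / 2 → K * |lam| ≤ 1 / 2 →
      Cl (par J lam R V p z) p s (K * |lam|) ∧
      ∀ p' z' δ : ℝ, |p'| ≤ s → |z'| ≤ s → |p - p'| ≤ δ → |z - z'| ≤ δ →
        Cl2 (par J lam R V p z) (par J lam R V p' z') p p' (K * |lam|) δ := by
  obtain ⟨v, hv0, hv⟩ := exists_bd R V
  refine ⟨(|criticalBeta J| + 1 / J) * v, by positivity, ?_⟩
  intro lam s p z hp hz hs hK
  have hs0 : 0 ≤ s := (abs_nonneg _).trans hp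
  have hb : ∀ x : ℝ, |x| ≤ 1 → |criticalBeta J + x / J| ≤ |criticalBeta J| + 1 / J := by
    intro x hx
    refine (abs_add_le _ _).trans (add_le_add le_rfl ?_)
    rw [abs_div, abs_of_pos hJ]
    gcongr
  have hmul : ∀ S ∈ Can (max R 1), ∀ β : ℝ, |β| ≤ |criticalBeta J| + 1 / J →
      |β * lam * V S| ≤ (|criticalBeta J| + 1 / J) * v * |lam| := by
    intro S hS β hβ
    rw [abs_mul, abs_mul]
    calc |β| * |lam| * |V S| ≤ (|criticalBeta J| + 1 / J) * |lam| * v := by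
          gcongr
          exact hv S hS
      _ = _ := by ring
  refine ⟨⟨le_max_right _ _, hp, hz, hs, by linarith, fun j => ?_, fun S hS => ?_⟩, ?_⟩
  · rw [par_t_nn hJ]
    exact hmul _ (pr_zero_mem_Can (le_max_right _ _) j) _ (hb p (by linarith))
  · have hS' := mem_evN.1 hS
    rw [par_t_ev _ _ _ _ _ _ hS'.2.2]
    exact hmul _ hS'.1 _ (hb p (by linarith))
  · intro p' z' δ hp' hz' hpp hzz
    have hdiff : ∀ S ∈ Can (max R 1), |(criticalBeta J + p / J) * lam * V S -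
        (criticalBeta J + p' / J) * lam * V S| ≤
        (|criticalBeta J| + 1 / J) * v * |lam| * δ := by
      intro S hS
      have e : (criticalBeta J + p / J) * lam * V S - (criticalBeta J + p' / J) * lam * V S =
          (p - p') / J * lam * V S := by ring
      rw [e, abs_mul, abs_mul, abs_div, abs_of_pos hJ]
      have h0 : 0 ≤ δ := (abs_nonneg _).trans hpp
      calc |p - p'| / J * |lam| * |V S| ≤ δ / J * |lam| * v := by
            gcongr
            exact hv S hS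
        _ = (1 / J) * v * |lam| * δ := by ring
        _ ≤ _ := by
            gcongr
            linarith [abs_nonneg (criticalBeta J)]
    refine ⟨rfl, hpp, hzz, fun j => ?_, fun S hS => ?_⟩
    · rw [par_t_nn hJ, par_t_nn hJ]
      exact hdiff _ (pr_zero_mem_Can (le_max_right _ _) j)
    · have hS' := mem_evN.1 hS
      rw [par_t_ev _ _ _ _ _ _ hS'.2.2, par_t_ev _ _ _ _ _ _ hS'.2.2]
      exact hdiff _ hS'.1

end Crest.Agent.R165.J4K0Qx871
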