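import Crest.Agent.R165.InitDat_541
import Crest.Agent.R165.InitB_682
import Crest.Agent.R165.J4K0Q_871

/-!
# Row 165 (S0250), block INIT: the data of the initial activities of the plane (helper871)

* `Kex_eq`   : `Kex` of 541 = `Kex (frG id)` of `J4K0P_871`
* `nk_le_NI` : `nk a r Γ Q ≤ (2 r + 1)² NI Γ (..)`
* `size_pl`, `lip_pl`, `rest_pl`, `rlip_pl`
* `initData_of` : `InitData` for `Kpl`, from the symmetry and the connectedness
-/

set_option autoImplicit false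
set_option linter.unusedSectionVars false

noncomputable section

open Finset
open scoped ENNReal
open Crest.ProbabilityR.IsingModel

namespace Crest.Agent.R165.InitPlx871

open Crest.Agent.R165.Gr0x606 Crest.Agent.R165.Gr1x606
open Crest.Agent.R165.GDefx387 Crest.Agent.R165.GSysx387
open Crest.Agent.R165.PlaneModesx901 Crest.Agent.R165.Bkgx683 Crest.Agent.R165.PEndx683
open Crest.Agent.R165.J4Geox126 Crest.Agent.R165.J4Defx653 Crest.Agent.R165.J4K0Bx126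
open Crest.Agent.R165.PStepx417 Crest.Agent.R165.PStepIdx901 Crest.Agent.R165.PlaneCoefx901
open Crest.Agent.R165.Latx683 (xc wPl Fld BW)
open Crest.Agent.R165.NSumx915 Crest.Agent.R165.Quad2x897 Crest.Agent.R165.KInitx892
open Crest.Agent.R165.Bridgex915 Crest.Agent.R165.GeOpsx337
open Crest.Agent.R165.Initx541 Crest.Agent.R165.InitBx682 Crest.Agent.R165.InitNx682
open Crest.Agent.R165.J4K0Px871 (anc anc_smul anc_congr Kct R1 plB evN)
open Crest.Agent.R165.J4K0Qx871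

/-- the two forms of the explicit part agree -/
theorem Kex_eq (p z : ℝ) (U : Finset Fc) : Kex p z U = J4K0Px871.Kex frP p z U := by
  unfold Kex J4K0Px871.Kex Kp Kz
  have e1 : ∀ j : Fin 2, anc (Yf (pr ((0 : ℤ × ℤ), j))) (fun u => (-(2 * xc * p)) • frP.b (u, j)) U =
      p • ((-(2 * xc)) • trF (Yf (pr (0, j))) (bu j) U) := by
    intro j
    rw [smul_smul]
    have : (fun u => (-(2 * xc * p)) • frP.b (u, j)) = fun u => (p * -(2 * xc)) • bu j u := by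
      funext u
      unfold bu
      congr 1; ring
    rw [this, anc_smul]
    rfl
  have e2 : ∀ j : Fin 2, anc (faE ((0 : ℤ × ℤ), j)) (fun u => xc • frP.b (u, j)) U =
      xc • trF (faE ((0 : ℤ × ℤ), j)) (bu j) U := by
    intro j
    rw [anc_smul]
    rfl
  simp only [e1, e2, ← Finset.smul_sum]
  rfl

theorem nk_le_NI {a : ℝ} {r : ℕ} {Γ : ℝ≥0∞} (hΓ : 1 ≤ Γ) (Q : Fam) :
    nk a r Γ Q ≤ (nI r : ℝ≥0∞) * NI (G := ℤ) Γ (fun U => pG (wU w₀ a r U) (Q U)) := by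
  rw [← NN_eq_NI]
  exact NN_scale hΓ (Nat.zero_le _) (cov_card r) _

section
variable {a Γ s Λ δ p p' : ℝ} {P P' : MPar} {l k0 : ℕ}

theorem xc_abs (z : ℤ × ℤ) (j : Fin 2) : |Bg.pl.w z j| ≤ 1 := by
  change |xc| ≤ 1
  rw [abs_of_pos xc_mem.1]; exact xc_mem.2

theorem phyp_of (h : Cl P p s Λ) {θ : ℝ} (h1 : s + Λ ≤ θ) (h2 : θ ≤ 1 / 2) :
    InitBx682.PHyp P θ where
  θ0 := by linarith [h.s0, h.Λ0]
  θ1 := h2
  z := h.hz.trans (by linarith [h.Λ0])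
  t _ hS hev := (h.t_le hS hev).trans h1

theorem dhyp_of (h : Cl P p s Λ) (h2 : Cl2 P P' p p' Λ δ) : DHyp P P' (2 * δ) where
  R := h2.hR
  z := h2.hz.trans (by linarith [h2.δ0])
  t _ hS hev := h2.t_sub h hS hev

/-- remainder = reclustering + several items + first order remainder -/
theorem rem_eq (P : MPar) (p : ℝ) (U : Finset Fc) :
    A0 Bg.pl P l k0 U - Kex p P.z U - Kct (Ge (Fld ℤ)) p U =
      (A0 Bg.pl P l k0 U - A01 Bg.pl P U) + R1 frP P p U := by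
  rw [Kex_eq]
  unfold R1
  change _ = (A0 Bg.pl P l k0 U - K01 frP (plB (Ge (Fld ℤ)) P) U) + _
  abel

end

/-- the family of parameters -/
theorem Kpl_eq (J : ℝ) (R : ℕ) (V : Finset (ℤ × ℤ) → ℝ) (l k0 : ℕ) (lam p z : ℝ) :
    Kpl J R V l k0 lam p z = A0 Bg.pl (par J lam R V p z) l k0 := rfl

/-! ### the bounds for one or two sets of parameters -/

/-- the constants of the step `0` -/
structure Dc (R l k0 : ℕ) (a Γ K ρ : ℝ) : Prop where
  a0 : 0 ≤ a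
  Γ3 : 3 ≤ Γ
  r6 : 6 ≤ rr l k0 0
  K0 : 0 ≤ K
  ρ0 : 0 < ρ
  half : 3 * (1 + K) * ρ ≤ 1 / 2
  one : CI R l k0 Γ a * (3 * (1 + K) * ρ) ≤ 1

/-- the constant of the first order remainder -/
def CR (R l k0 : ℕ) (Γ a : ℝ) : ℝ :=
  nI (rr l k0 0) * J4K0Qx871.C1 R Γ (cB a (rr l k0 0))

/-- the constant of all the bounds -/
def CC (R l k0 : ℕ) (Γ a K : ℝ) : ℝ :=
  2 * CI R l k0 Γ a * (1 + K) ^ 2 + CR R l k0 Γ a * (1 + K)

section fin
variable {a Γ K ρ : ℝ} {R l k0 : ℕ}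

theorem C1_nonneg (R : ℕ) {Γ c : ℝ} (hΓ : 0 ≤ Γ) (hc : 1 ≤ c) : 0 ≤ J4K0Qx871.C1 R Γ c := by
  have := Mc_pos R hc
  unfold J4K0Qx871.C1
  positivity

theorem CR_nonneg (R l k0 : ℕ) {Γ : ℝ} (a : ℝ) (hΓ : 3 ≤ Γ) : 0 ≤ CR R l k0 Γ a :=
  mul_nonneg (Nat.cast_nonneg _) (C1_nonneg R (by linarith) (one_le_cB a _))

theorem Dc.CI1 (h : Dc R l k0 a Γ K ρ) : 1 ≤ CI R l k0 Γ a := (CI_parts R l k0 a h.Γ3).1

theorem Dc.CR0 (h : Dc R l k0 a Γ K ρ) : 0 ≤ CR R l k0 Γ a := CR_nonneg R l k0 a h.Γ3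

theorem Dc.CC0 (h : Dc R l k0 a Γ K ρ) : 0 ≤ CC R l k0 Γ a K := by
  have h1 := h.CI1
  have h2 := h.CR0
  have h3 := h.K0
  unfold CC
  positivity

theorem nk_A0_le (h : Dc R l k0 a Γ K ρ) {P : MPar} (hR : P.R = R) {θ : ℝ}
    (hP : InitBx682.PHyp P θ) (hθ : θ ≤ 3 * (1 + K) * ρ) :
    nk a (rr l k0 0) (ENNReal.ofReal Γ) (A0 Bg.pl P l k0) ≤
      ENNReal.ofReal (CI R l k0 Γ a * θ) ∧
    nk a (rr l k0 0) (ENNReal.ofReal Γ) (fun U => A0 Bg.pl P l k0 U - A01 Bg.pl P U) ≤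
      ENNReal.ofReal (CI R l k0 Γ a * θ ^ 2) := by
  subst hR
  have hI := h.CI1
  exact init_all (B := Bg.pl) (l := l) (k0 := k0) h.a0 h.Γ3 h.r6 xc_abs hP
    ((mul_le_mul_of_nonneg_left hθ (by linarith)).trans h.one)

theorem nk_A0_lip (h : Dc R l k0 a Γ K ρ) {P P' : MPar} (hR : P.R = R) {θ δ : ℝ}
    (hP : InitBx682.PHyp P θ) (hP' : InitBx682.PHyp P' θ) (hD : DHyp P P' δ) (hθ0 : 0 < θ)
    (hθ : θ ≤ 3 * (1 + K) * ρ) :
    nk a (rr l k0 0) (ENNReal.ofReal Γ) (fun U => A0 Bg.pl P l k0 U - A0 Bg.pl P' l k0 U) ≤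
      ENNReal.ofReal (CI R l k0 Γ a * δ) ∧
    nk a (rr l k0 0) (ENNReal.ofReal Γ) (fun U => (A0 Bg.pl P l k0 U - A01 Bg.pl P U) -
      (A0 Bg.pl P' l k0 U - A01 Bg.pl P' U)) ≤
      ENNReal.ofReal (CI R l k0 Γ a * (δ * θ)) := by
  subst hR
  have hI := h.CI1
  exact init_all_lip (B := Bg.pl) (l := l) (k0 := k0) h.a0 h.Γ3 h.r6 xc_abs hP hP' hD hθ0
    ((mul_le_mul_of_nonneg_left hθ (by linarith)).trans h.one)

theorem nk_R1_le (h : Dc R l k0 a Γ K ρ) {P : MPar} {p s Λ : ℝ} (hc : Cl P p s Λ)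
    (hR : P.R = R) :
    nk a (rr l k0 0) (ENNReal.ofReal Γ) (R1 frP P p) ≤
      ENNReal.ofReal (CR R l k0 Γ a * (Λ + s ^ 2)) := by
  subst hR
  have hΓ1 : (1 : ℝ) ≤ Γ := by linarith [h.Γ3]
  refine (nk_le_NI (by simpa using hΓ1) _).trans ?_
  refine (mul_le_mul_right (NI_R1_le (fr := frP) (nhyp_id w₀ h.a0 (rr l k0 0)) hΓ1 hc) _).trans ?_
  rw [← ENNReal.ofReal_natCast, ← ENNReal.ofReal_mul (Nat.cast_nonneg _), CR, mul_assoc]

theorem nk_R1_sub_le (h : Dc R l k0 a Γ K ρ) {P P' : MPar} {p p' s Λ δ : ℝ}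
    (hc : Cl P p s Λ) (hc' : Cl P' p' s Λ) (h2 : Cl2 P P' p p' Λ δ) (hR : P.R = R) :
    nk a (rr l k0 0) (ENNReal.ofReal Γ) (fun U => R1 frP P p U - R1 frP P' p' U) ≤
      ENNReal.ofReal (CR R l k0 Γ a * ((s + Λ) * δ)) := by
  subst hR
  have hΓ1 : (1 : ℝ) ≤ Γ := by linarith [h.Γ3]
  refine (nk_le_NI (by simpa using hΓ1) _).trans ?_
  refine (mul_le_mul_right (NI_R1_sub_le (fr := frP) (nhyp_id w₀ h.a0 (rr l k0 0)) hΓ1 hc hc' h2)
    _).trans ?_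
  rw [← ENNReal.ofReal_natCast, ← ENNReal.ofReal_mul (Nat.cast_nonneg _), CR, mul_assoc]

variable {P P' : MPar} {p p' s Λ δ L : ℝ}

theorem CC_ge (h : Dc R l k0 a Γ K ρ) : CI R l k0 Γ a * (1 + K) ≤ CC R l k0 Γ a K ∧
    CI R l k0 Γ a * 2 ≤ CC R l k0 Γ a K := by
  have hI := h.CI1
  have hK := h.K0
  have hC := h.CR0
  have h7 : 0 ≤ CR R l k0 Γ a * (1 + K) := by positivity
  have h5 : (1 + K) ≤ 2 * (1 + K) ^ 2 := by nlinarith
  have h6 := mul_le_mul_of_nonneg_left h5 (by linarith : 0 ≤ CI R l k0 Γ a)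
  have h8 : (1 : ℝ) ≤ (1 + K) ^ 2 := by nlinarith
  have h9 := mul_le_mul_of_nonneg_left h8 (by linarith : 0 ≤ CI R l k0 Γ a)
  unfold CC
  constructor <;> linarith

/-- the size -/
theorem size_gen (h : Dc R l k0 a Γ K ρ) (hR : P.R = R) (hc : Cl P p s (K * L)) (hs : s ≤ 2 * ρ)
    (hL0 : 0 ≤ L) (hL : L ≤ ρ) : nk a (rr l k0 0) (ENNReal.ofReal Γ) (A0 Bg.pl P l k0) ≤
      ENNReal.ofReal (CC R l k0 Γ a K * (L + s)) := by
  have hK := h.K0
  have hs0 := hc.s0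
  have hθ : (1 + K) * (L + s) ≤ 3 * (1 + K) * ρ := by
    have : (1 + K) * (L + s) ≤ (1 + K) * (3 * ρ) :=
      mul_le_mul_of_nonneg_left (by linarith) (by linarith)
    linarith
  have h0 : s + K * L ≤ (1 + K) * (L + s) := by nlinarith [mul_nonneg hK hs0]
  refine (nk_A0_le h hR (phyp_of hc h0 (hθ.trans h.half)) hθ).1.trans
    (ENNReal.ofReal_le_ofReal ?_)
  calc _ = CI R l k0 Γ a * (1 + K) * (L + s) := by ring
    _ ≤ _ := mul_le_mul_of_nonneg_right (CC_ge h).1 (by positivity)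

theorem lip_gen (h : Dc R l k0 a Γ K ρ) (hR : P.R = R) (hc : Cl P p s (K * L))
    (hc' : Cl P' p' s (K * L)) (h2 : Cl2 P P' p p' (K * L) δ) (hs : s ≤ ρ) (hL : L ≤ ρ) :
    nk a (rr l k0 0) (ENNReal.ofReal Γ) (fun U => A0 Bg.pl P l k0 U - A0 Bg.pl P' l k0 U) ≤
      ENNReal.ofReal (CC R l k0 Γ a K * δ) := by
  have hK := h.K0
  have hρ := h.ρ0
  have hKL : K * L ≤ K * ρ := mul_le_mul_of_nonneg_left hL hK
  have hKρ : 0 ≤ K * ρ := by positivity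
  have hθ : s + K * L ≤ 3 * (1 + K) * ρ := by nlinarith
  refine (nk_A0_lip h hR (phyp_of hc hθ h.half) (phyp_of hc' hθ h.half) (dhyp_of hc h2)
    (by positivity) le_rfl).1.trans (ENNReal.ofReal_le_ofReal ?_)
  calc _ = CI R l k0 Γ a * 2 * δ := by ring
    _ ≤ _ := mul_le_mul_of_nonneg_right (CC_ge h).2 h2.δ0

theorem rest_gen (h : Dc R l k0 a Γ K ρ) (hR : P.R = R) (hc : Cl P p s (K * L))
    (hL0 : 0 ≤ L) (hL : L ≤ s) (hs : s ≤ ρ) :
    nk a (rr l k0 0) (ENNReal.ofReal Γ)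
      (fun U => A0 Bg.pl P l k0 U - Kex p P.z U - Kct (Ge (Fld ℤ)) p U) ≤
      ENNReal.ofReal (CC R l k0 Γ a K * (L + s ^ 2)) := by
  have hK := h.K0
  have hρ := h.ρ0
  have hs0 := hc.s0
  have hI := h.CI1
  have hC := h.CR0
  have hKL : K * L ≤ K * s := mul_le_mul_of_nonneg_left hL hK
  have hθ : (1 + K) * s ≤ 3 * (1 + K) * ρ := by
    have := mul_le_mul_of_nonneg_left hs (by linarith : 0 ≤ 1 + K)
    nlinarith
  have i1 := (nk_A0_le h hR (phyp_of hc (θ := (1 + K) * s) (by linarith) (hθ.trans h.half))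
    hθ).2
  have i2 := nk_R1_le h hc hR
  simp only [rem_eq]
  refine (nk_add_le _ _).trans ((add_le_add i1 i2).trans ?_)
  rw [← ENNReal.ofReal_add (by positivity) (by positivity)]
  refine ENNReal.ofReal_le_ofReal ?_
  unfold CC
  have q1 : CI R l k0 Γ a * ((1 + K) * s) ^ 2 ≤
      2 * CI R l k0 Γ a * (1 + K) ^ 2 * (L + s ^ 2) := by
    have e : 0 ≤ CI R l k0 Γ a * (1 + K) ^ 2 := by positivity
    have e1 := mul_nonneg e hL0
    have e2 := mul_nonneg e (sq_nonneg s)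
    calc _ = CI R l k0 Γ a * (1 + K) ^ 2 * s ^ 2 := by ring
      _ ≤ 2 * (CI R l k0 Γ a * (1 + K) ^ 2 * L) + 2 * (CI R l k0 Γ a * (1 + K) ^ 2 * s ^ 2) := by
        linarith
      _ = _ := by ring
  have q2 : K * L + s ^ 2 ≤ (1 + K) * (L + s ^ 2) := by
    have e1 := mul_nonneg hK (sq_nonneg s)
    calc _ ≤ K * L + s ^ 2 + (L + K * s ^ 2) := by linarith
      _ = _ := by ring
  calc _ ≤ 2 * CI R l k0 Γ a * (1 + K) ^ 2 * (L + s ^ 2) +
        CR R l k0 Γ a * ((1 + K) * (L + s ^ 2)) :=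
        add_le_add q1 (mul_le_mul_of_nonneg_left q2 hC)
    _ = _ := by ring

theorem rlip_gen (h : Dc R l k0 a Γ K ρ) (hR : P.R = R) (hc : Cl P p s (K * L))
    (hc' : Cl P' p' s (K * L)) (h2 : Cl2 P P' p p' (K * L) δ) (hL0 : 0 ≤ L) (hL : L ≤ s)
    (hs1 : 0 < s) (hs : s ≤ ρ) :
    nk a (rr l k0 0) (ENNReal.ofReal Γ)
      (fun U => (A0 Bg.pl P l k0 U - Kex p P.z U - Kct (Ge (Fld ℤ)) p U) -
        (A0 Bg.pl P' l k0 U - Kex p' P'.z U - Kct (Ge (Fld ℤ)) p' U)) ≤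
      ENNReal.ofReal (CC R l k0 Γ a K * (L + s) * δ) := by
  have hK := h.K0
  have hρ := h.ρ0
  have hs0 := hc.s0
  have hI := h.CI1
  have hC := h.CR0
  have hδ0 := h2.δ0
  have hKL : K * L ≤ K * s := mul_le_mul_of_nonneg_left hL hK
  have hKL0 : 0 ≤ K * L := mul_nonneg hK hL0
  have hθ : s + K * L ≤ 3 * (1 + K) * ρ := by
    have := mul_le_mul_of_nonneg_left hs (by linarith : 0 ≤ 1 + K)
    nlinarith
  have i1 := (nk_A0_lip h hR (phyp_of hc le_rfl (hθ.trans h.half))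
    (phyp_of hc' le_rfl (hθ.trans h.half)) (dhyp_of hc h2) (by linarith) hθ).2
  have i2 := nk_R1_sub_le h hc hc' h2 hR
  have e0 : (fun U => (A0 Bg.pl P l k0 U - Kex p P.z U - Kct (Ge (Fld ℤ)) p U) -
        (A0 Bg.pl P' l k0 U - Kex p' P'.z U - Kct (Ge (Fld ℤ)) p' U)) =
      fun U => ((A0 Bg.pl P l k0 U - A01 Bg.pl P U) - (A0 Bg.pl P' l k0 U - A01 Bg.pl P' U)) +
        (R1 frP P p U - R1 frP P' p' U) := by
    funext U
    rw [rem_eq, rem_eq]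
    abel
  rw [e0]
  refine (nk_add_le _ _).trans ((add_le_add i1 i2).trans ?_)
  rw [← ENNReal.ofReal_add (by positivity) (by positivity)]
  refine ENNReal.ofReal_le_ofReal ?_
  unfold CC
  have q0 : s + K * L ≤ (1 + K) * (L + s) := by nlinarith [mul_nonneg hK hs0]
  have q3 : s + K * L ≤ (1 + K) ^ 2 * (L + s) := by
    refine q0.trans (mul_le_mul_of_nonneg_right ?_ (by positivity))
    nlinarith
  have q1 : CI R l k0 Γ a * (2 * δ * (s + K * L)) ≤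
      2 * CI R l k0 Γ a * (1 + K) ^ 2 * (L + s) * δ := by
    have e : 0 ≤ 2 * CI R l k0 Γ a * δ := by positivity
    calc _ = 2 * CI R l k0 Γ a * δ * (s + K * L) := by ring
      _ ≤ 2 * CI R l k0 Γ a * δ * ((1 + K) ^ 2 * (L + s)) := mul_le_mul_of_nonneg_left q3 e
      _ = _ := by ring
  have q2 : (s + K * L) * δ ≤ (1 + K) * (L + s) * δ := mul_le_mul_of_nonneg_right q0 hδ0
  calc _ ≤ 2 * CI R l k0 Γ a * (1 + K) ^ 2 * (L + s) * δ +
        CR R l k0 Γ a * ((1 + K) * (L + s) * δ) :=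
        add_le_add q1 (mul_le_mul_of_nonneg_left q2 hC)
    _ = _ := by ring

end fin

end Crest.Agent.R165.InitPlx871
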