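import Crest.Agent.R165.Init0_541
import Crest.Agent.R165.GSysPl_387

/-!
# Row 165 (S0250), P7: the first step of the plane flow as a `OneStep` (helper541)

* `pI_abs`, `zzI_abs` : the physical parameters
* `x0`, `Phi0`, `f0`, `g0` : the first step
* `nQ0_le`, `nQ0_lip` : the norm of the new remainder
* `oneStep0` : **`OneStep` for the first step**, `K1_eq` : the system after the first step
-/

set_option autoImplicit false
set_option linter.unusedSectionVars false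

noncomputable section

open scoped ENNReal
open Crest.ProbabilityR.IsingModel
open Crest.Agent.R165.Gr0x606 Crest.Agent.R165.Gr1x606 Crest.Agent.R165.Latx683
open Crest.Agent.R165.PNormx417 Crest.Agent.R165.GDefx387 Crest.Agent.R165.GSysx387
open Crest.Agent.R165.GeOpsx337 Crest.Agent.R165.KFlowx337 Crest.Agent.R165.Bridgex915
open Crest.Agent.R165.NSumx915
open Crest.Agent.R165.PlaneModesx901 Crest.Agent.R165.PlaneLocx901 Crest.Agent.R165.PlaneCovx901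
open Crest.Agent.R165.PlaneSumx901 Crest.Agent.R165.PlaneCoefx901
open Crest.Agent.R165.PStepx417 Crest.Agent.R165.PStepIdx901 Crest.Agent.R165.GBulkx417
open Crest.Agent.R165.Sht3x541

namespace Crest.Agent.R165.Initx541

/-! ### the physical parameters -/

theorem pI_sub (r : ℕ) (ν ν' : ℝ) : pI r ν - pI r ν' = pI r (ν - ν') := by
  unfold pI; rw [sub_div]

theorem zzI_sub (r : ℕ) (ν z ν' z' : ℝ) :
    zzI r ν z - zzI r ν' z' = zzI r (ν - ν') (z - z') := by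
  unfold zzI; rw [← pI_sub, sub_div]; ring

theorem xc_ge : (2 / 5 : ℝ) ≤ xc := by
  have h : xc = Real.sqrt 2 - 1 := rfl
  have h2 : (7 / 5 : ℝ) ≤ Real.sqrt 2 := Real.le_sqrt_of_sq_le (by norm_num)
  rw [h]; linarith

theorem pI_abs {r : ℕ} (hr : 2 ≤ r) (ν : ℝ) : |pI r ν| ≤ |ν| := by
  have hx := xc_ge
  have hr' : (2 : ℝ) ≤ r := by exact_mod_cast hr
  have h1 : (1 : ℝ) ≤ 4 * xc * r := by nlinarith
  unfold pI
  rw [abs_div, abs_of_pos (by linarith : (0 : ℝ) < 4 * xc * r)]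
  exact div_le_self (abs_nonneg _) h1

theorem zzI_abs {r : ℕ} (hr : 2 ≤ r) (ν z : ℝ) : |zzI r ν z| ≤ 2 * |ν| + 5 / 2 * |z| := by
  have hx := xc_ge
  have h1 := pI_abs hr ν
  unfold zzI
  refine (abs_sub _ _).trans ?_
  rw [abs_mul, abs_div, abs_of_pos (by norm_num : (0 : ℝ) < 2), abs_of_pos (by linarith : 0 < xc)]
  have h2 : |z| / xc ≤ 5 / 2 * |z| := by
    rw [div_le_iff₀ (by linarith)]
    have := abs_nonneg z
    nlinarith
  linarith

theorem par_sum {r : ℕ} (hr : 2 ≤ r) (ν z : ℝ) : |pI r ν| + |zzI r ν z| ≤ 3 * (|ν| + |z|) := by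
  have h1 := pI_abs hr ν
  have h2 := zzI_abs hr ν z
  have := abs_nonneg z
  linarith

theorem par_le {r : ℕ} (hr : 2 ≤ r) {ν z s : ℝ} (hν : |ν| ≤ s) (hz : |z| ≤ s) :
    |pI r ν| ≤ 6 * s ∧ |zzI r ν z| ≤ 6 * s := by
  have h1 := pI_abs hr ν
  have h2 := zzI_abs hr ν z
  have := (abs_nonneg _).trans hν
  exact ⟨by linarith, by linarith⟩

/-! ### the first step -/

section step

variable {a : ℝ} {L r r' R R' : ℕ} {Γ : ℝ≥0∞} {S : Cov (Fld ℤ)} {g : Fld ℤ → ℝ≥0∞}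
  {p0 p1 q2 q0 C : ℝ≥0∞} {Cb κ : ℝ} {CK ρ : ℝ} {K : ℝ → ℝ → ℝ → Fam} {Kc : ℝ → Fam}

/-- the remainder of the initial activities -/
def rs (K : ℝ → ℝ → ℝ → Fam) (Kc : ℝ → Fam) (lam p z : ℝ) : Fam :=
  fun U => K lam p z U - Kex p z U - Kc p U

open Classical in
/-- the state of the initial activities -/
def x0 (D : InitData a r R Γ CK ρ K Kc) (lam p z : ℝ) : St a r R Γ :=
  if h : nk a r Γ (K lam p z) ≠ ∞ then
    { Q := K lam p z
      sym := D.sym lam p z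
      conn := D.conn lam p z
      emp := D.emp lam p z
      fin := h }
  else St.zero

theorem x0_Q (D : InitData a r R Γ CK ρ K Kc) {lam p z s : ℝ} (hl : |lam| ≤ s) (hp : |p| ≤ s)
    (hz : |z| ≤ s) (hs : s ≤ ρ) : (x0 D lam p z).Q = K lam p z := by
  have h : nk a r Γ (K lam p z) ≠ ∞ :=
    ne_top_of_le_ne_top ENNReal.ofReal_ne_top (D.size lam p z s hl hp hz hs)
  rw [x0, dif_pos h]

theorem QlG_split (D : InitData a r R Γ CK ρ K Kc) (lam p z : ℝ) (U : Finset Fc) :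
    QlG S r (K lam p z) U = QlG S r (Kex p z) U + QlG S r (rs K Kc lam p z) U := by
  have h1 := QlG_sub S r (fun U => K lam p z U - Kex p z U) (Kc p) U
  have h2 := QlG_sub S r (K lam p z) (Kex p z) U
  rw [h2, QlG_cst S r (D.cst p), sub_zero] at h1
  rw [show QlG S r (rs K Kc lam p z) U = QlG S r (K lam p z) U - QlG S r (Kex p z) U from h1]
  abel

theorem rs_conn (D : InitData a r R Γ CK ρ K Kc) (hR : 2 ≤ R) (lam p z : ℝ) (U : Finset Fc)
    (h : rs K Kc lam p z U ≠ 0) : Packx915.Conn fd R U := by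
  by_cases h1 : K lam p z U = 0
  · by_cases h2 : Kex p z U = 0
    · refine D.cconn p U fun h3 => h ?_
      rw [rs, h1, h2, h3, sub_zero, sub_zero]
    · exact Kex_conn hR p z U h2
  · exact D.conn lam p z U h1

theorem rs_empty (D : InitData a r R Γ CK ρ K Kc) (lam p z : ℝ) : rs K Kc lam p z ∅ = 0 := by
  rw [rs, D.emp, Kex_empty, D.cemp, sub_zero, sub_zero]

theorem alQ_split (D : InitData a r R Γ CK ρ K Kc) (hr : 2 ≤ r) (lam p z : ℝ) :
    alQ S r (K lam p z) = 4 * xc * p + alQ S r (rs K Kc lam p z) := by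
  have h1 := alQ_sub S r (fun U => K lam p z U - Kex p z U) (Kc p)
  have h2 := alQ_sub S r (K lam p z) (Kex p z)
  rw [h2, alQ_cst S r (D.cst p), sub_zero, alQ_Kex S hr] at h1
  rw [show alQ S r (rs K Kc lam p z) = alQ S r (K lam p z) - 4 * xc * p from h1]
  ring

theorem beQ_split (D : InitData a r R Γ CK ρ K Kc) (hr : 2 ≤ r) (lam p z : ℝ) :
    beQ S r (K lam p z) = (2 * xc * p - xc * z) + beQ S r (rs K Kc lam p z) := by
  have h1 := beQ_sub S r (fun U => K lam p z U - Kex p z U) (Kc p)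
  have h2 := beQ_sub S r (K lam p z) (Kex p z)
  rw [h2, beQ_cst S r (D.cst p), sub_zero, beQ_Kex S hr] at h1
  rw [show beQ S r (rs K Kc lam p z) = beQ S r (K lam p z) - (2 * xc * p - xc * z) from h1]
  ring

/-- the linear bound of the explicit part, to be proved by 877 -/
def ExB (a : ℝ) (r r' : ℕ) (Γ : ℝ≥0∞) (S : Cov (Fld ℤ)) (Ce : ℝ) : Prop :=
  ∀ p z : ℝ, nk a r' Γ (QlG S r (Kex p z)) ≤ Γ * ENNReal.ofReal (Ce * a ^ 2 * (|p| + |z|) / r')

/-- size of the new remainder -/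
theorem nQ0_le (h : PStep a L r r' R R' Γ S g p0 p1 q2 q0 C Cb) (hS : SymS S) (hκ0 : 0 ≤ κ)
    (hκ : κe r r' Γ p0 p1 q2 q0 C ≤ ENNReal.ofReal κ) (hR : 2 ≤ R)
    (D : InitData a r R Γ CK ρ K Kc) {Ce : ℝ} (hCe : 0 ≤ Ce) (hE : ExB a r r' Γ S Ce)
    {lam p z s : ℝ} (hl : |lam| ≤ s) (hp : |p| ≤ s) (hz : |z| ≤ s) (hs : s ≤ ρ)
    (hsm : 3 * CK * s ≤ cρ a Cb L Γ) :
    nk a r' Γ (nQ r R R' S 0 0 (K lam p z)) ≤ ENNReal.ofReal
      (Γ.toReal * (Ce * a ^ 2 * (|p| + |z|) / r') + κ * (CK * (|lam| + s ^ 2)) +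
        (cQ a Cb L Γ).toReal * (3 * CK * s) ^ 2) := by
  have hs0 : 0 ≤ s := (abs_nonneg _).trans hl
  have hC := D.C_nonneg
  have e : nQ r R R' S 0 0 (K lam p z) = fun U =>
      (QlG S r (Kex p z) U + QlG S r (rs K Kc lam p z) U) +
      Rm LocG r R R' (Hf S (Kf baseG ((0 : ℝ) / r) 0 (K lam p z))) U := by
    funext U
    rw [← QlG_split D]
    exact stQ_eq_Rm hS r R R' (0 / r) 0 (D.sym lam p z) U
  have h1 : nk a r' Γ (QlG S r (rs K Kc lam p z)) ≤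
      ENNReal.ofReal κ * ENNReal.ofReal (CK * (|lam| + s ^ 2)) :=
    (nk_Ql h.toPHyp _ (QlG S r (rs K Kc lam p z)) (fun U => (ident hS r).coe_Ql _ U)
      (rs_empty D lam p z) (rs_conn D hR lam p z)).trans
      (mul_le_mul' hκ (D.rest lam p z s hl hp hz hs))
  have hsz : nk a r Γ (K lam p z) ≤ ENNReal.ofReal (3 * CK * s) := by
    refine (D.size lam p z s hl hp hz hs).trans (ENNReal.ofReal_le_ofReal ?_)
    nlinarith
  have h3s : 0 ≤ 3 * CK * s := by positivity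
  have h2 := nk_Rm_le h (ident hS r) (n := 0) (z := 0) (D.sym lam p z) (D.conn lam p z) h3s
    (by rw [abs_zero]; exact h3s) (by rw [abs_zero]; exact h3s) hsz (small_of h.Γ_top hsm)
  have hQ : cQ a Cb L Γ = ENNReal.ofReal (cQ a Cb L Γ).toReal :=
    (ENNReal.ofReal_toReal (cQ_top h.Γ_top)).symm
  have hΓ : Γ = ENNReal.ofReal Γ.toReal := (ENNReal.ofReal_toReal h.Γ_top).symm
  have hA : 0 ≤ Γ.toReal * (Ce * a ^ 2 * (|p| + |z|) / r') := by positivity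
  have hB : 0 ≤ κ * (CK * (|lam| + s ^ 2)) := by positivity
  have hD : 0 ≤ (cQ a Cb L Γ).toReal * (3 * CK * s) ^ 2 := by positivity
  rw [e, ENNReal.ofReal_add (add_nonneg hA hB) hD, ENNReal.ofReal_add hA hB,
    ENNReal.ofReal_mul ENNReal.toReal_nonneg, ENNReal.ofReal_mul hκ0,
    ENNReal.ofReal_mul ENNReal.toReal_nonneg, ENNReal.ofReal_pow h3s, ← hQ, ← hΓ]
  exact (nk_add_le _ _).trans (add_le_add ((nk_add_le _ _).trans (add_le_add (hE p z) h1)) h2)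

/-- Lipschitz bound of the new remainder -/
theorem nQ0_lip (h : PStep a L r r' R R' Γ S g p0 p1 q2 q0 C Cb) (hS : SymS S) (hκ0 : 0 ≤ κ)
    (hκ : κe r r' Γ p0 p1 q2 q0 C ≤ ENNReal.ofReal κ) (hR : 2 ≤ R)
    (D : InitData a r R Γ CK ρ K Kc) {Ce : ℝ} (hCe : 0 ≤ Ce) (hE : ExB a r r' Γ S Ce)
    {lam p z p' z' s : ℝ} (hl : |lam| ≤ s) (hp : |p| ≤ s) (hz : |z| ≤ s) (hp' : |p'| ≤ s)
    (hz' : |z'| ≤ s) (hs : s ≤ ρ) (hsm : 3 * CK * s ≤ cρ a Cb L Γ) :
    nk a r' Γ (fun U => nQ r R R' S 0 0 (K lam p z) U - nQ r R R' S 0 0 (K lam p' z') U) ≤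
      ENNReal.ofReal
      (Γ.toReal * (Ce * a ^ 2 * (|p - p'| + |z - z'|) / r') +
        κ * (CK * (|lam| + s) * (|p - p'| + |z - z'|)) +
        (cL a Cb L Γ).toReal * (3 * CK * s) * (CK * (|p - p'| + |z - z'|))) := by
  have hs0 : 0 ≤ s := (abs_nonneg _).trans hl
  have hC := D.C_nonneg
  have e : (fun U => nQ r R R' S 0 0 (K lam p z) U - nQ r R R' S 0 0 (K lam p' z') U) = fun U =>
      (QlG S r (Kex (p - p') (z - z')) U +
        QlG S r (fun U => rs K Kc lam p z U - rs K Kc lam p' z' U) U) +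
      (Rm LocG r R R' (Hf S (Kf baseG ((0 : ℝ) / r) 0 (K lam p z))) U -
        Rm LocG r R R' (Hf S (Kf baseG ((0 : ℝ) / r) 0 (K lam p' z'))) U) := by
    funext U
    have e1 := stQ_eq_Rm hS r R R' (0 / r) 0 (D.sym lam p z) U
    have e2 := stQ_eq_Rm hS r R R' (0 / r) 0 (D.sym lam p' z') U
    have e3 : Kex (p - p') (z - z') = fun U => Kex p z U - Kex p' z' U :=
      funext fun U => (Kex_sub p z p' z' U).symm
    rw [nQ, nQ, e1, e2, QlG_split D, QlG_split D, QlG_sub, e3, QlG_sub]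
    abel
  have hrs : nk a r Γ (fun U => rs K Kc lam p z U - rs K Kc lam p' z' U) ≤
      ENNReal.ofReal (CK * (|lam| + s) * (|p - p'| + |z - z'|)) :=
    D.rlip lam p z p' z' s hl hp hz hp' hz' hs
  have h1 : nk a r' Γ (QlG S r fun U => rs K Kc lam p z U - rs K Kc lam p' z' U) ≤
      ENNReal.ofReal κ * ENNReal.ofReal (CK * (|lam| + s) * (|p - p'| + |z - z'|)) := by
    refine (nk_Ql h.toPHyp _ (QlG S r fun U => rs K Kc lam p z U - rs K Kc lam p' z' U)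
      (fun U => (ident hS r).coe_Ql _ U) (by rw [rs_empty D, rs_empty D, sub_zero])
      fun U hU => ?_).trans (mul_le_mul' hκ hrs)
    by_cases h0 : rs K Kc lam p z U = 0
    · refine rs_conn D hR lam p' z' U fun h1 => hU ?_
      rw [h0, h1, sub_zero]
    · exact rs_conn D hR lam p z U h0
  have h3s : 0 ≤ 3 * CK * s := by positivity
  have hsz : nk a r Γ (K lam p z) ≤ ENNReal.ofReal (3 * CK * s) := by
    refine (D.size lam p z s hl hp hz hs).trans (ENNReal.ofReal_le_ofReal ?_)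
    nlinarith
  have hsz' : nk a r Γ (K lam p' z') ≤ ENNReal.ofReal (3 * CK * s) := by
    refine (D.size lam p' z' s hl hp' hz' hs).trans (ENNReal.ofReal_le_ofReal ?_)
    nlinarith
  have hd : 0 ≤ CK * (|p - p'| + |z - z'|) := by positivity
  have h0s : |(0 : ℝ)| ≤ 3 * CK * s := by rw [abs_zero]; exact h3s
  have h0d : |(0 : ℝ) - 0| ≤ CK * (|p - p'| + |z - z'|) := by
    rw [sub_zero, abs_zero]; exact hd
  have h2 := nk_Rm_lip h (ident hS r) baseG_sub (n := 0) (z := 0) (n₂ := 0) (z₂ := 0)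
    (D.sym lam p z) (D.sym lam p' z') (D.conn lam p z) (D.conn lam p' z') h3s h0s h0s hsz h0s h0s
    hsz' (plS_sub (D.sym lam p z) (D.sym lam p' z')) hd h0d h0d
    (D.lip lam p z p' z' s hl hp hz hp' hz' hs) (small_of h.Γ_top hsm)
  have hQ : cL a Cb L Γ = ENNReal.ofReal (cL a Cb L Γ).toReal :=
    (ENNReal.ofReal_toReal (cL_top h.Γ_top)).symm
  have hΓ : Γ = ENNReal.ofReal Γ.toReal := (ENNReal.ofReal_toReal h.Γ_top).symm
  have hA : 0 ≤ Γ.toReal * (Ce * a ^ 2 * (|p - p'| + |z - z'|) / r') := by positivity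
  have hB : 0 ≤ κ * (CK * (|lam| + s) * (|p - p'| + |z - z'|)) := by positivity
  have hD : 0 ≤ (cL a Cb L Γ).toReal * (3 * CK * s) * (CK * (|p - p'| + |z - z'|)) := by
    positivity
  rw [e, ENNReal.ofReal_add (add_nonneg hA hB) hD, ENNReal.ofReal_add hA hB,
    ENNReal.ofReal_mul ENNReal.toReal_nonneg, ENNReal.ofReal_mul hκ0,
    ENNReal.ofReal_mul (mul_nonneg ENNReal.toReal_nonneg h3s),
    ENNReal.ofReal_mul ENNReal.toReal_nonneg, ← hQ, ← hΓ]
  exact (nk_add_le _ _).trans (add_le_add ((nk_add_le _ _).trans (add_le_add (hE _ _) h1)) h2)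

/-! ### the maps of the first step -/

/-- the new remainder of the first step -/
def Phi0 (h : PStep a L r r' R R' Γ S g p0 p1 q2 q0 C Cb) (hS : SymS S)
    (D : InitData a r R Γ CK ρ K Kc) (lam ν z : ℝ) : St a r' R' Γ :=
  nSt r R R' hS h.hRR 0 0 (x0 D lam (pI r ν) (zzI r ν z))

/-- the nonlinear part of the mass after the first step -/
def f0 (K : ℝ → ℝ → ℝ → Fam) (L r r' : ℕ) (S : Cov (Fld ℤ)) (lam ν z : ℝ) : ℝ :=
  (r' : ℝ) * alQ S r (K lam (pI r ν) (zzI r ν z)) - L * ν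

/-- the nonlinear part of the field strength after the first step -/
def g0 (K : ℝ → ℝ → ℝ → Fam) (r : ℕ) (S : Cov (Fld ℤ)) (lam ν z : ℝ) : ℝ :=
  beQ S r (K lam (pI r ν) (zzI r ν z)) - z

theorem f0_eq (h : PStep a L r r' R R' Γ S g p0 p1 q2 q0 C Cb) (D : InitData a r R Γ CK ρ K Kc)
    (hr : 2 ≤ r) (lam ν z : ℝ) : f0 K L r r' S lam ν z =
      r' * alQ S r (rs K Kc lam (pI r ν) (zzI r ν z)) := by
  have hx := xc_ge
  have hr0 : (r : ℝ) ≠ 0 := by exact_mod_cast (by omega : r ≠ 0)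
  have hrat : (r' : ℝ) = L * r := by exact_mod_cast h.ratio
  have hx0 : xc ≠ 0 := by linarith
  rw [f0, alQ_split D hr, mul_add, pI, hrat]
  have e : (L : ℝ) * r * (4 * xc * (ν / (4 * xc * r))) = L * ν := by field_simp
  rw [e]
  ring

theorem g0_eq (D : InitData a r R Γ CK ρ K Kc) (hr : 2 ≤ r) (lam ν z : ℝ) :
    g0 K r S lam ν z = beQ S r (rs K Kc lam (pI r ν) (zzI r ν z)) := by
  have hx := xc_ge
  have hx0 : xc ≠ 0 := by linarith
  rw [g0, beQ_split D hr, zzI]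
  have e : 2 * xc * pI r ν - xc * (2 * pI r ν - z / xc) = z := by
    field_simp
    ring
  rw [e]
  ring

/-! ### bounds of the first step -/

theorem Phi0_nm (h : PStep a L r r' R R' Γ S g p0 p1 q2 q0 C Cb) (hS : SymS S) (hκ0 : 0 ≤ κ)
    (hκ : κe r r' Γ p0 p1 q2 q0 C ≤ ENNReal.ofReal κ) (ha : 1 ≤ a) (hr : 2 ≤ r) (hR : 2 ≤ R)
    (D : InitData a r R Γ CK ρ K Kc) {Ce : ℝ} (hCe : 0 ≤ Ce) (hE : ExB a r r' Γ S Ce)
    {lam ν z s : ℝ} (hl : |lam| ≤ s) (hν : |ν| ≤ s) (hz : |z| ≤ s) (hs : 6 * s ≤ ρ)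
    (hsm : 18 * CK * s ≤ cρ a Cb L Γ) :
    (Phi0 h hS D lam ν z).Q = nQ r R R' S 0 0 (K lam (pI r ν) (zzI r ν z)) ∧
    Nmx (Phi0 h hS D lam ν z) / a ^ 2 ≤ 3 * Γ.toReal * Ce / r' * (|ν| + |z|) + κ * (CK * |lam|) +
      (36 * κ * CK + 324 * (cQ a Cb L Γ).toReal * CK ^ 2) * s ^ 2 := by
  have hs0 : 0 ≤ s := (abs_nonneg _).trans hl
  have hC := D.C_nonneg
  obtain ⟨hp, hzz⟩ := par_le hr hν hz
  have hl6 : |lam| ≤ 6 * s := by linarith
  have hx : (x0 D lam (pI r ν) (zzI r ν z)).Q = K lam (pI r ν) (zzI r ν z) :=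
    x0_Q D hl6 hp hzz hs
  have h1 := nQ0_le h hS hκ0 hκ hR D hCe hE hl6 hp hzz hs (by linarith)
  have h2 : nk a r' Γ (nQ r R R' S 0 0 (x0 D lam (pI r ν) (zzI r ν z)).Q) ≠ ∞ := by
    rw [hx]; exact ne_top_of_le_ne_top ENNReal.ofReal_ne_top h1
  have h3 : (Phi0 h hS D lam ν z).Q = nQ r R R' S 0 0 (K lam (pI r ν) (zzI r ν z)) := by
    rw [Phi0, nSt_Q h2, hx]
  refine ⟨h3, ?_⟩
  have hG : 0 ≤ Γ.toReal := ENNReal.toReal_nonneg
  have hq : 0 ≤ (cQ a Cb L Γ).toReal := ENNReal.toReal_nonneg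
  have hsum := par_sum hr ν z
  have hr' : (0 : ℝ) < r' := by
    have := h.hR
    exact_mod_cast (by omega : 0 < r')
  have ha2 : (1 : ℝ) ≤ a ^ 2 := one_le_pow₀ ha
  have h4 : Nmx (Phi0 h hS D lam ν z) ≤
      Γ.toReal * (Ce * a ^ 2 * (|pI r ν| + |zzI r ν z|) / r') +
        κ * (CK * (|lam| + (6 * s) ^ 2)) + (cQ a Cb L Γ).toReal * (3 * CK * (6 * s)) ^ 2 := by
    unfold Nmx
    rw [h3]
    exact ENNReal.toReal_le_of_le_ofReal (by positivity) h1
  rw [div_le_iff₀ (by positivity)]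
  refine h4.trans ?_
  have e1 : Γ.toReal * (Ce * a ^ 2 * (|pI r ν| + |zzI r ν z|) / r') ≤
      3 * Γ.toReal * Ce / r' * (|ν| + |z|) * a ^ 2 := by
    have : Γ.toReal * (Ce * a ^ 2 * (|pI r ν| + |zzI r ν z|) / r') =
        (Γ.toReal * Ce / r' * a ^ 2) * (|pI r ν| + |zzI r ν z|) := by ring
    rw [this]
    have h5 : (Γ.toReal * Ce / r' * a ^ 2) * (|pI r ν| + |zzI r ν z|) ≤
        (Γ.toReal * Ce / r' * a ^ 2) * (3 * (|ν| + |z|)) :=
      mul_le_mul_of_nonneg_left hsum (by positivity)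
    refine h5.trans (le_of_eq ?_)
    ring
  have e2 : κ * (CK * (|lam| + (6 * s) ^ 2)) + (cQ a Cb L Γ).toReal * (3 * CK * (6 * s)) ^ 2 =
      κ * (CK * |lam|) + (36 * κ * CK + 324 * (cQ a Cb L Γ).toReal * CK ^ 2) * s ^ 2 := by ring
  have e3 : κ * (CK * |lam|) + (36 * κ * CK + 324 * (cQ a Cb L Γ).toReal * CK ^ 2) * s ^ 2 ≤
      (κ * (CK * |lam|) + (36 * κ * CK + 324 * (cQ a Cb L Γ).toReal * CK ^ 2) * s ^ 2) *
        a ^ 2 := le_mul_of_one_le_right (by positivity) ha2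
  have e4 : (3 * Γ.toReal * Ce / r' * (|ν| + |z|) + κ * (CK * |lam|) +
      (36 * κ * CK + 324 * (cQ a Cb L Γ).toReal * CK ^ 2) * s ^ 2) * a ^ 2 =
      3 * Γ.toReal * Ce / r' * (|ν| + |z|) * a ^ 2 + (κ * (CK * |lam|) +
        (36 * κ * CK + 324 * (cQ a Cb L Γ).toReal * CK ^ 2) * s ^ 2) * a ^ 2 := by ring
  rw [e4]
  linarith

theorem Phi0_ds (h : PStep a L r r' R R' Γ S g p0 p1 q2 q0 C Cb) (hS : SymS S) (hκ0 : 0 ≤ κ)
    (hκ : κe r r' Γ p0 p1 q2 q0 C ≤ ENNReal.ofReal κ) (ha : 1 ≤ a) (hr : 2 ≤ r) (hR : 2 ≤ R)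
    (D : InitData a r R Γ CK ρ K Kc) {Ce : ℝ} (hCe : 0 ≤ Ce) (hE : ExB a r r' Γ S Ce)
    {lam ν z ν' z' s : ℝ} (hl : |lam| ≤ s) (hν : |ν| ≤ s) (hz : |z| ≤ s) (hν' : |ν'| ≤ s)
    (hz' : |z'| ≤ s) (hs : 6 * s ≤ ρ) (hsm : 18 * CK * s ≤ cρ a Cb L Γ) :
    Dsx (Phi0 h hS D lam ν z) (Phi0 h hS D lam ν' z') / a ^ 2 ≤
      3 * Γ.toReal * Ce / r' * (|ν - ν'| + |z - z'|) +
        (21 * κ * CK + 54 * (cL a Cb L Γ).toReal * CK ^ 2) * s * (|ν - ν'| + |z - z'|) := by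
  have hs0 : 0 ≤ s := (abs_nonneg _).trans hl
  have hC := D.C_nonneg
  obtain ⟨hp, hzz⟩ := par_le hr hν hz
  obtain ⟨hp', hzz'⟩ := par_le hr hν' hz'
  have hl6 : |lam| ≤ 6 * s := by linarith
  have h1 := nQ0_lip h hS hκ0 hκ hR D hCe hE hl6 hp hzz hp' hzz' hs (by linarith)
  have hG : 0 ≤ Γ.toReal := ENNReal.toReal_nonneg
  have hq : 0 ≤ (cL a Cb L Γ).toReal := ENNReal.toReal_nonneg
  have hsum := par_sum hr (ν - ν') (z - z')
  rw [← pI_sub, ← zzI_sub] at hsum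
  have hr' : (0 : ℝ) < r' := by
    have := h.hR
    exact_mod_cast (by omega : 0 < r')
  have ha2 : (1 : ℝ) ≤ a ^ 2 := one_le_pow₀ ha
  set δ := |pI r ν - pI r ν'| + |zzI r ν z - zzI r ν' z'| with hδ
  have hδ0 : 0 ≤ δ := by rw [hδ]; positivity
  have h4 : Dsx (Phi0 h hS D lam ν z) (Phi0 h hS D lam ν' z') ≤
      Γ.toReal * (Ce * a ^ 2 * δ / r') + κ * (CK * (|lam| + 6 * s) * δ) +
        (cL a Cb L Γ).toReal * (3 * CK * (6 * s)) * (CK * δ) := by
    unfold Dsx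
    rw [(Phi0_nm h hS hκ0 hκ ha hr hR D hCe hE hl hν hz hs hsm).1,
      (Phi0_nm h hS hκ0 hκ ha hr hR D hCe hE hl hν' hz' hs hsm).1]
    exact ENNReal.toReal_le_of_le_ofReal (by positivity) h1
  rw [div_le_iff₀ (by positivity)]
  refine h4.trans ?_
  set τ := |ν - ν'| + |z - z'| with hτ
  have hτ0 : 0 ≤ τ := by rw [hτ]; positivity
  have e1 : Γ.toReal * (Ce * a ^ 2 * δ / r') ≤ 3 * Γ.toReal * Ce / r' * τ * a ^ 2 := by
    have : Γ.toReal * (Ce * a ^ 2 * δ / r') = (Γ.toReal * Ce / r' * a ^ 2) * δ := by ring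
    rw [this]
    refine (mul_le_mul_of_nonneg_left hsum (by positivity)).trans (le_of_eq ?_)
    ring
  have e2 : κ * (CK * (|lam| + 6 * s) * δ) ≤ 21 * κ * CK * s * τ := by
    have h6 : (|lam| + 6 * s) * δ ≤ 7 * s * (3 * τ) :=
      mul_le_mul (by linarith) hsum hδ0 (by positivity)
    calc κ * (CK * (|lam| + 6 * s) * δ) = (κ * CK) * ((|lam| + 6 * s) * δ) := by ring
      _ ≤ (κ * CK) * (7 * s * (3 * τ)) := mul_le_mul_of_nonneg_left h6 (by positivity)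
      _ = _ := by ring
  have e3 : (cL a Cb L Γ).toReal * (3 * CK * (6 * s)) * (CK * δ) ≤
      54 * (cL a Cb L Γ).toReal * CK ^ 2 * s * τ := by
    calc (cL a Cb L Γ).toReal * (3 * CK * (6 * s)) * (CK * δ)
        = (18 * (cL a Cb L Γ).toReal * CK ^ 2 * s) * δ := by ring
      _ ≤ (18 * (cL a Cb L Γ).toReal * CK ^ 2 * s) * (3 * τ) :=
        mul_le_mul_of_nonneg_left hsum (by positivity)
      _ = _ := by ring
  have e4 : (21 * κ * CK + 54 * (cL a Cb L Γ).toReal * CK ^ 2) * s * τ ≤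
      (21 * κ * CK + 54 * (cL a Cb L Γ).toReal * CK ^ 2) * s * τ * a ^ 2 :=
    le_mul_of_one_le_right (by positivity) ha2
  have e5 : (3 * Γ.toReal * Ce / r' * τ +
      (21 * κ * CK + 54 * (cL a Cb L Γ).toReal * CK ^ 2) * s * τ) * a ^ 2 =
      3 * Γ.toReal * Ce / r' * τ * a ^ 2 +
        (21 * κ * CK + 54 * (cL a Cb L Γ).toReal * CK ^ 2) * s * τ * a ^ 2 := by ring
  rw [e5]
  linarith

/-- constants of the coefficients -/
def cF (a : ℝ) (r r' : ℕ) : ℝ :=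
  r' * (PlaneCoefx901.cM / a ^ 2 * r) + PlaneCoefx901.cK / a ^ 2 * r ^ 2

theorem cF_nonneg (a : ℝ) (r r' : ℕ) : 0 ≤ cF a r r' := by
  have := cM_nonneg; have := cK_nonneg; unfold cF; positivity

theorem coef_cF (h : PHyp a r r' R R' Γ S g p0 p1 q2 q0 C Cb) {Q : Fam} {x : ℝ} (hx : 0 ≤ x)
    (hQ : nk a r Γ Q ≤ ENNReal.ofReal x) :
    |(r' : ℝ) * alQ S r Q| ≤ cF a r r' * x ∧ |beQ S r Q| ≤ cF a r r' * x := by
  have hM := cM_nonneg
  have hK := cK_nonneg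
  obtain ⟨h1, h2⟩ := coef_crude h hx hQ
  have e1 : 0 ≤ (r' : ℝ) * (PlaneCoefx901.cM / a ^ 2 * r) * x := by positivity
  have e2 : 0 ≤ PlaneCoefx901.cK / a ^ 2 * r ^ 2 * x := by positivity
  unfold cF
  constructor
  · rw [abs_mul, Nat.abs_cast]
    have h3 := mul_le_mul_of_nonneg_left h1 (Nat.cast_nonneg (α := ℝ) r')
    nlinarith
  · nlinarith

theorem coef0 (h : PStep a L r r' R R' Γ S g p0 p1 q2 q0 C Cb) (hr : 2 ≤ r)
    (D : InitData a r R Γ CK ρ K Kc)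
    {lam ν z s : ℝ} (hl : |lam| ≤ s) (hν : |ν| ≤ s) (hz : |z| ≤ s) (hs : 6 * s ≤ ρ) :
    |f0 K L r r' S lam ν z| ≤ cF a r r' * (CK * (|lam| + 36 * s ^ 2)) ∧
      |g0 K r S lam ν z| ≤ cF a r r' * (CK * (|lam| + 36 * s ^ 2)) := by
  have hs0 : 0 ≤ s := (abs_nonneg _).trans hl
  have hC := D.C_nonneg
  obtain ⟨hp, hzz⟩ := par_le hr hν hz
  have h1 := D.rest lam _ _ _ (by linarith : |lam| ≤ 6 * s) hp hzz hs
  have e : CK * (|lam| + (6 * s) ^ 2) = CK * (|lam| + 36 * s ^ 2) := by ring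
  rw [e] at h1
  rw [f0_eq h D hr, g0_eq D hr]
  exact coef_cF h.toPHyp (by positivity) h1

theorem coef0_lip (h : PStep a L r r' R R' Γ S g p0 p1 q2 q0 C Cb) (hr : 2 ≤ r)
    (D : InitData a r R Γ CK ρ K Kc) {lam ν z ν' z' s : ℝ} (hl : |lam| ≤ s) (hν : |ν| ≤ s)
    (hz : |z| ≤ s) (hν' : |ν'| ≤ s) (hz' : |z'| ≤ s) (hs : 6 * s ≤ ρ) :
    |f0 K L r r' S lam ν z - f0 K L r r' S lam ν' z'| ≤
        21 * cF a r r' * CK * s * (|ν - ν'| + |z - z'|) ∧
      |g0 K r S lam ν z - g0 K r S lam ν' z'| ≤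
        21 * cF a r r' * CK * s * (|ν - ν'| + |z - z'|) := by
  have hs0 : 0 ≤ s := (abs_nonneg _).trans hl
  have hC := D.C_nonneg
  have hF := cF_nonneg a r r'
  obtain ⟨hp, hzz⟩ := par_le hr hν hz
  obtain ⟨hp', hzz'⟩ := par_le hr hν' hz'
  have hsum := par_sum hr (ν - ν') (z - z')
  rw [← pI_sub, ← zzI_sub] at hsum
  have h1 := D.rlip lam _ _ _ _ _ (by linarith : |lam| ≤ 6 * s) hp hzz hp' hzz' hs
  rw [f0_eq h D hr, g0_eq D hr, f0_eq h D hr, g0_eq D hr, ← mul_sub, ← alQ_sub, ← beQ_sub]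
  set δ := |pI r ν - pI r ν'| + |zzI r ν z - zzI r ν' z'| with hδ
  have hδ0 : 0 ≤ δ := by rw [hδ]; positivity
  obtain ⟨h2, h3⟩ := coef_cF h.toPHyp (x := CK * (|lam| + 6 * s) * δ) (by positivity) h1
  have h4 : cF a r r' * (CK * (|lam| + 6 * s) * δ) ≤
      21 * cF a r r' * CK * s * (|ν - ν'| + |z - z'|) := by
    have h6 : (|lam| + 6 * s) * δ ≤ 7 * s * (3 * (|ν - ν'| + |z - z'|)) :=
      mul_le_mul (by linarith) hsum hδ0 (by positivity)
    calc cF a r r' * (CK * (|lam| + 6 * s) * δ) = (cF a r r' * CK) * ((|lam| + 6 * s) * δ) := by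
          ring
      _ ≤ (cF a r r' * CK) * (7 * s * (3 * (|ν - ν'| + |z - z'|))) :=
        mul_le_mul_of_nonneg_left h6 (by positivity)
      _ = _ := by ring
  exact ⟨h2.trans h4, h3.trans h4⟩

/-- the system after the first step -/
theorem K1_eq (h : PStep a L r r' R R' Γ S g p0 p1 q2 q0 C Cb) (hS : SymS S)
    (D : InitData a r R Γ CK ρ K Kc) {lam ν z : ℝ}
    (hQ : (Phi0 h hS D lam ν z).Q = nQ r R R' S 0 0 (K lam (pI r ν) (zzI r ν z)))
    (Sy : Sys Fc (Fld ℤ)) (h0 : Sy.K 0 = K lam (pI r ν) (zzI r ν z))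
    (hv : Sy.vac = vac0 (Fld ℤ)) (he : Sy.e 0 = PStepIdx901.eP r)
    (hn1 : Sy.near 0 = fun a b => fd a b ≤ R) (hn2 : Sy.near 1 = fun a b => fd a b ≤ R')
    (hSk : Sy.S 0 = S) :
    Sy.K 1 = stK ((L * ν + f0 K L r r' S lam ν z) / r') (z + g0 K r S lam ν z)
      (Phi0 h hS D lam ν z).Q := by
  have hz : Sy.K 0 = stK 0 0 (K lam (pI r ν) (zzI r ν z)) := by rw [stK_zero, h0]
  have h1 := PStepIdx901.sys_step Sy 0 hv he 0 0 _ hz
  have hr' : (r' : ℝ) ≠ 0 := by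
    have := h.hR
    exact_mod_cast (by omega : r' ≠ 0)
  have e1 : (L * ν + f0 K L r r' S lam ν z) / r' = alQ S r (K lam (pI r ν) (zzI r ν z)) := by
    rw [f0, add_sub_cancel, mul_div_cancel_left₀ _ hr']
  have e2 : z + g0 K r S lam ν z = beQ S r (K lam (pI r ν) (zzI r ν z)) := by
    rw [g0, add_sub_cancel]
  rw [e1, e2, hQ]
  rw [zero_add] at h1
  rw [h1, hn1, hn2, hSk, zero_add, zero_add, nQ, zero_div]

/-- **the first step of the plane flow** -/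
theorem oneStep0 (h : PStep a L r r' R R' Γ S g p0 p1 q2 q0 C Cb) (hS : SymS S) (hκ0 : 0 < κ)
    (hκ : κe r r' Γ p0 p1 q2 q0 C ≤ ENNReal.ofReal κ) (ha : 1 ≤ a) (hr : 2 ≤ r) (hR : 2 ≤ R)
    (D : InitData a r R Γ CK ρ K Kc) {Ce : ℝ} (hCe : 0 ≤ Ce) (hE : ExB a r r' Γ S Ce)
    {M ζ : ℝ} (hM : 1 ≤ M) (hζ : 3 * Γ.toReal * Ce / r' ≤ ζ) :
    ∃ N P ρ', 1 ≤ N ∧ 0 ≤ P ∧ 0 < ρ' ∧ ∀ lam : ℝ,
      OneStep (fun _ : PUnit => N * |lam|) (fun x : St a r' R' Γ => Nmx x / a ^ 2)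
        (fun _ _ => 0) (fun x y => Dsx x y / a ^ 2) (fun ν z _ => Phi0 h hS D lam ν z)
        (fun ν z _ => f0 K L r r' S lam ν z) (fun ν z _ => g0 K r S lam ν z) κ 0 ζ M P ρ' ∧
      (|lam| ≤ ρ' → ∀ ν z, |ν| ≤ ρ' → |z| ≤ ρ' →
        nk a r Γ (K lam (pI r ν) (zzI r ν z)) ≤
          ENNReal.ofReal (3 * CK * (|lam| + |ν| + |z|)) ∧
        ∀ Sy : Sys Fc (Fld ℤ), Sy.K 0 = K lam (pI r ν) (zzI r ν z) → Sy.vac = vac0 (Fld ℤ) →
          Sy.e 0 = PStepIdx901.eP r → Sy.near 0 = (fun a b => fd a b ≤ R) →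
          Sy.near 1 = (fun a b => fd a b ≤ R') → Sy.S 0 = S →
          Sy.K 1 = stK ((L * ν + f0 K L r r' S lam ν z) / r') (z + g0 K r S lam ν z)
            (Phi0 h hS D lam ν z).Q) := by
  have hC := D.C_nonneg
  have hρ := D.ρ_pos
  have hF := cF_nonneg a r r'
  have hq : 0 ≤ (cQ a Cb L Γ).toReal := ENNReal.toReal_nonneg
  have hl : 0 ≤ (cL a Cb L Γ).toReal := ENNReal.toReal_nonneg
  have hcρ := cρ_pos a Cb L Γ
  set N : ℝ := 1 + CK + cF a r r' * CK with hN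
  set P : ℝ := 36 * κ * CK + 324 * (cQ a Cb L Γ).toReal * CK ^ 2 +
    (21 * κ * CK + 54 * (cL a Cb L Γ).toReal * CK ^ 2) + 57 * cF a r r' * CK with hP
  set ρ' : ℝ := min (ρ / 6) (cρ a Cb L Γ / (18 * (CK + 1))) with hρ'
  have hFC : 0 ≤ cF a r r' * CK := by positivity
  have hN1 : 1 ≤ N := by rw [hN]; linarith
  have hP1 : 0 ≤ 36 * κ * CK + 324 * (cQ a Cb L Γ).toReal * CK ^ 2 := by positivity
  have hP2 : 0 ≤ 21 * κ * CK + 54 * (cL a Cb L Γ).toReal * CK ^ 2 := by positivity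
  have hP3 : 0 ≤ 57 * cF a r r' * CK := by positivity
  have hP0 : 0 ≤ P := by rw [hP]; positivity
  have hρ0 : 0 < ρ' := lt_min (by positivity) (by positivity)
  have hs6 : ∀ {s : ℝ}, s ≤ ρ' → 6 * s ≤ ρ := by
    intro s hs
    have := hs.trans (min_le_left _ _)
    linarith
  have hs18 : ∀ {s : ℝ}, 0 ≤ s → s ≤ ρ' → 18 * CK * s ≤ cρ a Cb L Γ := by
    intro s hs0 hs
    have h1 := hs.trans (min_le_right _ _)
    rw [le_div_iff₀ (by positivity)] at h1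
    nlinarith
  have hlam : ∀ {lam s : ℝ}, N * |lam| ≤ s → |lam| ≤ s := by
    intro lam s hs
    have := abs_nonneg lam
    nlinarith
  refine ⟨N, P, ρ', hN1, hP0, hρ0, fun lam => ⟨?_, ?_⟩⟩
  · have hlam0 := abs_nonneg lam
    refine ⟨?_, ?_, ?_, ?_, ?_, ?_⟩
    · -- nm
      intro ν z _ s hν hz hN' hs
      have hs0 : 0 ≤ s := (abs_nonneg _).trans hν
      have h1 := (Phi0_nm h hS hκ0.le hκ ha hr hR D hCe hE (hlam hN') hν hz (hs6 hs)
        (hs18 hs0 hs)).2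
      refine h1.trans ?_
      have e1 : 3 * Γ.toReal * Ce / r' * (|ν| + |z|) ≤ ζ * (|ν| + |z|) :=
        mul_le_mul_of_nonneg_right hζ (by positivity)
      have e2 : κ * (CK * |lam|) ≤ κ * (N * |lam|) := by
        refine mul_le_mul_of_nonneg_left (mul_le_mul_of_nonneg_right ?_ hlam0) hκ0.le
        rw [hN]; linarith
      have e3 : (36 * κ * CK + 324 * (cQ a Cb L Γ).toReal * CK ^ 2) * s ^ 2 ≤ P * s ^ 2 := by
        refine mul_le_mul_of_nonneg_right ?_ (by positivity)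
        rw [hP]; linarith
      linarith
    · -- ds
      intro ν z _ ν' z' _ s hν hz hN' hν' hz' _ hs
      have hs0 : 0 ≤ s := (abs_nonneg _).trans hν
      have h1 := Phi0_ds h hS hκ0.le hκ ha hr hR D hCe hE (hlam hN') hν hz hν' hz' (hs6 hs)
        (hs18 hs0 hs)
      refine h1.trans ?_
      have e1 : 3 * Γ.toReal * Ce / r' * (|ν - ν'| + |z - z'|) ≤
          ζ * (|ν - ν'| + |z - z'|) := mul_le_mul_of_nonneg_right hζ (by positivity)
      have e2 : (21 * κ * CK + 54 * (cL a Cb L Γ).toReal * CK ^ 2) * s *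
          (|ν - ν'| + |z - z'|) ≤ P * s * (|ν - ν'| + |z - z'|) := by
        refine mul_le_mul_of_nonneg_right (mul_le_mul_of_nonneg_right ?_ hs0) (by positivity)
        rw [hP]; linarith
      rw [mul_zero, zero_add, add_zero]
      linarith
    · -- f_nm
      intro ν z _ s hν hz hN' hs
      have hs0 : 0 ≤ s := (abs_nonneg _).trans hν
      have h1 := (coef0 h hr D (hlam hN') hν hz (hs6 hs)).1
      refine h1.trans ?_
      have e1 : cF a r r' * CK * |lam| ≤ M * (N * |lam|) := by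
        have e2 : cF a r r' * CK * |lam| ≤ N * |lam| :=
          mul_le_mul_of_nonneg_right (by rw [hN]; linarith) hlam0
        have e3 : N * |lam| ≤ M * (N * |lam|) := le_mul_of_one_le_left (by positivity) hM
        linarith
      have e2 : 36 * (cF a r r' * CK) * s ^ 2 ≤ P * s ^ 2 := by
        refine mul_le_mul_of_nonneg_right ?_ (by positivity)
        rw [hP]; linarith
      have e3 : 0 ≤ (0 + P * s) * (|ν| + |z|) := by positivity
      calc cF a r r' * (CK * (|lam| + 36 * s ^ 2))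
          = cF a r r' * CK * |lam| + 36 * (cF a r r' * CK) * s ^ 2 := by ring
        _ ≤ _ := by linarith
    · -- f_ds
      intro ν z _ ν' z' _ s hν hz hN' hν' hz' _ hs
      have hs0 : 0 ≤ s := (abs_nonneg _).trans hν
      have h1 := (coef0_lip h hr D (hlam hN') hν hz hν' hz' (hs6 hs)).1
      refine h1.trans ?_
      rw [mul_zero, zero_add, zero_add]
      refine mul_le_mul_of_nonneg_right (mul_le_mul_of_nonneg_right ?_ hs0) (by positivity)
      rw [hP]; linarith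
    · -- g_nm
      intro ν z _ s hν hz hN' hs
      have hs0 : 0 ≤ s := (abs_nonneg _).trans hν
      have h1 := (coef0 h hr D (hlam hN') hν hz (hs6 hs)).2
      refine h1.trans ?_
      have e1 : cF a r r' * CK * |lam| ≤ M * (N * |lam|) := by
        have e2 : cF a r r' * CK * |lam| ≤ N * |lam| :=
          mul_le_mul_of_nonneg_right (by rw [hN]; linarith) hlam0
        have e3 : N * |lam| ≤ M * (N * |lam|) := le_mul_of_one_le_left (by positivity) hM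
        linarith
      have e2 : 36 * (cF a r r' * CK) * s ^ 2 ≤ P * s ^ 2 := by
        refine mul_le_mul_of_nonneg_right ?_ (by positivity)
        rw [hP]; linarith
      have e3 : 0 ≤ (0 + P * s) * (|ν| + |z|) := by positivity
      calc cF a r r' * (CK * (|lam| + 36 * s ^ 2))
          = cF a r r' * CK * |lam| + 36 * (cF a r r' * CK) * s ^ 2 := by ring
        _ ≤ _ := by linarith
    · -- g_ds
      intro ν z _ ν' z' _ s hν hz hN' hν' hz' _ hs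
      have hs0 : 0 ≤ s := (abs_nonneg _).trans hν
      have h1 := (coef0_lip h hr D (hlam hN') hν hz hν' hz' (hs6 hs)).2
      refine h1.trans ?_
      rw [mul_zero, zero_add, zero_add]
      refine mul_le_mul_of_nonneg_right (mul_le_mul_of_nonneg_right ?_ hs0) (by positivity)
      rw [hP]; linarith
  · intro hlam' ν z hν hz
    obtain ⟨hp, hzz⟩ := par_le hr hν hz
    have hs := hs6 le_rfl
    constructor
    · refine (D.size lam _ _ _ (by linarith : |lam| ≤ 6 * ρ') hp hzz hs).trans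
        (ENNReal.ofReal_le_ofReal ?_)
      have h1 := par_sum hr ν z
      have h2 := abs_nonneg lam
      nlinarith
    · intro Sy h0 hv he hn1 hn2 hSk
      exact K1_eq h hS D (Phi0_nm h hS hκ0.le hκ ha hr hR D hCe hE hlam' hν hz hs
        (hs18 hρ0.le le_rfl)).1 Sy h0 hv he hn1 hn2 hSk

end step

end Crest.Agent.R165.Initx541
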