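import Crest.Agent.R161.Gks_375

/-!
# Abstract Ising averages and comparison inequalities (helper697, R165 block U-N)

For a finite site set `ι` and couplings `c : Finset ι → ℝ`:
* `wt c σ = exp (∑ S, c S * χ_S σ)`, `ev c f` the average.
* `ev_chi_nonneg`, `gks`, `ev_mono` : Griffiths inequalities (`0 ≤ c`)
* `abs_ev_le` : `|ev d χ_A| ≤ ev c χ_A` if `|d S| ≤ c S` for all nonempty `S`
* `mixc W σ τ`, `cnd`, `ev_cond` : domain Markov property
* `plusC W c`, `freeC W c` : plus / free boundary conditions for `W`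
-/

set_option autoImplicit false
set_option linter.unusedSectionVars false
set_option linter.unusedVariables false

open Finset
open Crest.Agent.R161.Gks375

namespace Crest.Agent.R165.Isg1x697

variable {ι : Type*} [Fintype ι] [DecidableEq ι]

/-- the Boltzmann weight with couplings `c` -/
noncomputable def wt (c : Finset ι → ℝ) (σ : ι → ℤˣ) : ℝ := Real.exp (∑ S, c S * chi S σ)

/-- the average with couplings `c` -/
noncomputable def ev (c : Finset ι → ℝ) (f : (ι → ℤˣ) → ℝ) : ℝ :=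
  (∑ σ, wt c σ * f σ) / ∑ σ, wt c σ

lemma wt_pos (c : Finset ι → ℝ) (σ : ι → ℤˣ) : 0 < wt c σ := Real.exp_pos _

lemma Z_pos (c : Finset ι → ℝ) : 0 < ∑ σ, wt c σ :=
  Finset.sum_pos (fun σ _ => wt_pos c σ) Finset.univ_nonempty

lemma wt_add (c d : Finset ι → ℝ) (σ : ι → ℤˣ) : wt (c + d) σ = wt c σ * wt d σ := by
  simp only [wt, Pi.add_apply, add_mul, Finset.sum_add_distrib, Real.exp_add]

lemma ev_one (c : Finset ι → ℝ) : ev c (fun _ => 1) = 1 := by
  simp only [ev, mul_one]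
  exact div_self (Z_pos c).ne'

lemma ev_add (c : Finset ι → ℝ) (f g : (ι → ℤˣ) → ℝ) :
    ev c (fun σ => f σ + g σ) = ev c f + ev c g := by
  simp only [ev, mul_add, Finset.sum_add_distrib, add_div]

lemma ev_sub (c : Finset ι → ℝ) (f g : (ι → ℤˣ) → ℝ) :
    ev c (fun σ => f σ - g σ) = ev c f - ev c g := by
  simp only [ev, mul_sub, Finset.sum_sub_distrib, sub_div]

lemma ev_smul (c : Finset ι → ℝ) (r : ℝ) (f : (ι → ℤˣ) → ℝ) :
    ev c (fun σ => r * f σ) = r * ev c f := by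
  simp only [ev]
  rw [← mul_div_assoc, Finset.mul_sum]
  congr 1
  exact Finset.sum_congr rfl fun σ _ => by ring

lemma ev_const (c : Finset ι → ℝ) (r : ℝ) : ev c (fun _ => r) = r := by
  have := ev_smul c r (fun _ => 1)
  simpa [ev_one] using this

lemma ev_le_ev (c : Finset ι → ℝ) {f g : (ι → ℤˣ) → ℝ} (h : ∀ σ, f σ ≤ g σ) :
    ev c f ≤ ev c g := by
  unfold ev
  exact div_le_div_of_nonneg_right
    (Finset.sum_le_sum fun σ _ => mul_le_mul_of_nonneg_left (h σ) (wt_pos c σ).le) (Z_pos c).le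

lemma ev_nonneg (c : Finset ι → ℝ) {f : (ι → ℤˣ) → ℝ} (h : ∀ σ, 0 ≤ f σ) : 0 ≤ ev c f := by
  have := ev_le_ev c (f := fun _ => 0) (g := f) h
  rwa [ev_const] at this

lemma abs_ev_le_ev (c : Finset ι → ℝ) {f g : (ι → ℤˣ) → ℝ} (h : ∀ σ, |f σ| ≤ g σ) :
    |ev c f| ≤ ev c g := by
  rw [abs_le]
  constructor
  · have := ev_le_ev c (f := fun σ => -1 * g σ) (g := f) fun σ => by
      have := neg_le_of_abs_le (h σ); linarith
    rw [ev_smul] at this; linarith
  · exact ev_le_ev c fun σ => le_of_abs_le (h σ)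

/-- the average only depends on the couplings of nonempty sets -/
lemma ev_congr_empty {c d : Finset ι → ℝ} (h : ∀ S, S ≠ ∅ → c S = d S) (f : (ι → ℤˣ) → ℝ) :
    ev c f = ev d f := by
  have hw : ∀ σ, wt c σ = Real.exp (c ∅ - d ∅) * wt d σ := by
    intro σ
    unfold wt
    rw [← Real.exp_add]
    congr 1
    have e : ∀ S : Finset ι, c S * chi S σ = (if S = ∅ then (c ∅ - d ∅) else 0) + d S * chi S σ := by
      intro S
      by_cases hS : S = ∅
      · subst hS; simp [chi_empty]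
      · rw [h S hS, if_neg hS, zero_add]
    rw [Finset.sum_congr rfl fun S _ => e S, Finset.sum_add_distrib]
    simp
  unfold ev
  simp only [hw, mul_assoc]
  rw [← Finset.mul_sum, ← Finset.mul_sum, mul_div_mul_left _ _ (Real.exp_pos _).ne']

lemma chi_abs (S : Finset ι) (σ : ι → ℤˣ) : |chi S σ| = 1 := by
  rcases chi_eq_one_or S σ with h | h <;> rw [h] <;> norm_num

lemma exp_chi (r : ℝ) (S : Finset ι) (σ : ι → ℤˣ) :
    Real.exp (r * chi S σ) = Real.cosh r + Real.sinh r * chi S σ := by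
  rcases chi_eq_one_or S σ with h | h <;> rw [h]
  · rw [mul_one, mul_one, Real.cosh_add_sinh]
  · rw [mul_neg_one, mul_neg_one, ← sub_eq_add_neg, Real.cosh_sub_sinh]

/-- the weight is a nonnegative combination of characters if the couplings are nonnegative -/
lemma pos_wt {c : Finset ι → ℝ} (hc : ∀ S, S ≠ ∅ → 0 ≤ c S) : Pos (wt c) := by
  have h : Pos (fun σ : ι → ℤˣ => ∏ S : Finset ι, Real.exp (c S * chi S σ)) := by
    refine Pos.prod _ fun S _ => ?_
    by_cases hS : S = ∅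
    · subst hS
      exact (Pos.const (Real.exp_pos (c ∅)).le).congr fun σ => by simp [chi_empty]
    · refine ((Pos.const (Real.cosh_pos (c S)).le).add
        ((Pos.chi S).smul (Real.sinh_nonneg_iff.mpr (hc S hS)))).congr fun σ => ?_
      exact exp_chi _ _ _
  exact h.congr fun σ => by rw [wt, Real.exp_sum]

lemma ferro_wt {c : Finset ι → ℝ} (hc : ∀ S, S ≠ ∅ → 0 ≤ c S) : Ferro (wt c) := by
  have h : Ferro (fun σ : ι → ℤˣ => ∏ S : Finset ι, Real.exp (c S * chi S σ)) := by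
    refine Ferro.prod _ fun S _ => ?_
    by_cases hS : S = ∅
    · subst hS
      exact (Ferro.const (Real.exp_pos (c ∅)).le).congr fun σ => by simp [chi_empty]
    · refine (Ferro.affine (Real.sinh_nonneg_iff.mpr (hc S hS)) ?_ S).congr
        fun σ => exp_chi _ _ _
      exact (Real.sinh_lt_cosh _).le
  exact h.congr fun σ => by rw [wt, Real.exp_sum]

/-- Griffiths I -/
theorem ev_pos_nonneg {c : Finset ι → ℝ} (hc : ∀ S, S ≠ ∅ → 0 ≤ c S) {f : (ι → ℤˣ) → ℝ}
    (hf : Pos f) : 0 ≤ ev c f :=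
  div_nonneg ((pos_wt hc).mul hf).sum_nonneg (Z_pos c).le

theorem ev_chi_nonneg {c : Finset ι → ℝ} (hc : ∀ S, S ≠ ∅ → 0 ≤ c S) (A : Finset ι) :
    0 ≤ ev c (chi A) := ev_pos_nonneg hc (Pos.chi A)

/-- Griffiths II -/
theorem gks {c : Finset ι → ℝ} (hc : ∀ S, S ≠ ∅ → 0 ≤ c S) {f g : (ι → ℤˣ) → ℝ}
    (hf : Pos f) (hg : Pos g) : ev c f * ev c g ≤ ev c (fun σ => f σ * g σ) := by
  have h := gks2 (ferro_wt hc) hf hg
  have hZ := Z_pos c
  unfold ev
  rw [div_mul_div_comm, div_le_div_iff₀ (mul_pos hZ hZ) hZ]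
  have e : ∑ σ, wt c σ * (f σ * g σ) = ∑ σ, wt c σ * f σ * g σ :=
    Finset.sum_congr rfl fun σ _ => by ring
  nlinarith [mul_le_mul_of_nonneg_right h hZ.le]

/-- monotonicity in the couplings -/
theorem ev_mono {c d : Finset ι → ℝ} (hc : ∀ S, S ≠ ∅ → 0 ≤ c S) (hcd : ∀ S, S ≠ ∅ → c S ≤ d S)
    {f : (ι → ℤˣ) → ℝ} (hf : Pos f) : ev c f ≤ ev d f := by
  set u : Finset ι → ℝ := fun S => d S - c S with hu
  have hdu : d = c + u := by funext S; simp [hu]
  have hu0 : Pos (wt u) := pos_wt fun S hS => by simp [hu, hcd S hS]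
  have h := gks hc hf hu0
  have hw : ∀ σ, wt d σ = wt c σ * wt u σ := fun σ => by rw [hdu, wt_add]
  have h1 : 0 < ev c (wt u) := by
    unfold ev
    exact div_pos (Finset.sum_pos (fun σ _ => mul_pos (wt_pos c σ) (wt_pos u σ))
      Finset.univ_nonempty) (Z_pos c)
  have h2 : ev d f = ev c (fun σ => f σ * wt u σ) / ev c (wt u) := by
    unfold ev
    rw [div_div_div_cancel_right₀ (Z_pos c).ne']
    simp only [hw]
    congr 1
    exact Finset.sum_congr rfl fun σ _ => by ring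
  rw [h2, le_div_iff₀ h1]
  exact h

end Crest.Agent.R165.Isg1x697
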