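import Crest.Agent.R165.Isg1_697

/-!
# Comparison of boundary conditions, domain Markov property (helper697, R165 block U-N)

* `abs_ev_le` : `|ev d χ_A| ≤ ev c χ_A` if `|d S| ≤ c S` for all nonempty `S`
* `mix W σ τ`, `cnd W c σ`, `ev_cond` : domain Markov property
* `plusC W c`, `freeC W c` : plus / free boundary conditions for the window `W`
* `ev_blocks` : simultaneous conditioning in separated windows
* `ev_le_plus`, `abs_ev_le_prod`, `free_le_ev`, `merge` : sandwich and decorrelation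
-/

set_option autoImplicit false
set_option linter.unusedSectionVars false
set_option linter.unusedVariables false

open Finset
open Crest.Agent.R161.Gks375
open Crest.Agent.R165.Isg1x697

namespace Crest.Agent.R165.Isg2x697

variable {ι : Type*} [Fintype ι] [DecidableEq ι]

/-- comparison of arbitrary couplings with ferromagnetic ones -/
theorem abs_ev_le {c d : Finset ι → ℝ} (h : ∀ S, S ≠ ∅ → |d S| ≤ c S) (A : Finset ι) :
    |ev d (chi A)| ≤ ev c (chi A) := by
  have key : ∀ s : ℝ, |s| ≤ 1 → 0 ≤ (∑ σ, wt c σ * chi A σ) * (∑ σ, wt d σ)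
      - s * ((∑ σ, wt d σ * chi A σ) * ∑ σ, wt c σ) := by
    intro s hs
    have e1 : (∑ σ, wt c σ * chi A σ) * (∑ σ, wt d σ)
        - s * ((∑ σ, wt d σ * chi A σ) * ∑ σ, wt c σ)
        = ∑ σ : ι → ℤˣ, ∑ τ : ι → ℤˣ, wt c σ * wt d τ * (chi A σ - s * chi A τ) := by
      rw [Finset.sum_mul_sum, mul_comm (∑ σ, wt d σ * chi A σ), Finset.sum_mul_sum,
        Finset.mul_sum, ← Finset.sum_sub_distrib]
      refine Finset.sum_congr rfl fun σ _ => ?_
      rw [Finset.mul_sum, ← Finset.sum_sub_distrib]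
      exact Finset.sum_congr rfl fun τ _ => by ring
    have e2 : ∑ σ : ι → ℤˣ, ∑ τ : ι → ℤˣ, wt c σ * wt d τ * (chi A σ - s * chi A τ)
        = ∑ ρ : ι → ℤˣ, (1 - s * chi A ρ) *
            ∑ σ : ι → ℤˣ, wt (fun S => c S + d S * chi S ρ) σ * chi A σ := by
      have : ∀ σ : ι → ℤˣ, ∑ τ : ι → ℤˣ, wt c σ * wt d τ * (chi A σ - s * chi A τ)
          = ∑ ρ : ι → ℤˣ, wt c σ * wt d (σ * ρ) * (chi A σ - s * chi A (σ * ρ)) := fun σ =>
        (Fintype.sum_equiv (Equiv.mulLeft σ) _ _ (fun ρ => rfl)).symm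
      simp_rw [this]
      rw [Finset.sum_comm]
      refine Finset.sum_congr rfl fun ρ _ => ?_
      rw [Finset.mul_sum]
      refine Finset.sum_congr rfl fun σ _ => ?_
      have hw : wt (fun S => c S + d S * chi S ρ) σ = wt c σ * wt d (σ * ρ) := by
        simp only [wt, ← Real.exp_add, ← Finset.sum_add_distrib]
        congr 1
        refine Finset.sum_congr rfl fun S _ => ?_
        rw [chi_mul_arg]; ring
      rw [hw, chi_mul_arg]
      ring
    rw [e1, e2]
    refine Finset.sum_nonneg fun ρ _ => mul_nonneg ?_ ?_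
    · have h1 := chi_abs A ρ
      have h2 : |s * chi A ρ| ≤ 1 := by rw [abs_mul, h1, mul_one]; exact hs
      linarith [(abs_le.mp h2).2]
    · refine ((pos_wt fun S hS => ?_).mul (Pos.chi A)).sum_nonneg
      have h1 := chi_abs S ρ
      have h2 : |d S * chi S ρ| ≤ c S := by rw [abs_mul, h1, mul_one]; exact h S hS
      linarith [(abs_le.mp h2).1]
  have hc := Z_pos c
  have hd := Z_pos d
  rw [abs_le]
  unfold ev
  constructor
  · have h1 := key (-1) (by simp)
    rw [neg_le_iff_add_nonneg, div_add_div _ _ hd.ne' hc.ne']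
    refine div_nonneg ?_ (mul_pos hd hc).le
    linarith
  · have h1 := key 1 (by simp)
    rw [div_le_div_iff₀ hd hc]
    linarith

/-- replace the spins in `W` of `σ` by those of `τ` -/
def mix (W : Finset ι) (σ τ : ι → ℤˣ) : ι → ℤˣ := fun i => if i ∈ W then τ i else σ i

lemma mix_mem {W : Finset ι} {i : ι} (h : i ∈ W) (σ τ : ι → ℤˣ) : mix W σ τ i = τ i := if_pos h
lemma mix_not_mem {W : Finset ι} {i : ι} (h : i ∉ W) (σ τ : ι → ℤˣ) : mix W σ τ i = σ i := if_neg h

lemma sum_mix (W : Finset ι) (f : (ι → ℤˣ) → ℝ) :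
    ∑ σ : ι → ℤˣ, ∑ τ : ι → ℤˣ, f (mix W σ τ) = (Fintype.card (ι → ℤˣ) : ℝ) * ∑ σ, f σ := by
  have hinv : Function.Involutive
      (fun p : (ι → ℤˣ) × (ι → ℤˣ) => (mix W p.1 p.2, mix W p.2 p.1)) := by
    rintro ⟨σ, τ⟩
    refine Prod.ext ?_ ?_ <;> funext i <;> by_cases h : i ∈ W <;>
      simp [mix, h]
  rw [← Finset.sum_product' (s := Finset.univ) (t := Finset.univ) (f := fun σ τ => f (mix W σ τ))]
  rw [Finset.univ_product_univ]
  rw [Fintype.sum_equiv (Function.Involutive.toPerm _ hinv)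
    (fun p : (ι → ℤˣ) × (ι → ℤˣ) => f (mix W p.1 p.2)) (fun p => f p.1) (fun p => rfl)]
  rw [← Finset.univ_product_univ, Finset.sum_product]
  simp [Finset.mul_sum]

/-- `f` only depends on the spins in `W` -/
def DepOn (W : Finset ι) (f : (ι → ℤˣ) → ℝ) : Prop :=
  ∀ σ τ : ι → ℤˣ, (∀ i ∈ W, σ i = τ i) → f σ = f τ

lemma DepOn.mono {W W' : Finset ι} (h : W ⊆ W') {f : (ι → ℤˣ) → ℝ} (hf : DepOn W f) :
    DepOn W' f := fun σ τ hst => hf σ τ fun i hi => hst i (h hi)

lemma DepOn.mul {W : Finset ι} {f g : (ι → ℤˣ) → ℝ} (hf : DepOn W f) (hg : DepOn W g) :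
    DepOn W (fun σ => f σ * g σ) := fun σ τ h => by
  show f σ * g σ = f τ * g τ
  rw [hf σ τ h, hg σ τ h]

lemma DepOn.prod {κ : Type*} {W : Finset ι} (s : Finset κ) {f : κ → (ι → ℤˣ) → ℝ}
    (hf : ∀ k ∈ s, DepOn W (f k)) : DepOn W (fun σ => ∏ k ∈ s, f k σ) := fun σ τ h =>
  Finset.prod_congr rfl fun k hk => hf k hk σ τ h

lemma depOn_chi {A W : Finset ι} (h : A ⊆ W) : DepOn W (chi A) := fun σ τ hst => by
  unfold chi
  exact Finset.prod_congr rfl fun i hi => by rw [hst i (h hi)]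

lemma depOn_const (W : Finset ι) (r : ℝ) : DepOn W (fun _ => r) := fun _ _ _ => rfl

/-- the couplings seen by the window `W` when the outside spins are `σ` -/
noncomputable def cnd (W : Finset ι) (c : Finset ι → ℝ) (σ : ι → ℤˣ) (S : Finset ι) : ℝ :=
  if S ⊆ W ∧ S ≠ ∅ then ∑ R with R ∩ W = S, c R * chi (R \ W) σ else 0

/-- plus boundary conditions outside `W` -/
noncomputable def plusC (W : Finset ι) (c : Finset ι → ℝ) : Finset ι → ℝ := cnd W c 1

/-- free boundary conditions outside `W` -/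
noncomputable def freeC (W : Finset ι) (c : Finset ι → ℝ) (S : Finset ι) : ℝ :=
  if S ⊆ W then c S else 0

lemma chi_one (S : Finset ι) : chi S (1 : ι → ℤˣ) = 1 := by simp [chi]

lemma plusC_apply (W : Finset ι) (c : Finset ι → ℝ) (S : Finset ι) :
    plusC W c S = if S ⊆ W ∧ S ≠ ∅ then ∑ R with R ∩ W = S, c R else 0 := by
  simp only [plusC, cnd, chi_one, mul_one]

lemma plusC_nonneg {c : Finset ι → ℝ} (hc : ∀ S, S ≠ ∅ → 0 ≤ c S) (W S : Finset ι) :
    0 ≤ plusC W c S := by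
  rw [plusC_apply]
  split_ifs with h
  · refine Finset.sum_nonneg fun R hR => hc R ?_
    rintro rfl
    rw [Finset.mem_filter, Finset.empty_inter] at hR
    exact h.2 hR.2.symm
  · exact le_rfl

lemma abs_cnd_le {c : Finset ι → ℝ} (hc : ∀ S, S ≠ ∅ → 0 ≤ c S) (W S : Finset ι) (σ : ι → ℤˣ) :
    |cnd W c σ S| ≤ plusC W c S := by
  rw [plusC_apply]
  unfold cnd
  split_ifs with h
  · refine (Finset.abs_sum_le_sum_abs _ _).trans (Finset.sum_le_sum fun R hR => ?_)
    have hR' : 0 ≤ c R := by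
      refine hc R ?_
      rintro rfl
      rw [Finset.mem_filter, Finset.empty_inter] at hR
      exact h.2 hR.2.symm
    rw [abs_mul, chi_abs, mul_one, abs_of_nonneg hR']
  · simp

lemma chi_mix (R W : Finset ι) (σ τ : ι → ℤˣ) :
    chi R (mix W σ τ) = chi (R ∩ W) τ * chi (R \ W) σ := by
  unfold chi
  rw [← Finset.prod_inter_mul_prod_sdiff R W]
  congr 1
  · exact Finset.prod_congr rfl fun i hi => by rw [mix_mem (Finset.mem_inter.mp hi).2]
  · exact Finset.prod_congr rfl fun i hi => by rw [mix_not_mem (Finset.mem_sdiff.mp hi).2]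

/-- the energy of the outside spins -/
noncomputable def outW (W : Finset ι) (c : Finset ι → ℝ) (σ : ι → ℤˣ) : ℝ :=
  Real.exp (∑ R with R ∩ W = ∅, c R * chi R σ)

lemma outW_pos (W : Finset ι) (c : Finset ι → ℝ) (σ : ι → ℤˣ) : 0 < outW W c σ := Real.exp_pos _

lemma wt_mix (W : Finset ι) (c : Finset ι → ℝ) (σ τ : ι → ℤˣ) :
    wt c (mix W σ τ) = outW W c σ * wt (cnd W c σ) τ := by
  unfold wt outW
  rw [← Real.exp_add]
  congr 1
  have e1 : ∑ R, c R * chi R (mix W σ τ)
      = ∑ S : Finset ι, ∑ R with R ∩ W = S, c R * (chi (R ∩ W) τ * chi (R \ W) σ) := by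
    rw [Finset.sum_fiberwise]
    exact Finset.sum_congr rfl fun R _ => by rw [chi_mix]
  have e2 : ∀ S : Finset ι, ∑ R with R ∩ W = S, c R * (chi (R ∩ W) τ * chi (R \ W) σ)
      = (if S = ∅ then ∑ R with R ∩ W = ∅, c R * chi R σ else 0) + cnd W c σ S * chi S τ := by
    intro S
    by_cases hS : S = ∅
    · subst hS
      simp only [cnd, ne_eq, not_true_eq_false, and_false, if_false, zero_mul, add_zero, if_true]
      refine Finset.sum_congr rfl fun R hR => ?_
      have h := (Finset.mem_filter.mp hR).2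
      have h2 : R \ W = R := by
        rw [Finset.sdiff_eq_self_iff_disjoint, Finset.disjoint_iff_inter_eq_empty]; exact h
      rw [h, h2, chi_empty, one_mul]
    · rw [if_neg hS, zero_add]
      by_cases hW : S ⊆ W
      · rw [cnd, if_pos ⟨hW, hS⟩, Finset.sum_mul]
        refine Finset.sum_congr rfl fun R hR => ?_
        rw [(Finset.mem_filter.mp hR).2]; ring
      · rw [cnd, if_neg fun h => hW h.1, zero_mul]
        refine Finset.sum_eq_zero fun R hR => ?_
        exfalso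
        refine hW ?_
        rw [← (Finset.mem_filter.mp hR).2]
        exact Finset.inter_subset_right
  rw [e1, Finset.sum_congr rfl fun S _ => e2 S, Finset.sum_add_distrib]
  simp

lemma outW_congr (W : Finset ι) (c : Finset ι → ℝ) {σ τ : ι → ℤˣ} (h : ∀ i ∉ W, σ i = τ i) :
    outW W c σ = outW W c τ := by
  unfold outW
  congr 1
  refine Finset.sum_congr rfl fun R hR => ?_
  congr 1
  unfold chi
  refine Finset.prod_congr rfl fun i hi => ?_
  rw [h i]
  intro hiW
  have := (Finset.mem_filter.mp hR).2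
  have h2 : i ∈ R ∩ W := Finset.mem_inter.mpr ⟨hi, hiW⟩
  rw [this] at h2
  simp at h2

lemma cnd_congr (W : Finset ι) (c : Finset ι → ℝ) {σ τ : ι → ℤˣ}
    (h : ∀ R, c R ≠ 0 → (R ∩ W).Nonempty → ∀ i ∈ R \ W, σ i = τ i) :
    cnd W c σ = cnd W c τ := by
  funext S
  unfold cnd
  split_ifs with hS
  · refine Finset.sum_congr rfl fun R hR => ?_
    by_cases hc : c R = 0
    · rw [hc, zero_mul, zero_mul]
    congr 1
    unfold chi
    refine Finset.prod_congr rfl fun i hi => ?_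
    rw [h R hc ?_ i hi]
    rw [(Finset.mem_filter.mp hR).2]
    exact Finset.nonempty_iff_ne_empty.mpr hS.2
  · rfl

/-- **domain Markov property** -/
theorem ev_cond (W : Finset ι) (c : Finset ι → ℝ) {F G : (ι → ℤˣ) → ℝ} (hF : DepOn W F)
    (hG : DepOn Wᶜ G) :
    ev c (fun σ => F σ * G σ) = ev c (fun σ => ev (cnd W c σ) F * G σ) := by
  have hcard : (Fintype.card (ι → ℤˣ) : ℝ) ≠ 0 := by
    have : 0 < Fintype.card (ι → ℤˣ) := Fintype.card_pos
    positivity
  have hagr : ∀ σ τ : ι → ℤˣ, ∀ i ∉ W, mix W σ τ i = σ i := fun σ τ i hi => mix_not_mem hi σ τ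
  have hG' : ∀ σ τ, G (mix W σ τ) = G σ := fun σ τ =>
    hG _ _ fun i hi => hagr σ τ i (Finset.mem_compl.mp hi)
  have hF' : ∀ σ τ, F (mix W σ τ) = F τ := fun σ τ => hF _ _ fun i hi => mix_mem hi σ τ
  have hc' : ∀ σ τ, cnd W c (mix W σ τ) = cnd W c σ := fun σ τ =>
    cnd_congr W c fun R _ _ i hi => hagr σ τ i (Finset.mem_sdiff.mp hi).2
  have h1 : (Fintype.card (ι → ℤˣ) : ℝ) * ∑ σ, wt c σ * (F σ * G σ)
      = ∑ σ : ι → ℤˣ, outW W c σ * G σ * ∑ τ : ι → ℤˣ, wt (cnd W c σ) τ * F τ := by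
    rw [← sum_mix W (fun σ => wt c σ * (F σ * G σ))]
    refine Finset.sum_congr rfl fun σ _ => ?_
    rw [Finset.mul_sum]
    refine Finset.sum_congr rfl fun τ _ => ?_
    rw [hG', hF', wt_mix]; ring
  have h2 : (Fintype.card (ι → ℤˣ) : ℝ) * ∑ σ, wt c σ * (ev (cnd W c σ) F * G σ)
      = ∑ σ : ι → ℤˣ, outW W c σ * G σ * ∑ τ : ι → ℤˣ, wt (cnd W c σ) τ * F τ := by
    rw [← sum_mix W (fun σ => wt c σ * (ev (cnd W c σ) F * G σ))]
    refine Finset.sum_congr rfl fun σ _ => ?_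
    have e : ∀ τ : ι → ℤˣ, wt c (mix W σ τ) * (ev (cnd W c (mix W σ τ)) F * G (mix W σ τ))
        = (outW W c σ * G σ * ev (cnd W c σ) F) * wt (cnd W c σ) τ := by
      intro τ
      rw [hG', hc', wt_mix]; ring
    rw [Finset.sum_congr rfl fun τ _ => e τ, ← Finset.mul_sum]
    unfold ev
    have hZ := (Z_pos (cnd W c σ)).ne'
    field_simp
  have h3 : ∑ σ, wt c σ * (F σ * G σ) = ∑ σ, wt c σ * (ev (cnd W c σ) F * G σ) :=
    mul_left_cancel₀ hcard (h1.trans h2.symm)
  unfold ev at h3 ⊢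
  rw [h3]

end Crest.Agent.R165.Isg2x697
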