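import Crest.Agent.R165.Isg2_697

/-!
# Windows: sandwich, products, decorrelation (helper697, R165 block U-N)

* `plus_eq`      : the window average does not see the outside spins for plus couplings
* `abs_ev_le_plus`, `free_le_ev` : `free(W) ≤ ev ≤ plus(W)`
* `ev_blocks`    : simultaneous conditioning in separated windows
* `abs_ev_prod_le` : `|ev c (∏ χ_{A_j})| ≤ ∏ ev (plusC W_j c) χ_{A_j}`
* `merge`        : `|ev c (χ_A ∏ χ_{A_j}) - p ev c (∏ χ_{A_j})| ≤ (p - f) ∏ q_j`
-/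

set_option autoImplicit false
set_option linter.unusedSectionVars false
set_option linter.unusedVariables false

open Finset
open Crest.Agent.R161.Gks375
open Crest.Agent.R165.Isg1x697
open Crest.Agent.R165.Isg2x697

namespace Crest.Agent.R165.Isg3x697

variable {ι : Type*} [Fintype ι] [DecidableEq ι]

lemma plus_nonneg {c : Finset ι → ℝ} (hc : ∀ S, S ≠ ∅ → 0 ≤ c S) (W A : Finset ι) :
    0 ≤ ev (plusC W c) (chi A) := ev_chi_nonneg (fun S _ => plusC_nonneg hc W S) A

/-- the conditional average is bounded by the plus average -/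
lemma abs_cnd_ev_le {c : Finset ι → ℝ} (hc : ∀ S, S ≠ ∅ → 0 ≤ c S) (W A : Finset ι)
    (σ : ι → ℤˣ) : |ev (cnd W c σ) (chi A)| ≤ ev (plusC W c) (chi A) :=
  abs_ev_le (fun S _ => abs_cnd_le hc W S σ) A

/-- the conditional average only depends on the outside spins -/
lemma depOn_cnd_ev (W : Finset ι) (c : Finset ι → ℝ) (F : (ι → ℤˣ) → ℝ) :
    DepOn Wᶜ (fun σ => ev (cnd W c σ) F) := fun σ τ h => by
  show ev (cnd W c σ) F = ev (cnd W c τ) F
  rw [cnd_congr W c fun R _ _ i hi => h i (Finset.mem_compl.mpr (Finset.mem_sdiff.mp hi).2)]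

/-- separated windows: no interaction meets both -/
def Sep (c : Finset ι → ℝ) (W W' : Finset ι) : Prop :=
  Disjoint W W' ∧ ∀ R, c R ≠ 0 → (R ∩ W).Nonempty → R ∩ W' = ∅

/-- the conditional average in `W` does not depend on the spins of a separated window -/
lemma depOn_cnd_sep {c : Finset ι → ℝ} {W W' : Finset ι} (h : Sep c W W') (F : (ι → ℤˣ) → ℝ) :
    DepOn W'ᶜ (fun σ => ev (cnd W c σ) F) := fun σ τ hst => by
  show ev (cnd W c σ) F = ev (cnd W c τ) F
  rw [cnd_congr W c fun R hR hRW i hi => ?_]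
  refine hst i (Finset.mem_compl.mpr fun hiW => ?_)
  have h1 := h.2 R hR hRW
  have h2 : i ∈ R ∩ W' := Finset.mem_inter.mpr ⟨(Finset.mem_sdiff.mp hi).1, hiW⟩
  rw [h1] at h2
  simp at h2

/-- plus bound -/
theorem abs_ev_le_plus {c : Finset ι → ℝ} (hc : ∀ S, S ≠ ∅ → 0 ≤ c S) {W A : Finset ι}
    (hA : A ⊆ W) : |ev c (chi A)| ≤ ev (plusC W c) (chi A) := by
  have h := ev_cond W c (depOn_chi hA) (depOn_const Wᶜ 1)
  simp only [mul_one] at h
  rw [h]
  have := abs_ev_le_ev c (f := fun σ => ev (cnd W c σ) (chi A))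
    (g := fun _ => ev (plusC W c) (chi A)) fun σ => abs_cnd_ev_le hc W A σ
  rwa [ev_const] at this

theorem ev_le_plus {c : Finset ι → ℝ} (hc : ∀ S, S ≠ ∅ → 0 ≤ c S) {W A : Finset ι}
    (hA : A ⊆ W) : ev c (chi A) ≤ ev (plusC W c) (chi A) :=
  (le_abs_self _).trans (abs_ev_le_plus hc hA)

/-- free bound -/
theorem free_le_ev {c : Finset ι → ℝ} (hc : ∀ S, S ≠ ∅ → 0 ≤ c S) (W A : Finset ι) :
    ev (freeC W c) (chi A) ≤ ev c (chi A) := by
  refine ev_mono (fun S hS => ?_) (fun S hS => ?_) (Pos.chi A)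
  · unfold freeC
    split_ifs
    · exact hc S hS
    · exact le_rfl
  · unfold freeC
    split_ifs
    · exact le_rfl
    · exact hc S hS

/-- simultaneous conditioning in separated windows -/
theorem ev_blocks (c : Finset ι → ℝ) {κ : Type*} [DecidableEq κ] (s : Finset κ)
    (W : κ → Finset ι) (F : κ → (ι → ℤˣ) → ℝ) (hF : ∀ k ∈ s, DepOn (W k) (F k))
    (hW : ∀ k ∈ s, ∀ l ∈ s, k ≠ l → Sep c (W k) (W l)) :
    ∀ G : (ι → ℤˣ) → ℝ, (∀ k ∈ s, DepOn (W k)ᶜ G) →
    ev c (fun σ => (∏ k ∈ s, F k σ) * G σ)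
      = ev c (fun σ => (∏ k ∈ s, ev (cnd (W k) c σ) (F k)) * G σ) := by
  induction s using Finset.induction_on with
  | empty => intro G _; simp
  | insert k s hk ih =>
    intro G hG
    have hsub : s ⊆ insert k s := Finset.subset_insert k s
    have hkm : k ∈ insert k s := Finset.mem_insert_self k s
    have h1 : ev c (fun σ => (∏ l ∈ insert k s, F l σ) * G σ)
        = ev c (fun σ => (∏ l ∈ s, F l σ) * (F k σ * G σ)) := by
      congr 1; funext σ
      rw [Finset.prod_insert hk]; ring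
    have h2 := ih (fun l hl => hF l (hsub hl))
      (fun l hl m hm hlm => hW l (hsub hl) m (hsub hm) hlm) (fun σ => F k σ * G σ)
      (fun l hl => ?_)
    · have h3 : ev c (fun σ => (∏ l ∈ s, ev (cnd (W l) c σ) (F l)) * (F k σ * G σ))
          = ev c (fun σ => F k σ * ((∏ l ∈ s, ev (cnd (W l) c σ) (F l)) * G σ)) := by
        congr 1; funext σ; ring
      have h4 := ev_cond (W k) c (F := F k)
        (G := fun σ => (∏ l ∈ s, ev (cnd (W l) c σ) (F l)) * G σ) (hF k hkm)
        ((DepOn.prod s fun l hl => depOn_cnd_sep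
          (hW l (hsub hl) k hkm (fun h => hk (h ▸ hl))) (F l)).mul (hG k hkm))
      rw [h1, h2, h3, h4]
      congr 1; funext σ
      rw [Finset.prod_insert hk]; ring
    · have hkl : k ≠ l := fun h => hk (h ▸ hl)
      refine DepOn.mul ((hF k hkm).mono ?_) (hG l (hsub hl))
      intro i hi
      exact Finset.mem_compl.mpr
        (Finset.disjoint_left.mp (hW k hkm l (hsub hl) hkl).1 hi)

/-- product bound in separated windows -/
theorem abs_ev_prod_le {c : Finset ι → ℝ} (hc : ∀ S, S ≠ ∅ → 0 ≤ c S) {κ : Type*} [DecidableEq κ]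
    (s : Finset κ) (W A : κ → Finset ι) (hA : ∀ k ∈ s, A k ⊆ W k)
    (hW : ∀ k ∈ s, ∀ l ∈ s, k ≠ l → Sep c (W k) (W l)) :
    |ev c (fun σ => ∏ k ∈ s, chi (A k) σ)| ≤ ∏ k ∈ s, ev (plusC (W k) c) (chi (A k)) := by
  have h := ev_blocks c s W (fun k => chi (A k)) (fun k hk => depOn_chi (hA k hk)) hW
    (fun _ => 1) (fun k _ => depOn_const _ 1)
  simp only [mul_one] at h
  rw [h]
  have := abs_ev_le_ev c (f := fun σ => ∏ k ∈ s, ev (cnd (W k) c σ) (chi (A k)))
    (g := fun _ => ∏ k ∈ s, ev (plusC (W k) c) (chi (A k))) fun σ => by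
      rw [Finset.abs_prod]
      exact Finset.prod_le_prod (fun _ _ => abs_nonneg _) fun k _ => abs_cnd_ev_le hc _ _ _
  rwa [ev_const] at this

/-- **decorrelation of a window** -/
theorem merge {c : Finset ι → ℝ} (hc : ∀ S, S ≠ ∅ → 0 ≤ c S) {κ : Type*} [DecidableEq κ]
    (s : Finset κ) (W A : κ → Finset ι) (k : κ) (hk : k ∉ s)
    (hA : ∀ l ∈ insert k s, A l ⊆ W l)
    (hW : ∀ l ∈ insert k s, ∀ m ∈ insert k s, l ≠ m → Sep c (W l) (W m)) :
    |ev c (fun σ => chi (A k) σ * ∏ l ∈ s, chi (A l) σ)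
        - ev (plusC (W k) c) (chi (A k)) * ev c (fun σ => ∏ l ∈ s, chi (A l) σ)|
      ≤ (ev (plusC (W k) c) (chi (A k)) - ev (freeC (W k) c) (chi (A k))) *
        ∏ l ∈ s, ev (plusC (W l) c) (chi (A l)) := by
  set p := ev (plusC (W k) c) (chi (A k)) with hp
  set q := ∏ l ∈ s, ev (plusC (W l) c) (chi (A l)) with hq
  have hq0 : 0 ≤ q := Finset.prod_nonneg fun l _ => plus_nonneg hc _ _
  have hsub : s ⊆ insert k s := Finset.subset_insert k s
  have h1 := ev_blocks c (insert k s) W (fun k => chi (A k)) (fun k hk => depOn_chi (hA k hk)) hW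
    (fun _ => 1) (fun k _ => depOn_const _ 1)
  have h2 := ev_blocks c s W (fun k => chi (A k)) (fun k hk => depOn_chi (hA k (hsub hk)))
    (fun l hl m hm => hW l (hsub hl) m (hsub hm)) (fun _ => 1) (fun k _ => depOn_const _ 1)
  simp only [mul_one, Finset.prod_insert hk] at h1 h2
  have h3 : ev c (chi (A k)) = ev c (fun σ => ev (cnd (W k) c σ) (chi (A k))) := by
    have h := ev_cond (W k) c (depOn_chi (hA k (Finset.mem_insert_self k s)))
      (depOn_const (W k)ᶜ 1)
    simpa only [mul_one] using h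
  rw [h1, h2, ← ev_smul, ← ev_sub]
  have h4 : |ev c (fun σ => ev (cnd (W k) c σ) (chi (A k)) *
        (∏ l ∈ s, ev (cnd (W l) c σ) (chi (A l))) -
        p * ∏ l ∈ s, ev (cnd (W l) c σ) (chi (A l)))|
      ≤ ev c (fun σ => q * (p - ev (cnd (W k) c σ) (chi (A k)))) := by
    refine abs_ev_le_ev c fun σ => ?_
    rw [← sub_mul, abs_mul, mul_comm]
    have h5 := abs_cnd_ev_le hc (W k) (A k) σ
    have h6 : |ev (cnd (W k) c σ) (chi (A k)) - p| = p - ev (cnd (W k) c σ) (chi (A k)) := by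
      rw [abs_sub_comm]
      exact abs_of_nonneg (by linarith [le_of_abs_le h5])
    rw [h6]
    refine mul_le_mul_of_nonneg_right ?_ (by linarith [le_of_abs_le h5])
    rw [Finset.abs_prod]
    exact Finset.prod_le_prod (fun _ _ => abs_nonneg _) fun l _ => abs_cnd_ev_le hc _ _ _
  refine h4.trans ?_
  rw [ev_smul, ev_sub, ev_const, ← h3, mul_comm]
  refine mul_le_mul_of_nonneg_right ?_ hq0
  linarith [free_le_ev hc (W k) (A k)]

end Crest.Agent.R165.Isg3x697
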