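import Crest.Agent.R165.UFin_420

/-!
# Row 165 (S0250), block U: plane clauses of `ULimB` (helper641)

* `Pc u` : plane spin correlations; `planeLim_Pc : UTb → PlaneLim Pc`, `PlaneLim.eq_Pc`.
* `UPb_of` : `SpPl` (spin limits), `ExCovPl` (existence of the covariance of the branched plane),
  `KerPl` (kernel limits, `KerD false univ x`), `J2Pl` (bonds as bilinears) imply `UPb`.
-/

set_option autoImplicit false

noncomputable section

open Filter Topology Finset
open Crest.ProbabilityR.IsingModel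

namespace Crest.Agent.R165.UPlx641

open Crest.Agent.R165.Gr0x606 Crest.Agent.R165.Enx599
open Crest.Agent.R165.Topx683 Crest.Agent.R165.Redx541 Crest.Agent.R165.Red2x541
  Crest.Agent.R165.Centx541
open Crest.Agent.R165.Latx683 (BW HE hp hq wDom wPl ray wX IsCov covS formS Fld)
open Crest.Agent.R165.UDomBx420 Crest.Agent.R165.UKerx420
open Crest.Agent.R165.U5Px422 (PlaneLim Kc)
open Crest.Agent.R165.Gk1x422 (Gt)

/-- plane spin correlations -/
def Pc {n : ℕ} (u : Fin n → ℤ × ℤ) : ℝ := P0c u (![] : Fin 0 → ℤ × ℤ) ![]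

theorem torMom_Gt (L : ℕ) {n : ℕ} (u : Fin n → ℤ × ℤ) :
    torMom L 1 0 0 (fun _ => 0) (criticalBeta 1) u (![] : Fin 0 → ℤ × ℤ) ![] (fun _ => e0) =
      Gt (L + 1) Kc u := by
  unfold torMom Gt
  rw [Gk1x422.torusExpect_eq, mul_one]
  unfold Kc
  congr 1
  funext s
  simp [Gk1x422.sp]

/-- the torus clause gives `PlaneLim` -/
theorem planeLim_Pc (h : UTb) : PlaneLim @Pc := by
  intro n u
  obtain ⟨l, hl⟩ := (UTc_of h).1 n 0 u (![] : Fin 0 → ℤ × ℤ) ![]
  have e : Pc u = l := hl.limUnder_eq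
  rw [e]
  refine hl.congr fun L => ?_
  exact torMom_Gt L u

/-- the plane correlations are unique -/
theorem eq_Pc {P : {n : ℕ} → (Fin n → ℤ × ℤ) → ℝ} (h : PlaneLim P) {n : ℕ}
    (u : Fin n → ℤ × ℤ) : P u = Pc u := by
  have h1 := h n u
  have h2 : Tendsto (fun L : ℕ => torMom L 1 0 0 (fun _ => 0) (criticalBeta 1) u
      (![] : Fin 0 → ℤ × ℤ) ![] (fun _ => e0)) atTop (𝓝 (P u)) :=
    h1.congr fun L => (torMom_Gt L u).symm
  exact h2.limUnder_eq.symm

/-- background of the plane with spins `X` -/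
def wP {n : ℕ} (X : Fin n → ℤ × ℤ) : BW ℤ := wX (wPl ℤ) X

theorem wD_univ (fr : Bool) (a : ℝ) {n : ℕ} (X : Fin n → ℤ × ℤ) : wD fr Set.univ a X = wP X := by
  unfold wD wP
  congr 1
  funext z j
  unfold wDom wPl
  simp [domainSites]

/-- spin limits of the plane (block U5, 697 S7) -/
def SpPl : Prop :=
  ∀ n : ℕ, 1 ≤ n → Even n → ∀ x : Fin n → ℂ, Function.Injective x →
    ∃ F : ℝ, Tendsto (fun a : ℝ => scl n 0 a * Pc (fun i => meshIndex a (x i))) (𝓝[>] 0) (𝓝 F)

/-- existence of the covariance of the branched plane (654) -/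
def ExCovPl : Prop :=
  ∀ n : ℕ, Even n → ∀ X : Fin n → ℤ × ℤ, Function.Injective X → ∃ S, IsCov (wP X) S

/-- kernel limits of the branched plane (654, 622) -/
def KerPl : Prop :=
  ∀ n : ℕ, Even n → ∀ x : Fin n → ℂ, Function.Injective x → ∃ bl rg, KerD false Set.univ x bl rg

/-- bonds as Grassmann bilinears in the plane (654, 922) -/
def J2Pl : Prop :=
  ∀ n : ℕ, Even n → ∀ (m : ℕ) (x : Fin n → ℂ) (y : Fin m → ℂ) (j : Fin m → Fin 2),
    Function.Injective (Fin.append x y) → ∀ᶠ a in 𝓝[>] (0 : ℝ),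
      P0c (fun i => meshIndex a (x i)) (fun k => meshIndex a (y k)) j =
        Pc (fun i => meshIndex a (x i)) * EE (Cof (wP (fun i => meshIndex a (x i))))
            (bpr (fun k i => (Finsupp.single (hb (meshIndex a (y k)) (j k) i) 1 : Fld ℤ))
              (fun k => wP (fun i => meshIndex a (x i)) (meshIndex a (y k)) (j k))
              (fun _ => e0) (List.finRange m))

/-- `domain_limit` of helper420 for an arbitrary state -/
theorem abs_limit (W : ℝ → Type) [∀ a, AddCommGroup (W a)] [∀ a, Module ℝ (W a)]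
    (S : ∀ a, Cov (W a)) (C C0 : ℝ → ℝ) {n m : ℕ}
    (j : Fin m → Fin 2) (p : ∀ a, Fin m → Fin 2 → W a) (w : ℝ → Fin m → ℝ)
    (Sl : Cov (Fin m → ℂ)) (F : ℝ)
    (hJ : ∀ᶠ a in 𝓝[>] (0 : ℝ), C a =
      C0 a * EE (S a) (bpr (p a) (w a) (fun _ => e0) (List.finRange m)))
    (hK : KerLim W S j p w Sl)
    (hS : Tendsto (fun a : ℝ => scl n 0 a * C0 a) (𝓝[>] 0) (𝓝 F)) :
    Tendsto (fun a : ℝ => scl n m a * C a) (𝓝[>] 0) (𝓝 ((-2 * xc) ^ m * Epf Sl j * F)) := by
  obtain ⟨γ, hγ, hlim⟩ := hK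
  have h1 : Tendsto (fun a : ℝ => (a⁻¹) ^ (List.finRange m).length *
      EE (S a) (cpr (fun k i => γ a k i • p a k i) (fun _ => cP) (List.finRange m))) (𝓝[>] 0)
      (𝓝 (pfl (M0 Sl j) (2 * (List.finRange m).length) (idx (List.finRange m)))) := by
    refine tendsto_EE_cpr (F := 𝓝[>] (0:ℝ)) S (fun a k i => γ a k i • p a k i) (fun _ _ => cP)
      (fun a => a) (List.finRange m) (List.nodup_finRange m) (M0 Sl j) ?_
    intro q _ q' _
    refine (hlim q q').congr fun a => ?_
    congr 1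
    unfold cmat cBlock
    simp only [map_smul, LinearMap.smul_apply, smul_eq_mul]
    ring
  have h2 : Epf Sl j = pfl (M0 Sl j) (2 * (List.finRange m).length) (idx (List.finRange m)) := by
    unfold Epf
    rw [EE_cpr Sl _ _ _ (List.nodup_finRange m) _ le_rfl]
    congr 1
    funext q q'
    unfold cmat M0
    simp
  rw [← h2, List.length_finRange] at h1
  have h3 : Tendsto (fun a : ℝ => (-2 * xc) ^ m * ((a⁻¹) ^ m *
      EE (S a) (cpr (fun k i => γ a k i • p a k i) (fun _ => cP) (List.finRange m))) *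
      (scl n 0 a * C0 a)) (𝓝[>] 0)
      (𝓝 ((-2 * xc) ^ m * Epf Sl j * F)) := (h1.const_mul _).mul hS
  refine h3.congr' ?_
  filter_upwards [hJ, hγ, self_mem_nhdsWithin] with a ha hγa ha0
  have ha0' : (0 : ℝ) < a := ha0
  rw [ha, bpr_eq (p a) (w a) (γ a) hγa, List.length_finRange, map_smul, smul_eq_mul,
    scl_add n m ha0']
  ring

/-- **plane scaling limits** -/
theorem UPb_of (hS : SpPl) (hEx : ExCovPl) (hK : KerPl) (hJ : J2Pl) (hT : UTb) : UPb := by
  intro n m hnm hn x y j hinj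
  have hi := UFinx420.inj_split hinj
  obtain ⟨bl, rg, K⟩ := hK n hn x hi.1
  have hspin : ∃ F : ℝ, Tendsto (fun a : ℝ => scl n 0 a * Pc (fun i => meshIndex a (x i)))
      (𝓝[>] 0) (𝓝 F) := by
    rcases Nat.eq_zero_or_pos n with rfl | h0
    · refine ⟨1, tendsto_const_nhds.congr fun a => ?_⟩
      rw [scl_zero_zero, one_mul]
      have h1 := planeLim_Pc hT 0 (fun i => meshIndex a (x i))
      have h2 : (fun L : ℕ => Gt (L + 1) Kc (fun i => meshIndex a (x i))) = fun _ => (1 : ℝ) := by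
        funext L
        rw [← torMom_Gt]
        exact torMom_zero_zero L 1 0 0 _ _ _ _ _ _
      rw [h2] at h1
      exact tendsto_nhds_unique tendsto_const_nhds h1
    · exact hS n h0 hn x hi.1
  obtain ⟨F, hF⟩ := hspin
  have hex : ∀ᶠ a in 𝓝[>] (0 : ℝ), ∃ S,
      IsCov (wD false Set.univ a (fun i => meshIndex a (x i))) S := by
    have h1 : ∀ i j, i ≠ j → ∀ᶠ a in 𝓝[>] (0 : ℝ), meshIndex a (x i) ≠ meshIndex a (x j) := by
      intro i j hij
      have h2 := UKerx420.tendsto_mesh (x i) 0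
      have h3 := UKerx420.tendsto_mesh (x j) 0
      have h4 : x i ≠ x j := fun e => hij (hi.1 e)
      obtain ⟨U, V, hU, hV, hxU, hxV, hUV⟩ := t2_separation h4
      filter_upwards [h2.eventually (hU.mem_nhds hxU), h3.eventually (hV.mem_nhds hxV)]
        with a hu hv e
      simp only [add_zero] at hu hv
      rw [e] at hu
      exact Set.disjoint_left.1 hUV hu hv
    have h5 : ∀ᶠ a in 𝓝[>] (0 : ℝ), ∀ i j, i ≠ j → meshIndex a (x i) ≠ meshIndex a (x j) := by
      rw [eventually_all]; intro i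
      rw [eventually_all]; intro j
      by_cases hij : i = j
      · exact Eventually.of_forall fun _ h => absurd hij h
      · exact (h1 i j hij).mono fun a h _ => h
    filter_upwards [h5] with a ha
    rw [wD_univ]
    exact hEx n hn _ fun i j hij => by
      by_contra h
      exact ha i j h hij
  have hker := kerLim_of isOpen_univ K hex y j (fun k => Set.mem_univ _) hi.2.2 hi.2.1
  refine ⟨_, abs_limit (W := fun _ => Fld ℤ)
    (fun a => Cof (wD false Set.univ a (fun i => meshIndex a (x i))))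
    (fun a => P0c (fun i => meshIndex a (x i)) (fun k => meshIndex a (y k)) j)
    (fun a => Pc (fun i => meshIndex a (x i))) j _ _ _ F ?_ hker hF⟩
  filter_upwards [hJ n hn m x y j hinj] with a ha
  rw [ha, wD_univ]

end Crest.Agent.R165.UPlx641
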