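import Crest.Agent.R165.Pl0b_654
import Crest.Agent.R165.SpE_583
import Crest.Agent.R165.UPl_641
import Crest.Agent.R165.UJ3_420
import Crest.Agent.R165.Gr2_813
import Crest.Agent.R165.J2d_606

/-!
# Row 165 (S0250), plane clause (helper817): bonds as bilinears in the plane

* `exists_gauge` : a sign field on the dual edges of `ℤ²` without flux is a gradient
* `exCovPl` : `ExCovPl` of `UPl_641`
* `j2Pl` : `TorPl → J2Pl`
-/

set_option autoImplicit false

noncomputable section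

namespace Crest.Agent.R165.J2Plx817

open Finset Filter Topology
open Crest.ProbabilityR.IsingModel
open Crest.Agent.R165
open Crest.Agent.R165.Latx683 (BW Aop wPl yE yN xc IsCov wX ray Fld covS formS)
open Crest.Agent.R165.J1ax606 (HE EG pe qe bb pe_inj qe_inj pe_ne_qe)
open Crest.Agent.R165.Gr0x606 Crest.Agent.R165.Gr1x606
open Crest.Agent.R165.Symx541 (ep IsB isB_even torBonds torMom_eq ep_sq)
open Crest.Agent.R165.Gr2x813 (AF pr cutF nbf opd sgd ew edge)
open Crest.Agent.R165.Pl0x654 (cutR cutR_nonneg cutR_eq_zero cutR_nb abs_nb)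
open Crest.Agent.R165.Pl0bx654 (dec dec_pos)

/-! ### gauge -/

/-- discrete primitive -/
def prim (s : ℤ → ℝ) (n : ℤ) : ℝ := (∏ k ∈ Finset.Ico 0 n, s k) * ∏ k ∈ Finset.Ico n 0, s k

theorem prim_zero (s : ℤ → ℝ) : prim s 0 = 1 := by simp [prim]

theorem prim_sq {s : ℤ → ℝ} (hs : ∀ k, s k * s k = 1) (n : ℤ) : prim s n * prim s n = 1 := by
  have h : ∀ A : Finset ℤ, (∏ k ∈ A, s k) * ∏ k ∈ A, s k = 1 := by
    intro A
    rw [← Finset.prod_mul_distrib]
    exact Finset.prod_eq_one fun k _ => hs k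
  unfold prim
  calc _ = ((∏ k ∈ Finset.Ico 0 n, s k) * ∏ k ∈ Finset.Ico 0 n, s k) *
        ((∏ k ∈ Finset.Ico n 0, s k) * ∏ k ∈ Finset.Ico n 0, s k) := by ring
    _ = 1 := by rw [h, h, mul_one]

theorem prim_succ {s : ℤ → ℝ} (hs : ∀ k, s k * s k = 1) (n : ℤ) :
    prim s (n + 1) = prim s n * s n := by
  unfold prim
  rcases le_or_gt 0 n with h | h
  · have h1 : Finset.Ico 0 (n + 1) = insert n (Finset.Ico 0 n) := by
      ext k; simp only [Finset.mem_Ico, Finset.mem_insert]; omega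
    have h2 : Finset.Ico (n + 1) 0 = ∅ := Finset.Ico_eq_empty (by omega)
    have h3 : Finset.Ico n 0 = ∅ := Finset.Ico_eq_empty (by omega)
    rw [h1, h2, h3, Finset.prod_insert (by simp)]
    simp only [Finset.prod_empty]
    ring
  · have h1 : Finset.Ico n 0 = insert n (Finset.Ico (n + 1) 0) := by
      ext k; simp only [Finset.mem_Ico, Finset.mem_insert]; omega
    have h2 : Finset.Ico 0 (n + 1) = ∅ := Finset.Ico_eq_empty (by omega)
    have h3 : Finset.Ico 0 n = ∅ := Finset.Ico_eq_empty (by omega)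
    rw [h1, h2, h3, Finset.prod_insert (by simp)]
    simp only [Finset.prod_empty, one_mul]
    calc _ = (∏ k ∈ Finset.Ico (n + 1) 0, s k) * (s n * s n) := by rw [hs, mul_one]
      _ = _ := by ring

/-- **a flat sign field on the dual edges of `ℤ²` is a gradient** -/
theorem exists_gauge {H V : ℤ × ℤ → ℝ} (h1 : ∀ f, H f * H f = 1) (h2 : ∀ f, V f * V f = 1)
    (hc : ∀ a b, H (a, b) * V (a + 1, b) * H (a, b + 1) * V (a, b) = 1) :
    ∃ g : ℤ × ℤ → ℝ, (∀ f, g f * g f = 1) ∧ (∀ a b, H (a, b) = g (a, b) * g (a + 1, b)) ∧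
      ∀ a b, V (a, b) = g (a, b) * g (a, b + 1) := by
  set g : ℤ × ℤ → ℝ := fun f => prim (fun k => H (k, 0)) f.1 * prim (fun k => V (f.1, k)) f.2
    with hg
  have hsq : ∀ f, g f * g f = 1 := by
    intro f
    have e1 := prim_sq (s := fun k => H (k, 0)) (fun k => h1 _) f.1
    have e2 := prim_sq (s := fun k => V (f.1, k)) (fun k => h2 _) f.2
    calc g f * g f = (prim (fun k => H (k, 0)) f.1 * prim (fun k => H (k, 0)) f.1) *
          (prim (fun k => V (f.1, k)) f.2 * prim (fun k => V (f.1, k)) f.2) := by rw [hg]; ring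
      _ = 1 := by rw [e1, e2, mul_one]
  have hV : ∀ a b, g (a, b + 1) = g (a, b) * V (a, b) := by
    intro a b
    have e := prim_succ (s := fun k => V (a, k)) (fun k => h2 _) b
    show prim (fun k => H (k, 0)) a * prim (fun k => V (a, k)) (b + 1) = _
    rw [e, hg]
    simp only
    ring
  have hV' : ∀ a b, V (a, b) = g (a, b) * g (a, b + 1) := by
    intro a b
    rw [hV, ← mul_assoc, hsq, one_mul]
  have hH : ∀ a b, H (a, b) = g (a, b) * g (a + 1, b) := by
    intro a b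
    induction b using Int.induction_on with
    | zero =>
      have e := prim_succ (s := fun k => H (k, 0)) (fun k => h1 _) a
      have e3 := prim_sq (s := fun k => H (k, 0)) (fun k => h1 _) a
      show H (a, 0) = (prim (fun k => H (k, 0)) a * prim (fun k => V (a, k)) 0) *
        (prim (fun k => H (k, 0)) (a + 1) * prim (fun k => V (a + 1, k)) 0)
      rw [prim_zero, prim_zero, e]
      linear_combination (-H (a, 0)) * e3
    | succ b ih =>
      have e := hc a b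
      rw [hV, hV]
      have i1 := h1 (a, (b : ℤ))
      have i2 := h2 (a, (b : ℤ))
      have i3 := h2 (a + 1, (b : ℤ))
      calc H (a, (b : ℤ) + 1) = H (a, b + 1) * (H (a, (b : ℤ)) * H (a, (b : ℤ))) *
            (V (a, (b : ℤ)) * V (a, (b : ℤ))) * (V (a + 1, (b : ℤ)) * V (a + 1, (b : ℤ))) := by
              rw [i1, i2, i3]; ring
        _ = (H (a, b) * V (a + 1, b) * H (a, b + 1) * V (a, b)) *
            (H (a, (b : ℤ)) * V (a, (b : ℤ)) * V (a + 1, (b : ℤ))) := by ring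
        _ = _ := by rw [e, one_mul, ih]; ring
    | pred b ih =>
      have e := hc a (-(b : ℤ) - 1)
      have j1 := hV a (-(b : ℤ) - 1)
      have j2 := hV (a + 1) (-(b : ℤ) - 1)
      rw [sub_add_cancel] at e j1 j2
      rw [j1, j2] at ih
      have i1 := h1 (a, -(b : ℤ))
      have i2 := h2 (a, -(b : ℤ) - 1)
      have i3 := h2 (a + 1, -(b : ℤ) - 1)
      calc H (a, -(b : ℤ) - 1) = H (a, -(b : ℤ) - 1) * (H (a, -(b : ℤ)) * H (a, -(b : ℤ))) *
            (V (a, -(b : ℤ) - 1) * V (a, -(b : ℤ) - 1)) *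
            (V (a + 1, -(b : ℤ) - 1) * V (a + 1, -(b : ℤ) - 1)) := by
              rw [i1, i2, i3]; ring
        _ = (H (a, -(b : ℤ) - 1) * V (a + 1, -(b : ℤ) - 1) * H (a, -(b : ℤ)) *
            V (a, -(b : ℤ) - 1)) *
            (H (a, -(b : ℤ)) * V (a, -(b : ℤ) - 1) * V (a + 1, -(b : ℤ) - 1)) := by ring
        _ = H (a, -(b : ℤ)) * V (a, -(b : ℤ) - 1) * V (a + 1, -(b : ℤ) - 1) := by rw [e, one_mul]
        _ = (g (a, -(b : ℤ) - 1) * g (a + 1, -(b : ℤ) - 1)) *
            (V (a, -(b : ℤ) - 1) * V (a, -(b : ℤ) - 1)) *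
            (V (a + 1, -(b : ℤ) - 1) * V (a + 1, -(b : ℤ) - 1)) := by rw [ih]; ring
        _ = _ := by rw [i2, i3]; ring
  exact ⟨g, hsq, hH, hV'⟩


/-! ### flux of a finite bond set -/

/-- the four bonds at a vertex -/
def star (v : ℤ × ℤ) : Finset (EG ℤ) :=
  {((v, 0) : EG ℤ), ((v.1 - 1, v.2), 0), (v, 1), ((v.1, v.2 - 1), 1)}

theorem mem_star {v : ℤ × ℤ} {e : EG ℤ} : e ∈ star v ↔ e.1 = v ∨ e.1 + unitVec e.2 = v := by
  obtain ⟨⟨a, b⟩, j⟩ := e
  obtain ⟨c, d⟩ := v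
  fin_cases j
  · simp [star, unitVec]
    omega
  · simp [star, unitVec]
    omega

theorem prod_star {M : Type*} [CommMonoid M] (t : EG ℤ → M) (v : ℤ × ℤ) :
    ∏ e ∈ star v, t e = t (v, 0) * (t ((v.1 - 1, v.2), 0) * (t (v, 1) *
      t ((v.1, v.2 - 1), 1))) := by
  unfold star
  obtain ⟨c, d⟩ := v
  rw [Finset.prod_insert, Finset.prod_insert, Finset.prod_insert, Finset.prod_singleton]
  · simp only [Finset.mem_singleton, Prod.mk.injEq]; omega
  · simp
  · simp only [Finset.mem_insert, Finset.mem_singleton, Prod.mk.injEq]; omega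

/-- the configuration flipped at `v` -/
def flipAt (v z : ℤ × ℤ) : Bool := !decide (z = v)

theorem spin_flipAt (v z : ℤ × ℤ) : spinSign (flipAt v z) = if z = v then -1 else 1 := by
  unfold flipAt spinSign
  by_cases h : z = v <;> simp [h]

theorem ep_flipAt (v : ℤ × ℤ) (e : EG ℤ) :
    ep e (flipAt v) = if e ∈ star v then -1 else 1 := by
  unfold ep
  rw [spin_flipAt, spin_flipAt]
  have hne : e.1 + unitVec e.2 ≠ e.1 := by
    intro h
    have h2 : unitVec e.2 = 0 := by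
      have := congrArg (fun t => t - e.1) h
      simpa using this
    unfold unitVec at h2
    split_ifs at h2 <;> simp [Prod.ext_iff] at h2
  by_cases h1 : e.1 = v
  · have h2 : ¬ e.1 + unitVec e.2 = v := fun h => hne (h.trans h1.symm)
    rw [if_pos h1, if_neg h2, if_pos (mem_star.2 (Or.inl h1)), mul_one]
  · by_cases h2 : e.1 + unitVec e.2 = v
    · rw [if_neg h1, if_pos h2, if_pos (mem_star.2 (Or.inr h2)), one_mul]
    · rw [if_neg h1, if_neg h2, if_neg (fun h => (mem_star.1 h).elim h1 h2), mul_one]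

/-- sign of the bonds of `B` -/
def sB (B : Finset (EG ℤ)) (e : EG ℤ) : ℝ := if e ∈ B then -1 else 1

theorem sB_sq (B : Finset (EG ℤ)) (e : EG ℤ) : sB B e * sB B e = 1 := by
  unfold sB; split_ifs <;> norm_num

/-- `B` pairs the points of `X` -/
def Pairs {n : ℕ} (X : Fin n → ℤ × ℤ) (B : Finset (EG ℤ)) : Prop :=
  ∀ s : ℤ × ℤ → Bool, ∏ i, spinSign (s (X i)) = ∏ e ∈ B, ep e s

theorem flux_B {n : ℕ} {X : Fin n → ℤ × ℤ} {B : Finset (EG ℤ)} (hB : Pairs X B) (v : ℤ × ℤ) :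
    ∏ e ∈ star v, sB B e = ∏ i, if X i = v then -1 else 1 := by
  have h := hB (flipAt v)
  simp only [spin_flipAt, ep_flipAt] at h
  rw [h]
  have e1 : ∀ A C : Finset (EG ℤ), ∏ e ∈ A, (if e ∈ C then (-1 : ℝ) else 1) =
      ∏ _e ∈ A ∩ C, (-1 : ℝ) := fun A C => Finset.prod_ite_mem A C _
  unfold sB
  rw [e1, e1, Finset.inter_comm]

theorem flux_ray {n : ℕ} (X : Fin n → ℤ × ℤ) (v : ℤ × ℤ) :
    ∏ e ∈ star v, ray X e.1 e.2 = ∏ i, if X i = v then -1 else 1 := by
  unfold ray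
  rw [Finset.prod_comm]
  refine Finset.prod_congr rfl fun i _ => ?_
  rw [prod_star]
  simp only [true_and, one_ne_zero, false_and, if_false, mul_one]
  obtain ⟨a, b⟩ := v
  simp only
  by_cases h2 : (X i).2 = b
  · rcases lt_trichotomy (X i).1 a with h | h | h
    · rw [if_pos ⟨h2, h.le⟩, if_pos ⟨h2, by omega⟩, if_neg]
      · norm_num
      · rintro h3; rw [h3] at h; exact lt_irrefl _ h
    · rw [if_pos ⟨h2, h.le⟩, if_neg (by omega), if_pos (Prod.ext h h2), mul_one]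
    · rw [if_neg (by omega), if_neg (by omega), if_neg]
      · norm_num
      · rintro h3; rw [h3] at h; exact lt_irrefl _ h
  · rw [if_neg (fun h => h2 h.1), if_neg (fun h => h2 h.1), if_neg]
    · norm_num
    · intro h3
      exact h2 (by rw [h3])

theorem ray_sq {n : ℕ} (X : Fin n → ℤ × ℤ) (z : ℤ × ℤ) (j : Fin 2) :
    ray X z j * ray X z j = 1 := by
  unfold ray
  rw [← Finset.prod_mul_distrib]
  refine Finset.prod_eq_one fun i _ => ?_
  split_ifs <;> norm_num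

/-- **the ray background is a gauge transform of the cut background** -/
theorem exists_cutGauge {n : ℕ} {X : Fin n → ℤ × ℤ} {B : Finset (EG ℤ)} (hB : Pairs X B) :
    ∃ g : ℤ × ℤ → ℝ, (∀ f, g f * g f = 1) ∧
      ∀ e : EG ℤ, wX (wPl ℤ) X e.1 e.2 =
        g (pe e).1 * g (qe e).1 * Pl0bx654.wcut B (fun _ => -2 * xc) e.1 e.2 := by
  set t : EG ℤ → ℝ := fun e => sB B e * ray X e.1 e.2 with ht
  have htsq : ∀ e, t e * t e = 1 := by
    intro e
    have e1 := sB_sq B e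
    have e2 := ray_sq X e.1 e.2
    calc t e * t e = (sB B e * sB B e) * (ray X e.1 e.2 * ray X e.1 e.2) := by rw [ht]; ring
      _ = 1 := by rw [e1, e2, mul_one]
  have hflux : ∀ v, ∏ e ∈ star v, t e = 1 := by
    intro v
    rw [ht, Finset.prod_mul_distrib, flux_B hB, flux_ray, ← Finset.prod_mul_distrib]
    refine Finset.prod_eq_one fun i _ => ?_
    split_ifs <;> norm_num
  obtain ⟨g, hg, hH, hV⟩ := exists_gauge (H := fun f => t ((f.1 + 1, f.2), 1))
    (V := fun f => t ((f.1, f.2 + 1), 0)) (fun f => htsq _) (fun f => htsq _) (by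
      intro a b
      have h := hflux (a + 1, b + 1)
      rw [prod_star] at h
      simp only [add_sub_cancel_right] at h
      simp only
      linear_combination h)
  refine ⟨g, hg, ?_⟩
  have hw : ∀ e : EG ℤ, wX (wPl ℤ) X e.1 e.2 = t e * Pl0bx654.wcut B (fun _ => -2 * xc) e.1 e.2 := by
    intro e
    have e1 : Pl0bx654.wcut B (fun _ => -2 * xc) e.1 e.2 = sB B e * xc := by
      unfold Pl0bx654.wcut sB
      split_ifs
      · ring
      · ring
    rw [e1, ht]
    unfold wX wPl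
    linear_combination (-(ray X e.1 e.2 * xc)) * sB_sq B e
  rintro ⟨⟨a, b⟩, j⟩
  rw [hw]
  congr 1
  fin_cases j
  · have := hV a (b - 1)
    simp only [sub_add_cancel] at this
    simp only [Fin.zero_eta, J1ax606.pe_zero, J1ax606.qe_zero, Prod.mk_sub_mk, sub_zero]
    rw [this]
    ring
  · have := hH (a - 1) b
    simp only [sub_add_cancel] at this
    simp only [Fin.mk_one, J1ax606.pe_one, J1ax606.qe_one, Prod.mk_sub_mk, sub_zero]
    rw [this]


/-! ### Toeplitz lemma -/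

theorem toeplitz {ι : Type*} (F : ℕ → Finset ι) (a : ℕ → ι → ℝ) (ha : ∀ R h, 0 ≤ a R h)
    (K : ℝ) (hK : ∀ᶠ R in atTop, ∑ h ∈ F R, a R h ≤ K)
    (h0 : ∀ h, Tendsto (fun R => a R h) atTop (𝓝 0)) (σ : ι → ℝ)
    (hσ : Tendsto σ cofinite (𝓝 0)) :
    Tendsto (fun R => ∑ h ∈ F R, a R h * |σ h|) atTop (𝓝 0) := by
  classical
  rw [Metric.tendsto_nhds]
  intro ε hε
  have hK1 : 0 < |K| + 1 := by positivity
  have hδ : 0 < ε / (2 * (|K| + 1)) := by positivity
  have hfin : {h | ¬ |σ h| < ε / (2 * (|K| + 1))}.Finite := by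
    have := (Metric.tendsto_nhds.1 hσ) _ hδ
    rw [Filter.eventually_cofinite] at this
    simpa [Real.dist_eq] using this
  set E := hfin.toFinset with hE
  have h1 : Tendsto (fun R => ∑ h ∈ E, a R h * |σ h|) atTop (𝓝 0) := by
    have : Tendsto (fun R => ∑ h ∈ E, a R h * |σ h|) atTop (𝓝 (∑ h ∈ E, 0 * |σ h|)) :=
      tendsto_finsetSum _ fun h _ => (h0 h).mul_const _
    simpa using this
  have h2 := (Metric.tendsto_nhds.1 h1) (ε / 2) (by positivity)
  filter_upwards [hK, h2] with R hR hR2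
  rw [Real.dist_eq, sub_zero] at hR2 ⊢
  have hnn : 0 ≤ ∑ h ∈ F R, a R h * |σ h| :=
    Finset.sum_nonneg fun h _ => mul_nonneg (ha R h) (abs_nonneg _)
  rw [abs_of_nonneg hnn]
  have h3 : ∑ h ∈ F R, a R h * |σ h| ≤
      ∑ h ∈ E, a R h * |σ h| + ∑ h ∈ F R, a R h * (ε / (2 * (|K| + 1))) := by
    calc ∑ h ∈ F R, a R h * |σ h|
        ≤ ∑ h ∈ F R, ((if h ∈ E then a R h * |σ h| else 0) + a R h * (ε / (2 * (|K| + 1)))) := by
          refine Finset.sum_le_sum fun h _ => ?_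
          by_cases hh : h ∈ E
          · rw [if_pos hh]
            have := mul_nonneg (ha R h) hδ.le
            linarith
          · rw [if_neg hh, zero_add]
            have : |σ h| < ε / (2 * (|K| + 1)) := by
              by_contra hc
              exact hh (hfin.mem_toFinset.2 hc)
            exact mul_le_mul_of_nonneg_left this.le (ha R h)
      _ = ∑ h ∈ F R, (if h ∈ E then a R h * |σ h| else 0) +
          ∑ h ∈ F R, a R h * (ε / (2 * (|K| + 1))) := Finset.sum_add_distrib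
      _ ≤ _ := by
          gcongr
          rw [← Finset.sum_filter]
          refine Finset.sum_le_sum_of_subset_of_nonneg ?_ fun h _ _ =>
            mul_nonneg (ha R h) (abs_nonneg _)
          intro h hh
          exact (Finset.mem_filter.1 hh).2
  rw [← Finset.sum_mul] at h3
  have h4 : (∑ h ∈ F R, a R h) * (ε / (2 * (|K| + 1))) < ε / 2 := by
    have h5 : ∑ h ∈ F R, a R h ≤ |K| := hR.trans (le_abs_self K)
    calc (∑ h ∈ F R, a R h) * (ε / (2 * (|K| + 1))) ≤ |K| * (ε / (2 * (|K| + 1))) :=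
          mul_le_mul_of_nonneg_right h5 hδ.le
      _ < (|K| + 1) * (ε / (2 * (|K| + 1))) := by
          apply mul_lt_mul_of_pos_right _ hδ
          linarith
      _ = ε / 2 := by field_simp
  have h6 := (abs_lt.1 hR2).2
  linarith

/-! ### the mass of `dec` on boxes -/

theorem sum_sqrt_le (N : ℕ) :
    ∑ k ∈ Finset.range (N + 1), 1 / Real.sqrt (1 + (k : ℝ)) ≤ 2 * Real.sqrt (N + 1) := by
  induction N with
  | zero => simp
  | succ N ih =>
    rw [Finset.sum_range_succ]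
    have h0 : (0 : ℝ) < Real.sqrt (1 + ((N + 1 : ℕ) : ℝ)) := Real.sqrt_pos.2 (by positivity)
    have h1 : 1 / Real.sqrt (1 + ((N + 1 : ℕ) : ℝ)) ≤
        2 * (Real.sqrt (((N + 1 : ℕ) : ℝ) + 1) - Real.sqrt ((N : ℝ) + 1)) := by
      rw [div_le_iff₀ h0]
      have e : Real.sqrt (((N + 1 : ℕ) : ℝ) + 1) = Real.sqrt (1 + ((N + 1 : ℕ) : ℝ)) := by
        rw [add_comm]
      rw [e]
      have s1 := Real.mul_self_sqrt (show (0 : ℝ) ≤ 1 + ((N + 1 : ℕ) : ℝ) by positivity)
      have s2 := Real.mul_self_sqrt (show (0 : ℝ) ≤ (N : ℝ) + 1 by positivity)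
      set A := Real.sqrt (1 + ((N + 1 : ℕ) : ℝ))
      set B := Real.sqrt ((N : ℝ) + 1)
      push_cast at s1
      nlinarith [sq_nonneg (A - B)]
    push_cast at h1 ih ⊢
    linarith

theorem sum_sqrt_int_le (N : ℕ) :
    ∑ a ∈ Finset.Icc (-(N : ℤ)) N, 1 / Real.sqrt (1 + |(a : ℝ)|) ≤ 4 * Real.sqrt (N + 1) := by
  have hsub : Finset.Icc (-(N : ℤ)) N ⊆
      (Finset.range (N + 1)).image (fun k : ℕ => (k : ℤ)) ∪
        (Finset.range (N + 1)).image (fun k : ℕ => -(k : ℤ)) := by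
    intro a ha
    rw [Finset.mem_Icc] at ha
    rw [Finset.mem_union, Finset.mem_image, Finset.mem_image]
    rcases le_or_gt 0 a with h | h
    · left
      refine ⟨a.toNat, ?_, by omega⟩
      rw [Finset.mem_range]; omega
    · right
      refine ⟨(-a).toNat, ?_, by omega⟩
      rw [Finset.mem_range]; omega
  have hnn : ∀ a : ℤ, (0 : ℝ) ≤ 1 / Real.sqrt (1 + |(a : ℝ)|) := fun a => by positivity
  have h1 := Finset.sum_le_sum_of_subset_of_nonneg (f := fun a : ℤ => 1 / Real.sqrt (1 + |(a : ℝ)|))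
    hsub fun a _ _ => hnn a
  have h2 : ∑ a ∈ (Finset.range (N + 1)).image (fun k : ℕ => (k : ℤ)) ∪
        (Finset.range (N + 1)).image (fun k : ℕ => -(k : ℤ)), 1 / Real.sqrt (1 + |(a : ℝ)|) ≤
      ∑ a ∈ (Finset.range (N + 1)).image (fun k : ℕ => (k : ℤ)), 1 / Real.sqrt (1 + |(a : ℝ)|) +
      ∑ a ∈ (Finset.range (N + 1)).image (fun k : ℕ => -(k : ℤ)), 1 / Real.sqrt (1 + |(a : ℝ)|) := by
    rw [← Finset.sum_union_inter]
    have := Finset.sum_nonneg (s := (Finset.range (N + 1)).image (fun k : ℕ => (k : ℤ)) ∩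
        (Finset.range (N + 1)).image (fun k : ℕ => -(k : ℤ))) (fun a _ => hnn a)
    linarith
  have hh := sum_sqrt_le N
  have h3 : ∑ a ∈ (Finset.range (N + 1)).image (fun k : ℕ => (k : ℤ)),
      1 / Real.sqrt (1 + |(a : ℝ)|) = ∑ k ∈ Finset.range (N + 1), 1 / Real.sqrt (1 + (k : ℝ)) := by
    rw [Finset.sum_image (fun a _ b _ h => by simpa using h)]
    refine Finset.sum_congr rfl fun k _ => ?_
    simp
  have h4 : ∑ a ∈ (Finset.range (N + 1)).image (fun k : ℕ => -(k : ℤ)),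
      1 / Real.sqrt (1 + |(a : ℝ)|) = ∑ k ∈ Finset.range (N + 1), 1 / Real.sqrt (1 + (k : ℝ)) := by
    rw [Finset.sum_image (fun a _ b _ h => by simpa using h)]
    refine Finset.sum_congr rfl fun k _ => ?_
    simp
  rw [h3, h4] at h2
  linarith

/-- boxes of half-edges -/
def hbox (N : ℕ) : Finset (HE ℤ) :=
  (Finset.Icc (-(N : ℤ)) N ×ˢ Finset.Icc (-(N : ℤ)) N) ×ˢ Finset.univ

theorem sum_dec_le (N : ℕ) : ∑ h ∈ hbox N, dec h ≤ 64 * (N + 1) := by
  have h0 : 0 ≤ ∑ a ∈ Finset.Icc (-(N : ℤ)) N, 1 / Real.sqrt (1 + |(a : ℝ)|) :=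
    Finset.sum_nonneg fun a _ => by positivity
  have h1 : ∑ h ∈ hbox N, dec h =
      4 * ∑ f ∈ Finset.Icc (-(N : ℤ)) N ×ˢ Finset.Icc (-(N : ℤ)) N,
        1 / (1 + |(f.1 : ℝ)| + |(f.2 : ℝ)|) := by
    unfold hbox dec
    rw [Finset.sum_product, Finset.mul_sum]
    refine Finset.sum_congr rfl fun f _ => ?_
    simp
  have h2 : ∑ f ∈ Finset.Icc (-(N : ℤ)) N ×ˢ Finset.Icc (-(N : ℤ)) N,
        1 / (1 + |(f.1 : ℝ)| + |(f.2 : ℝ)|) ≤
      (∑ a ∈ Finset.Icc (-(N : ℤ)) N, 1 / Real.sqrt (1 + |(a : ℝ)|)) ^ 2 := by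
    rw [sq, Finset.sum_mul_sum, ← Finset.sum_product']
    refine Finset.sum_le_sum fun f _ => ?_
    rw [div_mul_div_comm, one_mul, ← Real.sqrt_mul (by positivity)]
    apply one_div_le_one_div_of_le (Real.sqrt_pos.2 (by positivity))
    rw [Real.sqrt_le_left (by positivity)]
    have ha := abs_nonneg (f.1 : ℝ)
    have hb := abs_nonneg (f.2 : ℝ)
    nlinarith
  have h3 := pow_le_pow_left₀ h0 (sum_sqrt_int_le N) 2
  have h4 : (4 * Real.sqrt ((N : ℝ) + 1)) ^ 2 = 16 * (N + 1) := by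
    rw [mul_pow, Real.sq_sqrt (by positivity)]; norm_num
  rw [h1]
  rw [h4] at h3
  linarith

/-! ### uniqueness of the covariance -/

theorem ew_le {w : BW ℤ} (hw : ∀ z j, |w z j| ≤ 1) (f : ℤ × ℤ) (d : Fin 4) : |ew w f d| ≤ 1 := by
  unfold ew
  split_ifs
  · exact hw _ _
  · exact hw _ _
  · exact hw _ _
  · exact hw _ _

theorem nbf_eq (f : ℤ × ℤ) (d : Fin 4) : nbf f d = Tr1x40.nb f d := by
  fin_cases d
  · simp
  · simp
  · simp
  · simp

theorem sgd_abs (d : Fin 4) : |sgd d| = 1 := by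
  unfold sgd; split_ifs <;> norm_num

theorem cutR_diff {R : ℕ} (hR : 0 < R) (f : ℤ × ℤ) (d : Fin 4) :
    |cutR R (nbf f d) - cutR R f| ≤ 1 / R := by
  rw [abs_le]
  have h1 := cutR_nb hR f d
  have h2 := cutR_nb hR (Tr1x40.nb f d) (Tr1x40.op d)
  rw [Tr1x40.nb_nb_op] at h2
  rw [nbf_eq]
  constructor <;> linarith

/-- the partner half-edge -/
def part (h : HE ℤ) : HE ℤ := (nbf h.1 h.2, opd h.2)

theorem opd_opd (d : Fin 4) : opd (opd d) = d := by
  fin_cases d <;> simp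

theorem part_part (h : HE ℤ) : part (part h) = h := by
  unfold part
  ext1
  · exact Gr2x813.nbf_nbf h.1 h.2
  · exact opd_opd h.2

theorem part_inj : Function.Injective part := fun a b h => by
  rw [← part_part a, h, part_part]

theorem comm_le {w : BW ℤ} (hw : ∀ z j, |w z j| ≤ 1) {R : ℕ} (hR : 0 < R) (Ψ : HE ℤ → ℝ)
    (h : HE ℤ) : |Gr2x813.comm w (cutR R) Ψ h| ≤ 1 / R * |Ψ (part h)| := by
  unfold Gr2x813.comm edge
  rw [abs_mul, abs_mul, abs_mul, sgd_abs, one_mul]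
  have h1 := cutR_diff hR h.1 h.2
  have h2 := ew_le hw h.1 h.2
  have h3 : |ew w h.1 h.2| * |Ψ (nbf h.1 h.2, opd h.2)| ≤ |Ψ (part h)| := by
    calc _ ≤ 1 * |Ψ (nbf h.1 h.2, opd h.2)| := mul_le_mul_of_nonneg_right h2 (abs_nonneg _)
      _ = _ := by rw [one_mul]; rfl
  exact mul_le_mul h1 h3 (by positivity) (by positivity)

theorem cutR_out {R : ℕ} (hR : 0 < R) {f : ℤ × ℤ}
    (hf : f ∉ Finset.Icc (-((R + 1 : ℕ) : ℤ)) ((R + 1 : ℕ) : ℤ) ×ˢ
      Finset.Icc (-((R + 1 : ℕ) : ℤ)) ((R + 1 : ℕ) : ℤ)) :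
    cutR R f = 0 ∧ ∀ d, cutR R (nbf f d) = 0 := by
  have hout : ((R : ℝ) + 1) ≤ |(f.1 : ℝ)| + |(f.2 : ℝ)| := by
    rw [Finset.mem_product, Finset.mem_Icc, Finset.mem_Icc] at hf
    have : (R : ℤ) + 1 ≤ |f.1| + |f.2| := by
      by_contra hcon
      push Not at hcon
      apply hf
      have a1 := neg_abs_le f.1
      have a2 := le_abs_self f.1
      have b1 := neg_abs_le f.2
      have b2 := le_abs_self f.2
      have a3 := abs_nonneg f.1
      have b3 := abs_nonneg f.2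
      push_cast
      constructor <;> constructor <;> omega
    have h2 : (((R : ℤ) + 1 : ℤ) : ℝ) ≤ ((|f.1| + |f.2| : ℤ) : ℝ) := by exact_mod_cast this
    push_cast at h2
    exact h2
  refine ⟨cutR_eq_zero hR (by linarith), fun d => cutR_eq_zero hR ?_⟩
  rw [nbf_eq]
  have := (abs_le.1 (abs_nb f d)).1
  linarith

theorem cutR_finite {R : ℕ} (hR : 0 < R) : (cutR R).support.Finite := by
  refine Set.Finite.subset (Finset.finite_toSet (Finset.Icc (-((R + 1 : ℕ) : ℤ))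
    ((R + 1 : ℕ) : ℤ) ×ˢ Finset.Icc (-((R + 1 : ℕ) : ℤ)) ((R + 1 : ℕ) : ℤ))) ?_
  intro f hf
  by_contra hc
  exact hf (cutR_out hR hc).1

theorem tendsto_cutR (f : ℤ × ℤ) : Tendsto (fun R : ℕ => cutR R f) atTop (𝓝 1) := by
  have h7 : Tendsto (fun R : ℕ => 1 - (|(f.1 : ℝ)| + |(f.2 : ℝ)|) / (R : ℝ)) atTop
      (𝓝 (1 - 0)) := by
    apply Tendsto.const_sub
    exact tendsto_const_div_atTop_nhds_zero_nat _
  have h8 := h7.max (tendsto_const_nhds (x := (0 : ℝ)))
  have h9 : max (1 - 0 : ℝ) 0 = 1 := by norm_num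
  rw [h9] at h8
  refine h8.congr fun R => ?_
  unfold cutR
  rw [max_comm]

/-- pairing as a sum over a larger set -/
theorem pr_eq_sum (u : Fld ℤ) (s : HE ℤ → ℝ) (F : Finset (HE ℤ)) (hF : ∀ h, h ∉ F → u h = 0) :
    pr u s = ∑ h ∈ F, u h * s h := by
  unfold pr
  rw [Finsupp.sum]
  refine Finset.sum_subset ?_ ?_
  · intro h hh
    by_contra hc
    exact (Finsupp.mem_support_iff.1 hh) (hF h hc)
  · intro h _ hh
    rw [Finsupp.notMem_support_iff.1 hh, zero_mul]

/-- **uniqueness of the covariance** -/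
theorem cov_unique {w : BW ℤ} (hw : ∀ z j, |w z j| ≤ 1) {S S' : HE ℤ → HE ℤ → ℝ}
    (hS : IsCov w S) (hb : ∀ h', ∃ C, ∀ h, |S h h'| ≤ C * dec h) (hS' : IsCov w S') :
    S' = S := by
  funext g h'
  obtain ⟨C, hC⟩ := hb g
  have hC0 : 0 ≤ C := by
    by_contra hcon
    push Not at hcon
    have h2 := abs_nonneg (S g g)
    have h3 := hC g
    have h4 := mul_neg_of_neg_of_pos hcon (dec_pos g)
    linarith
  have key : ∀ R : ℕ, 0 < R → |cutR R g.1 * S' g h' - cutR R h'.1 * S g h'| ≤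
      ∑ h ∈ hbox (R + 1), (C / R * dec h) * |S' (part h) h'| := by
    intro R hR
    set Ψ : HE ℤ → ℝ := fun h => S' h h' with hΨ
    set u := cutF (cutR R) (cutR_finite hR) Ψ with hu
    have h1 := Gr2x813.formS_AF hS u (Finsupp.single g 1)
    have h2 : pr u (⇑(Finsupp.single g (1 : ℝ)) : HE ℤ → ℝ) = cutR R g.1 * S' g h' := by
      rw [pr_eq_sum u _ (hbox (R + 1) ∪ {g}) ?_]
      · rw [Finset.sum_eq_single g]
        · rw [Finsupp.single_eq_same, mul_one]; rfl
        · intro h _ hne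
          rw [Finsupp.single_eq_of_ne hne, mul_zero]
        · intro hc
          exact absurd (Finset.mem_union_right _ (Finset.mem_singleton_self g)) hc
      · intro h hh
        have hh' : h ∉ hbox (R + 1) := fun hc => hh (Finset.mem_union_left _ hc)
        have : h.1 ∉ Finset.Icc (-((R + 1 : ℕ) : ℤ)) ((R + 1 : ℕ) : ℤ) ×ˢ
            Finset.Icc (-((R + 1 : ℕ) : ℤ)) ((R + 1 : ℕ) : ℤ) := fun hc =>
          hh' (Finset.mem_product.2 ⟨hc, Finset.mem_univ _⟩)
        show cutR R h.1 * Ψ h = 0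
        rw [(cutR_out hR this).1, zero_mul]
    rw [h2, Gr2x813.formS_skew hS.skew, Gr2x813.formS_single_right] at h1
    have h3 : Gr2x813.col S (AF w u) g =
        ∑ h ∈ hbox (R + 1) ∪ {h'}, (AF w u) h * S g h := by
      refine pr_eq_sum _ _ _ ?_
      intro h hh
      have hh' : h ∉ hbox (R + 1) := fun hc => hh (Finset.mem_union_left _ hc)
      have hne : h ≠ h' := fun hc => hh (Finset.mem_union_right _ (Finset.mem_singleton.2 hc))
      have hout : h.1 ∉ Finset.Icc (-((R + 1 : ℕ) : ℤ)) ((R + 1 : ℕ) : ℤ) ×ˢ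
          Finset.Icc (-((R + 1 : ℕ) : ℤ)) ((R + 1 : ℕ) : ℤ) := fun hc =>
        hh' (Finset.mem_product.2 ⟨hc, Finset.mem_univ _⟩)
      rw [Gr2x813.AF_apply]
      have e : (⇑u : HE ℤ → ℝ) = fun g => cutR R g.1 * Ψ g := rfl
      rw [e, Gr2x813.Aop_mul, hΨ]
      have h4 := hS'.inv h h'
      rw [Pi.single_eq_of_ne hne] at h4
      rw [h4]
      unfold Gr2x813.comm
      rw [(cutR_out hR hout).1, (cutR_out hR hout).2]
      ring
    have h5 : ∀ h, (AF w u) h = Gr2x813.comm w (cutR R) Ψ h -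
        cutR R h.1 * (Pi.single h' 1 : HE ℤ → ℝ) h := by
      intro h
      rw [Gr2x813.AF_apply]
      have e : (⇑u : HE ℤ → ℝ) = fun g => cutR R g.1 * Ψ g := rfl
      rw [e, Gr2x813.Aop_mul, hΨ]
      have h4 := hS'.inv h h'
      rw [h4]
      ring
    have h6 : ∑ h ∈ hbox (R + 1) ∪ {h'}, (AF w u) h * S g h =
        ∑ h ∈ hbox (R + 1) ∪ {h'}, Gr2x813.comm w (cutR R) Ψ h * S g h - cutR R h'.1 * S g h' := by
      simp only [h5, sub_mul, Finset.sum_sub_distrib]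
      congr 1
      rw [Finset.sum_eq_single h']
      · rw [Pi.single_eq_same, mul_one]
      · intro h _ hne
        rw [Pi.single_eq_of_ne hne, mul_zero, zero_mul]
      · intro hc
        exact absurd (Finset.mem_union_right _ (Finset.mem_singleton_self h')) hc
    have h7 : ∑ h ∈ hbox (R + 1) ∪ {h'}, Gr2x813.comm w (cutR R) Ψ h * S g h =
        ∑ h ∈ hbox (R + 1), Gr2x813.comm w (cutR R) Ψ h * S g h := by
      symm
      refine Finset.sum_subset Finset.subset_union_left ?_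
      intro h _ hh'
      have hout : h.1 ∉ Finset.Icc (-((R + 1 : ℕ) : ℤ)) ((R + 1 : ℕ) : ℤ) ×ˢ
          Finset.Icc (-((R + 1 : ℕ) : ℤ)) ((R + 1 : ℕ) : ℤ) := fun hc =>
        hh' (Finset.mem_product.2 ⟨hc, Finset.mem_univ _⟩)
      unfold Gr2x813.comm
      rw [(cutR_out hR hout).1, (cutR_out hR hout).2]
      ring
    rw [h3, h6, h7] at h1
    have h8 : cutR R g.1 * S' g h' - cutR R h'.1 * S g h' =
        -∑ h ∈ hbox (R + 1), Gr2x813.comm w (cutR R) Ψ h * S g h := by linarith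
    rw [h8, abs_neg]
    refine (Finset.abs_sum_le_sum_abs _ _).trans ?_
    refine Finset.sum_le_sum fun h _ => ?_
    rw [abs_mul, hS.skew g h, abs_neg]
    have h9 := comm_le hw hR Ψ h
    have hR' : (0 : ℝ) < R := by exact_mod_cast hR
    calc |Gr2x813.comm w (cutR R) Ψ h| * |S h g| ≤ (1 / R * |Ψ (part h)|) * (C * dec h) :=
          mul_le_mul h9 (hC h) (abs_nonneg _) (by positivity)
      _ = _ := by rw [hΨ]; ring
  have hlim : Tendsto (fun R : ℕ => ∑ h ∈ hbox (R + 1), (C / R * dec h) * |S' (part h) h'|)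
      atTop (𝓝 0) := by
    refine toeplitz (fun R => hbox (R + 1)) (fun R h => C / R * dec h)
      (fun R h => mul_nonneg (by positivity) (dec_pos h).le) (C * 192) ?_ ?_
      (fun h => S' (part h) h') ?_
    · filter_upwards [eventually_ge_atTop 1] with R hR
      have hR' : (1 : ℝ) ≤ R := by exact_mod_cast hR
      rw [← Finset.mul_sum]
      have h1 := sum_dec_le (R + 1)
      push_cast at h1
      calc C / R * ∑ h ∈ hbox (R + 1), dec h ≤ C / R * (64 * ((R : ℝ) + 1 + 1)) :=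
            mul_le_mul_of_nonneg_left h1 (by positivity)
        _ ≤ C / R * (64 * (3 * R)) := by
            apply mul_le_mul_of_nonneg_left _ (by positivity)
            linarith
        _ = C * 192 := by field_simp; ring
    · intro h
      have := (tendsto_const_div_atTop_nhds_zero_nat C).mul_const (dec h)
      simpa using this
    · exact (hS'.zero h').comp part_inj.tendsto_cofinite
  have h1 : Tendsto (fun R : ℕ => cutR R g.1 * S' g h' - cutR R h'.1 * S g h') atTop (𝓝 0) := by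
    refine squeeze_zero_norm' ?_ hlim
    filter_upwards [eventually_gt_atTop 0] with R hR
    rw [Real.norm_eq_abs]
    exact key R hR
  have h2 : Tendsto (fun R : ℕ => cutR R g.1 * S' g h' - cutR R h'.1 * S g h') atTop
      (𝓝 (1 * S' g h' - 1 * S g h')) :=
    ((tendsto_cutR g.1).mul_const _).sub ((tendsto_cutR h'.1).mul_const _)
  have := tendsto_nhds_unique h1 h2
  linarith


/-! ### covariances of gauge transforms -/

theorem tendsto_dec : Tendsto dec cofinite (𝓝 0) := by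
  have h1 := (Spx583.tendsto_dist (0, 0)).const_div_atTop (1 : ℝ)
  refine h1.congr fun h => ?_
  unfold dec
  simp

theorem crit_cut (B : Finset (EG ℤ)) : Pl0x654.Crit (Pl0bx654.wcut B (fun _ => -2 * xc)) := by
  intro z j
  unfold Pl0bx654.wcut
  split_ifs
  · ring
  · ring

theorem abs_mul_sign {a b : ℝ} (ha : a * a = 1) (hb : b * b = 1) (c : ℝ) : |a * b * c| = |c| := by
  have h1 : |a| = 1 := by
    have := abs_mul_abs_self a
    rw [ha] at this
    nlinarith [abs_nonneg a]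
  have h2 : |b| = 1 := by
    have := abs_mul_abs_self b
    rw [hb] at this
    nlinarith [abs_nonneg b]
  rw [abs_mul, abs_mul, h1, h2, one_mul, one_mul]

/-- gauge transform of a covariance -/
theorem cov_gauge {w w' : BW ℤ} {g : ℤ × ℤ → ℝ} (hg : ∀ f, g f * g f = 1)
    (hw : ∀ e : EG ℤ, w' e.1 e.2 = g (pe e).1 * g (qe e).1 * w e.1 e.2)
    {S : HE ℤ → HE ℤ → ℝ} (hskew : ∀ h h', S h h' = -S h' h)
    (hinv : ∀ h' k, Aop w (fun h => S h h') k = -(if k = h' then (1 : ℝ) else 0))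
    (hb : ∀ h', ∃ C, ∀ h, |S h h'| ≤ C * dec h) :
    IsCov w' (fun h k => g h.1 * g k.1 * S h k) ∧
      ∀ h', ∃ C, ∀ h : HE ℤ, |g h.1 * g h'.1 * S h h'| ≤ C * dec h := by
  have hbd : ∀ h', ∃ C, ∀ h : HE ℤ, |g h.1 * g h'.1 * S h h'| ≤ C * dec h := by
    intro h'
    obtain ⟨C, hC⟩ := hb h'
    refine ⟨C, fun h => ?_⟩
    rw [abs_mul_sign (hg _) (hg _)]
    exact hC h
  refine ⟨⟨fun h k => ?_, fun h' => ?_, fun k h' => ?_⟩, hbd⟩
  · rw [hskew h k]; ring
  · obtain ⟨C, hC⟩ := hbd h'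
    have h1 := tendsto_dec.const_mul C
    rw [mul_zero] at h1
    exact squeeze_zero_norm (fun h => by rw [Real.norm_eq_abs]; exact hC h) h1
  · have hw' : (fun e : EG ℤ => w' e.1 e.2) = J2dx606.gw g (fun e => w e.1 e.2) := by
      funext e
      exact hw e
    rw [← UJ3x420.aop_eq, hw']
    have e1 : (fun h : HE ℤ => g h.1 * g h'.1 * S h h') =
        fun h : HE ℤ => g h.1 * ((g h'.1 • fun h => S h h') h) := by
      funext h
      rw [Pi.smul_apply, smul_eq_mul]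
      ring
    rw [e1, J2dx606.Aop_gauge g hg, UJ3x420.aop_eq, map_smul, Pi.smul_apply, hinv, smul_eq_mul]
    by_cases hk : k = h'
    · subst hk
      rw [if_pos rfl, Pi.single_eq_same]
      linear_combination -hg k.1
    · rw [if_neg hk, Pi.single_eq_of_ne hk]
      ring

theorem spl_eq : Pl0bx654.Spl = Spx583.Spl := rfl

theorem wP_le {n : ℕ} (X : Fin n → ℤ × ℤ) (z : ℤ × ℤ) (j : Fin 2) :
    |wX (wPl ℤ) X z j| ≤ 1 := by
  unfold wX wPl
  have h1 : |ray X z j| = 1 := by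
    have h := ray_sq X z j
    have := abs_mul_abs_self (ray X z j)
    rw [h] at this
    nlinarith [abs_nonneg (ray X z j)]
  have h2 : |xc| ≤ 1 := by
    rw [abs_of_pos Pl0x654.xc_pos]
    exact Tr1x40.xc_lt_one.le
  rw [abs_mul, h1, one_mul]
  exact h2

/-- the covariance of the branched plane from a cut -/
theorem exists_planeCov {n : ℕ} {X : Fin n → ℤ × ℤ} {B : Finset (EG ℤ)} (hB : Pairs X B) :
    ∃ (g : ℤ × ℤ → ℝ) (S : HE ℤ → HE ℤ → ℝ) (hs : ∀ h h', S h h' = -S h' h),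
      (∀ f, g f * g f = 1) ∧
      (∀ e : EG ℤ, wX (wPl ℤ) X e.1 e.2 =
        g (pe e).1 * g (qe e).1 * Pl0bx654.wcut B (fun _ => -2 * xc) e.1 e.2) ∧
      (∀ F : Gr (VI (HE ℤ)), EE Spx583.covPl
        ((Pl0bx654.Gam B (fun _ => -2 * xc) : Gr (VI (HE ℤ))) * F) =
        EE Spx583.covPl (Pl0bx654.Gam B (fun _ => -2 * xc) : Gr (VI (HE ℤ))) *
          EE (covOf S hs) F) ∧
      IsCov (wX (wPl ℤ) X) (fun h k => g h.1 * g k.1 * S h k) ∧
      ∀ S', IsCov (wX (wPl ℤ) X) S' → S' = fun h k => g h.1 * g k.1 * S h k := by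
  obtain ⟨g, hg, hw⟩ := exists_cutGauge hB
  obtain ⟨S, hs, hb, hinv, hres⟩ := Pl0bx654.exists_cov Pl0bx654.plKer_SP B _ (crit_cut B)
  obtain ⟨h1, h2⟩ := cov_gauge hg hw hs hinv hb
  refine ⟨g, S, hs, hg, hw, fun F => ?_, h1, fun S' hS' => ?_⟩
  · exact Pl0bx654.EE_cut (S0 := Pl0bx654.Spl) Pl0bx654.Spl_skew hs B _ hres F
  · exact cov_unique (wP_le X) h1 h2 hS'

theorem exists_pairs {n : ℕ} (hn : Even n) (X : Fin n → ℤ × ℤ) : ∃ B, Pairs X B := by
  obtain ⟨B, hB⟩ := isB_even hn X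
  exact ⟨B, hB⟩

/-- **existence of the covariance of the branched plane** -/
theorem exCovPl : UPlx641.ExCovPl := by
  intro n hn X _
  obtain ⟨B, hB⟩ := exists_pairs hn X
  obtain ⟨g, S, -, -, -, -, h, -⟩ := exists_planeCov hB
  exact ⟨_, h⟩

/-- the covariance of the branched plane is unique -/
theorem plane_unique {n : ℕ} (hn : Even n) (X : Fin n → ℤ × ℤ) {S S' : HE ℤ → HE ℤ → ℝ}
    (h : IsCov (wX (wPl ℤ) X) S) (h' : IsCov (wX (wPl ℤ) X) S') : S = S' := by
  obtain ⟨B, hB⟩ := exists_pairs hn X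
  obtain ⟨g, T, -, -, -, -, -, hu⟩ := exists_planeCov hB
  rw [hu S h, hu S' h']

/-- columns of the covariance of the branched plane are `O(1/|h|)` -/
theorem plane_bound {n : ℕ} (hn : Even n) (X : Fin n → ℤ × ℤ) {S : HE ℤ → HE ℤ → ℝ}
    (h : IsCov (wX (wPl ℤ) X) S) : ∀ h', ∃ C, ∀ h, |S h h'| ≤ C * dec h := by
  obtain ⟨B, hB⟩ := exists_pairs hn X
  obtain ⟨g, hg, hw⟩ := exists_cutGauge hB
  obtain ⟨T, hs, hb, hinv, hres⟩ := Pl0bx654.exists_cov Pl0bx654.plKer_SP B _ (crit_cut B)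
  obtain ⟨h1, h2⟩ := cov_gauge hg hw hs hinv hb
  rw [cov_unique (wP_le X) h1 h2 h]
  exact h2

/-! ### bond sets -/

theorem prod_symmDiff (S T : Finset (EG ℤ)) (s : ℤ × ℤ → Bool) :
    ∏ e ∈ symmDiff S T, ep e s = (∏ e ∈ S, ep e s) * ∏ e ∈ T, ep e s := by
  have h1 : ∏ e ∈ S, ep e s = (∏ e ∈ S \ T, ep e s) * ∏ e ∈ S ∩ T, ep e s := by
    rw [← Finset.prod_union (Finset.disjoint_sdiff_inter S T), Finset.sdiff_union_inter]
  have h2 : ∏ e ∈ T, ep e s = (∏ e ∈ T \ S, ep e s) * ∏ e ∈ S ∩ T, ep e s := by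
    rw [Finset.inter_comm, ← Finset.prod_union (Finset.disjoint_sdiff_inter T S),
      Finset.sdiff_union_inter]
  have h3 : (∏ e ∈ S ∩ T, ep e s) * ∏ e ∈ S ∩ T, ep e s = 1 := by
    rw [← Finset.prod_mul_distrib]
    exact Finset.prod_eq_one fun e _ => ep_sq e s
  have h4 : ∏ e ∈ symmDiff S T, ep e s = (∏ e ∈ S \ T, ep e s) * ∏ e ∈ T \ S, ep e s := by
    have : symmDiff S T = (S \ T) ∪ (T \ S) := rfl
    rw [this, Finset.prod_union disjoint_sdiff_sdiff]
  rw [h1, h2, h4]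
  calc _ = ((∏ e ∈ S \ T, ep e s) * ∏ e ∈ T \ S, ep e s) *
        ((∏ e ∈ S ∩ T, ep e s) * ∏ e ∈ S ∩ T, ep e s) := by rw [h3, mul_one]
    _ = _ := by ring

theorem bond_inv (e : EG ℤ) : ((1 - (2 * xc) • bb e) * (1 - (2 * -xc) • bb e) : Ge (VI (HE ℤ))) = 1 := by
  have h := J1ax606.bb_mul_self e
  have e1 : ((1 - (2 * xc) • bb e) * (1 - (2 * -xc) • bb e) : Ge (VI (HE ℤ))) =
      1 - ((2 * xc) • bb e + (2 * -xc) • bb e) + (2 * xc) • bb e * ((2 * -xc) • bb e) := by ring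
  rw [e1, ← add_smul, smul_mul_smul_comm, h, smul_zero, add_zero]
  have : 2 * xc + 2 * -xc = 0 := by ring
  rw [this, zero_smul, sub_zero]

/-- cutting along `B` turns bond sets into symmetric differences -/
theorem Gam_mul (B A : Finset (EG ℤ)) :
    Pl0bx654.Gam B (fun _ => -2 * xc) *
      ∏ e ∈ A, (1 - (2 * Pl0bx654.wcut B (fun _ => -2 * xc) e.1 e.2) • bb e) =
      (∏ e ∈ symmDiff B A, (1 - (2 * xc) • bb e) : Ge (VI (HE ℤ))) := by
  have h0 : Pl0bx654.Gam B (fun _ => -2 * xc) =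
      (∏ e ∈ B, (1 - (2 * xc) • bb e) : Ge (VI (HE ℤ))) := by
    unfold Pl0bx654.Gam
    refine Finset.prod_congr rfl fun e _ => ?_
    rw [neg_mul, neg_smul, sub_eq_add_neg]
  have hin : ∀ e ∈ B, Pl0bx654.wcut B (fun _ => -2 * xc) e.1 e.2 = -xc := by
    intro e he
    unfold Pl0bx654.wcut
    rw [if_pos he]; ring
  have hout : ∀ e, e ∉ B → Pl0bx654.wcut B (fun _ => -2 * xc) e.1 e.2 = xc := by
    intro e he
    unfold Pl0bx654.wcut
    rw [if_neg he]; ring
  have h1 : ∏ e ∈ B, (1 - (2 * xc) • bb e : Ge (VI (HE ℤ))) =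
      (∏ e ∈ B \ A, (1 - (2 * xc) • bb e)) * ∏ e ∈ B ∩ A, (1 - (2 * xc) • bb e) := by
    rw [← Finset.prod_union (Finset.disjoint_sdiff_inter B A), Finset.sdiff_union_inter]
  have h2 : ∏ e ∈ A, (1 - (2 * Pl0bx654.wcut B (fun _ => -2 * xc) e.1 e.2) • bb e :
        Ge (VI (HE ℤ))) =
      (∏ e ∈ A \ B, (1 - (2 * xc) • bb e)) * ∏ e ∈ B ∩ A, (1 - (2 * -xc) • bb e) := by
    have e1 : A = (A \ B) ∪ (B ∩ A) := by
      rw [Finset.inter_comm, Finset.sdiff_union_inter]
    conv_lhs => rw [e1]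
    rw [Finset.prod_union (by rw [Finset.inter_comm]; exact Finset.disjoint_sdiff_inter A B)]
    congr 1
    · exact Finset.prod_congr rfl fun e he => by rw [hout e (Finset.mem_sdiff.1 he).2]
    · exact Finset.prod_congr rfl fun e he => by rw [hin e (Finset.mem_inter.1 he).1]
  have h3 : (∏ e ∈ B ∩ A, (1 - (2 * xc) • bb e : Ge (VI (HE ℤ)))) *
      ∏ e ∈ B ∩ A, (1 - (2 * -xc) • bb e) = 1 := by
    rw [← Finset.prod_mul_distrib]
    exact Finset.prod_eq_one fun e _ => bond_inv e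
  have h4 : (∏ e ∈ symmDiff B A, (1 - (2 * xc) • bb e) : Ge (VI (HE ℤ))) =
      (∏ e ∈ B \ A, (1 - (2 * xc) • bb e)) * ∏ e ∈ A \ B, (1 - (2 * xc) • bb e) := by
    have : symmDiff B A = (B \ A) ∪ (A \ B) := rfl
    rw [this, Finset.prod_union disjoint_sdiff_sdiff]
  rw [h0, h1, h2, h4]
  calc _ = ((∏ e ∈ B \ A, (1 - (2 * xc) • bb e : Ge (VI (HE ℤ)))) *
        ∏ e ∈ A \ B, (1 - (2 * xc) • bb e)) *
        ((∏ e ∈ B ∩ A, (1 - (2 * xc) • bb e)) * ∏ e ∈ B ∩ A, (1 - (2 * -xc) • bb e)) := by ring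
    _ = _ := by rw [h3, mul_one]

/-! ### gauge maps on fields -/

/-- the gauge map -/
def gmap (g : ℤ × ℤ → ℝ) : VI (HE ℤ) →ₗ[ℝ] VI (HE ℤ) :=
  Finsupp.linearCombination ℝ fun h => Finsupp.single h (g h.1)

theorem gmap_single (g : ℤ × ℤ → ℝ) (h : HE ℤ) :
    gmap g (Finsupp.single h 1) = g h.1 • Finsupp.single h 1 := by
  unfold gmap
  rw [Finsupp.linearCombination_single, one_smul, Finsupp.smul_single, smul_eq_mul, mul_one]

theorem mp_bb (g : ℤ × ℤ → ℝ) (e : EG ℤ) :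
    mp (gmap g) (bb e : Gr (VI (HE ℤ))) = (g (pe e).1 * g (qe e).1) • (bb e : Gr (VI (HE ℤ))) := by
  rw [J1ax606.coe_bb, map_mul]
  unfold Gr1x606.ph
  rw [mp_fi, mp_fi, gmap_single, gmap_single, fi_smul, fi_smul, smul_mul_smul_comm]

theorem mp_prod (g : ℤ × ℤ → ℝ) (w : EG ℤ → ℝ) (A : Finset (EG ℤ)) :
    mp (gmap g) ((∏ e ∈ A, (1 - (2 * w e) • bb e) : Ge (VI (HE ℤ))) : Gr (VI (HE ℤ))) =
      ((∏ e ∈ A, (1 - (2 * (g (pe e).1 * g (qe e).1 * w e)) • bb e) : Ge (VI (HE ℤ))) :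
        Gr (VI (HE ℤ))) := by
  induction A using Finset.induction_on with
  | empty => simp
  | insert e A he ih =>
    rw [Finset.prod_insert he, Finset.prod_insert he, Ge.coe_mul, Ge.coe_mul, map_mul, ih]
    congr 1
    rw [Ge.coe_sub, Ge.coe_one, Ge.coe_smul, map_sub, map_one, map_smul, mp_bb, smul_smul,
      Ge.coe_sub, Ge.coe_one, Ge.coe_smul]
    congr 2
    ring

theorem formOf_gauge (g : ℤ × ℤ → ℝ) (S : HE ℤ → HE ℤ → ℝ) (x y : VI (HE ℤ)) :
    formOf (fun h k => g h.1 * g k.1 * S h k) x y = formOf S (gmap g x) (gmap g y) := by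
  have key : formOf (fun h k => g h.1 * g k.1 * S h k) =
      (formOf S).compl₁₂ (gmap g) (gmap g) := by
    apply Finsupp.lhom_ext'
    intro h
    apply LinearMap.ext_ring
    apply Finsupp.lhom_ext'
    intro k
    apply LinearMap.ext_ring
    simp only [LinearMap.comp_apply, Finsupp.lsingle_apply, LinearMap.compl₁₂_apply]
    rw [formOf_single, gmap_single, gmap_single, map_smul, map_smul, LinearMap.smul_apply,
      formOf_single, smul_eq_mul, smul_eq_mul]
    ring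
  rw [key]
  rfl

/-- **(J2) for the branched plane, sets of bonds** -/
theorem EB_symmDiff {n : ℕ} {X : Fin n → ℤ × ℤ} {B : Finset (EG ℤ)} (hB : Pairs X B)
    (A : Finset (EG ℤ)) :
    Spx583.EB (symmDiff B A) = Spx583.EB B *
      EE (UKerx420.Cof (UPlx641.wP X))
        ((∏ e ∈ A, (1 - (2 * UPlx641.wP X e.1 e.2) • bb e) : Ge (VI (HE ℤ))) :
          Gr (VI (HE ℤ))) := by
  obtain ⟨g, S, hs, hg, hw, hEE, hcov, hu⟩ := exists_planeCov hB
  have h0 : Spx583.EB B = EE Spx583.covPl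
      (Pl0bx654.Gam B (fun _ => -2 * xc) : Gr (VI (HE ℤ))) := by
    unfold Spx583.EB
    have := Gam_mul B ∅
    rw [Finset.prod_empty, mul_one] at this
    rw [this]
    have e1 : symmDiff B ∅ = B := by simp
    rw [e1]
    rfl
  have h1 : Spx583.EB (symmDiff B A) = EE Spx583.covPl
      ((Pl0bx654.Gam B (fun _ => -2 * xc) : Gr (VI (HE ℤ))) *
        ((∏ e ∈ A, (1 - (2 * Pl0bx654.wcut B (fun _ => -2 * xc) e.1 e.2) • bb e) :
          Ge (VI (HE ℤ))) : Gr (VI (HE ℤ)))) := by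
    rw [← Ge.coe_mul, Gam_mul]
    rfl
  rw [h1, hEE, ← h0]
  congr 1
  -- the gauge
  have hSof : UKerx420.Sof (UPlx641.wP X) = fun h k => g h.1 * g k.1 * S h k :=
    hu _ (UKerx420.Sof_spec ⟨_, hcov⟩)
  have hC : UKerx420.Cof (UPlx641.wP X) =
      covOf (fun h k : HE ℤ => g h.1 * g k.1 * S h k) hcov.skew := by
    unfold UKerx420.Cof
    rw [UJ3x420.covS_eq _ _ (UKerx420.Sof_skew _)]
    congr
  rw [hC, ← EE_mp (gmap g) (covOf (fun h k : HE ℤ => g h.1 * g k.1 * S h k) hcov.skew)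
    (covOf S hs) (fun x y => by rw [covOf_b, covOf_b]; exact formOf_gauge g S x y), mp_prod]
  congr 2
  refine Finset.prod_congr rfl fun e _ => ?_
  congr 3
  show _ = g (pe e).1 * g (qe e).1 * wX (wPl ℤ) X e.1 e.2
  rw [hw]
  linear_combination (-(Pl0bx654.wcut B (fun _ => -2 * xc) e.1 e.2 *
    (g (qe e).1 * g (qe e).1))) * hg (pe e).1 -
    (Pl0bx654.wcut B (fun _ => -2 * xc) e.1 e.2) * hg (qe e).1

/-! ### torus limits -/

/-- the observable `σ_X ∏_{e ∈ A} ε_e ∏_{k ∈ K} (ε_k - c_k)` -/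
def obsK {n : ℕ} {κ : Type*} (X : Fin n → ℤ × ℤ) (A : Finset (EG ℤ)) (e : κ → EG ℤ) (c : κ → ℝ)
    (K : List κ) (s : ℤ × ℤ → Bool) : ℝ :=
  (∏ i, spinSign (s (X i))) * (∏ e ∈ A, ep e s) * (K.map fun k => ep (e k) s - c k).prod

/-- the torus mean of a function of the spins -/
def tE (L : ℕ) (f : (ℤ × ℤ → Bool) → ℝ) : ℝ :=
  Centx541.torE (L + 1) 1 0 0 (fun _ => 0) (criticalBeta 1) fun σ => f fun z => σ (toTorus (L + 1) z)

theorem tE_sub (L : ℕ) (f g : (ℤ × ℤ → Bool) → ℝ) (c : ℝ) :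
    tE L (fun s => f s - c * g s) = tE L f - c * tE L g := by
  unfold tE
  have e : (fun σ : TorusConfig (L + 1) => f (fun z => σ (toTorus (L + 1) z)) -
      c * g (fun z => σ (toTorus (L + 1) z))) =
      (fun σ : TorusConfig (L + 1) => f (fun z => σ (toTorus (L + 1) z))) -
      c • (fun σ : TorusConfig (L + 1) => g (fun z => σ (toTorus (L + 1) z))) := by
    funext σ
    simp
  rw [e, map_sub, map_smul, smul_eq_mul]

open Crest.Agent.R165.UDomBx420 (bpr) in
open Crest.Agent.R165.UKerx420 (hb Cof) in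
open Crest.Agent.R165.UPlx641 (wP) in
/-- **centred bonds in the plane with spins** -/
theorem tendsto_obsK (hT : Spx583.TorPl) {n : ℕ} {X : Fin n → ℤ × ℤ} {B : Finset (EG ℤ)}
    (hB : Pairs X B) {κ : Type*} (e : κ → EG ℤ) (c : κ → ℝ) (K : List κ)
    (hK : (K.map e).Nodup) (A : Finset (EG ℤ)) (hA : ∀ k ∈ K, e k ∉ A) :
    Tendsto (fun L => tE L (obsK X A e c K)) atTop (𝓝 (Spx583.EB B *
      EE (Cof (wP X)) (((∏ e ∈ A, (1 - (2 * wP X e.1 e.2) • bb e) : Ge (VI (HE ℤ))) :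
          Gr (VI (HE ℤ))) *
        bpr (fun k i => (Finsupp.single (hb (e k).1 (e k).2 i) 1 : Fld ℤ))
          (fun k => wP X (e k).1 (e k).2) c K))) := by
  induction K generalizing A with
  | nil =>
    have h1 : obsK X A e c [] = fun s => ∏ e ∈ symmDiff B A, ep e s := by
      funext s
      unfold obsK
      rw [prod_symmDiff, List.map_nil, List.prod_nil, mul_one, hB s]
    rw [h1]
    have h2 := hT (symmDiff B A)
    rw [EB_symmDiff hB A] at h2
    have h3 : bpr (fun k i => (Finsupp.single (hb (e k).1 (e k).2 i) 1 : Fld ℤ))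
          (fun k => wP X (e k).1 (e k).2) c [] = 1 := by simp [bpr]
    rw [h3, mul_one]
    exact h2
  | cons k K ih =>
    rw [List.map_cons, List.nodup_cons] at hK
    have hk : e k ∉ A := hA k (List.mem_cons_self ..)
    have hAK : ∀ k' ∈ K, e k' ∉ A := fun k' hk' => hA k' (List.mem_cons_of_mem _ hk')
    have hAK' : ∀ k' ∈ K, e k' ∉ insert (e k) A := by
      intro k' hk' hh
      rcases Finset.mem_insert.1 hh with h1 | h1
      · exact hK.1 (List.mem_map.2 ⟨k', hk', h1⟩)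
      · exact hAK k' hk' h1
    have e1 : obsK X A e c (k :: K) = fun s =>
        obsK X (insert (e k) A) e c K s - c k * obsK X A e c K s := by
      funext s
      unfold obsK
      rw [List.map_cons, List.prod_cons, Finset.prod_insert hk]
      ring
    rw [e1]
    simp only [tE_sub]
    have h1 := (ih hK.2 (insert (e k) A) hAK').sub ((ih hK.2 A hAK).const_mul (c k))
    convert h1 using 2
    have e2 : bpr (fun k i => (Finsupp.single (hb (e k).1 (e k).2 i) 1 : Fld ℤ))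
            (fun k => wP X (e k).1 (e k).2) c (k :: K) =
        (((1 - (2 * wP X (e k).1 (e k).2) • bb (e k) : Ge (VI (HE ℤ))) : Gr (VI (HE ℤ))) -
          algebraMap ℝ _ (c k)) *
        bpr (fun k i => (Finsupp.single (hb (e k).1 (e k).2 i) 1 : Fld ℤ))
            (fun k => wP X (e k).1 (e k).2) c K := by
      simp only [bpr, List.map_cons, List.prod_cons]
      congr 2
      rw [Ge.coe_sub, Ge.coe_one, Ge.coe_smul, J1ax606.coe_bb, UJ2x420.pe_eq, UJ2x420.qe_eq]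
      rfl
    rw [e2, Finset.prod_insert hk]
    set P : Ge (VI (HE ℤ)) := ∏ e ∈ A, (1 - (2 * wP X e.1 e.2) • bb e) with hP
    set M : Ge (VI (HE ℤ)) := 1 - (2 * wP X (e k).1 (e k).2) • bb (e k) with hM
    set Q : Gr (VI (HE ℤ)) := bpr (fun k i => (Finsupp.single (hb (e k).1 (e k).2 i) 1 : Fld ℤ))
            (fun k => wP X (e k).1 (e k).2) c K with hQ
    have e3 : (P : Gr (VI (HE ℤ))) * (((M : Gr (VI (HE ℤ))) - algebraMap ℝ _ (c k)) * Q) =
        ((M * P : Ge (VI (HE ℤ))) : Gr (VI (HE ℤ))) * Q - c k • ((P : Gr (VI (HE ℤ))) * Q) := by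
      rw [mul_comm M P, Ge.coe_mul, sub_mul, mul_sub, mul_assoc, ← Algebra.smul_def, mul_smul_comm]
    rw [e3, map_sub, map_smul, smul_eq_mul]
    ring

open Crest.Agent.R165.UDomBx420 (bpr) in
open Crest.Agent.R165.UKerx420 (hb Cof) in
open Crest.Agent.R165.UPlx641 (wP Pc) in
open Crest.Agent.R165.Redx541 (P0c plMom e0) in
/-- moments of the plane state through a pairing set of bonds -/
theorem P0c_eq (hT : Spx583.TorPl) {n m : ℕ} {X : Fin n → ℤ × ℤ} {B : Finset (EG ℤ)}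
    (hB : Pairs X B) (Y : Fin m → ℤ × ℤ) (j : Fin m → Fin 2)
    (hY : Function.Injective fun k => ((Y k, j k) : EG ℤ)) :
    P0c X Y j = Spx583.EB B * EE (Cof (wP X))
      (bpr (fun k i => (Finsupp.single (hb (Y k) (j k) i) 1 : Fld ℤ))
        (fun k => wP X (Y k) (j k)) (fun _ => e0) (List.finRange m)) := by
  have h1 := tendsto_obsK hT hB (fun k => ((Y k, j k) : EG ℤ)) (fun _ => e0) (List.finRange m)
    ((List.nodup_finRange m).map hY) ∅ (fun _ _ => Finset.notMem_empty _)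
  rw [Finset.prod_empty, Ge.coe_one, one_mul] at h1
  refine Tendsto.limUnder_eq (h1.congr fun L => ?_)
  rw [torMom_eq]
  unfold tE
  rw [Centx541.torE_apply]
  congr 1
  funext σ
  unfold obsK Centx541.obs
  rw [Finset.prod_empty, mul_one, ← List.ofFn_eq_map, List.prod_ofFn]
  rfl

/-- plane spin correlations through a pairing set of bonds -/
theorem Pc_eq (hT : Spx583.TorPl) {n : ℕ} {X : Fin n → ℤ × ℤ} {B : Finset (EG ℤ)}
    (hB : Pairs X B) : UPlx641.Pc X = Spx583.EB B := by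
  unfold UPlx641.Pc
  rw [P0c_eq hT hB (![] : Fin 0 → ℤ × ℤ) ![] (fun k => k.elim0)]
  simp [UDomBx420.bpr]

open Crest.Agent.R165.UDomBx420 (bpr) in
open Crest.Agent.R165.UKerx420 (hb Cof) in
open Crest.Agent.R165.UPlx641 (wP Pc) in
open Crest.Agent.R165.Redx541 (P0c plMom e0) in
/-- **(J2) for the plane state**, exact form -/
theorem P0c_J2 (hT : Spx583.TorPl) {n m : ℕ} (hn : Even n) (X : Fin n → ℤ × ℤ)
    (Y : Fin m → ℤ × ℤ) (j : Fin m → Fin 2) (hY : Function.Injective fun k => ((Y k, j k) : EG ℤ)) :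
    P0c X Y j = Pc X * EE (Cof (wP X))
      (bpr (fun k i => (Finsupp.single (hb (Y k) (j k) i) 1 : Fld ℤ))
        (fun k => wP X (Y k) (j k)) (fun _ => e0) (List.finRange m)) := by
  obtain ⟨B, hB⟩ := exists_pairs hn X
  rw [P0c_eq hT hB Y j hY, Pc_eq hT hB]

/-- **`J2Pl` of `UPl_641` from the torus limits** -/
theorem j2Pl (hT : Spx583.TorPl) : UPlx641.J2Pl := by
  intro n hn m x y j hinj
  obtain ⟨_, hiy, -⟩ := UFinx420.inj_split hinj
  filter_upwards [UJ2x420.eventually_distinct y hiy] with a h2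
  exact P0c_J2 hT hn _ _ j fun k l hkl => h2 (Prod.mk.inj hkl).1

end Crest.Agent.R165.J2Plx817
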