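import Crest.Agent.R165.J4Lnk4_653
import Crest.Agent.R165.Resc_950
import Crest.Agent.R165.Cov1_359

/-!
# Row 165 (S0250), block J4: rescaling and the initial activities (helper653)

* `sd_isInv`   : `IsInv w S` gives the Schwinger-Dyson equations for `EE (covOf S)` (no finiteness)
* `rescH_inv`, `rescH_cov` : `RescH` from 950's `resc`, constant `∏_{f ∈ Λ} s_f ^ 4`
* `K0_E`       : `E_S (ZZ (=) Λ K0) = (∏ s_f ^ 4) * E_S (TH (gw w) (PL B Λ))`, no sources
* `K0_EX`      : the coefficient of all sources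
-/

set_option autoImplicit false

noncomputable section

open Finset
open Crest.ProbabilityR.IsingModel

namespace Crest.Agent.R165.J4Lnkx653

open Crest.Agent.R165.J4Defx653 Crest.Agent.R165.J4RRx653 Crest.Agent.R165.J4RRAx653
  Crest.Agent.R165.J4Pathx653
open Crest.Agent.R165.Gr0x606 Crest.Agent.R165.Gr1x606 Crest.Agent.R165.J1ax606
open Crest.Agent.R165.J2ax606 (IsInv ed)
open Crest.Agent.R165.J2bx606 (nb Am Aop_nb SD)
open Crest.Agent.R165.GeOpsx337 Crest.Agent.R165.SrcDefx991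
open Crest.Agent.R165.J4K0x126 Crest.Agent.R165.J4Geox126
open Crest.Agent.R165.KStepx892 (ZZ)
open Crest.Agent.R165.Latx683 (xc wDom wX ray BW Fld IsCov covS)
open Crest.Agent.R165.Centx541 (obs domMom)
open Crest.Agent.R165.Redx541 (D0c e0)
open Crest.Agent.R165.UKerx420 (wD)
open Crest.Agent.R165.UFinx420 (isF)
open Crest.Agent.R165.Rescx950 (RS RSe bp SDu tu resc)

/-! ### the Schwinger-Dyson equations of a covariance -/

section sd

/-- a derivation by a linear form only sees finitely many generators -/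
theorem dd_fin {ι : Type*} [DecidableEq ι] (X : Gr (VI ι)) : ∃ F0 : Finset ι, ∀ F : Finset ι,
    F0 ⊆ F → ∀ g : Module.Dual ℝ (VI ι), dd g X = ∑ k ∈ F, g (Finsupp.single k 1) • de k X := by
  induction X using Gr.induction with
  | h0 r =>
    refine ⟨∅, fun F _ g => ?_⟩
    rw [dd_algebraMap]
    symm
    refine Finset.sum_eq_zero fun k _ => ?_
    rw [de, dd_algebraMap, smul_zero]
  | h1 x a ih =>
    obtain ⟨F0, hF0⟩ := ih
    refine ⟨F0 ∪ x.support, fun F hF g => ?_⟩
    have h1 : g x = ∑ k ∈ F, g (Finsupp.single k 1) * x k := by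
      have hx : x = ∑ k ∈ F, x k • Finsupp.single k (1 : ℝ) := by
        conv_lhs => rw [← Finsupp.sum_single x, Finsupp.sum]
        rw [← Finset.sum_subset (Finset.union_subset_right hF)]
        · refine Finset.sum_congr rfl fun k _ => ?_
          rw [Finsupp.smul_single, smul_eq_mul, mul_one]
        · intro k _ hk
          rw [Finsupp.notMem_support_iff.1 hk, zero_smul]
      conv_lhs => rw [hx]
      rw [map_sum]
      refine Finset.sum_congr rfl fun k _ => ?_
      rw [map_smul, smul_eq_mul, mul_comm]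
    rw [dd_fi_mul, hF0 F (Finset.union_subset_left hF) g, h1, Finset.sum_smul, Finset.mul_sum,
      ← Finset.sum_sub_distrib]
    refine Finset.sum_congr rfl fun k _ => ?_
    have h2 : de k (fi x * a) = x k • a - fi x * de k a := dd_fi_mul _ _ _
    rw [h2, smul_sub, smul_smul, mul_smul_comm]
  | h2 a b iha ihb =>
    obtain ⟨Fa, ha⟩ := iha
    obtain ⟨Fb, hb⟩ := ihb
    refine ⟨Fa ∪ Fb, fun F hF g => ?_⟩
    rw [map_add, ha F (Finset.union_subset_left hF), hb F (Finset.union_subset_right hF),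
      ← Finset.sum_add_distrib]
    refine Finset.sum_congr rfl fun k _ => ?_
    rw [map_add, smul_add]

variable {G : Type} [CommRing G] [DecidableEq G]

/-- **Schwinger-Dyson** for any antisymmetric inverse kernel -/
theorem sd_isInv {w : EG G → ℝ} {S : HE G → HE G → ℝ} (hS : IsInv w S) :
    SD w (EE (covOf S hS.anti)) := by
  intro h X
  obtain ⟨F0, hF0⟩ := dd_fin X
  set F : Finset (HE G) := insert h F0 with hF
  have h1 : ∀ j, EE (covOf S hS.anti) (ph j * X) =
      ∑ k ∈ F, S j k * EE (covOf S hS.anti) (de k X) := by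
    intro j
    rw [ph, EE_fi_mul, hF0 F (Finset.subset_insert _ _), map_sum]
    refine Finset.sum_congr rfl fun k _ => ?_
    rw [map_smul, smul_eq_mul, covOf_b, formOf_single]
  rw [Aop_nb, Finset.sum_congr rfl fun j _ => by rw [h1 j]]
  simp only [Finset.mul_sum]
  rw [Finset.sum_comm]
  have h2 : ∀ k, ∑ j ∈ nb h, Am w h j * (S j k * EE (covOf S hS.anti) (de k X)) =
      (if h = k then -1 else 0) * EE (covOf S hS.anti) (de k X) := by
    intro k
    rw [← hS.inv h k, Aop_nb, Finset.sum_mul]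
    refine Finset.sum_congr rfl fun j _ => ?_
    ring
  simp only [h2, ite_mul, zero_mul]
  rw [Finset.sum_ite_eq F h, if_pos (by rw [hF]; exact Finset.mem_insert_self _ _)]
  ring

end sd

/-! ### the rescaling identity -/

section resc

variable {G : Type} [CommRing G] [DecidableEq G]

theorem I4_eq950 (f : G × G) : I4 f = Rescx950.I4 (G := G) id f := by
  rw [Rescx950.I4_eq, I4]
  rw [show (univ : Finset (Fin 4 × Fin 4)).filter (fun p => p.1 < p.2) =
    {(0, 1), (0, 2), (0, 3), (1, 2), (1, 3), (2, 3)} from by decide]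
  rw [Finset.sum_insert (by decide), Finset.sum_insert (by decide), Finset.sum_insert (by decide),
    Finset.sum_insert (by decide), Finset.sum_insert (by decide), Finset.sum_singleton]
  simp only [id, bp]
  abel

theorem bb_eq950 (e : EG G) : bb e = Rescx950.bu (G := G) id e := rfl

theorem Ms_eq (y : EG G → ℝ) (s : G × G → ℝ) (Λ : Finset (G × G)) : Ms y s Λ =
    (∏ g ∈ Λ, (1 + ((s g * s g - 1) • Rescx950.I4 (G := G) id g +
      ((s g * s g - 1) ^ 2 / 2) • (Rescx950.I4 (G := G) id g * Rescx950.I4 (G := G) id g)))) *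
    ∏ e ∈ Bk.edg Λ, (1 + (y e * (s (pe e).1 * s (qe e).1 - 1)) • Rescx950.bu (G := G) id e) := by
  unfold Ms
  simp only [I4_eq950, bb_eq950]

theorem RSe_gw (w : BW G) (s : G × G → ℝ) (F : RR (EG G)) :
    RSe (tu (id : HE G → HE G) s) (TH (gw w) F) = TH (gs (fun e => w e.1 e.2) s) F := by
  rw [TH_algHom]
  refine congrArg (fun g => TH g F) ?_
  funext e
  have h1 : ∀ h : HE G, tu (id : HE G → HE G) s h = s h.1 :=
    fun h => Rescx950.tu_apply Function.injective_id s h
  have h2 : RSe (tu (id : HE G → HE G) s) (bb e) = (s (pe e).1 * s (qe e).1) • bb e := by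
    have h3 := Rescx950.RSe_bp (tu (id : HE G → HE G) s) (pe e) (qe e)
    rw [h1, h1] at h3
    exact h3
  unfold gw gs
  rw [map_sub, map_one, map_smul, h2, smul_smul, mul_assoc]

/-- **`RescH` from an inverse kernel** -/
theorem rescH_inv {w : BW G} {S : HE G → HE G → ℝ} (hS : IsInv (fun e => w e.1 e.2) S)
    (s : G × G → ℝ) (Λ : Finset (G × G)) (hF : ∀ g, s g ≠ 1 → g ∈ Λ)
    (hE : ∀ h : HE G, s h.1 ≠ 1 → faE (ed h) ⊆ Λ ∨ w (ed h).1 (ed h).2 = 0) :
    RescH (covOf S hS.anti) w s Λ (∏ f ∈ Λ, s f ^ 4) := by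
  intro F
  have h1 := resc Function.injective_id ((Rescx950.SDu_id _ _).2 (sd_isInv hS)) s Λ (Bk.edg Λ) hF
    (fun h hh => (hE h hh).imp (fun h' => Bk.mem_edg.2 h') fun h' => h')
    ((TH (gw w) F : Ge (VI (HE G))) : Gr (VI (HE G)))
  rw [← Ms_eq (fun e : EG G => w e.1 e.2), ← Rescx950.coe_RSe, RSe_gw, ← Ge.coe_mul] at h1
  rw [mul_comm]
  exact h1

/-- **`RescH` from a covariance** -/
theorem rescH_cov {w : BW G} {S : HE G → HE G → ℝ} (hS : IsCov w S)
    (s : G × G → ℝ) (Λ : Finset (G × G)) (hF : ∀ g, s g ≠ 1 → g ∈ Λ)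
    (hE : ∀ h : HE G, s h.1 ≠ 1 → faE (ed h) ⊆ Λ ∨ w (ed h).1 (ed h).2 = 0) :
    RescH (covS S hS.skew) w s Λ (∏ f ∈ Λ, s f ^ 4) := by
  have h0 := Covx359.isInv_of_isCov hS
  rw [Covx359.covS_eq S hS.skew]
  exact rescH_inv h0 s Λ hF hE

end resc

/-! ### the initial activities -/

section K0E

variable {G : Type} [CommRing G] [DecidableEq G]

/-- **no sources**: the expectation of the initial gas -/
theorem K0_E {κ : Type*} [DecidableEq κ] [Fintype κ] [IsEmpty κ] (B : Bk G κ (Ge (VI (HE G))))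
    {w : BW G} (hw : ∀ e, B.y e = w e.1 e.2) {S : HE G → HE G → ℝ} (hS : IsCov w S)
    (Λ : Finset (G × G)) (hF : ∀ g, B.s g ≠ 1 → g ∈ Λ)
    (hE : ∀ h : HE G, B.s h.1 ≠ 1 → faE (ed h) ⊆ Λ ∨ w (ed h).1 (ed h).2 = 0) :
    EG' (covS S hS.skew) (ZZ (fun a b : G × G => a = b) Λ (B.K0 (frV G))) =
      (∏ f ∈ Λ, B.s f ^ 4) * EG' (covS S hS.skew) (TH (gw w) (PL B Λ)) := by
  have h1 := rescH_cov hS B.s Λ hF hE (PL B Λ)
  have h2 : B.y = fun e => w e.1 e.2 := funext hw
  rw [K0_plain, h2]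
  exact h1

/-- **with sources**: the expectation of the coefficient of the sources in `I` -/
theorem K0_EX {m : ℕ} (B : Bk G (Fin m) (Ge (VS (VI (HE G)) m))) (hB : B.as = tau)
    {w : BW G} (hw : ∀ e, B.y e = w e.1 e.2) {S : HE G → HE G → ℝ} (hS : IsCov w S)
    (Λ : Finset (G × G)) (I : Finset (Fin m)) (hI : I ⊆ B.srcs Λ) (hF : ∀ g, B.s g ≠ 1 → g ∈ Λ)
    (hE : ∀ h : HE G, B.s h.1 ≠ 1 → faE (ed h) ⊆ Λ ∨ w (ed h).1 (ed h).2 = 0) :
    EG' (covS S hS.skew) (coP I (ZZ (fun a b : G × G => a = b) Λ (B.K0 (frS G m)))) =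
      (∏ f ∈ Λ, B.s f ^ 4) *
        EG' (covS S hS.skew) (TH (gw w) (PL B Λ * ∏ k ∈ I, B.Fs k)) := by
  have h1 := rescH_cov hS B.s Λ hF hE (PL B Λ * ∏ k ∈ I, B.Fs k)
  have h2 : B.y = fun e => w e.1 e.2 := funext hw
  rw [K0_coP B hB Λ I hI, h2]
  exact h1

end K0E

end Crest.Agent.R165.J4Lnkx653
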