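import Crest.Agent.R165.J4Lnk5_653
import Crest.Agent.R165.SrcAlg_991
import Crest.Agent.R165.SrcFinB_441

/-!
# Row 165 (S0250), block J4: sources with the centring in the prefactor (helper653)

The sources of the flow are `eps - 1`, the centring `c` sits in the prefactor `gexp (Ec c)`,
`Ec c = ∑ (1 - c_i) • tau i`.

* `coP_gexp_mul` : `coP univ (gexp (Ec c) * ∑ tauP I * inG (x I)) = ∑_J (∏_J (1 - c)) • x (univ \ J)`
* `K0_ctG`  : `ctG (coP univ (gexp (Ec c) * cvG (ext0 m S) (ZZ (=) Λ K0src))) =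
               (∏ s^4) * E_S (TH (gw w) (obR v c * PL))`
* `K0_ctG0` : `ctG (gexp (Ec c) * cvG (ext0 m S) (ZZ (=) Λ K0src)) = (∏ s^4) * E_S (TH (gw w) PL)`
-/

set_option autoImplicit false

noncomputable section

open Finset
open Crest.ProbabilityR.IsingModel

namespace Crest.Agent.R165.J4Lnkx653

open Crest.Agent.R165.J4Defx653 Crest.Agent.R165.J4RRx653 Crest.Agent.R165.J4RRAx653
  Crest.Agent.R165.J4Pathx653
open Crest.Agent.R165.Gr0x606 Crest.Agent.R165.Gr1x606 Crest.Agent.R165.J1ax606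
open Crest.Agent.R165.J2ax606 (IsInv ed)
open Crest.Agent.R165.GeOpsx337 Crest.Agent.R165.SrcDefx991

open Crest.Agent.R165.SrcFinBx441 (gexp_cvG gexp_tau ctG_coP_cvG)
open Crest.Agent.R165.ExpGx337 (gexp gexp_sum gexp_algebraMap)
open Crest.Agent.R165.J4K0x126 Crest.Agent.R165.J4Geox126
open Crest.Agent.R165.KStepx892 (ZZ)
open Crest.Agent.R165.Latx683 (xc wDom wX ray BW Fld IsCov covS)

section Ec

variable {V : Type*} [AddCommGroup V] [Module ℝ V] {m : ℕ}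

/-- the exponent of the prefactor -/
def Ec (c : Fin m → ℝ) : Ge (VS V m) := ∑ i, (1 - c i) • tau i

theorem vacH_Ec (c : Fin m → ℝ) : vacH (Ec c : Ge (VS V m)) = Ec c := by
  unfold Ec
  rw [map_sum]
  refine Finset.sum_congr rfl fun i _ => ?_
  rw [map_smul, vacH_tau]

theorem noS_Ec (c : Fin m → ℝ) : noS (Ec c : Ge (VS V m)) = 0 := by
  unfold Ec
  rw [map_sum]
  refine Finset.sum_eq_zero fun i _ => ?_
  rw [map_smul, noS_tau, smul_zero]

theorem gexp_Ec (c : Fin m → ℝ) :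
    gexp (Ec c : Ge (VS V m)) = ∑ J : Finset (Fin m), tauP J *
      inG m (algebraMap ℝ (Ge V) (∏ i ∈ J, (1 - c i))) := by
  unfold Ec
  rw [gexp_sum]
  rw [Finset.prod_congr rfl fun i _ => gexp_tau (V := V) (1 - c i) i, Finset.prod_one_add,
    Finset.powerset_univ]
  refine Finset.sum_congr rfl fun J _ => ?_
  rw [AlgHom.commutes, tauP, mul_comm, ← Algebra.smul_def]
  rw [Finset.prod_smul]

theorem GS_gexp_Ec (c : Fin m → ℝ) : gexp (Ec c : Ge (VS V m)) ∈ GS V m := by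
  rw [gexp_Ec]
  exact Subalgebra.sum_mem _ fun J _ => Subalgebra.mul_mem _ (tauP_mem J) (inG_mem _)

/-- the coefficient of all sources of `gexp (Ec c) * ∑ tauP I * inG (x I)` -/
theorem coP_gexp_mul (c : Fin m → ℝ) (x : Finset (Fin m) → Ge V) :
    coP univ (gexp (Ec c) * ∑ I : Finset (Fin m), tauP I * inG m (x I)) =
      ∑ J : Finset (Fin m), (∏ i ∈ J, (1 - c i)) • x (univ \ J) := by
  have hb : (∑ I : Finset (Fin m), tauP I * inG m (x I)) ∈ GS V m :=
    Subalgebra.sum_mem _ fun J _ => Subalgebra.mul_mem _ (tauP_mem J) (inG_mem _)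
  rw [coP_mul (GS_gexp_Ec c) hb, Finset.powerset_univ]
  refine Finset.sum_congr rfl fun J _ => ?_
  rw [gexp_Ec, SrcDefx991.coP_sum_basis J (fun J => algebraMap ℝ (Ge V) (∏ i ∈ J, (1 - c i))),
    SrcDefx991.coP_sum_basis _ x, ← Algebra.smul_def]

end Ec

section K0c

variable {G : Type} [CommRing G] [DecidableEq G] {m : ℕ}

theorem fsr_shift (e : EG G) (c : ℝ) :
    algebraMap ℝ (RR (EG G)) (1 - c) + fsr e 1 = fsr e c := by
  unfold fsr
  rw [map_sub]
  abel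

/-- **the coefficient of all sources, with the centring in the prefactor** -/
theorem K0_coP_Ec (B : Bk G (Fin m) (Ge (VS (VI (HE G)) m))) (hB : B.as = tau)
    (v : Fin m → EG G) (hFs : ∀ k, B.Fs k = fsr (v k) 1) (Λ : Finset (G × G))
    (hsr : B.srcs Λ = univ) (c : Fin m → ℝ) :
    coP univ (gexp (Ec c) * ZZ (fun a b : G × G => a = b) Λ (B.K0 (frS G m))) =
      TH (gs B.y B.s) (PL B Λ * obR v c) * Ms B.y B.s Λ := by
  rw [K0_src B hB, hsr, Finset.powerset_univ, coP_gexp_mul c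
    fun I => TH (gs B.y B.s) (PL B Λ * ∏ k ∈ I, B.Fs k) * Ms B.y B.s Λ]
  have h1 : obR v c = ∑ J : Finset (Fin m), (∏ i ∈ J, (1 - c i)) • ∏ k ∈ univ \ J, B.Fs k := by
    rw [obR_eq, Finset.prod_congr rfl fun k _ => (fsr_shift (v k) (c k)).symm, Finset.prod_add,
      Finset.powerset_univ]
    refine Finset.sum_congr rfl fun J _ => ?_
    rw [← map_prod, ← Algebra.smul_def]
    congr 1
    exact Finset.prod_congr rfl fun k _ => (hFs k).symm
  rw [h1, Finset.mul_sum, map_sum, Finset.sum_mul]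
  refine Finset.sum_congr rfl fun J _ => ?_
  rw [mul_smul_comm, map_smul, smul_mul_assoc]

/-- **numerator** -/
theorem K0_ctG (B : Bk G (Fin m) (Ge (VS (VI (HE G)) m))) (hB : B.as = tau)
    (v : Fin m → EG G) (hFs : ∀ k, B.Fs k = fsr (v k) 1)
    {w : BW G} (hw : ∀ e, B.y e = w e.1 e.2) {S : HE G → HE G → ℝ} (hS : IsCov w S)
    (Λ : Finset (G × G)) (hsr : B.srcs Λ = univ) (hF : ∀ g, B.s g ≠ 1 → g ∈ Λ)
    (hE : ∀ h : HE G, B.s h.1 ≠ 1 → faE (ed h) ⊆ Λ ∨ w (ed h).1 (ed h).2 = 0) (c : Fin m → ℝ) :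
    ctG (coP univ (gexp (Ec c) * cvG (ext0 m (covS S hS.skew))
      (ZZ (fun a b : G × G => a = b) Λ (B.K0 (frS G m))))) =
      (∏ f ∈ Λ, B.s f ^ 4) * EG' (covS S hS.skew) (TH (gw w) (obR v c * PL B Λ)) := by
  have h1 := rescH_cov hS B.s Λ hF hE (PL B Λ * obR v c)
  have h2 : B.y = fun e => w e.1 e.2 := funext hw
  rw [gexp_cvG (vacH_Ec c), ctG_coP_cvG, K0_coP_Ec B hB v hFs Λ hsr c, h2, mul_comm (obR v c)]
  exact h1

/-- **denominator** -/
theorem K0_ctG0 (B : Bk G (Fin m) (Ge (VS (VI (HE G)) m))) (hB : B.as = tau)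
    {w : BW G} (hw : ∀ e, B.y e = w e.1 e.2) {S : HE G → HE G → ℝ} (hS : IsCov w S)
    (Λ : Finset (G × G)) (hF : ∀ g, B.s g ≠ 1 → g ∈ Λ)
    (hE : ∀ h : HE G, B.s h.1 ≠ 1 → faE (ed h) ⊆ Λ ∨ w (ed h).1 (ed h).2 = 0) (c : Fin m → ℝ) :
    ctG (gexp (Ec c) * cvG (ext0 m (covS S hS.skew))
      (ZZ (fun a b : G × G => a = b) Λ (B.K0 (frS G m)))) =
      (∏ f ∈ Λ, B.s f ^ 4) * EG' (covS S hS.skew) (TH (gw w) (PL B Λ)) := by
  have h1 := K0_EX B hB hw hS Λ ∅ (Finset.empty_subset _) hF hE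
  rw [Finset.prod_empty, mul_one, coP_empty] at h1
  rw [← SrcDefx991.ctG_noS, map_mul, noS_gexp, noS_Ec, noS_cvG]
  have h3 : gexp (0 : Ge (VI (HE G))) = 1 := by
    have := gexp_algebraMap (V := VI (HE G)) 0
    rw [map_zero, Real.exp_zero, map_one] at this
    exact this
  rw [h3, one_mul, ctG_cvG]
  exact h1

end K0c

end Crest.Agent.R165.J4Lnkx653
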