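import Crest.Agent.R165.J4Lnk6_653
import Crest.Agent.R165.Bkg_683

/-!
# Row 165 (S0250), block J4: the link on the literal names of `Bkg_683` (helper653)

* `frG_id`, `frG_inl` : `frG id = frV G`, `frG inl = frS G m`
* `K00_E`    : `E_S (ZZ (=) Λ (B.K00 P id noSrc)) = (∏ s^4) * E_S (TH (gw B.w) (PL ..))`
* `K00_ctG`, `K00_ctG0` : the same with bond sources, centring in the prefactor
* `PL_domB`  : `PL = GT` for `Bg.dom`
-/

set_option autoImplicit false

noncomputable section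

open Finset
open Crest.ProbabilityR.IsingModel

namespace Crest.Agent.R165.J4Lnkx653

open Crest.Agent.R165.J4Defx653 Crest.Agent.R165.J4RRx653 Crest.Agent.R165.J4RRAx653
  Crest.Agent.R165.J4Pathx653
open Crest.Agent.R165.Gr0x606 Crest.Agent.R165.Gr1x606 Crest.Agent.R165.J1ax606
open Crest.Agent.R165.J2ax606 (IsInv ed)
open Crest.Agent.R165.GeOpsx337 Crest.Agent.R165.SrcDefx991
open Crest.Agent.R165.ExpGx337 (gexp)
open Crest.Agent.R165.J4K0x126 Crest.Agent.R165.J4Geox126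
open Crest.Agent.R165.KStepx892 (ZZ)
open Crest.Agent.R165.Latx683 (xc wDom wX ray BW Fld IsCov covS)
open Crest.Agent.R165.Bkgx683 (frG MPar mpar Srcs noSrc bondSrc Bg)

section

variable {G : Type} [CommRing G] [DecidableEq G]

theorem frG_id : frG (V := Fld G) (LinearMap.id) = frV G := rfl

theorem frG_inl (m : ℕ) : frG (LinearMap.inl ℝ (Fld G) (Src m)) = frS G m := by
  have hb : ∀ x y : Fld G, bi (LinearMap.inl ℝ (Fld G) (Src m) x)
      (LinearMap.inl ℝ (Fld G) (Src m) y) = inG m (bi x y) := by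
    intro x y
    rw [inG, mpG_bi]
  unfold frG frS
  congr 1
  · funext e
    rw [hb]
    rfl
  · funext f
    rw [I4, map_sum]
    exact Finset.sum_congr rfl fun p _ => hb _ _

variable (B : Bg G) (P : MPar)

/-- hypotheses on the volume: it contains the rescaled faces and the coupled edges at them -/
structure VolOK (Λ : Finset (G × G)) : Prop where
  face : ∀ g, B.sc P g ≠ 1 → g ∈ Λ
  edge : ∀ h : HE G, B.sc P h.1 ≠ 1 → faE (ed h) ⊆ Λ ∨ B.w (ed h).1 (ed h).2 = 0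

variable {B P}

/-- **no sources** -/
theorem K00_E {S : HE G → HE G → ℝ} (hS : IsCov B.w S) {Λ : Finset (G × G)}
    (hΛ : VolOK B P Λ) :
    EEG (covS S hS.skew) (ZZ (fun a b : G × G => a = b) Λ
      (B.K00 P LinearMap.id (noSrc G (Ge (Fld G))))) =
      (∏ f ∈ Λ, B.sc P f ^ 4) * EG' (covS S hS.skew)
        (TH (gw B.w) (PL (B.bk P (noSrc G (Ge (Fld G)))) Λ)) :=
  K0_E (B.bk P (noSrc G (Ge (Fld G)))) (fun _ => rfl) hS Λ hΛ.face hΛ.edge

variable {m : ℕ}

/-- **sources, numerator** -/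
theorem K00_ctG (v : Fin m → EG G) (c : Fin m → ℝ) {S : HE G → HE G → ℝ} (hS : IsCov B.w S)
    {Λ : Finset (G × G)} (hΛ : VolOK B P Λ) (hv : ∀ k, faE (v k) ⊆ Λ) :
    ctG (coP univ (gexp (Ec c) * cvG (ext0 m (covS S hS.skew))
      (ZZ (fun a b : G × G => a = b) Λ
        (B.K00 P (LinearMap.inl ℝ (Fld G) (Src m)) (bondSrc (Fld G) v))))) =
      (∏ f ∈ Λ, B.sc P f ^ 4) * EG' (covS S hS.skew)
        (TH (gw B.w) (obR v c * PL (B.bk P (bondSrc (Fld G) v)) Λ)) := by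
  have h1 := K0_ctG (B.bk P (bondSrc (Fld G) v)) rfl v (fun k => ?_) (fun _ => rfl) hS Λ ?_
    hΛ.face hΛ.edge c
  · rw [Bg.K00, frG_inl]
    exact h1
  · change ep (Finsupp.single (v k) 1) - 1 = fsr (v k) 1
    rw [fsr, map_one]
  · unfold Bk.srcs
    rw [Finset.filter_true_of_mem]
    intro k _
    exact ⟨faE_nonempty _, hv k⟩

/-- **sources, denominator** -/
theorem K00_ctG0 (v : Fin m → EG G) (c : Fin m → ℝ) {S : HE G → HE G → ℝ} (hS : IsCov B.w S)
    {Λ : Finset (G × G)} (hΛ : VolOK B P Λ) :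
    ctG (gexp (Ec c) * cvG (ext0 m (covS S hS.skew))
      (ZZ (fun a b : G × G => a = b) Λ
        (B.K00 P (LinearMap.inl ℝ (Fld G) (Src m)) (bondSrc (Fld G) v)))) =
      (∏ f ∈ Λ, B.sc P f ^ 4) * EG' (covS S hS.skew)
        (TH (gw B.w) (PL (B.bk P (bondSrc (Fld G) v)) Λ)) := by
  have h1 := K0_ctG0 (B.bk P (bondSrc (Fld G) v)) rfl (fun _ => rfl) hS Λ hΛ.face hΛ.edge c
  rw [Bg.K00, frG_inl]
  exact h1

end

open Classical in
/-- the product of the shapes of a domain is the perturbation -/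
theorem PL_domB {κ : Type} {A : Type*} [CommRing A] [Algebra ℝ A] (T : Finset (ℤ × ℤ))
    (b : BoundaryCondition) {n : ℕ} (X : Fin n → ℤ × ℤ) (J lam : ℝ) (R : ℕ)
    (V : Finset (ℤ × ℤ) → ℝ) (β z : ℝ) (src : Srcs κ ℤ A) (hV : TrInv V) (hr : Rng R V)
    (hev : ∀ A, V A ≠ 0 → Even A.card) (Λ : Finset (ℤ × ℤ))
    (hΛ : ∀ S ∈ BB T b (max R 1), Yf S ⊆ Λ) :
    PL ((Bg.dom T b X).bk (mpar J lam R V β z) src) Λ = GT T b (max R 1) (tpot J lam β V) :=
  PL_dom _ T b (fun _ _ => Iff.rfl) hV.tpot (tpot_rng hr) (tpot_even hev) Λ hΛ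

end Crest.Agent.R165.J4Lnkx653
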