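import Crest.Agent.R165.JD1_408
import Crest.Agent.R165.UJ2_420
import Crest.Agent.R165.J4PB_653

/-!
# Row 165 (S0250), J-side chain for domains, lam ≠ 0, part 2 (helper408)

* `Nsum_TH`  : `J2Set T w S` extended linearly to the eps-algebra `RR Ed` of `J4RR_653`
* `Bol`      : the Boltzmann factor `∏_B (1 + kB t_B B) ∈ RR Ed`, `Bol_eval`
* `Src`      : the centred bonds `∏_k (eps_k - c_k) ∈ RR Ed`
* `domMom_pert` :
  `domMom(J,lam,β) = <σ_X>_0 * E_{S_X}[TH (Bol * Src)] / E_{S_0}[TH Bol]`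
-/

set_option autoImplicit false

noncomputable section

open Crest.ProbabilityR.IsingModel Finset

namespace Crest.Agent.R165.JD2x408

open Crest.Agent.R165.Gr0x606 Crest.Agent.R165.Gr1x606
open Crest.Agent.R165.J1ax606 Crest.Agent.R165.J1bx606
open Crest.Agent.R165.Centx541 Crest.Agent.R165.Redx541 Crest.Agent.R165.Topx683
open Crest.Agent.R165.UDomCx420 Crest.Agent.R165.UJ2x420
open Crest.Agent.R165.JD1x408
open Crest.Agent.R165.Latx683 (BW wDom ray wX Fld)
open Crest.Agent.R165.J4Defx653 (sB epsE BB tpot TrInv Rng IsNN pr)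
open Crest.Agent.R165.J4RRx653 (RR ep TH TH_ep TH_one TH_mul_sq RR.ind)
open Crest.Agent.R165.J4Pathx653

/-- the Grassmann image of a bond variable -/
def gE (w : BW ℤ) (e : Ed) : Ge (VI (HE ℤ)) := 1 - (2 * w e.1 e.2) • bb e

theorem Nsum_add (T : Finset (ℤ × ℤ)) (w : BW ℤ) (f g : (ℤ × ℤ → Bool) → ℝ) :
    Nsum T w (fun s => f s + g s) = Nsum T w f + Nsum T w g := by
  unfold Nsum
  rw [← Finset.sum_add_distrib]
  exact Finset.sum_congr rfl fun N _ => by ring

theorem Nsum_mul (T : Finset (ℤ × ℤ)) (w : BW ℤ) (c : ℝ) (f : (ℤ × ℤ → Bool) → ℝ) :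
    Nsum T w (fun s => c * f s) = c * Nsum T w f := by
  unfold Nsum
  rw [Finset.mul_sum]
  exact Finset.sum_congr rfl fun N _ => by ring

theorem Nsum_zero (T : Finset (ℤ × ℤ)) (w : BW ℤ) : Nsum T w (fun _ => 0) = 0 := by
  unfold Nsum
  exact Finset.sum_eq_zero fun N _ => by ring

/-- **(J2) on the eps-algebra** -/
theorem Nsum_TH {T : Finset (ℤ × ℤ)} {w : BW ℤ} {S : Cov (Fld ℤ)} (h : J2Set T w S) (F : RR Ed) :
    Nsum T w (fun s => TH (epsE s) F) =
      Nsum T w (fun _ => 1) * EE S ((TH (gE w) F : Ge (VI (HE ℤ))) : Gr (VI (HE ℤ))) := by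
  induction F using RR.ind with
  | h0 =>
    simp only [map_zero]
    rw [Nsum_zero, Ge.coe_zero, map_zero, mul_zero]
  | hadd F G hF hG =>
    simp only [map_add]
    rw [Nsum_add, hF, hG, Ge.coe_add, map_add, mul_add]
  | hs c S' =>
    simp only [map_smul, smul_eq_mul]
    rw [Nsum_mul, Ge.coe_smul, map_smul, smul_eq_mul]
    have := h S'.support
    simp only [TH_ep]
    rw [show (fun s : ℤ × ℤ → Bool => ∏ e ∈ S'.support, epsE s e) =
      fun s => ∏ e ∈ S'.support, UDomAx420.eps s e from rfl, this]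
    unfold gE
    ring

/-! ### the Boltzmann factor and the sources -/

/-- the Boltzmann factor of the perturbation in the eps-algebra -/
def Bol (T : Finset (ℤ × ℤ)) (b : BoundaryCondition) (J lam β : ℝ) (R : ℕ)
    (V : Finset (ℤ × ℤ) → ℝ) : RR Ed :=
  ∏ B ∈ BB T b (max R 1), (1 + kB (tpot J lam β V B) B)

theorem even_of_tpot {J lam β : ℝ} {V : Finset (ℤ × ℤ) → ℝ} (hV : ∀ A, V A ≠ 0 → Even A.card)
    {B : Finset (ℤ × ℤ)} (h : tpot J lam β V B ≠ 0) : Even B.card := by
  by_cases h1 : V B = 0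
  · by_cases h2 : IsNN B
    · obtain ⟨e, rfl⟩ := h2
      rw [pr, Finset.card_pair]
      · exact ⟨1, rfl⟩
      · intro h3
        exact J4Defx653.unitVec_ne_zero e.2 (by simpa using h3.symm)
    · exfalso
      apply h
      rw [tpot, h1, if_neg h2]
      ring
  · exact hV B h1

theorem Bol_eval (T : Finset (ℤ × ℤ)) (b : BoundaryCondition) (J lam β : ℝ) (R : ℕ)
    (V : Finset (ℤ × ℤ) → ℝ) (hV : ∀ A, V A ≠ 0 → Even A.card) (s : ℤ × ℤ → Bool) :
    TH (epsE s) (Bol T b J lam β R V) = Real.exp (pot T b J lam β R V s) :=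
  prod_kB_eval _ _ (fun _ _ h => even_of_tpot hV h) s

/-- the centred bonds in the eps-algebra -/
def Src {m : ℕ} (v : Fin m → ℤ × ℤ) (j : Fin m → Fin 2) (c : Fin m → ℝ) : RR Ed :=
  ∏ k, (ep (Finsupp.single (v k, j k) 1) - (c k) • (1 : RR Ed))

theorem Src_eval {m : ℕ} (v : Fin m → ℤ × ℤ) (j : Fin m → Fin 2) (c : Fin m → ℝ)
    (s : ℤ × ℤ → Bool) :
    TH (epsE s) (Src v j c) =
      ∏ k, (spinSign (s (v k)) * spinSign (s (v k + unitVec (j k))) - c k) := by
  rw [Src, J4RRx653.TH_prod_sq _ (epsE_sq s)]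
  refine Finset.prod_congr rfl fun k _ => ?_
  rw [map_sub, map_smul, TH_one, TH_ep, Finsupp.support_single _ one_ne_zero,
    Finset.prod_singleton, smul_eq_mul, mul_one]
  rfl

theorem Nsum_congr (T : Finset (ℤ × ℤ)) (w : BW ℤ) {f g : (ℤ × ℤ → Bool) → ℝ}
    (h : ∀ s, f s = g s) : Nsum T w f = Nsum T w g := by
  rw [funext h]

/-- **perturbed moments of a domain as ratios of Grassmann expectations** -/
theorem domMom_pert (D : Set ℂ) (a : ℝ) (h : (domainSites D a).Finite)
    (b : BoundaryCondition) (hb : b ≠ BoundaryCondition.minus) {J : ℝ} (hJ : J ≠ 0) (lam β : ℝ)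
    (R : ℕ) (V : Finset (ℤ × ℤ) → ℝ) (hV : TrInv V) (hr : Rng R V)
    (hev : ∀ A, V A ≠ 0 → Even A.card) {n m : ℕ} (x : Fin n → ℂ) (y : Fin m → ℂ)
    (j : Fin m → Fin 2) (c : Fin m → ℝ) {S0 SX : Cov (Fld ℤ)}
    (h0 : J2Set h.toFinset (wDom (domainSites D a) (decide (b = BoundaryCondition.free))) S0)
    (hX : J2Set h.toFinset (wX (wDom (domainSites D a) (decide (b = BoundaryCondition.free)))
      (fun i => meshIndex a (x i))) SX) :
    domMom D a b J lam R V β x y j c =
      D0c D a b x (![] : Fin 0 → ℂ) ![] *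
        (EE SX ((TH (gE (wX (wDom (domainSites D a) (decide (b = BoundaryCondition.free)))
            (fun i => meshIndex a (x i)))) (Bol h.toFinset b J lam β R V *
              Src (fun k => meshIndex a (y k)) j c) : Ge (VI (HE ℤ))) : Gr (VI (HE ℤ))) /
         EE S0 ((TH (gE (wDom (domainSites D a) (decide (b = BoundaryCondition.free))))
            (Bol h.toFinset b J lam β R V) : Ge (VI (HE ℤ))) : Gr (VI (HE ℤ)))) := by
  set X : Fin n → ℤ × ℤ := fun i => meshIndex a (x i) with hXdef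
  set w : BW ℤ := wDom (domainSites D a) (decide (b = BoundaryCondition.free)) with hw
  have hD0 : D0c D a b x (![] : Fin 0 → ℂ) ![] =
      Nsum h.toFinset (wX w X) (fun _ => 1) / Nsum h.toFinset w (fun _ => 1) := by
    unfold D0c domMom
    rw [domainExpect_N D a h b hb, ← hw]
    congr 1
    rw [← Nsum_ray]
    refine Nsum_congr _ _ fun s => ?_
    simp [obs, hXdef]
  have hnum : Nsum h.toFinset w (fun s => obs X (fun k => meshIndex a (y k)) j c s *
      Real.exp (pot h.toFinset b J lam β R V s)) =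
      Nsum h.toFinset (wX w X) (fun s => TH (epsE s) (Bol h.toFinset b J lam β R V *
        Src (fun k => meshIndex a (y k)) j c)) := by
    rw [← Nsum_ray]
    refine Nsum_congr _ _ fun s => ?_
    rw [TH_mul_sq _ (epsE_sq s), Bol_eval _ _ _ _ _ _ _ hev, Src_eval, obs]
    ring
  have hden : Nsum h.toFinset w (fun s => Real.exp (pot h.toFinset b J lam β R V s)) =
      Nsum h.toFinset w (fun s => TH (epsE s) (Bol h.toFinset b J lam β R V)) :=
    Nsum_congr _ _ fun s => (Bol_eval _ _ _ _ _ _ _ hev s).symm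
  unfold domMom
  rw [domainExpect_pert D a h b hb hJ lam β R V hV hr, ← hw, hnum, hden, Nsum_TH hX,
    Nsum_TH h0, hD0, mul_div_mul_comm]

end Crest.Agent.R165.JD2x408
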