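import Crest.Agent.R165.JDomA_606
import Crest.Agent.R165.SrcER_441
import Crest.Agent.R165.J4Lnk3_653

/-!
# Row 165 (S0250), block J, JDom part B (helper606): conditional energies of the critical model

* `TH_obR`   : `TH g (∏_k (eps_{v k} - c_k)) = ∏_k (g (v k) - c_k)` for distinct bonds
* `D0c_bnd`  : `⟨σ_X ∏(eps - e0)⟩ = ⟨σ_X⟩ * E_X (∏_k bnd (-2 w_k) (1 - e0) (hp_k) (hq_k))`
* `D0c_bnd_C2`, `D0c_bnd_disc` : eventual forms, `D0c / spm0 = EEG (Cof w) (∏ bnd ..)`
-/

set_option autoImplicit false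

noncomputable section

open Filter Topology Finset
open Crest.ProbabilityR.IsingModel

namespace Crest.Agent.R165.JDomBx606

open Crest.Agent.R165.Gr0x606 Crest.Agent.R165.Gr1x606 Crest.Agent.R165.J1ax606
  Crest.Agent.R165.J1bx606 Crest.Agent.R165.J1cx606
open Crest.Agent.R165.Topx683 Crest.Agent.R165.Redx541 Crest.Agent.R165.Red2x541
  Crest.Agent.R165.Centx541 Crest.Agent.R165.Symx541 Crest.Agent.R165.SRx541
open Crest.Agent.R165.Latx683 (BW wDom ray wX IsCov covS formS Fld)
open Crest.Agent.R165.UDomCx420 (Nsum conf Nsum_ray)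
open Crest.Agent.R165.UKerx420 (wD Cof Sof Sof_spec Sof_skew)
open Crest.Agent.R165.UFinx420 (isF)
open Crest.Agent.R165.J4Defx653 Crest.Agent.R165.J4RRx653 Crest.Agent.R165.J4Lnkx653
open Crest.Agent.R165.GeOpsx337 Crest.Agent.R165.SrcERx441
open Crest.Agent.R165.J2gx606 Crest.Agent.R165.JDomAx606

section

variable {A : Type*} [CommRing A] [Algebra ℝ A] {E : Type*} {κ : Type*} [DecidableEq κ]

theorem TH_sgl (g : E → A) (e : E) : TH g (ep (Finsupp.single e (1 : ZMod 2))) = g e := by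
  classical
  rw [TH_ep, Finsupp.support_single_ne_zero _ one_ne_zero, Finset.prod_singleton]

theorem TH_prod_single (g : E → A) (v : κ → E) (hv : Function.Injective v) (c : κ → ℝ)
    (s : Finset κ) :
    TH g (∏ k ∈ s, (ep (Finsupp.single (v k) 1) - algebraMap ℝ (RR E) (c k))) =
        ∏ k ∈ s, (g (v k) - algebraMap ℝ A (c k)) ∧
      (∏ k ∈ s, (ep (Finsupp.single (v k) 1) - algebraMap ℝ (RR E) (c k))) ∈
        RIn (v '' (s : Set κ)) := by
  induction s using Finset.induction_on with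
  | empty => simp
  | insert a s ha ih =>
    have h1 : (ep (Finsupp.single (v a) 1) - algebraMap ℝ (RR E) (c a)) ∈ RIn ({v a} : Set E) := by
      refine Subalgebra.sub_mem _ (ep_mem_RIn ?_) (Subalgebra.algebraMap_mem _ _)
      intro e he
      have h2 := Finsupp.support_single_subset (Finset.mem_coe.1 he)
      exact Finset.mem_singleton.1 h2
    have hd : Disjoint ({v a} : Set E) (v '' (s : Set κ)) := by
      rw [Set.disjoint_singleton_left]
      rintro ⟨k, hk, hk'⟩
      exact ha (hv hk' ▸ Finset.mem_coe.1 hk)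
    constructor
    · rw [Finset.prod_insert ha, Finset.prod_insert ha, TH_mul g hd h1 ih.2, ih.1, map_sub,
        TH_sgl, Algebra.algebraMap_eq_smul_one, map_smul, TH_one,
        Algebra.algebraMap_eq_smul_one]
    · rw [Finset.prod_insert ha]
      refine Subalgebra.mul_mem _ (RIn_mono ?_ h1) (RIn_mono ?_ ih.2)
      · rintro _ rfl
        exact ⟨a, by simp, rfl⟩
      · exact Set.image_mono (by simp)

/-- distinct bonds -/
theorem TH_obR (g : EG ℤ → A) {m : ℕ} (v : Fin m → EG ℤ) (hv : Function.Injective v)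
    (c : Fin m → ℝ) : TH g (obR v c) = ∏ k, (g (v k) - algebraMap ℝ A (c k)) :=
  (TH_prod_single g v hv c Finset.univ).1

end

theorem gw_sub (w : BW ℤ) (e : EG ℤ) (c : ℝ) :
    gw w e - algebraMap ℝ _ c = bnd (-(2 * w e.1 e.2)) (1 - c)
      (Finsupp.single (pe e) 1) (Finsupp.single (qe e) 1) := by
  unfold gw bnd
  rw [map_sub, map_one, neg_smul]
  have : (bb e : Ge (VI (HE ℤ))) = bi (Finsupp.single (pe e) 1) (Finsupp.single (qe e) 1) := rfl
  rw [this]
  abel

variable {D : Set ℂ} {a : ℝ} {b : BoundaryCondition}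

/-- **conditional energies of the critical model** -/
theorem D0c_bnd (hb : b ≠ BoundaryCondition.minus) (h : (domainSites D a).Finite) {n m : ℕ}
    (x : Fin n → ℂ) (y : Fin m → ℂ) (j : Fin m → Fin 2)
    (hx : Lk D a b (fun i => meshIndex a (x i)))
    (hy : b = BoundaryCondition.free → ∀ k, meshIndex a (y k) ∈ domainSites D a ∧
      meshIndex a (y k) + unitVec (j k) ∈ domainSites D a)
    (hinj : Function.Injective fun k => ((meshIndex a (y k), j k) : EG ℤ)) :
    D0c D a b x y j = spm0 D a b x *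
      EEG (Cof (wD (isF b) D a (fun i => meshIndex a (x i))))
        (∏ k, bnd (-(2 * wD (isF b) D a (fun i => meshIndex a (x i)) (meshIndex a (y k)) (j k)))
          (1 - e0) (Finsupp.single (pe ((meshIndex a (y k), j k) : EG ℤ)) 1)
          (Finsupp.single (qe ((meshIndex a (y k), j k) : EG ℤ)) 1)) := by
  have h1 := D0c_link D a b hb h x y j (Cof (wD (isF b) D a (fun i => meshIndex a (x i))))
    (hx.on h _ fun hbf => obR_dep _ _ fun k =>
      ⟨h.mem_toFinset.2 (hy hbf k).1, h.mem_toFinset.2 (hy hbf k).2⟩)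
  rw [h1, spm0_eq, TH_obR _ _ hinj]
  congr 1
  unfold EG'
  rw [EEG_apply]
  congr 2
  refine Finset.prod_congr rfl fun k _ => ?_
  exact gw_sub _ _ _

/-- the ratio -/
theorem D0c_ratio (hb : b ≠ BoundaryCondition.minus) (h : (domainSites D a).Finite) {n m : ℕ}
    (x : Fin n → ℂ) (y : Fin m → ℂ) (j : Fin m → Fin 2)
    (hx : Lk D a b (fun i => meshIndex a (x i))) (hp : spm0 D a b x ≠ 0)
    (hy : b = BoundaryCondition.free → ∀ k, meshIndex a (y k) ∈ domainSites D a ∧
      meshIndex a (y k) + unitVec (j k) ∈ domainSites D a)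
    (hinj : Function.Injective fun k => ((meshIndex a (y k), j k) : EG ℤ)) :
    D0c D a b x y j / spm0 D a b x =
      EEG (Cof (wD (isF b) D a (fun i => meshIndex a (x i))))
        (∏ k, bnd (-(2 * wD (isF b) D a (fun i => meshIndex a (x i)) (meshIndex a (y k)) (j k)))
          (1 - e0) (Finsupp.single (pe ((meshIndex a (y k), j k) : EG ℤ)) 1)
          (Finsupp.single (qe ((meshIndex a (y k), j k) : EG ℤ)) 1)) := by
  rw [D0c_bnd hb h x y j hx hy hinj, mul_div_cancel_left₀ _ hp]

theorem inj_bond {m : ℕ} (y : Fin m → ℂ) (j : Fin m → Fin 2) (hy : Function.Injective y) :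
    ∀ᶠ a in 𝓝[>] (0 : ℝ), Function.Injective fun k => ((meshIndex a (y k), j k) : EG ℤ) := by
  filter_upwards [UJ2x420.eventually_distinct y hy] with a ha k l hkl
  exact ha (Prod.mk.inj hkl).1

/-- domains -/
theorem D0c_bnd_C2 (b : BoundaryCondition) {n m : ℕ} (hR : Rel b n) {D : Set ℂ}
    (hD : IsC2JordanDomain D) (x : Fin n → ℂ) (hx : ∀ i, x i ∈ D) (y : Fin m → ℂ)
    (j : Fin m → Fin 2) (hy : ∀ k, y k ∈ D) (hyi : Function.Injective y) :
    ∀ᶠ a in 𝓝[>] (0 : ℝ), D0c D a b x y j / spm0 D a b x =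
      EEG (Cof (wD (isF b) D a (fun i => meshIndex a (x i))))
        (∏ k, bnd (-(2 * wD (isF b) D a (fun i => meshIndex a (x i)) (meshIndex a (y k)) (j k)))
          (1 - e0) (Finsupp.single (pe ((meshIndex a (y k), j k) : EG ℤ)) 1)
          (Finsupp.single (qe ((meshIndex a (y k), j k) : EG ℤ)) 1)) := by
  filter_upwards [ev_C2 b hR hD x hx y j hy, inj_bond y j hyi] with a ha hi
  exact D0c_ratio (UFinx420.rel_ne_minus hR) ha.1 x y j ha.2.1 ha.2.2.2.1.ne'
    (fun _ => ha.2.2.2.2) hi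

/-- discs -/
theorem D0c_bnd_disc {n m : ℕ} (x : Fin n → ℂ) (y : Fin m → ℂ)
    (j : Fin m → Fin 2) (hyi : Function.Injective y) :
    ∀ᶠ a in 𝓝[>] (0 : ℝ), ∀ᶠ B : ℝ in atTop,
      D0c (Metric.ball 0 B) a .plus x y j / spm0 (Metric.ball 0 B) a .plus x =
      EEG (Cof (wD false (Metric.ball 0 B) a (fun i => meshIndex a (x i))))
        (∏ k, bnd (-(2 * wD false (Metric.ball 0 B) a (fun i => meshIndex a (x i))
          (meshIndex a (y k)) (j k)))
          (1 - e0) (Finsupp.single (pe ((meshIndex a (y k), j k) : EG ℤ)) 1)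
          (Finsupp.single (qe ((meshIndex a (y k), j k) : EG ℤ)) 1)) := by
  filter_upwards [inj_bond y j hyi, self_mem_nhdsWithin] with a hi ha
  filter_upwards [ev_disc ha] with B hB
  exact D0c_ratio (b := .plus) (by simp) hB.1 x y j (hB.2 n x).1 (hB.2 n x).2.2.ne'
    (fun h => by simp at h) hi

end Crest.Agent.R165.JDomBx606
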