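import Crest.Agent.R165.JRunD_445
import Crest.Agent.R165.JVol_950
import Crest.Agent.R165.Out_683
import Crest.Agent.R165.Fin3_315
import Crest.Agent.R165.U5Props_422

/-!
# Row 165 (S0250): the spin ratio and the runs, for small mesh and for large discs (helper445)

With the frozen names `DD`, `domF` of `Out_683`, `Inv`, `runOf`, `Inv.last` of `Fin2_315`, `Vol` of
`JVol_950`:

* `VolN T b R Λ`  : admissible volumes (no sources), `exists_volN`
* `runD hX h5 v N` : the run (SRabs_900) of the domain `T` with insertions `X`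
* `runD_start`, `runD_fin`, `runD_c`, `c_empty`
* `ratio_total` : `start / start = exp (∑_{k<N} ∑' U, (cc X k U - cc ∅ k U)) * (fin X / fin ∅)`
* `Links D a b x` : covariances of `TT D a` with the spins `x` and without spins
* `links_C2`, `links_disc` : it holds for small mesh in `C²` domains / in large discs
* `Links.spm_run`, `Links.spm_total` : the spin ratio of the model in terms of the runs
-/

set_option autoImplicit false
set_option linter.unusedSectionVars false

noncomputable section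

open Finset Filter Topology
open Crest.ProbabilityR.IsingModel

namespace Crest.Agent.R165.JRunx445

open Crest.Agent.R165.Gr0x606 Crest.Agent.R165.Gr1x606 Crest.Agent.R165.GeOpsx337
  Crest.Agent.R165.ExpGx337 Crest.Agent.R165.KStepx892 Crest.Agent.R165.KFlowx337
  Crest.Agent.R165.SrcDefx991 Crest.Agent.R165.SRabsx900 Crest.Agent.R165.KInitx892
open Crest.Agent.R165.Latx683 (BW wDom ray wX wPl IsCov covS Fld HE xc)
open Crest.Agent.R165.GDefx387 Crest.Agent.R165.GSysx387 Crest.Agent.R165.GSysOKx439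
  Crest.Agent.R165.FRDPolyx439 Crest.Agent.R165.BgIsox432
open Crest.Agent.R165.Bkgx683 Crest.Agent.R165.Outx683
open Crest.Agent.R165.PEndx683 (Cst)
open Crest.Agent.R165.J4Defx653 (tpot tr TrInv Rng)
open Crest.Agent.R165.J2ax606 (bar)
open Crest.Agent.R165.J4Geox126 (faE Yf)
open Crest.Agent.R165.Topx683 Crest.Agent.R165.Redx541 Crest.Agent.R165.Red2x541
  Crest.Agent.R165.Centx541 Crest.Agent.R165.Symx541 Crest.Agent.R165.SRx541
open Crest.Agent.R165.UKerx420 (wD Cof Sof Sof_spec Sof_skew)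
open Crest.Agent.R165.JDomAx606 Crest.Agent.R165.Fin2x315 Crest.Agent.R165.JVolx950
open Crest.Agent.R165.U5Px422 (TT mem_TT)
open Crest.Agent.R165.Telx337 (cc)

/-! ### volumes -/

/-- admissible volumes, no sources -/
abbrev VolN (T : Finset (ℤ × ℤ)) (b : BoundaryCondition) (R : ℕ) (Λ : Finset (ℤ × ℤ)) : Prop :=
  Vol T b R (noSrc ℤ (Ge (Fld ℤ))).Ys Λ

theorem exists_volN (T : Finset (ℤ × ℤ)) (b : BoundaryCondition) (R : ℕ) (A₀ : Finset (ℤ × ℤ)) :
    ∃ Λ, A₀ ⊆ Λ ∧ VolN T b R Λ := exists_vol T b R _ A₀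

theorem volD_of_vol {T : Finset (ℤ × ℤ)} {b : BoundaryCondition} {R : ℕ} {κ : Type}
    {Ys : κ → Finset (ℤ × ℤ)} {Λ : Finset (ℤ × ℤ)} (v : Vol T b R Ys Λ) : VolD T b R Λ :=
  ⟨v.BB, fun _ h => v.W (mem_Wf.2 h), fun h hh => v.nb h (mem_Wf.2 hh)⟩

/-! ### the run of a domain -/

section run

variable {T : Finset (ℤ × ℤ)} {b : BoundaryCondition} {n : ℕ} {X : Fin n → ℤ × ℤ}

theorem okD (c : Cst) (P : MPar) (T : Finset (ℤ × ℤ)) (b : BoundaryCondition) {n : ℕ}
    (X : Fin n → ℤ × ℤ) (h5 : 5 ≤ c.p * (c.k0 + 1)) : (domF c P T b X).OK ⊥ :=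
  sys_OK DD (by norm_num) _ ∅ h5 fun U => K0_noSrc_mem _ P c.p c.k0 U

theorem suppD (c : Cst) (P : MPar) {Λ : Finset (ℤ × ℤ)} (v : VolN T b P.R Λ) (U : Finset (ℤ × ℤ))
    (hU : ¬ U ⊆ Λ) : (domF c P T b X).K0 U = 0 := v.supp1 LinearMap.id c.p c.k0 U hU

/-- **the run of the domain `T` with insertions `X`** -/
def runD {S : HE ℤ → HE ℤ → ℝ} (hS : Inv (Bg.dom T b X).w S) (c : Cst) (P : MPar)
    (h5 : 5 ≤ c.p * (c.k0 + 1)) {Λ : Finset (ℤ × ℤ)} (v : VolN T b P.R Λ) (N : ℕ) :
    Run (ℤ × ℤ) (Fld ℤ) :=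
  runOf DD hS ∅ c.p c.k0 ((Bg.dom T b X).K0 P LinearMap.id (noSrc ℤ (Ge (Fld ℤ))) c.p c.k0)
    (okD c P T b X h5) Λ (suppD c P v) N

variable {S : HE ℤ → HE ℤ → ℝ} (hS : Inv (Bg.dom T b X).w S) (c : Cst) (P : MPar)
    (h5 : 5 ≤ c.p * (c.k0 + 1)) {Λ : Finset (ℤ × ℤ)} (v : VolN T b P.R Λ) (N : ℕ)

theorem runD_D : (runD hS c P h5 v N).D = domF c P T b X := rfl

theorem runD_n : (runD hS c P h5 v N).n = N := rfl

theorem runD_Λ : (runD hS c P h5 v N).Λ = Λ := rfl

theorem runD_Sf : (runD hS c P h5 v N).Sf = hS.last DD c.p c.k0 N := rfl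

theorem runD_c (k : ℕ) (U : Finset (ℤ × ℤ)) :
    (runD hS c P h5 v N).c k U = cc (domF c P T b X) k U := rfl

theorem runD_fin : (runD hS c P h5 v N).fin =
    EEG (hS.last DD c.p c.k0 N) (ZZ (near c.p c.k0 N) Λ ((domF c P T b X).K N)) := rfl

/-- the initial value of the run is the expectation of the activities of 126 -/
theorem runD_start : (runD hS c P h5 v N).start =
    EEG (covS S hS.skew) (ZZ (fun f g : ℤ × ℤ => f = g) Λ
      ((Bg.dom T b X).K00 P LinearMap.id (noSrc ℤ (Ge (Fld ℤ))))) := by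
  rw [ZZ_K1 (near' := near c.p c.k0 0) ((okD c P T b X h5).near_symm 0)
    ((okD c P T b X h5).near_refl 0) Λ _]
  rfl

theorem K0_empty' (c : Cst) (P : MPar) (T : Finset (ℤ × ℤ)) (b : BoundaryCondition) {n : ℕ}
    (X : Fin n → ℤ × ℤ) : (domF c P T b X).K0 ∅ = 0 :=
  JVolx950.K0_empty (Bg.dom T b X) P LinearMap.id (noSrc ℤ (Ge (Fld ℤ))) c.p c.k0

/-- no contribution of the empty set -/
theorem c_empty (c : Cst) (P : MPar) (T : Finset (ℤ × ℤ)) (b : BoundaryCondition) {n : ℕ}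
    (X : Fin n → ℤ × ℤ) (k : ℕ) : cc (domF c P T b X) k ∅ = 0 := by
  rw [cc, Telx337.H_empty (K0_empty' c P T b X), map_zero]

theorem run_c_empty (k : ℕ) : (runD hS c P h5 v N).c k ∅ = 0 := by
  rw [runD_c]
  exact c_empty c P T b X k

end run

/-- **the ratio of two runs** -/
theorem ratio_total {T : Finset (ℤ × ℤ)} {b : BoundaryCondition} {n m : ℕ} {X : Fin n → ℤ × ℤ}
    {Y : Fin m → ℤ × ℤ} {S S' : HE ℤ → HE ℤ → ℝ} (hX : Inv (Bg.dom T b X).w S)
    (hY : Inv (Bg.dom T b Y).w S') (c : Cst) (P : MPar) (h5 : 5 ≤ c.p * (c.k0 + 1))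
    {Λ : Finset (ℤ × ℤ)} (v : VolN T b P.R Λ) (N : ℕ) :
    (runD hX c P h5 v N).start / (runD hY c P h5 v N).start =
      Real.exp (∑ k ∈ range N, ∑' U, (cc (domF c P T b X) k U - cc (domF c P T b Y) k U)) *
        ((runD hX c P h5 v N).fin / (runD hY c P h5 v N).fin) := by
  have h := ratio_eq (runD hX c P h5 v N) (runD hY c P h5 v N)
    ((runD_n hX c P h5 v N).trans (runD_n hY c P h5 v N).symm)
    (fun k _ => run_c_empty hX c P h5 v N k) (fun k _ => run_c_empty hY c P h5 v N k)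
  simp only [runD_c, runD_n] at h
  exact h

/-! ### the covariances of a domain -/

/-- the covariances of a plus background have finite columns -/
theorem inv_plus' {D : Set ℂ} {a : ℝ} (h : (domainSites D a).Finite) {n : ℕ} {X : Fin n → ℤ × ℤ}
    {S : HE ℤ → HE ℤ → ℝ} (hS : IsCov (wD (isF .plus) D a X) S) :
    Inv (wD (isF .plus) D a X) S := by
  unfold wD at hS ⊢
  rw [← h.coe_toFinset] at hS ⊢
  exact Fin3x315.inv_of_isCov_plus hS

/-- the covariances of a free background have finite columns -/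
theorem inv_free' {D : Set ℂ} {a : ℝ} {T : Finset (ℤ × ℤ)} (hT : (T : Set (ℤ × ℤ)) = domainSites D a)
    {n : ℕ} (hn : Even n) {X : Fin n → ℤ × ℤ} (hX : ∀ i, X i ∈ domainSites D a)
    (hpos : 0 < UDomCx420.Nsum T (wDom (domainSites D a) true)
      (fun s => ∏ i, spinSign (s (X i))))
    {S : HE ℤ → HE ℤ → ℝ} (hS : IsCov (wD (isF .free) D a X) S) :
    Inv (wD (isF .free) D a X) S := by
  unfold wD at hS ⊢
  rw [← hT] at hS hpos hX ⊢
  exact Fin3x315.inv_of_isCov_free hn (fun i => Finset.mem_coe.1 (hX i)) hpos.ne' hS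

/-- everything needed at one mesh -/
structure Links (D : Set ℂ) (a : ℝ) (b : BoundaryCondition) {n : ℕ} (X : Fin n → ℤ × ℤ) :
    Prop where
  fin : (domainSites D a).Finite
  lk : Lk D a b X
  inv : Inv (wD (isF b) D a X) (Sof (wD (isF b) D a X))

theorem Links.tt {D : Set ℂ} {a : ℝ} {b : BoundaryCondition} {n : ℕ} {X : Fin n → ℤ × ℤ}
    (h : Links D a b X) : TT D a = h.fin.toFinset := by
  unfold TT
  rw [dif_pos h.fin]

theorem Links.w {D : Set ℂ} {a : ℝ} {b : BoundaryCondition} {n : ℕ} {X : Fin n → ℤ × ℤ}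
    (h : Links D a b X) : (Bg.dom (TT D a) b X).w = wD (isF b) D a X := by
  rw [h.tt]
  exact dom_w h.fin X

/-- the inverse kernel for the background of the list -/
theorem Links.invB {D : Set ℂ} {a : ℝ} {b : BoundaryCondition} {n : ℕ} {X : Fin n → ℤ × ℤ}
    (h : Links D a b X) :
    Inv (Bg.dom (TT D a) b X).w (Sof (Bg.dom (TT D a) b X).w) := by
  rw [h.w]
  exact h.inv

/-- **the spin ratio of the model = ratio of the initial values of two runs** -/
theorem Links.spm_run {D : Set ℂ} {a : ℝ} {b : BoundaryCondition} {n : ℕ} {x : Fin n → ℂ}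
    (hX : Links D a b (fun i => meshIndex a (x i))) (h0 : Links D a b (fun i : Fin 0 => i.elim0))
    (hb : b ≠ BoundaryCondition.minus) (hp : spm0 D a b x ≠ 0) {J : ℝ} (hJ : J ≠ 0) {R : ℕ}
    {V : Finset (ℤ × ℤ) → ℝ} (hV : VHyp R V) (c : Cst) (h5 : 5 ≤ c.p * (c.k0 + 1)) (lam β z : ℝ)
    (hz : 0 < 1 + z) {Λ : Finset (ℤ × ℤ)}
    (v : VolN (TT D a) b (mpar J lam R V β z).R Λ) (N : ℕ) :
    spm D a b J lam R V β x / spm0 D a b x =
      (runD hX.invB c (mpar J lam R V β z) h5 v N).start /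
        (runD h0.invB c (mpar J lam R V β z) h5 v N).start := by
  rw [runD_start, runD_start]
  have v' : VolD hX.fin.toFinset b (max R 1) Λ := by rw [← hX.tt]; exact volD_of_vol v
  have h := spm_start (J := J) (lam := lam) (β := β) hb hX.fin hJ hV.trans hV.range hV.even x hX.lk
    h0.lk hp hz v' rfl
  rw [← hX.tt] at h
  exact h

/-- **the spin ratio of the model after `N` steps** -/
theorem Links.spm_total {D : Set ℂ} {a : ℝ} {b : BoundaryCondition} {n : ℕ} {x : Fin n → ℂ}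
    (hX : Links D a b (fun i => meshIndex a (x i))) (h0 : Links D a b (fun i : Fin 0 => i.elim0))
    (hb : b ≠ BoundaryCondition.minus) (hp : spm0 D a b x ≠ 0) {J : ℝ} (hJ : J ≠ 0) {R : ℕ}
    {V : Finset (ℤ × ℤ) → ℝ} (hV : VHyp R V) (c : Cst) (h5 : 5 ≤ c.p * (c.k0 + 1)) (lam β z : ℝ)
    (hz : 0 < 1 + z) {Λ : Finset (ℤ × ℤ)}
    (v : VolN (TT D a) b (mpar J lam R V β z).R Λ) (N : ℕ) :
    spm D a b J lam R V β x / spm0 D a b x =
      Real.exp (∑ k ∈ range N, ∑' U,
        (cc (domF c (mpar J lam R V β z) (TT D a) b (fun i => meshIndex a (x i))) k U -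
          cc (domF c (mpar J lam R V β z) (TT D a) b (fun i : Fin 0 => i.elim0)) k U)) *
        (EEG (hX.invB.last DD c.p c.k0 N) (ZZ (near c.p c.k0 N) Λ
            ((domF c (mpar J lam R V β z) (TT D a) b (fun i => meshIndex a (x i))).K N)) /
          EEG (h0.invB.last DD c.p c.k0 N) (ZZ (near c.p c.k0 N) Λ
            ((domF c (mpar J lam R V β z) (TT D a) b (fun i : Fin 0 => i.elim0)).K N))) := by
  rw [Links.spm_run hX h0 hb hp hJ hV c h5 lam β z hz v N, ratio_total, runD_fin, runD_fin]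

/-- **`C²` domains, small mesh** -/
theorem links_C2 (b : BoundaryCondition) (n : ℕ) (hR : Rel b n) {D : Set ℂ}
    (hD : IsC2JordanDomain D) (x : Fin n → ℂ) (hx : ∀ i, x i ∈ D) :
    ∀ᶠ a in 𝓝[>] (0 : ℝ), Links D a b (fun i => meshIndex a (x i)) := by
  have hm : ∀ i, ∀ᶠ a in 𝓝[>] (0 : ℝ), meshIndex a (x i) ∈ domainSites D a := by
    intro i
    simpa using UKerx420.eventually_mem (isOpen_of_C2 hD) (hx i) 0
  filter_upwards [lk_C2 b n hR hD x hx, UZsx420.ev_pos b n hR hD x hx,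
    eventually_all.2 hm, self_mem_nhdsWithin] with a h1 h2 hm ha
  have hfin : (domainSites D a).Finite := domainSites_finite (bounded_of_C2 hD) ha
  refine ⟨hfin, h1, ?_⟩
  rcases hR with rfl | ⟨rfl, hn⟩
  · exact inv_plus' hfin (Sof_spec h1.ex)
  · exact inv_free' hfin.coe_toFinset hn hm (h2 hfin) (Sof_spec h1.ex)

/-- no insertions -/
theorem links_C2_zero (b : BoundaryCondition) (hb : b ≠ BoundaryCondition.minus) {D : Set ℂ}
    (hD : IsC2JordanDomain D) :
    ∀ᶠ a in 𝓝[>] (0 : ℝ), Links D a b (fun i : Fin 0 => i.elim0) := by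
  have hR0 : Rel b 0 := by
    cases b with
    | plus => exact Or.inl rfl
    | minus => exact absurd rfl hb
    | free => exact Or.inr ⟨rfl, Even.zero⟩
  have h := links_C2 b 0 hR0 hD (fun i : Fin 0 => i.elim0) (fun i => i.elim0)
  have e : ∀ a : ℝ, (fun i : Fin 0 => meshIndex a ((fun i : Fin 0 => (i.elim0 : ℂ)) i)) =
      (fun i : Fin 0 => i.elim0) := fun a => by funext i; exact i.elim0
  filter_upwards [h] with a ha
  rw [e a] at ha
  exact ha

/-- **large discs at fixed mesh** -/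
theorem links_disc {a : ℝ} (ha : 0 < a) : ∀ᶠ B : ℝ in atTop, ∀ (n : ℕ) (X : Fin n → ℤ × ℤ),
    Links (Metric.ball (0 : ℂ) B) a BoundaryCondition.plus X := by
  filter_upwards [lk_disc ha] with B hB n X
  have hfin : (domainSites (Metric.ball (0 : ℂ) B) a).Finite :=
    domainSites_finite Metric.isBounded_ball ha
  exact ⟨hfin, hB n X, inv_plus' hfin (Sof_spec (hB n X).ex)⟩

/-- **the spin ratio in `C²` domains**, all parameters at once -/
theorem spm_total_C2 (b : BoundaryCondition) (n : ℕ) (hR : Rel b n) {D : Set ℂ}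
    (hD : IsC2JordanDomain D) (x : Fin n → ℂ) (hx : ∀ i, x i ∈ D) :
    ∀ᶠ a in 𝓝[>] (0 : ℝ), ∃ (hX : Links D a b (fun i => meshIndex a (x i)))
      (h0 : Links D a b (fun i : Fin 0 => i.elim0)),
      ∀ (J : ℝ), J ≠ 0 → ∀ (R : ℕ) (V : Finset (ℤ × ℤ) → ℝ), VHyp R V → ∀ (c : Cst)
        (h5 : 5 ≤ c.p * (c.k0 + 1)) (lam β z : ℝ), 0 < 1 + z → ∀ (Λ : Finset (ℤ × ℤ))
        (v : VolN (TT D a) b (mpar J lam R V β z).R Λ) (N : ℕ),
        spm D a b J lam R V β x / spm0 D a b x =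
            (runD hX.invB c (mpar J lam R V β z) h5 v N).start /
              (runD h0.invB c (mpar J lam R V β z) h5 v N).start ∧
        spm D a b J lam R V β x / spm0 D a b x =
          Real.exp (∑ k ∈ range N, ∑' U,
            (cc (domF c (mpar J lam R V β z) (TT D a) b (fun i => meshIndex a (x i))) k U -
              cc (domF c (mpar J lam R V β z) (TT D a) b (fun i : Fin 0 => i.elim0)) k U)) *
            (EEG (hX.invB.last DD c.p c.k0 N) (ZZ (near c.p c.k0 N) Λ
                ((domF c (mpar J lam R V β z) (TT D a) b (fun i => meshIndex a (x i))).K N)) /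
              EEG (h0.invB.last DD c.p c.k0 N) (ZZ (near c.p c.k0 N) Λ
                ((domF c (mpar J lam R V β z) (TT D a) b (fun i : Fin 0 => i.elim0)).K N))) := by
  have hb : b ≠ BoundaryCondition.minus := by
    rcases hR with rfl | ⟨rfl, -⟩ <;> decide
  filter_upwards [links_C2 b n hR hD x hx, links_C2_zero b hb hD,
    ev_C2 b hR hD x hx (fun k : Fin 0 => k.elim0) (fun k => k.elim0) (fun k => k.elim0)]
    with a h1 h2 h3
  have hp : spm0 D a b x ≠ 0 := h3.2.2.2.1.ne'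
  exact ⟨h1, h2, fun J hJ R V hV c h5 lam β z hz Λ v N =>
    ⟨Links.spm_run h1 h2 hb hp hJ hV c h5 lam β z hz v N,
      Links.spm_total h1 h2 hb hp hJ hV c h5 lam β z hz v N⟩⟩

/-- **the spin ratio in large discs**, all parameters and all insertions at once -/
theorem spm_total_disc {a : ℝ} (ha : 0 < a) :
    ∀ᶠ B : ℝ in atTop, ∀ (n : ℕ) (x : Fin n → ℂ),
      ∃ (hX : Links (Metric.ball (0 : ℂ) B) a .plus (fun i => meshIndex a (x i)))
      (h0 : Links (Metric.ball (0 : ℂ) B) a .plus (fun i : Fin 0 => i.elim0)),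
      ∀ (J : ℝ), J ≠ 0 → ∀ (R : ℕ) (V : Finset (ℤ × ℤ) → ℝ), VHyp R V → ∀ (c : Cst)
        (h5 : 5 ≤ c.p * (c.k0 + 1)) (lam β z : ℝ), 0 < 1 + z → ∀ (Λ : Finset (ℤ × ℤ))
        (v : VolN (TT (Metric.ball (0 : ℂ) B) a) .plus (mpar J lam R V β z).R Λ) (N : ℕ),
        spm (Metric.ball (0 : ℂ) B) a .plus J lam R V β x / spm0 (Metric.ball (0 : ℂ) B) a .plus x =
            (runD hX.invB c (mpar J lam R V β z) h5 v N).start /
              (runD h0.invB c (mpar J lam R V β z) h5 v N).start ∧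
        spm (Metric.ball (0 : ℂ) B) a .plus J lam R V β x / spm0 (Metric.ball (0 : ℂ) B) a .plus x =
          Real.exp (∑ k ∈ range N, ∑' U,
            (cc (domF c (mpar J lam R V β z) (TT (Metric.ball (0 : ℂ) B) a) .plus
                (fun i => meshIndex a (x i))) k U -
              cc (domF c (mpar J lam R V β z) (TT (Metric.ball (0 : ℂ) B) a) .plus
                (fun i : Fin 0 => i.elim0)) k U)) *
            (EEG (hX.invB.last DD c.p c.k0 N) (ZZ (near c.p c.k0 N) Λ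
                ((domF c (mpar J lam R V β z) (TT (Metric.ball (0 : ℂ) B) a) .plus
                  (fun i => meshIndex a (x i))).K N)) /
              EEG (h0.invB.last DD c.p c.k0 N) (ZZ (near c.p c.k0 N) Λ
                ((domF c (mpar J lam R V β z) (TT (Metric.ball (0 : ℂ) B) a) .plus
                  (fun i : Fin 0 => i.elim0)).K N))) := by
  filter_upwards [links_disc ha, ev_disc ha] with B h1 h2 n x
  have hp := ((h2.2 n x).2.2).ne'
  exact ⟨h1 n _, h1 0 _, fun J hJ R V hV c h5 lam β z hz Λ v N =>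
    ⟨Links.spm_run (h1 n _) (h1 0 _) (by decide) hp hJ hV c h5 lam β z hz v N,
      Links.spm_total (h1 n _) (h1 0 _) (by decide) hp hJ hV c h5 lam β z hz v N⟩⟩

end Crest.Agent.R165.JRunx445
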