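import Crest.Agent.R165.JRunV_445
import Crest.Agent.R165.TorRep_599

/-!
# Row 165 (S0250): bond expectations of domains and runs with a real source (helper445)

Generic real sources: any `src : Srcs κ ℤ (Ge (Fld ℤ))` with `src.as k = algebraMap (τ k)`.

* `K00_real` : `EEG (covS S) (ZZ (=) Λ (K00 P id src)) = csD T z Λ * EG' (TH (gw w) (GT * ∏ (1 + τ_k F_k)))`
* `domE_real` : `E_D[F] * EXf 1 = EXf F` (no insertions) for every `F` of the eps-algebra
* `runM hS c P h5 mk src hmem v N` : the run with marks `mk` and sources `src`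
* `domE_run` : `1 + t E_D[F] = (runM (source 1 + t F)).start / (runM (source 1)).start`
* `disc_run` : the same for `discBonds`, large discs
-/

set_option autoImplicit false
set_option linter.unusedSectionVars false

noncomputable section

open Finset Filter Topology
open Crest.ProbabilityR.IsingModel

namespace Crest.Agent.R165.JRunx445

open Crest.Agent.R165.Gr0x606 Crest.Agent.R165.Gr1x606 Crest.Agent.R165.GeOpsx337
  Crest.Agent.R165.ExpGx337 Crest.Agent.R165.KStepx892 Crest.Agent.R165.KFlowx337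
  Crest.Agent.R165.SrcDefx991 Crest.Agent.R165.SRabsx900 Crest.Agent.R165.KInitx892
open Crest.Agent.R165.Latx683 (BW wDom ray wX wPl IsCov covS Fld HE xc)
open Crest.Agent.R165.GDefx387 Crest.Agent.R165.GSysx387 Crest.Agent.R165.GSysOKx439
  Crest.Agent.R165.FRDPolyx439 Crest.Agent.R165.BgIsox432
open Crest.Agent.R165.Bkgx683 Crest.Agent.R165.Outx683
open Crest.Agent.R165.PEndx683 (Cst)
open Crest.Agent.R165.J4Defx653 (tpot tr TrInv Rng epsE)
open Crest.Agent.R165.J4Lnkx653 (tpot_even tpot_rng domE_spins DepOn J2On Nsum_pos GT_eval)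
open Crest.Agent.R165.J4RRx653 (RR RIn TH TH_mul_sq)
open Crest.Agent.R165.J2ax606 (bar)
open Crest.Agent.R165.J4K0x126 (Bk Fr)
open Crest.Agent.R165.J4Geox126 (faE Yf)
open Crest.Agent.R165.J4Lnkx653 (frV frS gw EG' PL GT obR PL_dom fsr wD_nil)
open Crest.Agent.R165.Topx683 Crest.Agent.R165.Redx541 Crest.Agent.R165.Red2x541
  Crest.Agent.R165.Centx541 Crest.Agent.R165.Symx541 Crest.Agent.R165.SRx541
open Crest.Agent.R165.UKerx420 (wD Cof Sof Sof_spec Sof_skew)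
open Crest.Agent.R165.JDomAx606 Crest.Agent.R165.Fin2x315 Crest.Agent.R165.JVolx950
open Crest.Agent.R165.U5Px422 (TT mem_TT)
open Crest.Agent.R165.Telx337 (cc)
open Crest.Agent.R165.UDomCx420 (Nsum)

/-! ### the initial activities with real sources -/

section dom

variable {T : Finset (ℤ × ℤ)} {b : BoundaryCondition} {n : ℕ} {X : Fin n → ℤ × ℤ}
  {κ : Type} [DecidableEq κ] [Fintype κ]

/-- **real sources** -/
theorem K00_real {S : HE ℤ → HE ℤ → ℝ} (hS : IsCov (Bg.dom T b X).w S) (P : MPar)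
    (ht : TrInv P.t) (hr : Rng P.R P.t) (hev : ∀ S, P.t S ≠ 0 → Even S.card)
    (src : Srcs κ ℤ (Ge (Fld ℤ))) (τ : κ → ℝ) (hτ : ∀ k, src.as k = algebraMap ℝ _ (τ k))
    (hne : ∀ k, (src.Ys k).Nonempty) {Λ : Finset (ℤ × ℤ)} (v : Vol T b P.R src.Ys Λ) :
    EEG (covS S hS.skew) (ZZ (fun f g : ℤ × ℤ => f = g) Λ
      ((Bg.dom T b X).K00 P LinearMap.id src)) =
      csD T P.z Λ * EG' (covS S hS.skew)
        (TH (gw (Bg.dom T b X).w) (GT T b P.R P.t * ∏ k, (1 + τ k • src.Fs k))) := by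
  classical
  have h1 := TorRepx599.K0_real ((Bg.dom T b X).bk P src) τ hτ Λ
  rw [v.srcs hne, PL_dom ((Bg.dom T b X).bk P src) T b (fun _ _ => Iff.rfl) ht hr hev Λ v.BB] at h1
  have h2 := eeg_resc hS Λ (Λ.filter fun f => cor T f) (filter_subset _ _)
    (fun h hh => (volD_of_vol v).nb h (mem_filter.1 hh).2) ((Bg.dom T b X).bk P src).s
    (fun f hf => sc_off P fun hc => hf (mem_filter.2 ⟨(volD_of_vol v).cor f hc, hc⟩))
    (GT T b P.R P.t * ∏ k, (1 + τ k • src.Fs k))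
  have h3 : ∏ f ∈ Λ.filter (fun f => cor T f),
      ((Bg.dom T b X).bk P src).s f ^ 4 = csD T P.z Λ := prod_sc P Λ
  rw [h3, mul_comm (TH _ _)] at h2
  rw [← h2]
  congr 1

end dom

/-! ### expectations of elements of the eps-algebra -/

/-- the expectation of an observable of the eps-algebra in a domain, no insertions -/
theorem domE_real {D : Set ℂ} {a : ℝ} {b : BoundaryCondition} (hb : b ≠ BoundaryCondition.minus)
    (h : (domainSites D a).Finite) {J : ℝ} (hJ : J ≠ 0) (lam β : ℝ) {R : ℕ}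
    {V : Finset (ℤ × ℤ) → ℝ} (hV : TrInv V) (hr : Rng R V) (hev : ∀ A, V A ≠ 0 → Even A.card)
    (h0 : Lk D a b (fun i : Fin 0 => i.elim0)) (F : RR (Bkgx683.EG ℤ))
    (hF : b = BoundaryCondition.free → DepOn h.toFinset F) :
    domainExpect D a b J lam R V β (fun s => TH (epsE s) F) =
      EXf D a b J lam R V β h (fun i : Fin 0 => i.elim0) F /
        EXf D a b J lam R V β h (fun i : Fin 0 => i.elim0) 1 := by
  have hw : wD (UFinx420.isF b) D a (fun i : Fin 0 => i.elim0) = wDom (domainSites D a) (UFinx420.isF b) :=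
    wD_nil _ _ _ _
  have e1 := h0.on h (F * GD D a b J lam R V β h) fun hbf => (hF hbf).mul (GD_dep h hbf hev)
  have e2 := h0.on h (GD D a b J lam R V β h) fun hbf => GD_dep h hbf hev
  have hp : 0 < Nsum h.toFinset (wDom (domainSites D a) (UFinx420.isF b)) (fun _ => 1) := by
    have := Nsum_pos D a b h (1 : RR (Bkgx683.EG ℤ)) (fun s => by simp)
    simpa using this
  rw [domE_spins D a b hb h hJ lam β R V hV hr hev]
  have e3 : ∀ s, TH (epsE s) F * TH (epsE s) (GT h.toFinset b (max R 1) (tpot J lam β V)) =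
      TH (epsE s) (F * GD D a b J lam R V β h) := fun s => by
    rw [TH_mul_sq _ (J4Pathx653.epsE_sq s)]; rfl
  rw [hw] at e1 e2
  unfold EXf
  rw [hw, one_mul]
  unfold J2On at e1 e2
  simp only [e3]
  rw [e1]
  have e4 : Nsum h.toFinset (wDom (domainSites D a) (UFinx420.isF b))
      (fun s => TH (epsE s) (GT h.toFinset b (max R 1) (tpot J lam β V))) = _ := e2
  rw [e4, mul_div_mul_left _ _ hp.ne']

/-- `EXf` is linear -/
theorem EXf_add_smul (D : Set ℂ) (a : ℝ) (b : BoundaryCondition) (J lam : ℝ) (R : ℕ)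
    (V : Finset (ℤ × ℤ) → ℝ) (β : ℝ) (h : (domainSites D a).Finite) {n : ℕ} (X : Fin n → ℤ × ℤ)
    (F F' : RR (Bkgx683.EG ℤ)) (t : ℝ) :
    EXf D a b J lam R V β h X (F + t • F') =
      EXf D a b J lam R V β h X F + t * EXf D a b J lam R V β h X F' := by
  unfold EXf
  rw [add_mul, smul_mul_assoc, map_add, map_smul, J4Lnkx653.EG'_add, J4Lnkx653.EG'_smul]

/-- the denominator is positive -/
theorem EXf_one_pos {D : Set ℂ} {a : ℝ} {b : BoundaryCondition} (h : (domainSites D a).Finite)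
    {J lam : ℝ} {R : ℕ} {V : Finset (ℤ × ℤ) → ℝ} {β : ℝ} (hev : ∀ A, V A ≠ 0 → Even A.card)
    (h0 : Lk D a b (fun i : Fin 0 => i.elim0)) :
    0 < EXf D a b J lam R V β h (fun i : Fin 0 => i.elim0) 1 := by
  have h1 := E0_pos (J := J) (lam := lam) (R := R) (β := β) h hev h0
  have e : EXf D a b J lam R V β h (fun i : Fin 0 => i.elim0) 1 = E0f D a b J lam R V β h := by
    rw [EXf, E0f, one_mul, wD_nil]
  rw [e]
  exact h1

/-! ### runs with marks and real sources -/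

section run

variable {T : Finset (ℤ × ℤ)} {b : BoundaryCondition} {n : ℕ} {X : Fin n → ℤ × ℤ}
  {κ : Type} [DecidableEq κ] [Fintype κ]

theorem okM (c : Cst) (P : MPar) (T : Finset (ℤ × ℤ)) (b : BoundaryCondition) {n : ℕ}
    (X : Fin n → ℤ × ℤ) (h5 : 5 ≤ c.p * (c.k0 + 1)) (mk : Finset (ℤ × ℤ))
    (src : Srcs κ ℤ (Ge (Fld ℤ)))
    (hmem : ∀ k, (src.Ys k).Nonempty → src.as k ∈ grG (fldU (src.Ys k))) :
    ((Bg.dom T b X).flow P DD mk src c.p c.k0).OK ⊥ :=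
  sys_OK DD (by norm_num) _ mk h5 fun U => K0_fldU _ P src hmem c.p c.k0 U

theorem suppM (c : Cst) (P : MPar) (mk : Finset (ℤ × ℤ)) (src : Srcs κ ℤ (Ge (Fld ℤ)))
    {Λ : Finset (ℤ × ℤ)} (v : Vol T b P.R src.Ys Λ) (U : Finset (ℤ × ℤ)) (hU : ¬ U ⊆ Λ) :
    ((Bg.dom T b X).flow P DD mk src c.p c.k0).K0 U = 0 := v.supp1 LinearMap.id c.p c.k0 U hU

/-- **the run with marks `mk` and sources `src`** -/
def runM {S : HE ℤ → HE ℤ → ℝ} (hS : Inv (Bg.dom T b X).w S) (c : Cst) (P : MPar)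
    (h5 : 5 ≤ c.p * (c.k0 + 1)) (mk : Finset (ℤ × ℤ)) (src : Srcs κ ℤ (Ge (Fld ℤ)))
    (hmem : ∀ k, (src.Ys k).Nonempty → src.as k ∈ grG (fldU (src.Ys k)))
    {Λ : Finset (ℤ × ℤ)} (v : Vol T b P.R src.Ys Λ) (N : ℕ) :
    Run (ℤ × ℤ) (Fld ℤ) :=
  runOf DD hS mk c.p c.k0 ((Bg.dom T b X).K0 P LinearMap.id src c.p c.k0)
    (okM c P T b X h5 mk src hmem) Λ (suppM c P mk src v) N

variable {S : HE ℤ → HE ℤ → ℝ} (hS : Inv (Bg.dom T b X).w S) (c : Cst) (P : MPar)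
    (h5 : 5 ≤ c.p * (c.k0 + 1)) (mk : Finset (ℤ × ℤ)) (src : Srcs κ ℤ (Ge (Fld ℤ)))
    (hmem : ∀ k, (src.Ys k).Nonempty → src.as k ∈ grG (fldU (src.Ys k)))
    {Λ : Finset (ℤ × ℤ)} (v : Vol T b P.R src.Ys Λ) (N : ℕ)

theorem runM_D : (runM hS c P h5 mk src hmem v N).D =
    (Bg.dom T b X).flow P DD mk src c.p c.k0 := rfl

theorem runM_n : (runM hS c P h5 mk src hmem v N).n = N := rfl

theorem runM_c (k : ℕ) (U : Finset (ℤ × ℤ)) : (runM hS c P h5 mk src hmem v N).c k U =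
    cc ((Bg.dom T b X).flow P DD mk src c.p c.k0) k U := rfl

theorem runM_fin : (runM hS c P h5 mk src hmem v N).fin =
    EEG (hS.last DD c.p c.k0 N) (ZZ (near c.p c.k0 N) Λ
      (((Bg.dom T b X).flow P DD mk src c.p c.k0).K N)) := rfl

theorem runM_start : (runM hS c P h5 mk src hmem v N).start =
    EEG (covS S hS.skew) (ZZ (fun f g : ℤ × ℤ => f = g) Λ
      ((Bg.dom T b X).K00 P LinearMap.id src)) := by
  rw [ZZ_K1 (near' := near c.p c.k0 0) ((okM c P T b X h5 mk src hmem).near_symm 0)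
    ((okM c P T b X h5 mk src hmem).near_refl 0) Λ _]
  rfl

theorem cM_empty (k : ℕ) : cc ((Bg.dom T b X).flow P DD mk src c.p c.k0) k ∅ = 0 := by
  rw [cc, Telx337.H_empty, map_zero]
  exact JVolx950.K0_empty (Bg.dom T b X) P LinearMap.id src c.p c.k0

theorem runM_c_empty (k : ℕ) : (runM hS c P h5 mk src hmem v N).c k ∅ = 0 := by
  rw [runM_c]
  exact cM_empty c P mk src k

end run

/-- **the ratio of two runs with sources** -/
theorem ratio_totalM {T : Finset (ℤ × ℤ)} {b : BoundaryCondition} {n m : ℕ} {X : Fin n → ℤ × ℤ}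
    {Y : Fin m → ℤ × ℤ} {κ κ' : Type} [DecidableEq κ] [Fintype κ] [DecidableEq κ'] [Fintype κ']
    {S S' : HE ℤ → HE ℤ → ℝ} (hX : Inv (Bg.dom T b X).w S)
    (hY : Inv (Bg.dom T b Y).w S') (c : Cst) (P : MPar) (h5 : 5 ≤ c.p * (c.k0 + 1))
    (mk mk' : Finset (ℤ × ℤ)) (src : Srcs κ ℤ (Ge (Fld ℤ))) (src' : Srcs κ' ℤ (Ge (Fld ℤ)))
    (hmem : ∀ k, (src.Ys k).Nonempty → src.as k ∈ grG (fldU (src.Ys k)))
    (hmem' : ∀ k, (src'.Ys k).Nonempty → src'.as k ∈ grG (fldU (src'.Ys k)))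
    {Λ Λ' : Finset (ℤ × ℤ)} (v : Vol T b P.R src.Ys Λ) (v' : Vol T b P.R src'.Ys Λ') (N : ℕ) :
    (runM hX c P h5 mk src hmem v N).start / (runM hY c P h5 mk' src' hmem' v' N).start =
      Real.exp (∑ k ∈ range N, ∑' U, (cc ((Bg.dom T b X).flow P DD mk src c.p c.k0) k U -
        cc ((Bg.dom T b Y).flow P DD mk' src' c.p c.k0) k U)) *
        ((runM hX c P h5 mk src hmem v N).fin / (runM hY c P h5 mk' src' hmem' v' N).fin) := by
  have h := ratio_eq (runM hX c P h5 mk src hmem v N) (runM hY c P h5 mk' src' hmem' v' N)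
    ((runM_n hX c P h5 mk src hmem v N).trans (runM_n hY c P h5 mk' src' hmem' v' N).symm)
    (fun k _ => runM_c_empty hX c P h5 mk src hmem v N k)
    (fun k _ => runM_c_empty hY c P h5 mk' src' hmem' v' N k)
  simp only [runM_c, runM_n] at h
  exact h

/-! ### the model -/

/-- **the initial value of a run with real sources** -/
theorem Links.start {D : Set ℂ} {a : ℝ} {b : BoundaryCondition} {n : ℕ} {X : Fin n → ℤ × ℤ}
    (hX : Links D a b X) {J lam : ℝ} {R : ℕ} {V : Finset (ℤ × ℤ) → ℝ} {β z : ℝ}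
    (hV : VHyp R V) (c : Cst) (h5 : 5 ≤ c.p * (c.k0 + 1)) (mk : Finset (ℤ × ℤ))
    {κ : Type} [DecidableEq κ] [Fintype κ] (src : Srcs κ ℤ (Ge (Fld ℤ))) (τ : κ → ℝ)
    (hτ : ∀ k, src.as k = algebraMap ℝ _ (τ k)) (hne : ∀ k, (src.Ys k).Nonempty)
    (hmem : ∀ k, (src.Ys k).Nonempty → src.as k ∈ grG (fldU (src.Ys k)))
    {Λ : Finset (ℤ × ℤ)} (v : Vol (TT D a) b (mpar J lam R V β z).R src.Ys Λ) (N : ℕ) :
    (runM hX.invB c (mpar J lam R V β z) h5 mk src hmem v N).start =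
      csD (TT D a) z Λ * EXf D a b J lam R V β hX.fin X (∏ k, (1 + τ k • src.Fs k)) := by
  rw [runM_start]
  have hex : ∃ S, IsCov (Bg.dom (TT D a) b X).w S := by
    rw [hX.w]; exact hX.lk.ex
  have h := K00_real (Sof_spec hex) (mpar J lam R V β z) (TrInv.tpot hV.trans)
    (tpot_rng hV.range) (tpot_even hV.even) src τ hτ hne v
  have h2 : covS (Sof (Bg.dom (TT D a) b X).w) (Sof_spec hex).skew =
      Cof (Bg.dom (TT D a) b X).w := rfl
  rw [h2, hX.w, mul_comm (GT _ _ _ _)] at h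
  unfold EXf GD
  change EEG (Cof (Bg.dom (TT D a) b X).w) _ = _
  rw [← hX.tt, hX.w]
  exact h

/-- **ratio of expectations = ratio of the initial values of two runs with real sources** -/
theorem Links.start_ratio {D : Set ℂ} {a : ℝ} {b : BoundaryCondition} {n : ℕ}
    {X : Fin n → ℤ × ℤ} (hX : Links D a b X) {J lam : ℝ} {R : ℕ} {V : Finset (ℤ × ℤ) → ℝ}
    {β z : ℝ} (hz : 0 < 1 + z)
    (hV : VHyp R V) (c : Cst) (h5 : 5 ≤ c.p * (c.k0 + 1)) (mk mk' : Finset (ℤ × ℤ))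
    {κ κ' : Type} [DecidableEq κ] [Fintype κ] [DecidableEq κ'] [Fintype κ']
    (src : Srcs κ ℤ (Ge (Fld ℤ))) (src' : Srcs κ' ℤ (Ge (Fld ℤ))) (τ : κ → ℝ) (τ' : κ' → ℝ)
    (hτ : ∀ k, src.as k = algebraMap ℝ _ (τ k)) (hτ' : ∀ k, src'.as k = algebraMap ℝ _ (τ' k))
    (hne : ∀ k, (src.Ys k).Nonempty) (hne' : ∀ k, (src'.Ys k).Nonempty)
    (hmem : ∀ k, (src.Ys k).Nonempty → src.as k ∈ grG (fldU (src.Ys k)))
    (hmem' : ∀ k, (src'.Ys k).Nonempty → src'.as k ∈ grG (fldU (src'.Ys k)))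
    {Λ : Finset (ℤ × ℤ)} (v : Vol (TT D a) b (mpar J lam R V β z).R src.Ys Λ)
    (v' : Vol (TT D a) b (mpar J lam R V β z).R src'.Ys Λ) (N : ℕ) :
    (runM hX.invB c (mpar J lam R V β z) h5 mk src hmem v N).start /
        (runM hX.invB c (mpar J lam R V β z) h5 mk' src' hmem' v' N).start =
      EXf D a b J lam R V β hX.fin X (∏ k, (1 + τ k • src.Fs k)) /
        EXf D a b J lam R V β hX.fin X (∏ k, (1 + τ' k • src'.Fs k)) := by
  rw [hX.start hV c h5 mk src τ hτ hne hmem v N, hX.start hV c h5 mk' src' τ' hτ' hne' hmem' v' N,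
    mul_div_mul_left _ _ (csD_ne _ hz _)]

/-- **one real source**: `1 + t E_D[F]` is the ratio of two runs, any marks, generic record -/
theorem Links.one_add {D : Set ℂ} {a : ℝ} {b : BoundaryCondition}
    (hX : Links D a b (fun i : Fin 0 => i.elim0)) (hb : b ≠ BoundaryCondition.minus)
    {J : ℝ} (hJ : J ≠ 0) {lam : ℝ} {R : ℕ} {V : Finset (ℤ × ℤ) → ℝ} {β z : ℝ} (hz : 0 < 1 + z)
    (hV : VHyp R V) (c : Cst) (h5 : 5 ≤ c.p * (c.k0 + 1)) (mk mk' : Finset (ℤ × ℤ))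
    {κ κ' : Type} [DecidableEq κ] [Fintype κ] [DecidableEq κ'] [Fintype κ']
    (src : Srcs κ ℤ (Ge (Fld ℤ))) (src' : Srcs κ' ℤ (Ge (Fld ℤ))) (τ : κ → ℝ) (τ' : κ' → ℝ)
    (hτ : ∀ k, src.as k = algebraMap ℝ _ (τ k)) (hτ' : ∀ k, src'.as k = algebraMap ℝ _ (τ' k))
    (hne : ∀ k, (src.Ys k).Nonempty) (hne' : ∀ k, (src'.Ys k).Nonempty)
    (hmem : ∀ k, (src.Ys k).Nonempty → src.as k ∈ grG (fldU (src.Ys k)))
    (hmem' : ∀ k, (src'.Ys k).Nonempty → src'.as k ∈ grG (fldU (src'.Ys k)))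
    {Λ : Finset (ℤ × ℤ)} (v : Vol (TT D a) b (mpar J lam R V β z).R src.Ys Λ)
    (v' : Vol (TT D a) b (mpar J lam R V β z).R src'.Ys Λ) (N : ℕ)
    (t : ℝ) (F : RR (Bkgx683.EG ℤ)) (hF : b = BoundaryCondition.free → DepOn hX.fin.toFinset F)
    (hs : ∏ k, (1 + τ k • src.Fs k) = 1 + t • F) (hs' : ∏ k, (1 + τ' k • src'.Fs k) = 1) :
    1 + t * domainExpect D a b J lam R V β (fun s => TH (epsE s) F) =
      (runM hX.invB c (mpar J lam R V β z) h5 mk src hmem v N).start /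
        (runM hX.invB c (mpar J lam R V β z) h5 mk' src' hmem' v' N).start := by
  rw [hX.start_ratio hz hV c h5 mk mk' src src' τ τ' hτ hτ' hne hne' hmem hmem' v v' N, hs, hs',
    EXf_add_smul, domE_real hb hX.fin hJ lam β hV.trans hV.range hV.even hX.lk F hF, add_div,
    div_self (EXf_one_pos hX.fin hV.even hX.lk).ne', mul_div_assoc]

theorem TH_epS (s : ℤ × ℤ → Bool) (S : Finset (Bkgx683.EG ℤ)) :
    TH (epsE s) (∏ e ∈ S, J4RRx653.ep (Finsupp.single e 1)) = ∏ e ∈ S, Symx541.ep e s := by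
  rw [J4RRx653.TH_prod_sq _ (J4Pathx653.epsE_sq s)]
  refine prod_congr rfl fun e _ => ?_
  rw [J4Pathx653.TH_single]
  rfl

/-- **bond expectations in large discs**, generic real source -/
theorem disc_run : ∀ᶠ B : ℝ in atTop,
    ∃ (hX : Links (Metric.ball (0 : ℂ) B) 1 .plus (fun i : Fin 0 => i.elim0)),
      ∀ (J : ℝ), J ≠ 0 → ∀ (R : ℕ) (V : Finset (ℤ × ℤ) → ℝ), VHyp R V → ∀ (c : Cst)
        (h5 : 5 ≤ c.p * (c.k0 + 1)) (lam β z : ℝ), 0 < 1 + z → ∀ (mk mk' : Finset (ℤ × ℤ))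
        (src src' : Srcs (Fin 1) ℤ (Ge (Fld ℤ))) (t : ℝ) (S : Finset (Bkgx683.EG ℤ))
        (_ : ∀ k, src.as k = algebraMap ℝ _ t) (_ : ∀ k, src'.as k = algebraMap ℝ _ 0)
        (_ : ∀ k, src.Fs k = ∏ e ∈ S, J4RRx653.ep (Finsupp.single e 1))
        (_ : ∀ k, (src.Ys k).Nonempty) (_ : ∀ k, (src'.Ys k).Nonempty)
        (hmem : ∀ k, (src.Ys k).Nonempty → src.as k ∈ grG (fldU (src.Ys k)))
        (hmem' : ∀ k, (src'.Ys k).Nonempty → src'.as k ∈ grG (fldU (src'.Ys k)))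
        (Λ : Finset (ℤ × ℤ))
        (v : Vol (TT (Metric.ball (0 : ℂ) B) 1) .plus (mpar J lam R V β z).R src.Ys Λ)
        (v' : Vol (TT (Metric.ball (0 : ℂ) B) 1) .plus (mpar J lam R V β z).R src'.Ys Λ) (N : ℕ),
        1 + t * Mastx541.discBonds B J lam R V β S =
            (runM hX.invB c (mpar J lam R V β z) h5 mk src hmem v N).start /
              (runM hX.invB c (mpar J lam R V β z) h5 mk' src' hmem' v' N).start := by
  filter_upwards [links_disc one_pos] with B hB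
  refine ⟨hB 0 _, fun J hJ R V hV c h5 lam β z hz mk mk' src src' t S h1 h2 h3 hne hne' hmem hmem' Λ
    v v' N => ?_⟩
  have h := (hB 0 (fun i : Fin 0 => i.elim0)).one_add (by decide) hJ (lam := lam) (β := β) hz hV c h5
    mk mk' src src' (fun _ => t) (fun _ => 0) h1 h2 hne hne' hmem hmem' v v' N t
    (∏ e ∈ S, J4RRx653.ep (Finsupp.single e 1)) (fun h => absurd h (by decide))
    (by rw [Fintype.prod_unique, h3]) (by simp)
  rw [← h]
  congr 2
  unfold Mastx541.discBonds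
  congr 1
  funext s
  exact (TH_epS s S).symm

end Crest.Agent.R165.JRunx445
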