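import Crest.Agent.R165.JRun_445
import Crest.Agent.R165.Bkg_683
import Crest.Agent.R165.JDomA_606
import Crest.Agent.R165.SrcER_441

/-!
# Row 165 (S0250), block J: the energy ratios as runs with sources (helper408)

Backgrounds `Bg.dom T b X` of Bkg_683, sources `bondSrc`, generating element `srcZ` of JRun_445.

* `frG_inl`     : the frame of Bkg_683 with sources is the frame of J4Lnk3_653
* `VolS`        : admissible volumes; `exists_volS` : all volumes containing a fixed finite set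
* `domMom_srcZ` : `domMom / spm = ctG (coP univ Z) / ctG Z`
* `TH_obR`, `D0c_bnd` : `D0c / spm0 = EEG (Cof w) (∏ bnd (-2 w_e) (1 - e0) p q)`
* `q_run`, `q0_run` : the two identities of `ERPack` (SrcER_441) at step `n`
* `ev_src_C2`, `ev_src_disc`
-/

set_option autoImplicit false
set_option linter.unusedSectionVars false

noncomputable section

open Filter Topology Finset
open Crest.ProbabilityR.IsingModel

namespace Crest.Agent.R165.JRunSx408

open Crest.Agent.R165.Gr0x606 Crest.Agent.R165.Gr1x606 Crest.Agent.R165.J1ax606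
open Crest.Agent.R165.GeOpsx337 Crest.Agent.R165.ExpGx337 Crest.Agent.R165.KStepx892
  Crest.Agent.R165.KFlowx337 Crest.Agent.R165.SrcDefx991 Crest.Agent.R165.KInitx892
open Crest.Agent.R165.J4Defx653 Crest.Agent.R165.J4RRx653 Crest.Agent.R165.J4K0x126
  Crest.Agent.R165.J4Geox126
open Crest.Agent.R165.J4Lnkx653 (frS frV PL PL_dom obR gw EG' ez_eq_trEd)
open Crest.Agent.R165.JRunx445 Crest.Agent.R165.JDomAx606
open Crest.Agent.R165.Bkgx683 (frG MPar mpar bondSrc Bg cor)
open Crest.Agent.R165.Latx683 (BW wDom ray wX IsCov covS formS Fld)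
open Crest.Agent.R165.Centx541 Crest.Agent.R165.Redx541 Crest.Agent.R165.Symx541
  Crest.Agent.R165.Red2x541 Crest.Agent.R165.Topx683 Crest.Agent.R165.SRx541
open Crest.Agent.R165.UKerx420 (wD Cof Sof Sof_spec Sof_skew)
open Crest.Agent.R165.UFinx420 (isF)
open Crest.Agent.R165.Covx359 (un)
open Crest.Agent.R165.J2ax606 (bar)

/-! ### frames -/

section frame

variable {G : Type} [CommRing G] [DecidableEq G]

theorem frG_inl (m : ℕ) : frG (LinearMap.inl ℝ (Fld G) (Src m)) = frS G m := by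
  unfold frG frS
  congr 1
  · funext e
    change _ = inG m (bi _ _)
    rw [inG, mpG_bi]
  · funext f
    change _ = inG m (J4Lnkx653.I4 f)
    rw [J4Lnkx653.I4, map_sum]
    refine Finset.sum_congr rfl fun p _ => ?_
    rw [inG, mpG_bi]

end frame

/-! ### volumes -/

/-- admissible volumes -/
structure VolS (T : Finset (ℤ × ℤ)) (b : BoundaryCondition) (R : ℕ) {m : ℕ} (e : Fin m → EG ℤ)
    (Λ : Finset (ℤ × ℤ)) : Prop where
  shp : ∀ S ∈ BB T b R, Yf S ⊆ Λ
  cor : ∀ f, cor T f → f ∈ Λ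
  nbr : ∀ h : HE ℤ, Bkgx683.cor T h.1 → (bar h).1 ∈ Λ
  src : ∀ k, faE (e k) ⊆ Λ

/-- the faces with a corner in `T` -/
def corF (T : Finset (ℤ × ℤ)) : Finset (ℤ × ℤ) :=
  T ∪ T.image (fun f => (f.1 - 1, f.2)) ∪ T.image (fun f => (f.1, f.2 - 1)) ∪
    T.image (fun f => (f.1 - 1, f.2 - 1))

theorem mem_corF {T : Finset (ℤ × ℤ)} {f : ℤ × ℤ} (h : Bkgx683.cor T f) : f ∈ corF T := by
  obtain ⟨i, j⟩ := f
  unfold corF
  simp only [Finset.mem_union, Finset.mem_image, Prod.mk.injEq, Prod.exists]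
  rcases h with h | h | h | h
  · exact Or.inl (Or.inl (Or.inl h))
  · exact Or.inl (Or.inl (Or.inr ⟨_, _, h, by ring, rfl⟩))
  · exact Or.inl (Or.inr ⟨_, _, h, rfl, by ring⟩)
  · exact Or.inr ⟨_, _, h, by ring, by ring⟩

/-- **all sufficiently large volumes are admissible** -/
theorem exists_volS (T : Finset (ℤ × ℤ)) (b : BoundaryCondition) (R : ℕ) {m : ℕ}
    (e : Fin m → EG ℤ) : ∃ Λ₀ : Finset (ℤ × ℤ), ∀ Λ, Λ₀ ⊆ Λ → VolS T b R e Λ := by
  classical
  refine ⟨(BB T b R).biUnion Yf ∪ (corF T ∪ ((corF T ×ˢ (univ : Finset (Fin 4))).image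
    (fun h : HE ℤ => (bar h).1) ∪ univ.biUnion fun k => faE (e k))), fun Λ hΛ => ⟨?_, ?_, ?_, ?_⟩⟩
  · intro S hS
    exact (Finset.subset_biUnion_of_mem Yf hS).trans (Finset.subset_union_left.trans hΛ)
  · intro f hf
    exact hΛ (Finset.mem_union_right _ (Finset.mem_union_left _ (mem_corF hf)))
  · intro h hh
    refine hΛ (Finset.mem_union_right _ (Finset.mem_union_right _ (Finset.mem_union_left _ ?_)))
    exact Finset.mem_image.2 ⟨h, Finset.mem_product.2 ⟨mem_corF hh, Finset.mem_univ _⟩, rfl⟩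
  · intro k
    refine (Finset.subset_biUnion_of_mem (fun k => faE (e k)) (Finset.mem_univ k)).trans ?_
    exact Finset.subset_union_right.trans (Finset.subset_union_right.trans
      (Finset.subset_union_right.trans hΛ))

theorem VolS.mono {T : Finset (ℤ × ℤ)} {b : BoundaryCondition} {R m : ℕ} {e : Fin m → EG ℤ}
    {Λ Λ' : Finset (ℤ × ℤ)} (h : VolS T b R e Λ) (hΛ : Λ ⊆ Λ') : VolS T b R e Λ' where
  shp S hS := (h.shp S hS).trans hΛ
  cor f hf := hΛ (h.cor f hf)
  nbr k hk := hΛ (h.nbr k hk)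
  src k := (h.src k).trans hΛ

/-! ### the generating element of a domain -/

theorem dom_w {D : Set ℂ} {a : ℝ} (h : (domainSites D a).Finite) (b : BoundaryCondition) {n : ℕ}
    (X : Fin n → ℤ × ℤ) : (Bg.dom h.toFinset b X).w = wD (isF b) D a X := by
  unfold Bg.dom wD
  rw [h.coe_toFinset]
  rfl

/-- the initial activities of the domain with bond sources -/
def K0S {D : Set ℂ} {a : ℝ} (h : (domainSites D a).Finite) (b : BoundaryCondition) (P : MPar)
    {n m : ℕ} (X : Fin n → ℤ × ℤ) (e : Fin m → EG ℤ) : Finset (ℤ × ℤ) → Ge (VS (Fld ℤ) m) :=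
  (Bg.dom h.toFinset b X).K00 P (LinearMap.inl ℝ (Fld ℤ) (Src m)) (bondSrc (Fld ℤ) e)

/-- the generating element of the domain with bond sources, centring `c` -/
def Zs {D : Set ℂ} {a : ℝ} (h : (domainSites D a).Finite) (b : BoundaryCondition) (P : MPar)
    {n m : ℕ} (X : Fin n → ℤ × ℤ) (e : Fin m → EG ℤ) (Λ : Finset (ℤ × ℤ)) (c : Fin m → ℝ) :
    Ge (VS (Fld ℤ) m) := srcZ (Cof (wD (isF b) D a X)) Λ (K0S h b P X e) c

theorem srcs_univ {T : Finset (ℤ × ℤ)} {b : BoundaryCondition} {P : MPar} {n m : ℕ}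
    (X : Fin n → ℤ × ℤ) (e : Fin m → EG ℤ) {Λ : Finset (ℤ × ℤ)} (hv : ∀ k, faE (e k) ⊆ Λ) :
    ((Bg.dom T b X).bk P (bondSrc (Fld ℤ) e)).srcs Λ = univ := by
  unfold Bk.srcs
  rw [Finset.filter_true_of_mem]
  intro k _
  exact ⟨faE_nonempty _, hv k⟩

open Classical in
theorem coe_links {D : Set ℂ} {a : ℝ} (h : (domainSites D a).Finite) (b : BoundaryCondition)
    {J lam : ℝ} {R : ℕ} {V : Finset (ℤ × ℤ) → ℝ} {β z : ℝ} (hV : TrInv V) (hr : Rng R V)
    (hev : ∀ A, V A ≠ 0 → Even A.card) {n m : ℕ} (X : Fin n → ℤ × ℤ) (hX : Lk D a b X)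
    (e : Fin m → EG ℤ) (c : Fin m → ℝ) {Λ : Finset (ℤ × ℤ)}
    (hΛ : VolS h.toFinset b (max R 1) e Λ) (hz : 0 < 1 + z) :
    ∃ κ : ℝ, 0 < κ ∧
      ctG (coP univ (Zs h b (mpar J lam R V β z) X e Λ c)) =
        κ * EXf D a b J lam R V β h X (obR e c) ∧
      ctG (Zs h b (mpar J lam R V β z) X e Λ c) = κ * EXf D a b J lam R V β h X 1 := by
  set B := (Bg.dom h.toFinset b X).bk (mpar J lam R V β z) (bondSrc (Fld ℤ) e) with hB
  set W : Finset (ℤ × ℤ) := Λ.filter fun f => Bkgx683.cor h.toFinset f with hW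
  have hy : B.y = un (wD (isF b) D a X) := by
    have := dom_w h b X
    rw [← this]
    rfl
  have hWΛ : W ⊆ Λ := Finset.filter_subset _ _
  have hn : ∀ k : HE ℤ, k.1 ∈ W → (bar k).1 ∈ Λ := fun k hk => hΛ.nbr k (Finset.mem_filter.1 hk).2
  have hs : ∀ f, f ∉ W → B.s f = 1 := by
    intro f hf
    have : ¬ Bkgx683.cor h.toFinset f := fun hc => hf (Finset.mem_filter.2 ⟨hΛ.cor f hc, hc⟩)
    exact if_neg this
  have hs0 : ∀ f ∈ W, B.s f = Real.sqrt (1 + z) := by
    intro f hf
    exact if_pos (Finset.mem_filter.1 hf).2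
  have hsr : B.srcs Λ = univ := srcs_univ X e hΛ.src
  have hPL : PL B Λ = GD D a b J lam R V β h := by
    refine PL_dom B h.toFinset b (fun _ _ => Iff.rfl) hV.tpot (J4Lnkx653.tpot_rng hr)
      (J4Lnkx653.tpot_even hev) Λ hΛ.shp
  have hK : K0S h b (mpar J lam R V β z) X e = B.K0 (frS ℤ m) := by
    unfold K0S Bg.K00
    rw [frG_inl]
  have hS : IsCov (wD (isF b) D a X) (Sof (wD (isF b) D a X)) := Sof_spec hX.ex
  refine ⟨∏ f ∈ W, B.s f ^ 4, Finset.prod_pos fun f hf => ?_, ?_, ?_⟩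
  · rw [hs0 f hf]
    have := Real.sqrt_pos.2 hz
    positivity
  · have h1 := coP_link hS B rfl hy Λ W hsr hWΛ hn hs c
    unfold Zs
    rw [hK]
    refine h1.trans ?_
    rw [hPL]
    unfold EXf
    have h2 : (∏ k, (algebraMap ℝ (RR (EG ℤ)) (1 - c k) + B.Fs k)) = obR e c := by
      unfold obR
      refine Finset.prod_congr rfl fun k _ => ?_
      change _ + (ep (Finsupp.single (e k) 1) - 1) = _
      rw [map_sub, map_one]
      ring
    rw [h2, mul_comm (GD D a b J lam R V β h)]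
    rfl
  · have h1 := ctG_link hS B rfl hy Λ W hsr hWΛ hn hs c
    unfold Zs
    rw [hK]
    refine h1.trans ?_
    rw [hPL]
    unfold EXf
    rw [one_mul]
    rfl

/-- **the conditional energy moments as a ratio of source coefficients** -/
theorem domMom_srcZ {D : Set ℂ} {a : ℝ} {b : BoundaryCondition} {J lam : ℝ} {R : ℕ}
    {V : Finset (ℤ × ℤ) → ℝ} {β z : ℝ} (hb : b ≠ BoundaryCondition.minus)
    (h : (domainSites D a).Finite) (hJ : J ≠ 0)
    (hV : TrInv V) (hr : Rng R V) (hev : ∀ A, V A ≠ 0 → Even A.card) {n m : ℕ} (x : Fin n → ℂ)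
    (y : Fin m → ℂ) (j : Fin m → Fin 2) (c : Fin m → ℝ)
    (hx : Lk D a b (fun i => meshIndex a (x i))) (h0 : Lk D a b (fun i : Fin 0 => i.elim0))
    (hy : b = BoundaryCondition.free → ∀ k, meshIndex a (y k) ∈ domainSites D a ∧
      meshIndex a (y k) + unitVec (j k) ∈ domainSites D a)
    (hp : spm0 D a b x ≠ 0) {Λ : Finset (ℤ × ℤ)}
    (hΛ : VolS h.toFinset b (max R 1) (fun k => (meshIndex a (y k), j k)) Λ) (hz : 0 < 1 + z) :
    domMom D a b J lam R V β x y j c / spm D a b J lam R V β x =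
      ctG (coP univ (Zs h b (mpar J lam R V β z) (fun i => meshIndex a (x i))
        (fun k => (meshIndex a (y k), j k)) Λ c)) /
      ctG (Zs h b (mpar J lam R V β z) (fun i => meshIndex a (x i))
        (fun k => (meshIndex a (y k), j k)) Λ c) := by
  obtain ⟨κ, hκ, e1, e2⟩ := coe_links (J := J) (lam := lam) (β := β) h b hV hr hev
    (fun i => meshIndex a (x i)) hx (fun k => (meshIndex a (y k), j k)) c hΛ hz
  rw [e1, e2, mul_div_mul_left _ _ hκ.ne']
  exact domMom_ratio hb h hJ hV hr hev x y j c hx h0 hy hp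

/-! ### the unperturbed moment -/

/-- the image of the bond observables at pairwise different bonds -/
theorem TH_obR {E A : Type*} [CommRing A] [Algebra ℝ A] (g : E → A) {m : ℕ} (v : Fin m → E)
    (hv : Function.Injective v) (c : Fin m → ℝ) :
    TH g (obR v c) = ∏ k, (g (v k) - algebraMap ℝ A (c k)) := by
  classical
  have key : ∀ s : Finset (Fin m),
      TH g (∏ k ∈ s, (ep (Finsupp.single (v k) 1) - algebraMap ℝ (RR E) (c k))) =
        ∏ k ∈ s, (g (v k) - algebraMap ℝ A (c k)) ∧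
      (∏ k ∈ s, (ep (Finsupp.single (v k) 1) - algebraMap ℝ (RR E) (c k))) ∈
        RIn {e | ∃ k ∈ s, v k = e} := by
    intro s
    induction s using Finset.induction_on with
    | empty =>
      rw [Finset.prod_empty, Finset.prod_empty, TH_one]
      exact ⟨rfl, one_mem _⟩
    | insert i s hi ih =>
      obtain ⟨ih1, ih2⟩ := ih
      have m1 : (ep (Finsupp.single (v i) 1) - algebraMap ℝ (RR E) (c i)) ∈ RIn {e | v i = e} := by
        refine Subalgebra.sub_mem _ (ep_mem_RIn ?_) (Subalgebra.algebraMap_mem _ _)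
        intro x hx
        rw [Finsupp.support_single _ one_ne_zero, Finset.mem_coe, Finset.mem_singleton] at hx
        exact hx.symm
      have hd : Disjoint {e | v i = e} {e | ∃ k ∈ s, v k = e} := by
        rw [Set.disjoint_left]
        rintro x hx ⟨k, hk, hkx⟩
        exact hi (hv (hx.trans hkx.symm) ▸ hk)
      have t1 : TH g (ep (Finsupp.single (v i) 1) - algebraMap ℝ (RR E) (c i)) =
          g (v i) - algebraMap ℝ A (c i) := by
        rw [map_sub, TH_ep, Finsupp.support_single _ one_ne_zero, Finset.prod_singleton,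
          Algebra.algebraMap_eq_smul_one, map_smul, TH_one, Algebra.algebraMap_eq_smul_one]
      constructor
      · rw [Finset.prod_insert hi, Finset.prod_insert hi, TH_mul g hd m1 ih2, t1, ih1]
      · rw [Finset.prod_insert hi]
        refine Subalgebra.mul_mem _ (RIn_mono ?_ m1) (RIn_mono ?_ ih2)
        · intro x hx
          exact ⟨i, Finset.mem_insert_self _ _, hx⟩
        · rintro x ⟨k, hk, hkx⟩
          exact ⟨k, Finset.mem_insert_of_mem hk, hkx⟩
  exact (key univ).1

/-- one bond factor -/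
theorem gw_sub (w : BW ℤ) (e : EG ℤ) (c : ℝ) :
    (gw w e - algebraMap ℝ (Ge (Fld ℤ)) c) =
      SrcERx441.bnd (-(2 * w e.1 e.2)) (1 - c) (Finsupp.single (pe e) 1)
        (Finsupp.single (qe e) 1) := by
  unfold gw SrcERx441.bnd
  rw [neg_smul, map_sub, map_one]
  change (1 - (2 * w e.1 e.2) • bi _ _) - _ = _
  abel

/-- **the unperturbed moments** -/
theorem D0c_bnd {D : Set ℂ} {a : ℝ} {b : BoundaryCondition} (hb : b ≠ BoundaryCondition.minus)
    (h : (domainSites D a).Finite) {n m : ℕ} (x : Fin n → ℂ) (y : Fin m → ℂ) (j : Fin m → Fin 2)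
    (hx : Lk D a b (fun i => meshIndex a (x i)))
    (hy : b = BoundaryCondition.free → ∀ k, meshIndex a (y k) ∈ domainSites D a ∧
      meshIndex a (y k) + unitVec (j k) ∈ domainSites D a)
    (hinj : Function.Injective fun k => meshIndex a (y k)) (hp : spm0 D a b x ≠ 0) :
    D0c D a b x y j / spm0 D a b x =
      EEG (Cof (wD (isF b) D a (fun i => meshIndex a (x i))))
        (∏ k, SrcERx441.bnd (-(2 * wD (isF b) D a (fun i => meshIndex a (x i))
            (meshIndex a (y k)) (j k))) (1 - e0)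
          (Finsupp.single (pe (meshIndex a (y k), j k)) 1)
          (Finsupp.single (qe (meshIndex a (y k), j k)) 1)) := by
  have h1 := J4Lnkx653.D0c_link D a b hb h x y j (Cof (wD (isF b) D a (fun i => meshIndex a (x i))))
    (hx.on h _ fun hbf => J4Lnkx653.obR_dep _ _ fun k =>
      ⟨h.mem_toFinset.2 (hy hbf k).1, h.mem_toFinset.2 (hy hbf k).2⟩)
  rw [spm0_eq] at h1
  rw [h1, mul_div_cancel_left₀ _ hp]
  have hv : Function.Injective fun k => ((meshIndex a (y k), j k) : EG ℤ) := by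
    intro k l hkl
    exact hinj (Prod.mk.inj hkl).1
  rw [TH_obR _ _ hv]
  simp only [gw_sub]
  rfl

end Crest.Agent.R165.JRunSx408
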