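import Crest.Agent.R165.Kw9_871
import Crest.Agent.R165.UB3_641

/-!
# Row 165 (S0250), block U (helper871): (I3) from the leaves of `UB3_641`

* `TwoBr` : for the unit disc with two branch points, the value of the normalised spinor with source
  at `x 0` at the other branch point (719 (5) / 576 (E))
* `brLim_of`, `muIn_of_leaf` : `BrLeaf → TwoBr → MuIn kapB`
-/

set_option autoImplicit false
set_option linter.unusedSimpArgs false
set_option linter.unusedSectionVars false

noncomputable section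

open Filter Topology
open Crest.ProbabilityR.IsingModel

namespace Crest.Agent.R165.Kw10x871

open Crest.Agent.R165.Kw8x871 Crest.Agent.R165.Kw9x871
open U5Px422 U5bx697
open Latx683 (IsCov wX wDom BW ray HE)
open UB3x641 U3x719

/-- the spinor with source at `x 0` in the unit disc, at the other branch point -/
def TwoBr : Prop :=
  ∀ x ∈ Conf (Metric.ball (0 : ℂ) 1) 2, ∀ g : ℂ → ℂ, IsBr (Metric.ball (0 : ℂ) 1) x 0 g →
    g (x 1) ^ 2 = Complex.I * U3Ex576.kap2 (x 0) (x 1) * (x 1 - x 0)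

theorem cSS_eq_tot (S : HE ℤ → HE ℤ → ℝ) (f g : ℤ × ℤ) : cSS S f g = tot S f g := rfl

theorem tot_skew {S : HE ℤ → HE ℤ → ℝ} (hS : ∀ i j, S i j = -S j i) (f g : ℤ × ℤ) :
    tot S f g = -tot S g f := by
  unfold tot
  rw [Finset.sum_comm, ← Finset.sum_neg_distrib]
  refine Finset.sum_congr rfl fun i _ => ?_
  rw [← Finset.sum_neg_distrib]
  exact Finset.sum_congr rfl fun j _ => hS _ _

theorem kap_abs {n : ℕ} (x : Fin n → ℂ) (X : Fin n → ℤ × ℤ) (i : Fin n) : |kapX x X i| = 1 := by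
  unfold kapX UKerx420.kap
  rw [Finset.abs_prod]
  refine Finset.prod_eq_one fun j _ => ?_
  split_ifs <;> simp

theorem brLim_of (hB : BrLeaf) (h2 : TwoBr) : BrLim kapB := by
  obtain ⟨c1, c2, -, hc2, hB⟩ := hB
  intro x hx u hu S hS
  have hD : IsC2JordanDomain (Metric.ball (0 : ℂ) 1) := Nm1x422.isC2_ball 0 one_pos
  have hxne : x 0 ≠ x 1 := fun h => absurd (hx.2 h) (by decide)
  obtain ⟨g, hg, hbr⟩ := hB (Metric.ball (0 : ℂ) 1) hD 2 x hx
  have hF := hbr _ u (bgFam_dom hD) hu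
  have h3 := hF.cor S hS 0 1 (by decide)
  -- absolute values
  have h4 := h3.abs
  have h5 : |c2 * (g 0 (x 1) / (Complex.I * gsrc x 1)).re| = kapB (x 0) (x 1) := by
    have hc : |c2| = 1 := by
      have : |c2| ^ 2 = 1 := by rw [sq_abs, hc2]
      nlinarith [abs_nonneg c2]
    rw [abs_mul, hc, one_mul]
    have e1 := h2 x hx (g 0) (hg 0).br
    have e2 : gsrc x 1 ^ 2 = Complex.I * (x 0 - x 1) := by
      rw [gsrc_sq]
      congr 1
      unfold U3x719.wX
      have : (Finset.univ.erase (1 : Fin 2)) = {0} := by decide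
      rw [this, Finset.prod_singleton]
    have hne : x 0 - x 1 ≠ 0 := sub_ne_zero.2 hxne
    have hk : 0 < U3Ex576.kap2 (x 0) (x 1) := by
      refine U3Ex576.kap2_pos ?_ ?_
      · have := hx.1 0; simpa using this
      · have := hx.1 1; simpa using this
    have e3 : (g 0 (x 1) / (Complex.I * gsrc x 1)) ^ 2 = (U3Ex576.kap2 (x 0) (x 1) : ℂ) := by
      rw [div_pow, mul_pow, e1, e2, Complex.I_sq]
      have hI : Complex.I ≠ 0 := Complex.I_ne_zero
      field_simp
      ring
    set v : ℂ := g 0 (x 1) / (Complex.I * gsrc x 1) with hv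
    have e4 : v ^ 2 = ((Real.sqrt (U3Ex576.kap2 (x 0) (x 1)) : ℝ) : ℂ) ^ 2 := by
      rw [e3, ← Complex.ofReal_pow, Real.sq_sqrt hk.le]
    rcases sq_eq_sq_iff_eq_or_eq_neg.1 e4 with h | h
    · rw [h, Complex.ofReal_re]
      exact abs_of_nonneg (Real.sqrt_nonneg _)
    · rw [h, Complex.neg_re, Complex.ofReal_re, abs_neg]
      exact abs_of_nonneg (Real.sqrt_nonneg _)
  rw [h5] at h4
  refine h4.congr' ?_
  filter_upwards [hS] with a ha
  rw [abs_mul, abs_mul, kap_abs, kap_abs, one_mul, one_mul, cSS_eq_tot, tot_skew ha.skew, abs_neg]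

/-- **(I3)** from the leaves -/
theorem muIn_of_leaf (hB : BrLeaf) (h2 : TwoBr) : MuIn kapB := muIn_kapB (brLim_of hB h2)

theorem merge_of_leaf {P : {n : ℕ} → (Fin n → ℤ × ℤ) → ℝ} (hP : PlaneLim P) (hB : BrLeaf)
    (h2 : TwoBr) : Merge P := merge_of_mu hP (muIn_of_leaf hB h2)

end Crest.Agent.R165.Kw10x871
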