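import Crest.Agent.R165.U5a_697

/-!
# Row 165 (S0250), block U5, step S1: merging (helper697)

* `dualB`, `FT T`, `dE T` : dual bonds (the face with lower left corner `z` is indexed by `z`)
* `muT T f g`  : free dual two-point function of the faces `f`, `g`
* `MuIn B`     : input (I3): `muT / GB .plus → B` in the unit disc, `B → 1` at merging
* `merge_of_mu : PlaneLim P → MuIn B → Merge P`
-/

set_option autoImplicit false
set_option linter.unusedSectionVars false
set_option linter.unusedVariables false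

noncomputable section

open Filter Topology Finset
open Crest.ProbabilityR.IsingModel

namespace Crest.Agent.R165.U5bx697

open Crest.Agent.R165.Gk0x422
open Crest.Agent.R165.Gk1x422
open Crest.Agent.R165.U5Px422
open Crest.Agent.R165.U5ax697

/-- the other direction -/
def od (j : Fin 2) : Fin 2 := Equiv.swap 0 1 j

/-- the dual bond of `{z, z + e_j}` joins the faces `z - e_{1-j}` and `z` -/
def dualB (e : ZB) : ZB := (e.1 - unitVec (od e.2), od e.2)

/-- the dual bonds of the bonds touching `T` -/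
def dE (T : Finset (ℤ × ℤ)) : Finset ZB := (plusE T).image dualB

/-- the faces touching `T` -/
def FT (T : Finset (ℤ × ℤ)) : Finset (ℤ × ℤ) :=
  (dE T).image zp ∪ (dE T).image zq

/-- free dual two-point function of the faces `f`, `g` -/
def muT (T : Finset (ℤ × ℤ)) (f g : ℤ × ℤ) : ℝ := EX Kc zp zq (FT T) (dE T) (sp ![f, g])

theorem dE_subset (T : Finset (ℤ × ℤ)) : dE T ⊆ freeE (FT T) := fun e he =>
  mem_freeE.2 ⟨mem_union_left _ (mem_image_of_mem _ he), mem_union_right _ (mem_image_of_mem _ he)⟩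

theorem unitVec_norm (a : ℝ) (j : Fin 2) : ‖meshPoint a (unitVec j)‖ = |a| := by
  fin_cases j
  · have : meshPoint a (unitVec 0) = (a : ℂ) := by
      apply Complex.ext <;> simp [meshPoint, unitVec]
    simp only [Fin.zero_eta]
    rw [this, Complex.norm_real, Real.norm_eq_abs]
  · have : meshPoint a (unitVec 1) = (a : ℂ) * Complex.I := by
      apply Complex.ext <;> simp [meshPoint, unitVec]
    simp only [Fin.mk_one]
    rw [this, norm_mul, Complex.norm_I, mul_one, Complex.norm_real, Real.norm_eq_abs]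

theorem meshPoint_sub (a : ℝ) (z w : ℤ × ℤ) :
    meshPoint a (z - w) = meshPoint a z - meshPoint a w := by
  apply Complex.ext <;> simp [meshPoint, mul_sub]

/-- end points of dual bonds are close to `T` -/
theorem dE_near {T : Finset (ℤ × ℤ)} {a : ℝ} (ha : 0 < a) {e : ZB} (he : e ∈ dE T) :
    ∃ z ∈ T, ‖meshPoint a (zp e) - meshPoint a z‖ ≤ 2 * a ∧
      ‖meshPoint a (zq e) - meshPoint a z‖ ≤ 2 * a := by
  obtain ⟨⟨z, j⟩, hb, rfl⟩ := mem_image.1 he
  have h1 : meshPoint a (zp (dualB (z, j))) = meshPoint a z - meshPoint a (unitVec (od j)) := by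
    rw [← meshPoint_sub]; rfl
  have h2 : meshPoint a (zq (dualB (z, j))) = meshPoint a z := by
    have : zq (dualB (z, j)) = z := by
      unfold zq dualB; simp
    rw [this]
  have n1 := unitVec_norm a (od j)
  have n2 := unitVec_norm a j
  rw [abs_of_pos ha] at n1 n2
  rcases mem_plusE.1 hb with h | h
  · refine ⟨z, h, ?_, ?_⟩
    · rw [h1]
      have : meshPoint a z - meshPoint a (unitVec (od j)) - meshPoint a z
        = -meshPoint a (unitVec (od j)) := by ring
      rw [this, norm_neg, n1]; linarith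
    · rw [h2, sub_self, norm_zero]; linarith
  · refine ⟨z + unitVec j, h, ?_, ?_⟩
    · rw [h1, meshPoint_add]
      have : meshPoint a z - meshPoint a (unitVec (od j)) - (meshPoint a z + meshPoint a (unitVec j))
        = -(meshPoint a (unitVec (od j)) + meshPoint a (unitVec j)) := by ring
      rw [this, norm_neg]
      refine (norm_add_le _ _).trans ?_
      rw [n1, n2]; linarith
    · rw [h2, meshPoint_add]
      have : meshPoint a z - (meshPoint a z + meshPoint a (unitVec j)) = -meshPoint a (unitVec j) := by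
        ring
      rw [this, norm_neg, n2]; linarith

theorem FT_near {T : Finset (ℤ × ℤ)} {a : ℝ} (ha : 0 < a) {f : ℤ × ℤ} (hf : f ∈ FT T) :
    ∃ z ∈ T, ‖meshPoint a f - meshPoint a z‖ ≤ 2 * a := by
  rcases mem_union.1 hf with h | h
  · obtain ⟨e, he, rfl⟩ := mem_image.1 h
    obtain ⟨z, hz, h1, -⟩ := dE_near ha he
    exact ⟨z, hz, h1⟩
  · obtain ⟨e, he, rfl⟩ := mem_image.1 h
    obtain ⟨z, hz, -, h1⟩ := dE_near ha he
    exact ⟨z, hz, h1⟩

/-- the face with lower left corner in `T` touches `T` -/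
theorem mem_FT {T : Finset (ℤ × ℤ)} {z : ℤ × ℤ} (hz : z ∈ T) : z ∈ FT T := by
  refine mem_union_right _ (mem_image.2 ⟨dualB (z, 0), mem_image_of_mem _ ?_, ?_⟩)
  · exact mem_plusE.2 (Or.inl hz)
  · unfold zq dualB; simp

/-- input (I3) -/
structure MuIn (B : ℂ → ℂ → ℝ) : Prop where
  lim : ∀ x ∈ Conf (Metric.ball (0 : ℂ) 1) 2, ∀ u : ℝ → Fin 2 → ℤ × ℤ, LApp u x →
    Tendsto (fun a : ℝ => muT (TT (Metric.ball (0 : ℂ) 1) a) (u a 0) (u a 1) /
      GB .plus (TT (Metric.ball (0 : ℂ) 1) a) (u a)) (𝓝[>] 0) (𝓝 (B (x 0) (x 1)))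
  one : ∀ ε > (0 : ℝ), ∃ δ > (0 : ℝ), ∀ x y : ℂ, x ≠ y → ‖x‖ < δ → ‖y‖ < δ → 1 - ε < B x y

theorem muT_nonneg (T : Finset (ℤ × ℤ)) (f g : ℤ × ℤ) : 0 ≤ muT T f g :=
  EX_nonneg Kc_nonneg (sp_pos _)

theorem muT_le_plane {P : {n : ℕ} → (Fin n → ℤ × ℤ) → ℝ} (hP : PlaneLim P)
    {T : Finset (ℤ × ℤ)} {u : Fin 2 → ℤ × ℤ} (hu : ∀ i, u i ∈ T) :
    muT T (u 0) (u 1) ≤ P u := by
  have e : (![u 0, u 1] : Fin 2 → ℤ × ℤ) = u := by funext i; fin_cases i <;> rfl
  unfold muT
  rw [e]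
  exact free_le_plane hP (dE_subset T) fun i => mem_FT (hu i)

theorem muT_le_free {T T' : Finset (ℤ × ℤ)} (h : FT T ⊆ T') {u : Fin 2 → ℤ × ℤ}
    (hu : ∀ i, u i ∈ T) : muT T (u 0) (u 1) ≤ GB .free T' u := by
  have e : (![u 0, u 1] : Fin 2 → ℤ × ℤ) = u := by funext i; fin_cases i <;> rfl
  unfold muT
  rw [e]
  exact free_sub_le Kc_nonneg h (dE_subset T) fun i => mem_FT (hu i)

theorem FT_ball {a : ℝ} (ha : 0 < a) (ha2 : a ≤ 1 / 2) :
    FT (TT (Metric.ball (0 : ℂ) 1) a) ⊆ TT (Metric.ball (0 : ℂ) 2) a := by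
  intro f hf
  obtain ⟨z, hz, h⟩ := FT_near ha hf
  rw [mem_TT Metric.isBounded_ball ha, mem_ball_zero_iff] at hz ⊢
  have : meshPoint a f = (meshPoint a f - meshPoint a z) + meshPoint a z := by ring
  rw [this]
  refine (norm_add_le _ _).trans_lt ?_
  linarith

theorem tendsto_div_pos {s : ℝ} (hs : 0 < s) : Tendsto (fun a : ℝ => a / s) (𝓝[>] 0) (𝓝[>] 0) := by
  refine tendsto_nhdsWithin_of_tendsto_nhds_of_eventually_within _ ?_ ?_
  · have : Tendsto (fun a : ℝ => a / s) (𝓝 0) (𝓝 (0 / s)) := (continuous_id.div_const s).tendsto 0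
    rw [zero_div] at this
    exact this.mono_left nhdsWithin_le_nhds
  · filter_upwards [self_mem_nhdsWithin] with a ha
    exact div_pos ha hs

theorem tendsto_mul_pos {s : ℝ} (hs : 0 < s) : Tendsto (fun a : ℝ => a * s) (𝓝[>] 0) (𝓝[>] 0) := by
  have := tendsto_div_pos (inv_pos.2 hs)
  simpa [div_inv_eq_mul] using this

theorem eventually_lt_nhdsGT {s : ℝ} (hs : 0 < s) : ∀ᶠ a : ℝ in 𝓝[>] 0, a < s := by
  filter_upwards [Ioo_mem_nhdsGT hs] with a ha
  exact ha.2

/-- merging in the unit disc -/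
theorem merge_unit {P : {n : ℕ} → (Fin n → ℤ × ℤ) → ℝ} (hP : PlaneLim P) {B : ℂ → ℂ → ℝ}
    (hB : MuIn B) {ε : ℝ} (hε : 0 < ε) : ∃ δ > (0 : ℝ), ∀ x : Fin 2 → ℂ, x 0 ≠ x 1 →
      ‖x 0‖ < δ → ‖x 1‖ < δ → ∀ u, LApp u x → ∀ᶠ a in 𝓝[>] (0 : ℝ), 0 < P (u a) ∧
        GB .plus (TT (Metric.ball (0 : ℂ) 1) a) (u a) ≤ (1 + ε) * P (u a) ∧
        (1 - ε) * P (u a) ≤ GB .free (TT (Metric.ball (0 : ℂ) 2) a) (u a) := by
  set η := min (ε / (2 * (1 + ε))) (1 / 2) with hη
  have hη0 : 0 < η := lt_min (by positivity) (by norm_num)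
  have hη1 : η ≤ 1 / 2 := min_le_right _ _
  have hη2 : 2 * η * (1 + ε) ≤ ε := by
    have : η ≤ ε / (2 * (1 + ε)) := min_le_left _ _
    rw [le_div_iff₀ (by positivity)] at this
    linarith
  obtain ⟨δ, hδ, hone⟩ := hB.one η hη0
  refine ⟨min δ 1, lt_min hδ one_pos, fun x hx h0 h1 u hu => ?_⟩
  have h0' : ‖x 0‖ < δ := h0.trans_le (min_le_left _ _)
  have h1' : ‖x 1‖ < δ := h1.trans_le (min_le_left _ _)
  have hmem : ∀ i, x i ∈ Metric.ball (0 : ℂ) 1 := by
    intro i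
    rw [mem_ball_zero_iff]
    fin_cases i
    · exact h0.trans_le (min_le_right _ _)
    · exact h1.trans_le (min_le_right _ _)
  have hinj : Function.Injective x := by
    intro i j hij
    fin_cases i <;> fin_cases j
    · rfl
    · exact absurd hij hx
    · exact absurd hij.symm hx
    · rfl
  have hlim := hB.lim x ⟨hmem, hinj⟩ u hu
  have hBx : 1 - 2 * η < B (x 0) (x 1) := by
    have := hone (x 0) (x 1) hx h0' h1'
    linarith
  have hpos : 0 ≤ 1 - 2 * η := by linarith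
  filter_upwards [hlim.eventually (lt_mem_nhds hBx), self_mem_nhdsWithin,
    hu.mem Metric.isBounded_ball Metric.isOpen_ball hmem, eventually_lt_nhdsGT (s := 1 / 2) (by norm_num)]
    with a h2 ha h3 h4
  have ha' : (0 : ℝ) < a := ha
  set T := TT (Metric.ball (0 : ℂ) 1) a with hT
  set g := GB .plus T (u a) with hg
  set m := muT T (u a 0) (u a 1) with hm
  have hg0 : 0 ≤ g := GB_nonneg (by decide) _ _
  have hm0 : 0 ≤ m := muT_nonneg _ _ _
  have hratio : 0 < m / g := hpos.trans_lt h2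
  have hgne : g ≠ 0 := fun h => by rw [h, div_zero] at hratio; exact lt_irrefl _ hratio
  have hgp : 0 < g := lt_of_le_of_ne hg0 hgne.symm
  have h5 : (1 - 2 * η) * g < m := by rwa [lt_div_iff₀ hgp] at h2
  have h6 : m ≤ P (u a) := muT_le_plane hP h3
  have h7 : m ≤ GB .free (TT (Metric.ball (0 : ℂ) 2) a) (u a) :=
    muT_le_free (FT_ball ha' h4.le) h3
  have h8 : P (u a) ≤ g := plane_le_plus hP h3
  have hmp : 0 < m := by
    rw [div_pos_iff] at hratio
    rcases hratio with h | h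
    · exact h.1
    · exact absurd h.2 (not_lt.2 hg0)
  refine ⟨hmp.trans_le h6, ?_, ?_⟩
  · -- `g ≤ (1 + ε) m`
    have h9 : g ≤ (1 + ε) * m := by
      have : (1 + ε) * ((1 - 2 * η) * g) ≤ (1 + ε) * m :=
        mul_le_mul_of_nonneg_left h5.le (by positivity)
      have h10 : g ≤ (1 + ε) * ((1 - 2 * η) * g) := by
        have : (1 + ε) * ((1 - 2 * η) * g) = g + (ε - 2 * η * (1 + ε)) * g := by ring
        rw [this]
        have : 0 ≤ (ε - 2 * η * (1 + ε)) * g := mul_nonneg (by linarith) hg0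
        linarith
      linarith
    exact h9.trans (mul_le_mul_of_nonneg_left h6 (by positivity))
  · have h9 : (1 - ε) * P (u a) ≤ (1 - 2 * η) * P (u a) := by
      refine mul_le_mul_of_nonneg_right ?_ (hmp.le.trans h6)
      nlinarith
    have h10 : (1 - 2 * η) * P (u a) ≤ (1 - 2 * η) * g := mul_le_mul_of_nonneg_left h8 hpos
    linarith

/-- **S1** -/
theorem merge_of_mu {P : {n : ℕ} → (Fin n → ℤ × ℤ) → ℝ} (hP : PlaneLim P) {B : ℂ → ℂ → ℝ}
    (hB : MuIn B) : Merge P := by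
  intro c r hr z hz ε hε
  rw [mem_ball_iff_norm] at hz
  obtain ⟨δ', hδ', hδ2'⟩ := merge_unit hP hB hε
  obtain ⟨δ, hδ, hδ1, hδ2⟩ : ∃ δ > (0 : ℝ), δ ≤ 1 ∧ ∀ x : Fin 2 → ℂ, x 0 ≠ x 1 →
      ‖x 0‖ < δ → ‖x 1‖ < δ → ∀ u, LApp u x → ∀ᶠ a in 𝓝[>] (0 : ℝ), 0 < P (u a) ∧
        GB .plus (TT (Metric.ball (0 : ℂ) 1) a) (u a) ≤ (1 + ε) * P (u a) ∧
        (1 - ε) * P (u a) ≤ GB .free (TT (Metric.ball (0 : ℂ) 2) a) (u a) :=
    ⟨min δ' 1, lt_min hδ' one_pos, min_le_right _ _, fun x hx h0 h1 =>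
      hδ2' x hx (h0.trans_le (min_le_left _ _)) (h1.trans_le (min_le_left _ _))⟩
  set ρ := (r - ‖z - c‖) / 4 with hρ
  have hρ0 : 0 < ρ := by rw [hρ]; linarith
  refine ⟨δ * ρ, by positivity, fun x hx h0 h1 u hu => ?_⟩
  -- the rescaled approximation
  set y : Fin 2 → ℂ := fun i => (x i - z) / (ρ : ℂ) with hy
  set v : ℝ → Fin 2 → ℤ × ℤ := fun a i => u (a * ρ) i - meshIndex (a * ρ) z with hv
  have hvy : LApp v y := by
    intro i
    have h2 := (hu i).comp (tendsto_mul_pos hρ0)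
    have h3 := (lapp_meshIndex (fun _ : Fin 1 => z) 0).comp (tendsto_mul_pos hρ0)
    have h4 := ((h2.sub h3).div_const (ρ : ℂ))
    refine h4.congr fun a => ?_
    simp only [Function.comp, hv]
    rw [← meshPoint_sub, meshPoint_scale]
    have : (ρ : ℂ) ≠ 0 := Complex.ofReal_ne_zero.2 hρ0.ne'
    field_simp
  have hny : ∀ i, ‖y i‖ = ‖x i - z‖ / ρ := fun i => by
    simp only [hy]
    rw [norm_div, Complex.norm_real, Real.norm_of_nonneg hρ0.le]
  have hyne : y 0 ≠ y 1 := by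
    intro h
    apply hx
    have hne : (ρ : ℂ) ≠ 0 := Complex.ofReal_ne_zero.2 hρ0.ne'
    simp only [hy] at h
    have := (div_left_inj' hne).1 h
    exact sub_left_injective this
  have hev := hδ2 y hyne (by rw [hny, div_lt_iff₀ hρ0]; exact h0)
    (by rw [hny, div_lt_iff₀ hρ0]; exact h1) v hvy
  have hev2 := (tendsto_div_pos hρ0).eventually hev
  have hny2 : ∀ i, y i ∈ Metric.ball (0 : ℂ) 2 := by
    intro i
    rw [mem_ball_zero_iff, hny, div_lt_iff₀ hρ0]
    fin_cases i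
    · exact h0.trans_le (by nlinarith)
    · exact h1.trans_le (by nlinarith)
  filter_upwards [hev2, self_mem_nhdsWithin, eventually_lt_nhdsGT (s := ρ / 2) (by positivity),
    (tendsto_div_pos hρ0).eventually (hvy.mem Metric.isBounded_ball Metric.isOpen_ball hny2)]
    with a h2 ha h3 h4
  have ha' : (0 : ℝ) < a := ha
  have e1 : ∀ i, u a i = v (a / ρ) i + meshIndex a z := by
    intro i
    simp only [hv]
    rw [div_mul_cancel₀ _ hρ0.ne', sub_add_cancel]
  have e2 : u a = fun i => v (a / ρ) i + meshIndex a z := funext e1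
  have hPe : P (u a) = P (v (a / ρ)) := by rw [e2, P_add hP]
  have s1 : TT (Metric.ball (0 : ℂ) ρ) a = TT (Metric.ball (0 : ℂ) 1) (a / ρ) :=
    TT_ball_scale ha' hρ0
  have s2 : TT (Metric.ball (0 : ℂ) (2 * ρ)) a = TT (Metric.ball (0 : ℂ) 2) (a / ρ) := by
    rw [TT_ball_scale ha' (by positivity : 0 < 2 * ρ), TT_ball_scale (div_pos ha' hρ0) two_pos]
    congr 1
    field_simp
  rw [hPe]
  refine ⟨h2.1, ?_, ?_⟩
  · refine le_trans ?_ h2.2.1
    have hsub : (TT (Metric.ball (0 : ℂ) ρ) a).image (· + meshIndex a z) ⊆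
        TT (Metric.ball c r) a := TT_ball_add ha' (by rw [hρ] at h3 ⊢; linarith)
    rw [e2, ← s1, ← GB_plus_add (TT (Metric.ball (0 : ℂ) ρ) a) (v (a / ρ)) (meshIndex a z)]
    exact GB_plus_anti hsub _
  · refine h2.2.2.trans ?_
    have hsub : (TT (Metric.ball (0 : ℂ) (2 * ρ)) a).image (· + meshIndex a z) ⊆
        TT (Metric.ball c r) a := TT_ball_add ha' (by rw [hρ] at h3 ⊢; linarith)
    rw [e2, ← s2, ← GB_free_add (TT (Metric.ball (0 : ℂ) (2 * ρ)) a) (v (a / ρ)) (meshIndex a z)]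
    refine GB_free_mono hsub fun i => mem_image_of_mem _ ?_
    rw [s2]
    exact h4 i

end Crest.Agent.R165.U5bx697
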