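import Crest.Agent.R165.Kw7_871
import Crest.Agent.R165.Cov1_359
import Crest.Agent.R165.U5b_697

/-!
# Row 165 (S0250), block J/U (helper871): Kramers-Wannier in the names of 422 / 697 / 683

Corners `(X i, 3)`: the south-west corner of the face with lower left corner `X i`, i.e. at the site
`X i`; the corner field is `S + E + N + W`.

* `tot S f g = ∑_{i,j} S (f,i) (g,j)`
* `gE_eq_EX`, `GB_plus_eq`, `GB_free_eq`, `muT_eq`
* `mu_main` : `muT T (u 0) (u 1) = |tot S (u 0) (u 1)| * GB .plus T u`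
* `plus_ne` : `GB .plus T X ≠ 0` whenever the branched background has a covariance
* `free_main` : `GB .free T' X = |EE (covS S) (∏ φ(l_{X i}))| * GB .plus (starT T') X`
* `free_det` : `(GB .free T' X)² = det (tot S (X i) (X j)) * (GB .plus (starT T') X)²`
-/

set_option autoImplicit false
set_option linter.unusedSimpArgs false
set_option linter.unusedSectionVars false

noncomputable section

open Filter Topology
open Crest.ProbabilityR.IsingModel

namespace Crest.Agent.R165.Kw8x871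

open Crest.Agent.R165.Gr0x606 Crest.Agent.R165.Gr1x606 Crest.Agent.R165.J1ax606
  Crest.Agent.R165.J1bx606 Crest.Agent.R165.J1cx606 Crest.Agent.R165.Kw1x871
  Crest.Agent.R165.Kw2x871 Crest.Agent.R165.Kw3x871 Crest.Agent.R165.Kw4x871
  Crest.Agent.R165.Kw5x871 Crest.Agent.R165.Kw6x871 Crest.Agent.R165.Kw7x871
open KwHix408 KwLox408 J4Defx653 J2ax606
open Gk0x422 Gk1x422 U5Px422 U5bx697
open Latx683 (IsCov wX wDom BW ray)

/-! ### expectations -/

theorem Kc_eq : Kc = criticalBeta 1 := rfl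

theorem wt_eq (E : Finset (EG ℤ)) (s : ℤ × ℤ → Bool) :
    wt Kc zp zq E s = Real.cosh (criticalBeta 1) ^ E.card * ∏ e ∈ E, (1 + KwHix408.xc * epsE s e) := by
  unfold wt
  rw [← Finset.prod_const, ← Finset.prod_mul_distrib]
  refine Finset.prod_congr rfl fun e _ => ?_
  rw [← exp_sign _ (epsE_sign s e)]
  rfl

theorem gE_eq_EX (T : Finset (ℤ × ℤ)) (b : BoundaryCondition) (hb : b.exterior = true)
    (E : Finset (EG ℤ)) (hE : E ⊆ J4Defx653.EE T b) (F : (ℤ × ℤ → Bool) → ℝ) :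
    gE T b (fun e => if e ∈ E then KwHix408.xc else 0) F = EX Kc zp zq T E F := by
  have hp : ∀ s : ℤ × ℤ → Bool,
      ∏ e ∈ J4Defx653.EE T b, (1 + (if e ∈ E then KwHix408.xc else 0) * epsE s e) =
        ∏ e ∈ E, (1 + KwHix408.xc * epsE s e) := by
    intro s
    rw [← Finset.prod_subset hE]
    · exact Finset.prod_congr rfl fun e he => by rw [if_pos he]
    · intro e _ he
      rw [if_neg he]; simp
  have hc : Real.cosh (criticalBeta 1) ^ E.card ≠ 0 := pow_ne_zero _ (Real.cosh_pos _).ne'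
  have h1 : ∀ F : (ℤ × ℤ → Bool) → ℝ, ZZ Kc zp zq T E F =
      Real.cosh (criticalBeta 1) ^ E.card * ∑ σ : T → Bool, F (extendConfig T b σ) *
        ∏ e ∈ J4Defx653.EE T b, (1 + (if e ∈ E then KwHix408.xc else 0) * epsE (extendConfig T b σ) e) := by
    intro F
    rw [sum_extendConfig T b hb (fun s => F s *
      ∏ e ∈ J4Defx653.EE T b, (1 + (if e ∈ E then KwHix408.xc else 0) * epsE s e)), ZZ, Finset.mul_sum]
    refine Finset.sum_congr rfl fun A _ => ?_
    rw [hp, wt_eq]; ring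
  have h2 := h1 (fun _ => 1)
  simp only [one_mul] at h2
  unfold gE EX
  rw [h1 F, h2, mul_div_mul_left _ _ hc]

theorem plusE_eq (T : Finset (ℤ × ℤ)) : plusE T = J4Defx653.EE T .plus := by
  ext e
  rw [mem_plusE, mem_EE]
  simp only [reduceCtorEq, false_imp_iff, true_and]
  rfl

theorem freeE_eq (T : Finset (ℤ × ℤ)) : freeE T = J4Defx653.EE T .free := by
  ext e
  rw [mem_freeE, mem_EE]
  unfold zp zq
  tauto

theorem plusE_touch (T : Finset (ℤ × ℤ)) : plusE T = touch T := by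
  rw [plusE_eq, EE_plus]

theorem GB_plus_eq (T : Finset (ℤ × ℤ)) {n : ℕ} (u : Fin n → ℤ × ℤ) :
    GB .plus T u = gE T .plus (fun _ => KwHix408.xc) (sp u) := by
  have h := gE_eq_EX T .plus rfl (plusE T) (plusE_eq T).le (sp u)
  rw [gE_congr (w' := fun _ => KwHix408.xc)] at h
  · exact h.symm
  · intro e he
    rw [if_pos]
    rw [plusE_eq]; exact he

theorem GB_free_eq (T : Finset (ℤ × ℤ)) {n : ℕ} (u : Fin n → ℤ × ℤ) :
    GB .free T u = gE T .free (fun _ => KwHix408.xc) (sp u) := by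
  have h := gE_eq_EX T .free rfl (freeE T) (freeE_eq T).le (sp u)
  rw [gE_congr (w' := fun _ => KwHix408.xc)] at h
  · exact h.symm
  · intro e he
    rw [if_pos]
    rw [freeE_eq]; exact he

theorem dualB_eq (e : EG ℤ) : dualB e = dI e := by
  obtain ⟨z, j⟩ := e
  fin_cases j <;> simp [dualB, od, dI, unitVec]

theorem mem_dE (T : Finset (ℤ × ℤ)) (e : EG ℤ) : e ∈ U5bx697.dE T ↔ Kw5x871.dE e ∈ touch T := by
  unfold U5bx697.dE
  rw [Finset.mem_image]
  constructor
  · rintro ⟨b, hb, rfl⟩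
    rw [dualB_eq, dE_dI, ← plusE_touch]; exact hb
  · intro h
    exact ⟨_, (plusE_touch T).symm ▸ h, by rw [dualB_eq, dI_dE]⟩

theorem muT_eq (T : Finset (ℤ × ℤ)) (f g : ℤ × ℤ) :
    muT T f g = gE (FT T) .free (wB (touch T) fun _ => KwHix408.xc) (sp ![f, g]) := by
  unfold muT
  rw [← gE_eq_EX (FT T) .free rfl (U5bx697.dE T) ((dE_subset T).trans (freeE_eq _).le)]
  refine gE_congr (fun e _ => ?_) _
  unfold wB
  simp only [mem_dE]

/-! ### corners -/

/-- the south-west corners of the faces `X i` -/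
def cX {n : ℕ} (X : Fin n → ℤ × ℤ) : List (HE ℤ) := List.ofFn fun i => ((X i, 3) : HE ℤ)

theorem cv_three (f : ℤ × ℤ) : cv ((f, 3) : HE ℤ) = f := by
  unfold cv
  ext <;> simp

theorem cX_fst {n : ℕ} (X : Fin n → ℤ × ℤ) : (cX X).map Prod.fst = List.ofFn X := by
  unfold cX
  rw [List.map_ofFn]
  rfl

theorem cX_cv {n : ℕ} (X : Fin n → ℤ × ℤ) : (cX X).map cv = List.ofFn X := by
  unfold cX
  rw [List.map_ofFn]
  congr 1
  funext i
  exact cv_three _

theorem cX_nodup {n : ℕ} {X : Fin n → ℤ × ℤ} (hX : Function.Injective X) :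
    ((cX X).map Prod.fst).Nodup := by
  rw [cX_fst]
  exact List.nodup_ofFn.2 hX

theorem rayS_eq {n : ℕ} (X : Fin n → ℤ × ℤ) (e : EG ℤ) :
    rayS (List.ofFn X) e = ray X e.1 e.2 := by
  unfold rayS ray
  rw [List.map_ofFn, List.prod_ofFn]
  refine Finset.prod_congr rfl fun i _ => ?_
  simp only [Function.comp]
  by_cases h : e.2 = 0 ∧ (X i).2 = e.1.2 ∧ (X i).1 ≤ e.1.1
  · rw [if_pos h, if_pos ⟨h.1, h.2.1.symm, h.2.2⟩]
  · rw [if_neg h, if_neg]
    rintro ⟨h1, h2, h3⟩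
    exact h ⟨h1, h2.symm, h3⟩

theorem sp_cv {n : ℕ} (X : Fin n → ℤ × ℤ) (σ : ℤ × ℤ → Bool) :
    ((cX X).map fun h => spinSign (σ (cv h))).prod = sp X σ := by
  have : ((cX X).map fun h => spinSign (σ (cv h))) = ((cX X).map cv).map fun v => spinSign (σ v) := by
    rw [List.map_map]; rfl
  rw [this, cX_cv, List.map_ofFn, List.prod_ofFn]
  rfl

theorem sB_cX {n : ℕ} {X : Fin n → ℤ × ℤ} (hX : Function.Injective X) (σ : ℤ × ℤ → Bool) :
    sB σ ((cX X).map Prod.fst).toFinset = sp X σ := by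
  rw [cX_fst]
  have h : (List.ofFn X).toFinset = Finset.univ.image X := by
    ext v
    rw [List.mem_toFinset, List.mem_ofFn, Finset.mem_image]
    simp
  rw [h, sB, Finset.prod_image fun a _ b _ h => hX h]
  rfl

theorem cX_mem {n : ℕ} {X : Fin n → ℤ × ℤ} {T : Finset (ℤ × ℤ)} (hX : ∀ i, X i ∈ T) :
    ∀ c ∈ cX X, c.1 ∈ T := by
  intro c hc
  unfold cX at hc
  rw [List.mem_ofFn] at hc
  obtain ⟨i, rfl⟩ := hc
  exact hX i

/-- total of the kernel between two faces -/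
def tot (S : HE ℤ → HE ℤ → ℝ) (f g : ℤ × ℤ) : ℝ := ∑ i : Fin 4, ∑ j : Fin 4, S (f, i) (g, j)

theorem b_lf_three {S : HE ℤ → HE ℤ → ℝ} (hS : ∀ i j, S i j = -S j i) (f g : ℤ × ℤ) :
    (covOf S hS).b (lf ((f, 3) : HE ℤ)) (lf ((g, 3) : HE ℤ)) = tot S f g := by
  rw [b_lf]
  unfold tot
  refine Finset.sum_congr rfl fun i _ => Finset.sum_congr rfl fun j _ => ?_
  have h1 : i ≤ (3 : Fin 4) := Fin.le_last i
  have h2 : j ≤ (3 : Fin 4) := Fin.le_last j
  rw [if_pos h1, if_pos h2]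
  ring

/-! ### weights -/

theorem wX_weights {n : ℕ} (w : BW ℤ) (X : Fin n → ℤ × ℤ) (B : Finset (EG ℤ))
    (hw : ∀ e : EG ℤ, w e.1 e.2 = if e ∈ B then KwHix408.xc else 0) :
    (∀ e, e ∉ B → Covx359.un (wX w X) e = 0) ∧
      ∀ e ∈ B, Covx359.un (wX w X) e = rayS ((cX X).map cv) e * KwHix408.xc := by
  constructor
  · intro e he
    obtain ⟨z, j⟩ := e
    rw [Covx359.un_apply, wX, hw (z, j), if_neg he, mul_zero]
  · intro e he
    obtain ⟨z, j⟩ := e
    rw [Covx359.un_apply, wX, cX_cv, rayS_eq, hw (z, j), if_pos he]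

theorem wDom_weights (T : Finset (ℤ × ℤ)) (e : EG ℤ) :
    wDom (T : Set (ℤ × ℤ)) false e.1 e.2 = if e ∈ touch T then KwHix408.xc else 0 :=
  Covx359.wDom_plus_eq T e

/-! ### plus background -/

/-- the spin correlation is not zero if the branched background has a covariance -/
theorem plus_ne {T : Finset (ℤ × ℤ)} (hT : NoHole T) {n : ℕ} {X : Fin n → ℤ × ℤ}
    {S : HE ℤ → HE ℤ → ℝ} (hS : IsCov (wX (wDom (T : Set (ℤ × ℤ)) false) X) S) :
    GB .plus T X ≠ 0 := by
  have hw := wX_weights (wDom (T : Set (ℤ × ℤ)) false) X (touch T) (wDom_weights T)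
  have hI := Covx359.isInv_of_isCov hS
  have h1 := Z_ne_zero_of_inv hI (touch T) hw.1
  have h2 : PP (Covx359.un (wX (wDom (T : Set (ℤ × ℤ)) false) X)) (touch T) =
      ∏ e ∈ touch T, (1 + (rayS ((cX X).map cv) e * KwHix408.xc) • bb e) := by
    unfold PP
    exact Finset.prod_congr rfl fun e he => by rw [hw.2 e he]
  rw [h2, KW_den (sg_rayS _) (flux_ray (cX X)) (fills_touch hT)] at h1
  rw [GB_plus_eq, gE_plus]
  have h3 : ∀ N : Finset (ℤ × ℤ), sp X (sN N) = spns N (cX X) := by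
    intro N
    rw [← spin_list, sp_cv]
  simp only [h3]
  simp only [Finset.prod_const] at h1
  refine div_ne_zero h1 (ne_of_gt ?_)
  refine Finset.sum_pos (fun N _ => pow_pos KwHix408.xc_pos _) ⟨∅, by simp⟩

/-- **the ratio of the dual free and the plus two-point function is a covariance** -/
theorem mu_main {T : Finset (ℤ × ℤ)} (hT : NoHole T) {u : Fin 2 → ℤ × ℤ} (hu : u 0 ≠ u 1)
    (huT : ∀ i, u i ∈ T) {S : HE ℤ → HE ℤ → ℝ}
    (hS : IsCov (wX (wDom (T : Set (ℤ × ℤ)) false) u) S) :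
    muT T (u 0) (u 1) = |tot S (u 0) (u 1)| * GB .plus T u := by
  have hinj : Function.Injective u := by
    intro i j hij
    fin_cases i <;> fin_cases j
    · rfl
    · exact absurd hij hu
    · exact absurd hij.symm hu
    · rfl
  have hw := wX_weights (wDom (T : Set (ℤ × ℤ)) false) u (touch T) (wDom_weights T)
  have hI := Covx359.isInv_of_isCov hS
  have hTT : ∀ e, Kw5x871.dE e ∈ touch T → e ∈ J4Defx653.EE (FT T) .free := by
    intro e he
    rw [← freeE_eq]
    exact dE_subset T ((mem_dE T e).2 he)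
  have h := KW_touch_inv (cX_nodup hinj) (sg_rayS _) (flux_ray (cX u)) hT
    (cX_mem fun i => mem_FT (huT i)) hTT hI hw.1 hw.2
  simp only [sB_cX hinj, sp_cv] at h
  have e2 : (![u 0, u 1] : Fin 2 → ℤ × ℤ) = u := by funext i; fin_cases i <;> rfl
  have h3 : Gr0x606.EE (covOf S hI.anti) (lfs (cX u)) = tot S (u 0) (u 1) := by
    have h4 : lfs (cX u) = fi (lf ((u 0, 3) : HE ℤ)) * fi (lf ((u 1, 3) : HE ℤ)) := by
      unfold cX
      rw [List.ofFn_succ, List.ofFn_succ, List.ofFn_zero, lfs_cons, lfs_cons, lfs_nil, mul_one]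
      rfl
    rw [h4, EE_fi_fi, b_lf_three]
  rw [h3] at h
  have h5 : gE (FT T) .free (wB (touch T) fun _ => KwHix408.xc) (fun σ => sp u σ) =
      muT T (u 0) (u 1) := by rw [muT_eq, e2]
  have h6 : gE T .plus (fun _ => KwHix408.xc) (fun σ => sp u σ) = GB .plus T u := by rw [GB_plus_eq]
  rw [h5, h6, abs_of_nonneg (muT_nonneg _ _ _), abs_of_nonneg (GB_nonneg (by decide) _ _)] at h
  exact h

/-! ### free background -/

/-- **free correlations of `n` spins**: `w` = the weights of the half-edge system on the nodes,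
`xc` on the duals of the bonds inside `T'`, `0` elsewhere -/
theorem free_main {T' : Finset (ℤ × ℤ)} (hT : NoHole T') {n : ℕ} {X : Fin n → ℤ × ℤ}
    (hinj : Function.Injective X) (hX : ∀ i, X i ∈ T') {w : BW ℤ}
    (hw : ∀ e : EG ℤ, w e.1 e.2 =
      if e ∈ (J4Defx653.EE T' .free).image Kw5x871.dE then KwHix408.xc else 0)
    {S : HE ℤ → HE ℤ → ℝ} (hS : IsCov (wX w X) S) (hanti : ∀ i j, S i j = -S j i) :
    GB .free T' X = |Gr0x606.EE (covOf S hanti) (lfs (cX X))| * GB .plus (starT T') X := by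
  have hw2 := wX_weights w X _ hw
  have hI := Covx359.isInv_of_isCov hS
  have h := KW_free_inv (cX_nodup hinj) (sg_rayS _) (flux_ray (cX X)) hT (cX_mem hX) hI hw2.1 hw2.2
  simp only [sB_cX hinj, sp_cv] at h
  have h5 : gE T' .free (fun _ => KwHix408.xc) (fun σ => sp X σ) = GB .free T' X := by
    rw [GB_free_eq]
  have h6 : gE (starT T') .plus (fun _ => KwHix408.xc) (fun σ => sp X σ) =
      GB .plus (starT T') X := by rw [GB_plus_eq]
  rw [h5, h6, abs_of_nonneg (GB_nonneg (by decide) _ _),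
    abs_of_nonneg (GB_nonneg (by decide) _ _)] at h
  exact h

/-- the matrix of the corner kernels -/
def Mt {n : ℕ} (S : HE ℤ → HE ℤ → ℝ) (X : Fin n → ℤ × ℤ) : Matrix (Fin n) (Fin n) ℝ :=
  Matrix.of fun i j => tot S (X i) (X j)

theorem lfs_cX {n : ℕ} (X : Fin n → ℤ × ℤ) :
    lfs (cX X) = PfDetx408.pr fun i => lf ((X i, 3) : HE ℤ) := by
  unfold cX
  induction n with
  | zero => simp [lfs]
  | succ n ih =>
    rw [List.ofFn_succ, lfs_cons, PfDetx408.pr_succ, ih (fun i => X i.succ)]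

theorem EE_lfs_sq {S : HE ℤ → HE ℤ → ℝ} (hS : ∀ i j, S i j = -S j i) {n : ℕ} (X : Fin n → ℤ × ℤ) :
    (Gr0x606.EE (covOf S hS) (lfs (cX X))) ^ 2 = (Mt S X).det := by
  rw [lfs_cX, EE_pr_sq]
  congr 1
  ext i j
  exact b_lf_three hS _ _

/-- **free correlations of `n` spins, determinant form** -/
theorem free_det {T' : Finset (ℤ × ℤ)} (hT : NoHole T') {n : ℕ} {X : Fin n → ℤ × ℤ}
    (hinj : Function.Injective X) (hX : ∀ i, X i ∈ T') {w : BW ℤ}
    (hw : ∀ e : EG ℤ, w e.1 e.2 =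
      if e ∈ (J4Defx653.EE T' .free).image Kw5x871.dE then KwHix408.xc else 0)
    {S : HE ℤ → HE ℤ → ℝ} (hS : IsCov (wX w X) S) :
    (GB .free T' X) ^ 2 = (Mt S X).det * (GB .plus (starT T') X) ^ 2 := by
  have hanti := hS.skew
  rw [free_main hT hinj hX hw hS hanti, mul_pow, sq_abs, EE_lfs_sq]

/-- membership in the dual bonds inside `T'` -/
theorem mem_in {T' : Finset (ℤ × ℤ)} (z : ℤ × ℤ) :
    (((z, 0) : EG ℤ) ∈ (J4Defx653.EE T' .free).image Kw5x871.dE ↔ z - (0, 1) ∈ T' ∧ z ∈ T') ∧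
    (((z, 1) : EG ℤ) ∈ (J4Defx653.EE T' .free).image Kw5x871.dE ↔ z - (1, 0) ∈ T' ∧ z ∈ T') := by
  constructor
  · rw [mem_image_dE, mem_EE]
    simp only [dI, if_true, unitVec, one_ne_zero, if_false, sub_add_cancel]
    tauto
  · rw [mem_image_dE, mem_EE]
    simp only [dI, one_ne_zero, if_false, unitVec, if_true, sub_add_cancel]
    tauto

end Crest.Agent.R165.Kw8x871
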