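import Crest.Agent.R165.LdGen2_817
import Crest.Agent.R165.Eval_644

/-!
# Row 165 (S0250), block U (helper817): logarithmic derivatives from resolvent convergence, III

`ldd_of` : `LDD n D Z g` for some `g`, from `RC`, the STEP identities and positivity.
-/

set_option autoImplicit false

noncomputable section

open MeasureTheory Filter Topology Set Metric
open Crest.ProbabilityR.IsingModel

namespace Crest.Agent.R165.LdGenx817

open Crest.Agent.R165.Mac0x622 (Om)
open Crest.Agent.R165.Latx683 Crest.Agent.R165.Br1x644 Crest.Agent.R165.Gr2x813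
open Crest.Agent.R165.Gr3x813 Crest.Agent.R165.PsiLx375 Crest.Agent.R165.LogDx813
open Crest.Agent.R165.Br5x644 (PsiS2 PsiN2 PsiN2_lS2)
open Crest.Agent.R165.PathIntx641 (mc sh)
open Crest.Agent.R165.PathSeqx641 (NF nf_fst nf_mc nf_pos UC qv tendsto_nf_iff UC.of_seq)
open Crest.Agent.R165.PathGlx641 (LDD)
open Crest.Agent.R165.UKerx420 (kap kap_sq fpt)
open Crest.Agent.R165.ConfTopx641
open Crest.Agent.R165.Evalx644 (lsg ev_kap)

variable {n : ℕ} {D : Set ℂ} {w : ℝ → BW ℤ}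

/-- data along a filter, pulled back -/
theorem dat_comp {κ κ' : Type*} {l : Filter κ} {l' : Filter κ'} {a : κ → ℝ} {W : κ → BW ℤ}
    {X : κ → ℤ × ℤ} {σ : κ → ℤ × ℤ → ℝ} {S : κ → HE ℤ → HE ℤ → ℝ} {x₀ : ℂ} {δ : ℝ}
    (H : Dat l a W X σ S x₀ δ) {u : κ' → κ} (hu : Tendsto u l' l) :
    Dat l' (fun k => a (u k)) (fun k => W (u k)) (fun k => X (u k)) (fun k => σ (u k))
      (fun k => S (u k)) x₀ δ :=
  ⟨H.ha.comp hu, H.hX.comp hu, fun k f => H.sq (u k) f, H.dpos, hu.eventually H.loc,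
    hu.eventually H.cov⟩

/-- weights equal to `x_c` inside `D` -/
def Inn (D : Set ℂ) (w : ℝ → BW ℤ) : Prop :=
  ∀ K : Set ℂ, IsCompact K → K ⊆ D →
    ∀ᶠ a in 𝓝[>] (0 : ℝ), ∀ z j, meshPoint a z ∈ K → w a z j = Latx683.xc

/-- the local data along `NF x` -/
theorem dat_nf (hD : IsOpen D) (hw : Inn D w) {x : Fin n → ℂ} (hx : x ∈ Conf n D)
    {S : ℝ × (Fin n → ℤ × ℤ) → HE ℤ → HE ℤ → ℝ}
    (hS : ∀ᶠ p : ℝ × (Fin n → ℤ × ℤ) in NF x, IsCov (wX (w p.1) p.2) (S p)) (i : Fin n) :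
    ∃ δ : ℝ, 0 < δ ∧ (∀ z, z ≠ x i → ‖z - x i‖ < δ → z ∈ Om D x) ∧
      Dat (NF x) (fun p => p.1) (fun p => wX (w p.1) p.2)
        (fun p => p.2 i) (fun p => kap x p.2 (x i)) S (x i) δ := by
  obtain ⟨δ1, hδ1, hgood⟩ := ev_good hx.2 i
  obtain ⟨δ3, hδ3, hball⟩ := Metric.nhds_basis_closedBall.mem_iff.1 (hD.mem_nhds (hx.1 i))
  obtain ⟨δ2, hδ2, hsep⟩ : ∃ δ : ℝ, 0 < δ ∧ ∀ j, j ≠ i → δ ≤ ‖x j - x i‖ := by
    classical
    have h1 : ∀ j, ∃ δ : ℝ, 0 < δ ∧ (j ≠ i → δ ≤ ‖x j - x i‖) := by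
      intro j
      by_cases hj : j = i
      · exact ⟨1, one_pos, fun h => absurd hj h⟩
      · exact ⟨‖x j - x i‖, norm_pos_iff.2 (sub_ne_zero.2 fun h => hj (hx.2 h)), fun _ => le_rfl⟩
    choose δ hδ hδ' using h1
    have hne : (Finset.univ : Finset (Fin n)).Nonempty := ⟨i, Finset.mem_univ i⟩
    exact ⟨Finset.univ.inf' hne δ, (Finset.lt_inf'_iff hne).2 fun j _ => hδ j, fun j hj =>
      (Finset.inf'_le _ (Finset.mem_univ j)).trans (hδ' j hj)⟩
  have hin := hw (Metric.closedBall (x i) δ3) (isCompact_closedBall _ _) hball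
  have hm : 0 < min δ1 (min δ2 (δ3 / 2)) := lt_min hδ1 (lt_min hδ2 (half_pos hδ3))
  refine ⟨min δ1 (min δ2 (δ3 / 2)), hm, fun z hzi hz => ⟨hball ?_, ?_⟩, ?_⟩
  · rw [Metric.mem_closedBall, dist_eq_norm]
    have := (min_le_right δ1 (min δ2 (δ3 / 2))).trans (min_le_right δ2 (δ3 / 2))
    linarith
  · rintro ⟨j, rfl⟩
    have hj : j ≠ i := fun h => hzi (by rw [h])
    have h1 := hsep j hj
    have h2 := (min_le_right δ1 (min δ2 (δ3 / 2))).trans (min_le_left δ2 (δ3 / 2))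
    linarith
  refine ⟨nf_fst x, tendsto_pi_nhds.1 (nf_mc x) i, fun p f => kap_sq x p.2 (x i) f, hm, ?_, hS⟩
  have hin' := (nf_fst x).eventually hin
  have hsm : ∀ᶠ p : ℝ × (Fin n → ℤ × ℤ) in NF x, p.1 < δ3 / 2 :=
    ((nf_fst x).mono_right nhdsWithin_le_nhds).eventually (gt_mem_nhds (half_pos hδ3))
  filter_upwards [hgood, hin', hsm, nf_pos x] with p h1 h2 h3 h4 f hf
  refine locAt_wX ?_ (h1 f (hf.trans_le (min_le_left _ _)))
  have hf3 : ‖meshPoint p.1 f - x i‖ < δ3 / 2 :=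
    hf.trans_le ((min_le_right _ _).trans (min_le_right _ _))
  have key : ∀ g : ℤ × ℤ, ‖meshPoint p.1 g - meshPoint p.1 f‖ ≤ p.1 →
      meshPoint p.1 g ∈ Metric.closedBall (x i) δ3 := by
    intro g hg
    rw [Metric.mem_closedBall, dist_eq_norm]
    have e : meshPoint p.1 g - x i =
      (meshPoint p.1 g - meshPoint p.1 f) + (meshPoint p.1 f - x i) := by ring
    rw [e]
    exact (norm_add_le _ _).trans (by linarith)
  have k0 := key f (by rw [sub_self, norm_zero]; exact h4.le)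
  have k1 := key (f.1 + 1, f.2) (by
    have e : meshPoint p.1 (f.1 + 1, f.2) - meshPoint p.1 f = (p.1 : ℂ) := by
      apply Complex.ext <;> simp [meshPoint]
      ring
    rw [e, Complex.norm_real, Real.norm_eq_abs, abs_of_pos h4])
  have k2 := key (f.1, f.2 + 1) (by
    have e : meshPoint p.1 (f.1, f.2 + 1) - meshPoint p.1 f = (p.1 : ℂ) * Complex.I := by
      apply Complex.ext <;> simp [meshPoint]
      ring
    rw [e, norm_mul, Complex.norm_I, mul_one, Complex.norm_real, Real.norm_eq_abs, abs_of_pos h4])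
  intro d
  fin_cases d
  · have h5 := h2 f 0 k0
    change ew _ f 0 = _
    rw [ew_zero]
    unfold yN
    simp only [sub_add_cancel]
    exact h5
  · exact h2 _ _ k1
  · exact h2 _ _ k2
  · have h5 := h2 f 1 k0
    change ew _ f 3 = _
    rw [ew_three]
    unfold yE
    simp only [sub_add_cancel]
    exact h5

/-- the STEP identities (three steps of one spin) -/
structure Step3 (Z : ℝ → (Fin n → ℤ × ℤ) → ℝ) (W : BW ℤ) (p : ℝ × (Fin n → ℤ × ℤ))
    (S : HE ℤ → HE ℤ → ℝ) : Prop where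
  cov : IsCov W S
  s11 : ∀ i, Z p.1 (sh p.2 i (1, 1)) / Z p.1 p.2 = formS S (lN W (p.2 i)) (lS W (p.2 i))
  s1m : ∀ i, Z p.1 (sh p.2 i (1, -1)) / Z p.1 p.2 = formS S (lS2 W (p.2 i)) (lN2 W (p.2 i))
  s10 : ∀ i, Z p.1 (sh p.2 i (1, 0)) / Z p.1 p.2 =
    1 - 2 * W (p.2 i) 0 * S (hp (p.2 i) 0) (hq (p.2 i) 0)

/-- `l_S` at the half-edge `(X, S)` -/
theorem col_lS_X {W : BW ℤ} {S : HE ℤ → HE ℤ → ℝ} (hS : IsCov W S) (X : ℤ × ℤ) :
    col S (lS W X) (X, 0) = -(W X 0 * S (hp X 0) (hq X 0)) := by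
  unfold col
  rw [pr_lS]
  have h1 := hS.skew (X, 0) (X, 0)
  have h2 : S (X, 0) (X, 0) = 0 := by linarith
  have h3 : yN W (X.1, X.2 - 1) = W X 0 := by
    unfold yN; simp
  rw [h2, h3, hp_zero, hq_zero]; ring

theorem abs_lsg (x : Fin n → ℂ) (i : Fin n) (z : ℂ) : |lsg x i z| ≤ 1 := by
  have h := Evalx644.lsg_sq x i z
  exact (LogDx813.abs_sq h).le

theorem measurable_lsg (x : Fin n → ℂ) (i : Fin n) : Measurable fun z => lsg x i z := by
  classical
  unfold lsg
  refine Finset.measurable_fun_prod _ fun j _ => ?_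
  by_cases hc : (x j).im = (x i).im ∧ (x j).re < (x i).re
  · have : (fun z : ℂ => if (x j).im = (x i).im ∧ (x j).re < (x i).re ∧ z.im < (x i).im
        then (-1 : ℝ) else 1) = fun z => if z.im < (x i).im then (-1 : ℝ) else 1 := by
      funext z
      simp [hc.1, hc.2]
    rw [this]
    exact Measurable.ite (measurableSet_lt Complex.measurable_im measurable_const)
      measurable_const measurable_const
  · have : (fun z : ℂ => if (x j).im = (x i).im ∧ (x j).re < (x i).re ∧ z.im < (x i).im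
        then (-1 : ℝ) else 1) = fun _ => 1 := by
      funext z
      rw [if_neg fun h => hc ⟨h.1, h.2.1⟩]
    rw [this]
    exact measurable_const

/-- limit of the gauge -/
theorem lim_kap {x : Fin n → ℂ} {a : ℕ → ℝ} {X : ℕ → Fin n → ℤ × ℤ} (hpos : ∀ k, 0 < a k)
    (hlim : Tendsto a atTop (𝓝 0))
    (htip : ∀ i, Tendsto (fun k => meshPoint (a k) (X k i)) atTop (𝓝 (x i))) (i : Fin n) :
    ∀ᵐ z : ℂ, Tendsto (fun k => kap x (X k) (x i) (meshIndex (a k) z)) atTop
      (𝓝 (lsg x i z)) := by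
  have hae : ∀ᵐ z : ℂ, ∀ j, z.im ≠ (x j).im := ae_all_iff.2 fun j => Evalx644.ae_im_ne _
  filter_upwards [hae] with z hz
  have hat : Tendsto a atTop (𝓝[>] 0) :=
    tendsto_nhdsWithin_iff.2 ⟨hlim, Eventually.of_forall hpos⟩
  have h := ev_kap (l := atTop) (a := a) (X := X) (f := fun k => meshIndex (a k) z)
    (Eventually.of_forall hpos) htip (Pairx599.tendsto_meshPoint hat z) hz i
  exact tendsto_const_nhds.congr' (h.mono fun k hk => hk.1.symm)

theorem sumN : ∑ g ∈ bS, Aop wB PsiS g * PsiN g = 1 := by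
  rw [sum_bS, AS_0, AS_1]
  have := PsiN_lS
  linear_combination -this

theorem sumN2 : ∑ g ∈ bS, Aop wB PsiS2 g * PsiN2 g = -1 := by
  rw [sum_bS, AS2_0, AS2_1]
  have := PsiN2_lS2
  linear_combination -this

/-- **logarithmic derivatives from resolvent convergence** -/
theorem ldd_of (hD : IsOpen D) (hc : IsPreconnected D) (hw : Inn D w)
    {Z : ℝ → (Fin n → ℤ × ℤ) → ℝ}
    (hRC : ∀ x ∈ Conf n D, RC D x w)
    (hpos : ∀ x ∈ Conf n D, ∀ᶠ p : ℝ × (Fin n → ℤ × ℤ) in NF x, 0 < Z p.1 p.2)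
    (hst : ∀ x ∈ Conf n D, ∀ᶠ p : ℝ × (Fin n → ℤ × ℤ) in NF x,
      ∃ S, Step3 Z (wX (w p.1) p.2) p S) :
    ∃ g : Fin n → Fin 2 → (Fin n → ℂ) → ℝ, LDD n D Z g := by
  classical
  -- the covariance
  set S : ℝ × (Fin n → ℤ × ℤ) → HE ℤ → HE ℤ → ℝ := fun p =>
    if h : ∃ S, Step3 Z (wX (w p.1) p.2) p S then h.choose else fun _ _ => 0 with hSdef
  have hS : ∀ x ∈ Conf n D, ∀ᶠ p : ℝ × (Fin n → ℤ × ℤ) in NF x,
      Step3 Z (wX (w p.1) p.2) p (S p) := by
    intro x hx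
    filter_upwards [hst x hx] with p hp
    simp only [hSdef, dif_pos hp]
    exact hp.choose_spec
  -- the limits
  have main : ∀ x : Fin n → ℂ, ∃ L : Fin n → Fin 3 → ℝ, x ∈ Conf n D → ∀ (i : Fin n)
      (a : ℕ → ℝ) (X : ℕ → Fin n → ℤ × ℤ), (∀ k, 0 < a k) → Tendsto a atTop (𝓝 0) →
      Tendsto (fun k => mc (a k) (X k)) atTop (𝓝 x) →
      Tendsto (fun k => qv Z i (1, 1) (a k, X k)) atTop (𝓝 (L i 0)) ∧
      Tendsto (fun k => qv Z i (1, -1) (a k, X k)) atTop (𝓝 (L i 1)) ∧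
      Tendsto (fun k => Z (a k) (sh (X k) i (1, 0)) / Z (a k) (X k)) atTop (𝓝 (L i 2)) := by
    intro x
    by_cases hx : x ∈ Conf n D
    swap
    · exact ⟨fun _ _ => 0, fun h => absurd h hx⟩
    have h1 : ∀ i : Fin n, ∃ L : Fin 3 → ℝ, ∀ (a : ℕ → ℝ) (X : ℕ → Fin n → ℤ × ℤ),
        (∀ k, 0 < a k) → Tendsto a atTop (𝓝 0) →
        Tendsto (fun k => mc (a k) (X k)) atTop (𝓝 x) →
        Tendsto (fun k => qv Z i (1, 1) (a k, X k)) atTop (𝓝 (L 0)) ∧
        Tendsto (fun k => qv Z i (1, -1) (a k, X k)) atTop (𝓝 (L 1)) ∧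
        Tendsto (fun k => Z (a k) (sh (X k) i (1, 0)) / Z (a k) (X k)) atTop (𝓝 (L 2)) := by
      intro i
      obtain ⟨δ, hδ, hball, hdat⟩ := dat_nf hD hw hx
        ((hS x hx).mono fun p h => h.cov) i
      obtain ⟨L0, -, hL0⟩ := step_lim hD (hRC x hx) hδ hball srcD_N srcD_S bS_S bS_near
        (measurable_lsg x i) (abs_lsg x i)
      obtain ⟨L1, -, hL1⟩ := step_lim hD (hRC x hx) hδ hball srcD_N2 srcD_S2 bS_S2 bS_near
        (measurable_lsg x i) (abs_lsg x i)
      obtain ⟨L2, hz2, hL2⟩ := step_lim hD (hRC x hx) hδ hball srcD_D srcD_S bS_S bS_near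
        (measurable_lsg x i) (abs_lsg x i)
      refine ⟨![L0, -L1, 1 + 2 * (-(Latx683.xc / (1 - Latx683.xc ^ 2)) *
        (L2 + ∑ g ∈ bS, Aop wB PsiS g * (PsiS2 - PsiS) g))], fun a X hp hl hm => ?_⟩
      have htip : ∀ j, Tendsto (fun k => meshPoint (a k) (X k j)) atTop (𝓝 (x j)) :=
        fun j => tendsto_pi_nhds.1 hm j
      have hnf : Tendsto (fun k => ((a k, X k) : ℝ × (Fin n → ℤ × ℤ))) atTop (NF x) :=
        tendsto_nf_iff.2 ⟨tendsto_nhdsWithin_iff.2 ⟨hl, Eventually.of_forall hp⟩, hm⟩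
      have hd := dat_comp hdat hnf
      have hst' := hnf.eventually (hS x hx)
      have hkap := lim_kap hp hl htip i
      have hloc := hd.locX
      have hsq : ∀ k f, kap x (X k) (x i) f * kap x (X k) (x i) f = 1 := fun k f =>
        kap_sq x (X k) (x i) f
      have t0 := hL0 a X hp hl htip i _ _ hd hkap
        (fun k => kap x (X k) (x i) (X k i) • lN (wX (w (a k)) (X k)) (X k i))
        (fun k => kap x (X k) (x i) (X k i) • lS (wX (w (a k)) (X k)) (X k i))
        (hloc.mono fun k h => srcN (hsq k) h.1) (hloc.mono fun k h => srcS (hsq k) h.1)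
      have t1 := hL1 a X hp hl htip i _ _ hd hkap
        (fun k => kap x (X k) (x i) (dn (X k i)) • lN2 (wX (w (a k)) (X k)) (X k i))
        (fun k => kap x (X k) (x i) (dn (X k i)) • lS2 (wX (w (a k)) (X k)) (X k i))
        (hloc.mono fun k h => srcN2 (hsq k) h.2) (hloc.mono fun k h => srcS2 (hsq k) h.1)
      have t2 := hL2 a X hp hl htip i _ _ hd hkap
        (fun k => kap x (X k) (x i) (dn (X k i)) • lS2 (wX (w (a k)) (X k)) (X k i) -
          kap x (X k) (x i) (X k i) • lS (wX (w (a k)) (X k)) (X k i))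
        (fun k => kap x (X k) (x i) (X k i) • lS (wX (w (a k)) (X k)) (X k i))
        (hloc.mono fun k h => (srcS2 (hsq k) h.1).sub (srcS (hsq k) h.1))
        (hloc.mono fun k h => srcS (hsq k) h.1)
      have e1 : (1 - 3 / 2 - 1 / 2 : ℝ) = -1 := by norm_num
      have e2 : (1 - 1 / 2 - 1 / 2 : ℝ) = 0 := by norm_num
      rw [e1] at t0 t1
      rw [e2] at t2
      simp only [Real.rpow_neg_one] at t0 t1
      simp only [Real.rpow_zero, one_mul] at t2
      rw [sumN] at t0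
      rw [sumN2] at t1
      refine ⟨?_, ?_, ?_⟩
      · refine t0.congr' ?_
        filter_upwards [hst'] with k hk
        have h5 := hsq k (X k i)
        unfold qv
        simp only
        rw [hk.s11 i, LinearMap.map_smul₂, map_smul, smul_eq_mul, smul_eq_mul]
        rw [div_eq_inv_mul]
        congr 2
        linear_combination (formS (S (a k, X k)) (lN (wX (w (a k)) (X k)) (X k i))
          (lS (wX (w (a k)) (X k)) (X k i))) * h5
      · refine t1.neg.congr' ?_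
        filter_upwards [hst'] with k hk
        have h5 := hsq k (dn (X k i))
        unfold qv
        simp only
        rw [hk.s1m i, LinearMap.map_smul₂, map_smul, smul_eq_mul,
          smul_eq_mul, div_eq_inv_mul, ← mul_neg]
        congr 1
        have h6 := formS_skew hk.cov.skew (lS2 (wX (w (a k)) (X k)) (X k i))
          (lN2 (wX (w (a k)) (X k)) (X k i))
        linear_combination (-(formS (S (a k, X k)) (lN2 (wX (w (a k)) (X k)) (X k i))
          (lS2 (wX (w (a k)) (X k)) (X k i)))) * h5 - h6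
      · have t3 := (((t2.add_const (∑ g ∈ bS, Aop wB PsiS g * (PsiS2 - PsiS) g)).const_mul
          (-(Latx683.xc / (1 - Latx683.xc ^ 2)))).const_mul 2).const_add 1
        refine t3.congr' ?_
        filter_upwards [hst', hloc] with k hk hlk
        rw [hk.s10 i, sub_add_cancel, ← unit_id (hsq k) hlk.1 hk.cov, col_lS_X hk.cov]
        ring
    choose L hL using h1
    exact ⟨L, fun _ => hL⟩
  choose L hL using main
  refine ⟨fun i j x => if j = 0 then (L x i 0 + L x i 1) / 2 else (L x i 0 - L x i 1) / 2, ?_⟩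
  refine LogGx813.ldd_glue hD hc hpos (fun i => UC.of_seq fun x hx a u h1 h2 h3 => ?_)
    (fun i => UC.of_seq fun x hx a u h1 h2 h3 => ?_) (fun i x hx => ⟨L x i 2, ?_⟩)
  · have := (hL x hx i a u h1 h2 h3).1
    have e : (if (0 : Fin 2) = 0 then (L x i 0 + L x i 1) / 2 else (L x i 0 - L x i 1) / 2) +
        (if (1 : Fin 2) = 0 then (L x i 0 + L x i 1) / 2 else (L x i 0 - L x i 1) / 2) = L x i 0 := by
      rw [if_pos rfl, if_neg (by decide)]; ring
    rw [e]; exact this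
  · have := (hL x hx i a u h1 h2 h3).2.1
    have e : (if (0 : Fin 2) = 0 then (L x i 0 + L x i 1) / 2 else (L x i 0 - L x i 1) / 2) -
        (if (1 : Fin 2) = 0 then (L x i 0 + L x i 1) / 2 else (L x i 0 - L x i 1) / 2) = L x i 1 := by
      rw [if_pos rfl, if_neg (by decide)]; ring
    rw [e]; exact this
  · have huc : UC {x} (fun p : ℝ × (Fin n → ℤ × ℤ) => Z p.1 (sh p.2 i (1, 0)) / Z p.1 p.2)
        fun _ => L x i 2 := by
      refine UC.of_seq fun y hy a u h1 h2 h3 => ?_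
      rw [Set.mem_singleton_iff.1 hy] at h3
      exact (hL x hx i a u h1 h2 h3).2.2
    exact huc x rfl

end Crest.Agent.R165.LdGenx817
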