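import Crest.Agent.R165.Nm1_422

/-!
# Row 165 (S0250), U5 / S3: normalisation of the one-point function of discs (helper422)

`S3 : SpinIn Lam → TwoPt g → ∃ κ > 0, ∀ disc B ∋ z, a^{-1/8} ⟨σ_z⟩⁺_B → κ crad(z, B)^{-1/8}`
-/

set_option autoImplicit false
set_option linter.unusedSectionVars false
set_option linter.unusedVariables false

noncomputable section

open Filter Topology Finset
open Crest.ProbabilityR.IsingModel

namespace Crest.Agent.R165.Nm2x422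

open Crest.Agent.R165.Gk1x422
open Crest.Agent.R165.U5Px422
open Crest.Agent.R165.USpinx641 (SpinInB)
open Crest.Agent.R165.Nm1x422
open Crest.Agent.R165.Redx541

variable {Lam : (n : ℕ) → Set ℂ → (Fin n → ℂ) → ℝ}
variable {g : ℂ → ℝ → (Fin 2 → ℂ) → ℝ}

/-- `crad^{-1/8}` of a disc -/
def fb (c : ℂ) (r : ℝ) (z : ℂ) : ℝ := (cb c r z) ^ (-(1 : ℝ) / 8)

theorem fb_pos {c : ℂ} {r : ℝ} {z : ℂ} (hz : z ∈ Metric.ball c r) : 0 < fb c r z :=
  Real.rpow_pos_of_pos (cb_pos hz) _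

/-- two points as a function on `Fin 2` split into two one-point functions -/
theorem append_two {α : Type*} (v : Fin 2 → α) :
    (Fin.append (fun _ : Fin 1 => v 0) (fun _ : Fin 1 => v 1) : Fin 2 → α) = v := by
  funext i
  fin_cases i
  · exact Fin.append_left (fun _ : Fin 1 => v 0) (fun _ : Fin 1 => v 1) 0
  · exact Fin.append_right (fun _ : Fin 1 => v 0) (fun _ : Fin 1 => v 1) 0

theorem GB_two_ge (T : Finset (ℤ × ℤ)) (v : Fin 2 → ℤ × ℤ) :
    GB .plus T (fun _ : Fin 1 => v 0) * GB .plus T (fun _ : Fin 1 => v 1) ≤ GB .plus T v := by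
  have h := GB_plus_mul_le T (fun _ : Fin 1 => v 0) (fun _ : Fin 1 => v 1)
  have e : GB .plus T (Fin.append (fun _ : Fin 1 => v 0) (fun _ : Fin 1 => v 1)) = GB .plus T v := by
    have := append_two v
    show Gp Kc T _ = Gp Kc T v
    exact congrArg (Gp Kc T) this
  rw [e] at h; exact h

/-- distance between two lattice neighbours -/
theorem meshPoint_neighbour {a : ℝ} (ha : 0 < a) (e : ZB) :
    ‖meshPoint a (zp e) - meshPoint a (zq e)‖ ≤ a := by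
  obtain ⟨z, j⟩ := e
  have h : meshPoint a (zp (z, j)) - meshPoint a (zq (z, j)) =
      if j = 0 then ((-a : ℝ) : ℂ) else ((-a : ℝ) : ℂ) * Complex.I := by
    unfold zp zq meshPoint unitVec
    apply Complex.ext
    · fin_cases j
      all_goals simp
      all_goals ring
    · fin_cases j
      all_goals simp
      all_goals ring
  rw [h]
  split_ifs
  · rw [Complex.norm_real, Real.norm_eq_abs, abs_neg, abs_of_pos ha]
  · rw [norm_mul, Complex.norm_real, Complex.norm_I, mul_one, Real.norm_eq_abs, abs_neg,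
      abs_of_pos ha]

/-- separated domains do not touch for small mesh -/
theorem nonTouch_TT {D₁ D₂ : Set ℂ} (h1 : Bornology.IsBounded D₁) (h2 : Bornology.IsBounded D₂)
    {d : ℝ} (hd : ∀ z ∈ D₁, ∀ w ∈ D₂, d ≤ ‖z - w‖) {a : ℝ} (ha : 0 < a) (had : a < d) :
    NonTouch (TT D₁ a) (TT D₂ a) := by
  constructor
  · rw [Finset.disjoint_left]
    intro v hv1 hv2
    have := hd _ ((mem_TT h1 ha).1 hv1) _ ((mem_TT h2 ha).1 hv2)
    rw [sub_self, norm_zero] at this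
    linarith
  · intro e
    constructor
    · rintro ⟨hv1, hv2⟩
      have h3 := hd _ ((mem_TT h1 ha).1 hv1) _ ((mem_TT h2 ha).1 hv2)
      have h4 := meshPoint_neighbour ha e
      linarith
    · rintro ⟨hv1, hv2⟩
      have h3 := hd _ ((mem_TT h1 ha).1 hv2) _ ((mem_TT h2 ha).1 hv1)
      have h4 := meshPoint_neighbour ha e
      rw [norm_sub_rev] at h4
      linarith

/-- splitting for one point in each of two separated subdomains -/
theorem GB_split {D D₁ D₂ : Set ℂ} (hD : Bornology.IsBounded D) (h1 : D₁ ⊆ D) (h2 : D₂ ⊆ D)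
    {d : ℝ} (hd : ∀ z ∈ D₁, ∀ w ∈ D₂, d ≤ ‖z - w‖) {a : ℝ} (ha : 0 < a) (had : a < d)
    {n m : ℕ} {u : Fin n → ℤ × ℤ} {v : Fin m → ℤ × ℤ}
    (hu : ∀ i, u i ∈ TT D₁ a) (hv : ∀ i, v i ∈ TT D₂ a) :
    GB .plus (TT D a) (Fin.append u v) ≤ GB .plus (TT D₁ a) u * GB .plus (TT D₂ a) v :=
  Gp_split Kc_nonneg (nonTouch_TT (hD.subset h1) (hD.subset h2) hd ha had)
    (Finset.union_subset (TT_mono hD h1 ha) (TT_mono hD h2 ha)) hu hv

/-! ### the normalised constant of a disc -/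

/-- `a^{-1/8} ⟨σ_c⟩⁺_B / crad(c,B)^{-1/8}` -/
def NN (c : ℂ) (r a : ℝ) : ℝ :=
  a ^ (-(1 : ℝ) / 8) * GB .plus (TT (Metric.ball c r) a) (fun _ : Fin 1 => meshIndex a c) / fb c r c

theorem NN_nonneg (c : ℂ) {r : ℝ} (hr : 0 < r) {a : ℝ} (ha : 0 < a) : 0 ≤ NN c r a := by
  unfold NN
  have h1 := GB_nonneg (b := .plus) (by simp) (TT (Metric.ball c r) a)
    (fun _ : Fin 1 => meshIndex a c)
  have h2 := fb_pos (Metric.mem_ball_self (x := c) hr)
  have h3 := Real.rpow_nonneg ha.le (-(1 : ℝ) / 8)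
  positivity

theorem key1 (H : SpinInB .plus Lam) (c : ℂ) {r : ℝ} (hr : 0 < r) {z : ℂ} (hz : z ∈ Metric.ball c r)
    {u : ℝ → Fin 1 → ℤ × ℤ} (hu : LApp u (fun _ => z)) :
    ∃ σ : ℝ → ℝ, Tendsto σ (𝓝[>] 0) (𝓝 (fb c r z)) ∧ ∀ᶠ a in 𝓝[>] (0 : ℝ),
      a ^ (-(1 : ℝ) / 8) * GB .plus (TT (Metric.ball c r) a) (u a) = NN c r a * σ a := by
  have hcm : c ∈ Metric.ball c r := Metric.mem_ball_self hr
  have hfc := fb_pos hcm
  obtain ⟨C, hC, hlam⟩ := lam_ball H c hr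
  have hA : Allow .plus 1 := Or.inl rfl
  set u0 : ℝ → Fin 1 → ℤ × ℤ := fun a _ => meshIndex a c with hu0
  have hu0' : LApp u0 (fun _ => c) := lapp_meshIndex (fun _ : Fin 1 => c)
  have h1 := H.ratio 1 _ hA (isC2_ball c hr) _ (conf_one hz) _ (conf_one hcm) u u0 hu hu0'
  have h2 := H.ratio 1 _ hA (isC2_ball c hr) _ (conf_one hcm) _ (conf_one hcm) u0 u0 hu0' hu0'
  rw [hlam z hz, hlam c hcm, mul_div_mul_left _ _ hC.ne'] at h1
  rw [div_self (H.pos _ _ hA (isC2_ball c hr) _ (conf_one hcm)).ne'] at h2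
  refine ⟨fun a => fb c r c * (GB .plus (TT (Metric.ball c r) a) (u a) /
    GB .plus (TT (Metric.ball c r) a) (u0 a)), ?_, ?_⟩
  · have h3 := h1.const_mul (fb c r c)
    have e : fb c r c * (cb c r z ^ (-(1 : ℝ) / 8) / cb c r c ^ (-(1 : ℝ) / 8)) = fb c r z := by
      unfold fb
      exact mul_div_cancel₀ _ (Real.rpow_pos_of_pos (cb_pos hcm) (-(1 : ℝ) / 8)).ne'
    rw [e] at h3; exact h3
  · have h3 : ∀ᶠ a in 𝓝[>] (0 : ℝ), GB .plus (TT (Metric.ball c r) a) (u0 a) ≠ 0 := by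
      have h4 := h2.eventually (lt_mem_nhds (show (0 : ℝ) < 1 from one_pos))
      filter_upwards [h4] with a ha h5
      rw [h5, div_zero] at ha
      exact lt_irrefl _ ha
    filter_upwards [h3] with a ha
    show _ = a ^ (-(1 : ℝ) / 8) * GB .plus (TT (Metric.ball c r) a) (u0 a) / fb c r c *
      (fb c r c * (GB .plus (TT (Metric.ball c r) a) (u a) /
        GB .plus (TT (Metric.ball c r) a) (u0 a)))
    field_simp

/-! ### the universal constant -/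

/-- `g / (f f)` -/
def qq (g : ℂ → ℝ → (Fin 2 → ℂ) → ℝ) (c : ℂ) (r : ℝ) (x : Fin 2 → ℂ) : ℝ :=
  g c r x / (fb c r (x 0) * fb c r (x 1))

/-- the universal constant `c_*` -/
def cs (g : ℂ → ℝ → (Fin 2 → ℂ) → ℝ) : ℝ := sInf (qq g 0 1 '' Conf (Metric.ball (0 : ℂ) 1) 2)

theorem conf_affine (c : ℂ) {r : ℝ} (hr : 0 < r) {x : Fin 2 → ℂ}
    (hx : x ∈ Conf (Metric.ball (0 : ℂ) 1) 2) :
    (fun i => c + r * x i) ∈ Conf (Metric.ball c r) 2 :=
  ⟨fun i => (affine_bij c hr).mapsTo (hx.1 i), fun i j h =>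
    hx.2 ((affine_bij c hr).injOn (hx.1 i) (hx.1 j) h)⟩

theorem qq_sim (G : TwoPt g) (c : ℂ) {r : ℝ} (hr : 0 < r) {x : Fin 2 → ℂ}
    (hx : x ∈ Conf (Metric.ball (0 : ℂ) 1) 2) :
    qq g c r (fun i => c + r * x i) = qq g 0 1 x := by
  unfold qq fb
  rw [G.sim c r hr x hx, cb_affine c hr, cb_affine c hr,
    Real.mul_rpow hr.le (cb_pos (hx.1 0)).le, Real.mul_rpow hr.le (cb_pos (hx.1 1)).le]
  have h1 : r ^ (-(1 : ℝ) / 4) = r ^ (-(1 : ℝ) / 8) * r ^ (-(1 : ℝ) / 8) := by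
    rw [← Real.rpow_add hr]; congr 1; ring
  have h2 := (Real.rpow_pos_of_pos hr (-(1 : ℝ) / 8)).ne'
  have h3 := (Real.rpow_pos_of_pos (cb_pos (hx.1 0)) (-(1 : ℝ) / 8)).ne'
  have h4 := (Real.rpow_pos_of_pos (cb_pos (hx.1 1)) (-(1 : ℝ) / 8)).ne'
  rw [h1]
  field_simp

theorem qq_pos (G : TwoPt g) (c : ℂ) {r : ℝ} (hr : 0 < r) {x : Fin 2 → ℂ}
    (hx : x ∈ Conf (Metric.ball c r) 2) : 0 < qq g c r x :=
  div_pos (G.pos c r hr x hx) (mul_pos (fb_pos (hx.1 0)) (fb_pos (hx.1 1)))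

theorem cs_bdd (G : TwoPt g) : BddBelow (qq g 0 1 '' Conf (Metric.ball (0 : ℂ) 1) 2) :=
  ⟨0, by rintro _ ⟨x, hx, rfl⟩; exact (qq_pos G 0 one_pos hx).le⟩

theorem cs_le (G : TwoPt g) (c : ℂ) {r : ℝ} (hr : 0 < r) {x : Fin 2 → ℂ}
    (hx : x ∈ Conf (Metric.ball c r) 2) : cs g ≤ qq g c r x := by
  have hr' : (r : ℂ) ≠ 0 := Complex.ofReal_ne_zero.2 hr.ne'
  set y : Fin 2 → ℂ := fun i => (x i - c) / r with hy
  have hxy : ∀ i, c + r * y i = x i := fun i => by simp only [hy]; field_simp; ring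
  have hyc : y ∈ Conf (Metric.ball (0 : ℂ) 1) 2 := by
    constructor
    · intro i
      have := hx.1 i
      rw [mem_ball_iff_norm] at this
      rw [mem_ball_iff_norm, sub_zero, hy, norm_div, Complex.norm_real, Real.norm_of_nonneg hr.le,
        div_lt_one hr]
      exact this
    · intro i j h
      apply hx.2
      rw [← hxy i, ← hxy j, h]
  have h1 := qq_sim G c hr hyc
  have h2 : (fun i => c + r * y i) = x := funext hxy
  rw [h2] at h1
  rw [h1]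
  exact csInf_le (cs_bdd G) ⟨y, hyc, rfl⟩

theorem exists_lt (G : TwoPt g) (c : ℂ) {r : ℝ} (hr : 0 < r) {C : ℝ} (hC : cs g < C) :
    ∃ x ∈ Conf (Metric.ball c r) 2, qq g c r x < C := by
  have hne : (qq g 0 1 '' Conf (Metric.ball (0 : ℂ) 1) 2).Nonempty := by
    refine ⟨_, ![0, 1 / 2], ?_, rfl⟩
    constructor
    · intro i
      fin_cases i
      · simp
      · rw [mem_ball_iff_norm, sub_zero]; simp; norm_num
    · intro i j h
      fin_cases i <;> fin_cases j <;> simp_all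
  obtain ⟨_, ⟨x, hx, rfl⟩, h⟩ := exists_lt_of_csInf_lt hne hC
  exact ⟨_, conf_affine c hr hx, by rw [qq_sim G c hr hx]; exact h⟩

theorem cs_nonneg (G : TwoPt g) : 0 ≤ cs g := by
  refine Real.sInf_nonneg ?_
  rintro _ ⟨x, hx, rfl⟩
  exact (qq_pos G 0 one_pos hx).le

theorem lapp_comp {n : ℕ} {x : Fin n → ℂ} {u : ℝ → Fin n → ℤ × ℤ} (hu : LApp u x) (i : Fin n) :
    LApp (fun a (_ : Fin 1) => u a i) (fun _ => x i) := fun _ => hu i

theorem rpow_split {a : ℝ} (ha : 0 < a) :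
    a ^ (-((2 : ℕ) : ℝ) / 8) = a ^ (-(1 : ℝ) / 8) * a ^ (-(1 : ℝ) / 8) := by
  rw [← Real.rpow_add ha]; congr 1; norm_num

/-- upper bound of the constant (Griffiths II) -/
theorem L1 (H : SpinInB .plus Lam) (G : TwoPt g) (c : ℂ) {r : ℝ} (hr : 0 < r) {C : ℝ} (hC : cs g < C) :
    ∀ᶠ a in 𝓝[>] (0 : ℝ), NN c r a ^ 2 < C := by
  obtain ⟨x, hx, hxC⟩ := exists_lt G c hr hC
  set u : ℝ → Fin 2 → ℤ × ℤ := fun a i => meshIndex a (x i) with hu
  have hu' : LApp u x := lapp_meshIndex x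
  obtain ⟨σ₀, hσ₀, e₀⟩ := key1 H c hr (hx.1 0) (lapp_comp hu' 0)
  obtain ⟨σ₁, hσ₁, e₁⟩ := key1 H c hr (hx.1 1) (lapp_comp hu' 1)
  have h2 := G.lim c r hr x hx u hu'
  have hf0 := fb_pos (hx.1 0)
  have hf1 := fb_pos (hx.1 1)
  have h3 := h2.div (hσ₀.mul hσ₁) (mul_pos hf0 hf1).ne'
  have h4 := h3.eventually (gt_mem_nhds hxC)
  filter_upwards [h4, e₀, e₁, hσ₀.eventually (lt_mem_nhds hf0),
    hσ₁.eventually (lt_mem_nhds hf1), self_mem_nhdsWithin] with a ha h5 h6 h7 h8 ha0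
  have ha0' : 0 < a := ha0
  refine lt_of_le_of_lt ?_ ha
  simp only [Pi.div_apply]
  rw [le_div_iff₀ (mul_pos h7 h8)]
  have h9 := GB_two_ge (TT (Metric.ball c r) a) (u a)
  have h10 : a ^ (-(((2 : ℕ) : ℝ) / 8)) = a ^ (-(1 : ℝ) / 8) * a ^ (-(1 : ℝ) / 8) := by
    rw [← rpow_split ha0']; congr 1; ring
  calc NN c r a ^ 2 * (σ₀ a * σ₁ a) = (NN c r a * σ₀ a) * (NN c r a * σ₁ a) := by ring
    _ = (a ^ (-(1 : ℝ) / 8) * GB .plus (TT (Metric.ball c r) a) (fun _ : Fin 1 => u a 0)) *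
        (a ^ (-(1 : ℝ) / 8) * GB .plus (TT (Metric.ball c r) a) (fun _ : Fin 1 => u a 1)) := by
      rw [h5, h6]
    _ = a ^ (-(((2 : ℕ) : ℝ) / 8)) * (GB .plus (TT (Metric.ball c r) a) (fun _ : Fin 1 => u a 0) *
        GB .plus (TT (Metric.ball c r) a) (fun _ : Fin 1 => u a 1)) := by rw [h10]; ring
    _ ≤ _ := mul_le_mul_of_nonneg_left h9 (Real.rpow_nonneg ha0'.le _)

/-- the two tangent discs inside `B(c + 2r, 3r)` -/
theorem tangent_sub (c : ℂ) {r : ℝ} (hr : 0 < r) :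
    Metric.ball c r ⊆ Metric.ball (c + 2 * r) (3 * r) ∧
    Metric.ball (c + 4 * r) r ⊆ Metric.ball (c + 2 * r) (3 * r) := by
  have h2 : ‖(2 * r : ℂ)‖ = 2 * r := by
    rw [norm_mul, Complex.norm_real, Real.norm_of_nonneg hr.le]; simp
  constructor
  · intro z hz
    rw [mem_ball_iff_norm] at hz ⊢
    have e : z - (c + 2 * r) = (z - c) - 2 * r := by ring
    rw [e]
    have := norm_sub_le (z - c) (2 * r : ℂ)
    rw [h2] at this
    linarith
  · intro z hz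
    rw [mem_ball_iff_norm] at hz ⊢
    have e : z - (c + 2 * r) = (z - (c + 4 * r)) + 2 * r := by ring
    rw [e]
    have := norm_add_le (z - (c + 4 * r)) (2 * r : ℂ)
    rw [h2] at this
    linarith

theorem tangent_sep (c : ℂ) {r : ℝ} (hr : 0 < r) :
    ∀ z ∈ Metric.ball c r, ∀ w ∈ Metric.ball (c + 4 * r) r, 2 * r ≤ ‖z - w‖ := by
  intro z hz w hw
  rw [mem_ball_iff_norm] at hz hw
  have h4 : ‖(4 * r : ℂ)‖ = 4 * r := by
    rw [norm_mul, Complex.norm_real, Real.norm_of_nonneg hr.le]; simp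
  have e : (4 * r : ℂ) = (z - c) - (w - (c + 4 * r)) - (z - w) := by ring
  have h5 : ‖(4 * r : ℂ)‖ ≤ ‖z - c‖ + ‖w - (c + 4 * r)‖ + ‖z - w‖ := by
    calc ‖(4 * r : ℂ)‖ = ‖(z - c) - (w - (c + 4 * r)) - (z - w)‖ := by rw [← e]
      _ ≤ ‖(z - c) - (w - (c + 4 * r))‖ + ‖z - w‖ := norm_sub_le _ _
      _ ≤ _ := by linarith [norm_sub_le (z - c) (w - (c + 4 * r))]
  rw [h4] at h5
  linarith

/-- lower bound of the product of the constants (splitting) -/
theorem L2 (H : SpinInB .plus Lam) (G : TwoPt g) (c : ℂ) {r : ℝ} (hr : 0 < r) {x : Fin 2 → ℂ}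
    (hx0 : x 0 ∈ Metric.ball c r) (hx1 : x 1 ∈ Metric.ball (c + 4 * r) r) {C : ℝ}
    (hC : C < g (c + 2 * r) (3 * r) x / (fb c r (x 0) * fb (c + 4 * r) r (x 1))) :
    ∀ᶠ a in 𝓝[>] (0 : ℝ), C < NN c r a * NN (c + 4 * r) r a := by
  have hsub := tangent_sub c hr
  have hsep := tangent_sep c hr
  have hx : x ∈ Conf (Metric.ball (c + 2 * r) (3 * r)) 2 := by
    constructor
    · intro i
      fin_cases i
      · exact hsub.1 hx0
      · exact hsub.2 hx1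
    · have hne : x 0 ≠ x 1 := fun h => by
        have := hsep _ hx0 _ hx1
        rw [h, sub_self, norm_zero] at this
        linarith
      intro i j h
      fin_cases i <;> fin_cases j
      · rfl
      · exact absurd h hne
      · exact absurd h.symm hne
      · rfl
  set u : ℝ → Fin 2 → ℤ × ℤ := fun a i => meshIndex a (x i) with hu
  have hu' : LApp u x := lapp_meshIndex x
  obtain ⟨σ₀, hσ₀, e₀⟩ := key1 H c hr hx0 (lapp_comp hu' 0)
  obtain ⟨σ₁, hσ₁, e₁⟩ := key1 H (c + 4 * r) hr hx1 (lapp_comp hu' 1)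
  have h2 := G.lim (c + 2 * r) (3 * r) (by linarith) x hx u hu'
  have hf0 := fb_pos hx0
  have hf1 := fb_pos hx1
  have h3 := h2.div (hσ₀.mul hσ₁) (mul_pos hf0 hf1).ne'
  have h4 := h3.eventually (lt_mem_nhds hC)
  have hm0 := (lapp_comp hu' 0).mem Metric.isBounded_ball Metric.isOpen_ball (fun _ => hx0)
  have hm1 := (lapp_comp hu' 1).mem Metric.isBounded_ball Metric.isOpen_ball (fun _ => hx1)
  have hsmall : ∀ᶠ a in 𝓝[>] (0 : ℝ), a < 2 * r :=
    (eventually_lt_nhds (by linarith : (0 : ℝ) < 2 * r)).filter_mono nhdsWithin_le_nhds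
  filter_upwards [h4, e₀, e₁, hσ₀.eventually (lt_mem_nhds hf0),
    hσ₁.eventually (lt_mem_nhds hf1), self_mem_nhdsWithin, hm0, hm1, hsmall]
    with a ha h5 h6 h7 h8 ha0 hm0 hm1 hs
  have ha0' : 0 < a := ha0
  refine lt_of_lt_of_le ha ?_
  simp only [Pi.div_apply]
  rw [div_le_iff₀ (mul_pos h7 h8)]
  have h9 := GB_split (D := Metric.ball (c + 2 * r) (3 * r)) Metric.isBounded_ball hsub.1 hsub.2
    hsep ha0' hs hm0 hm1
  have e : GB .plus (TT (Metric.ball (c + 2 * r) (3 * r)) a)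
      (Fin.append (fun _ : Fin 1 => u a 0) (fun _ : Fin 1 => u a 1)) =
      GB .plus (TT (Metric.ball (c + 2 * r) (3 * r)) a) (u a) :=
    congrArg (Gp Kc _) (append_two (u a))
  rw [e] at h9
  have h10 : a ^ (-(((2 : ℕ) : ℝ) / 8)) = a ^ (-(1 : ℝ) / 8) * a ^ (-(1 : ℝ) / 8) := by
    rw [← rpow_split ha0']; congr 1; ring
  calc a ^ (-(((2 : ℕ) : ℝ) / 8)) * GB .plus (TT (Metric.ball (c + 2 * r) (3 * r)) a) (u a)
      ≤ a ^ (-(((2 : ℕ) : ℝ) / 8)) *
        (GB .plus (TT (Metric.ball c r) a) (fun _ : Fin 1 => u a 0) *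
        GB .plus (TT (Metric.ball (c + 4 * r) r) a) (fun _ : Fin 1 => u a 1)) :=
      mul_le_mul_of_nonneg_left h9 (Real.rpow_nonneg ha0'.le _)
    _ = (a ^ (-(1 : ℝ) / 8) * GB .plus (TT (Metric.ball c r) a) (fun _ : Fin 1 => u a 0)) *
        (a ^ (-(1 : ℝ) / 8) *
          GB .plus (TT (Metric.ball (c + 4 * r) r) a) (fun _ : Fin 1 => u a 1)) := by
      rw [h10]; ring
    _ = NN c r a * NN (c + 4 * r) r a * (σ₀ a * σ₁ a) := by rw [h5, h6]; ring

/-- the pair of points near the tangency points -/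
def tpt (c : ℂ) (r t : ℝ) : Fin 2 → ℂ := ![c - ((r - t : ℝ) : ℂ), c + 4 * r + ((r - t : ℝ) : ℂ)]

theorem tpt_zero (c : ℂ) (r t : ℝ) : tpt c r t 0 = c - ((r - t : ℝ) : ℂ) := rfl
theorem tpt_one (c : ℂ) (r t : ℝ) : tpt c r t 1 = c + 4 * r + ((r - t : ℝ) : ℂ) := rfl

theorem tpt_mem (c : ℂ) {r t : ℝ} (h0 : 0 < t) (h1 : t ≤ r) :
    tpt c r t 0 ∈ Metric.ball c r ∧ tpt c r t 1 ∈ Metric.ball (c + 4 * r) r := by
  rw [tpt_zero, tpt_one]
  constructor
  · rw [mem_ball_iff_norm, sub_sub_cancel_left, norm_neg, Complex.norm_real,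
      Real.norm_of_nonneg (by linarith)]
    linarith
  · rw [mem_ball_iff_norm, add_sub_cancel_left, Complex.norm_real,
      Real.norm_of_nonneg (by linarith)]
    linarith

theorem cb_tpt (c : ℂ) {r t : ℝ} (hr : 0 < r) (h0 : 0 < t) (h1 : t ≤ r) :
    cb c r (tpt c r t 0) = 2 * t - t ^ 2 / r ∧
    cb (c + 4 * r) r (tpt c r t 1) = 2 * t - t ^ 2 / r ∧
    cb (c + 2 * r) (3 * r) (tpt c r t 0) = 2 * t - t ^ 2 / (3 * r) ∧
    cb (c + 2 * r) (3 * r) (tpt c r t 1) = 2 * t - t ^ 2 / (3 * r) := by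
  rw [tpt_zero, tpt_one]
  unfold cb
  have n1 : ‖((r - t : ℝ) : ℂ)‖ = r - t := by
    rw [Complex.norm_real, Real.norm_of_nonneg (by linarith)]
  have n2 : ‖(((3 * r - t : ℝ)) : ℂ)‖ = 3 * r - t := by
    rw [Complex.norm_real, Real.norm_of_nonneg (by linarith)]
  refine ⟨?_, ?_, ?_, ?_⟩
  · rw [sub_sub_cancel_left, norm_neg, n1]
    field_simp; ring
  · rw [add_sub_cancel_left, n1]
    field_simp; ring
  · have e : c - ((r - t : ℝ) : ℂ) - (c + 2 * r) = -((3 * r - t : ℝ) : ℂ) := by push_cast; ring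
    rw [e, norm_neg, n2]
    field_simp; ring
  · have e : c + 4 * r + ((r - t : ℝ) : ℂ) - (c + 2 * r) = ((3 * r - t : ℝ) : ℂ) := by
      push_cast; ring
    rw [e, n2]
    field_simp; ring

/-- the defect ratio tends to one -/
theorem ratio_tendsto {r : ℝ} (hr : 0 < r) :
    Tendsto (fun t : ℝ => ((2 * t - t ^ 2 / (3 * r)) / (2 * t - t ^ 2 / r)) ^ (-(1 : ℝ) / 8))
      (𝓝[>] 0) (𝓝 1) := by
  have h1 : Tendsto (fun t : ℝ => (2 - t / (3 * r)) / (2 - t / r)) (𝓝[>] 0) (𝓝 1) := by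
    have h2 : ContinuousAt (fun t : ℝ => (2 - t / (3 * r)) / (2 - t / r)) 0 := by
      apply ContinuousAt.div
      · fun_prop
      · fun_prop
      · simp
    have h3 := h2.tendsto
    simp only [zero_div, sub_zero] at h3
    rw [div_self (by norm_num : (2 : ℝ) ≠ 0)] at h3
    exact h3.mono_left nhdsWithin_le_nhds
  have h2 : Tendsto (fun t : ℝ => (2 * t - t ^ 2 / (3 * r)) / (2 * t - t ^ 2 / r)) (𝓝[>] 0)
      (𝓝 1) := by
    refine h1.congr' ?_
    filter_upwards [self_mem_nhdsWithin] with t ht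
    have ht' : t ≠ 0 := (show (0 : ℝ) < t from ht).ne'
    have e1 : 2 * t - t ^ 2 / (3 * r) = t * (2 - t / (3 * r)) := by ring
    have e2 : 2 * t - t ^ 2 / r = t * (2 - t / r) := by ring
    rw [e1, e2, mul_div_mul_left _ _ ht']
  have h3 : ContinuousAt (fun s : ℝ => s ^ (-(1 : ℝ) / 8)) 1 :=
    Real.continuousAt_rpow_const _ _ (Or.inl one_ne_zero)
  have h4 := h3.tendsto.comp h2
  rw [Real.one_rpow] at h4
  exact h4

theorem L2' (H : SpinInB .plus Lam) (G : TwoPt g) (c : ℂ) {r : ℝ} (hr : 0 < r) {C : ℝ} (hC : C < cs g) :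
    ∀ᶠ a in 𝓝[>] (0 : ℝ), C < NN c r a * NN (c + 4 * r) r a := by
  have h1 := ratio_tendsto hr
  have h2 := (h1.mul h1).const_mul (cs g)
  rw [mul_one, mul_one] at h2
  have h3 := h2.eventually (lt_mem_nhds hC)
  have h4 : ∀ᶠ t in 𝓝[>] (0 : ℝ), t < r :=
    (eventually_lt_nhds hr).filter_mono nhdsWithin_le_nhds
  obtain ⟨t, ht1, ht2, ht3⟩ := (h3.and (h4.and self_mem_nhdsWithin)).exists
  have ht3' : 0 < t := ht3
  have hmem := tpt_mem c ht3' ht2.le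
  refine L2 H G c hr hmem.1 hmem.2 (lt_of_lt_of_le ht1 ?_)
  have hsub := tangent_sub c hr
  have hsep := tangent_sep c hr
  have hx : tpt c r t ∈ Conf (Metric.ball (c + 2 * r) (3 * r)) 2 := by
    constructor
    · intro i
      fin_cases i
      · exact hsub.1 hmem.1
      · exact hsub.2 hmem.2
    · have hne : tpt c r t 0 ≠ tpt c r t 1 := fun h => by
        have := hsep _ hmem.1 _ hmem.2
        rw [h, sub_self, norm_zero] at this
        linarith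
      intro i j h
      fin_cases i <;> fin_cases j
      · rfl
      · exact absurd h hne
      · exact absurd h.symm hne
      · rfl
  have h5 := cs_le G (c + 2 * r) (by linarith : 0 < 3 * r) hx
  obtain ⟨c1, c2, c3, c4⟩ := cb_tpt c hr ht3' ht2.le
  have p1 : 0 < 2 * t - t ^ 2 / r := by rw [← c1]; exact cb_pos hmem.1
  have p3 : 0 < 2 * t - t ^ 2 / (3 * r) := by rw [← c3]; exact cb_pos (hx.1 0)
  unfold qq fb at h5
  have c3' : cb (c + 2 * r) (3 * r) (tpt c r t 0) = 2 * t - t ^ 2 / (3 * r) := c3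
  rw [c3', c4] at h5
  unfold fb
  rw [c1, c2]
  rw [Real.div_rpow p3.le p1.le]
  set A := (2 * t - t ^ 2 / (3 * r)) ^ (-(1 : ℝ) / 8) with hA
  set B := (2 * t - t ^ 2 / r) ^ (-(1 : ℝ) / 8) with hB
  have hA0 : 0 < A := Real.rpow_pos_of_pos p3 _
  have hB0 : 0 < B := Real.rpow_pos_of_pos p1 _
  rw [le_div_iff₀ (mul_pos hA0 hA0)] at h5
  rw [le_div_iff₀ (mul_pos hB0 hB0)]
  calc cs g * (A / B * (A / B)) * (B * B) = cs g * (A * A) := by field_simp
    _ ≤ _ := h5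

theorem cs_pos (H : SpinInB .plus Lam) (G : TwoPt g) : 0 < cs g := by
  have hr : (0 : ℝ) < 1 := one_pos
  have hmem := tpt_mem (0 : ℂ) (r := 1) (t := 1 / 2) (by norm_num) (by norm_num)
  have hsub := tangent_sub (0 : ℂ) hr
  have hsep := tangent_sep (0 : ℂ) hr
  have hx : tpt 0 1 (1 / 2) ∈ Conf (Metric.ball ((0 : ℂ) + 2 * (1 : ℝ)) (3 * 1)) 2 := by
    constructor
    · intro i
      fin_cases i
      · exact hsub.1 hmem.1
      · exact hsub.2 hmem.2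
    · have hne : tpt 0 1 (1 / 2) 0 ≠ tpt 0 1 (1 / 2) 1 := fun h => by
        have := hsep _ hmem.1 _ hmem.2
        rw [h, sub_self, norm_zero] at this
        linarith
      intro i j h
      fin_cases i <;> fin_cases j
      · rfl
      · exact absurd h hne
      · exact absurd h.symm hne
      · rfl
  have hL : 0 < g ((0 : ℂ) + 2 * (1 : ℝ)) (3 * 1) (tpt 0 1 (1 / 2)) /
      (fb 0 1 (tpt 0 1 (1 / 2) 0) * fb ((0 : ℂ) + 4 * (1 : ℝ)) 1 (tpt 0 1 (1 / 2) 1)) :=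
    div_pos (G.pos _ _ (by norm_num) _ hx) (mul_pos (fb_pos hmem.1) (fb_pos hmem.2))
  set L0 := g ((0 : ℂ) + 2 * (1 : ℝ)) (3 * 1) (tpt 0 1 (1 / 2)) /
      (fb 0 1 (tpt 0 1 (1 / 2) 0) * fb ((0 : ℂ) + 4 * (1 : ℝ)) 1 (tpt 0 1 (1 / 2) 1)) with hL0
  have h1 := L2 H G (0 : ℂ) hr hmem.1 hmem.2 (C := L0 / 2) (by rw [← hL0]; linarith)
  by_contra hcs
  have hcs' : cs g < L0 / 2 := lt_of_le_of_lt (not_lt.1 hcs) (by linarith)
  have h2 := L1 H G (0 : ℂ) hr hcs'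
  have h3 := L1 H G ((0 : ℂ) + 4 * (1 : ℝ)) hr hcs'
  obtain ⟨a, ⟨ha1, ha2⟩, ha3, ha4⟩ := ((h1.and h2).and (h3.and self_mem_nhdsWithin)).exists
  have n1 := NN_nonneg (0 : ℂ) hr ha4
  have n2 := NN_nonneg ((0 : ℂ) + 4 * (1 : ℝ)) hr ha4
  nlinarith [sq_nonneg (NN 0 1 a - NN ((0 : ℂ) + 4 * (1 : ℝ)) 1 a)]

/-- the constant of every disc converges to `√c_*` -/
theorem NN_tendsto (H : SpinInB .plus Lam) (G : TwoPt g) (c : ℂ) {r : ℝ} (hr : 0 < r) :
    Tendsto (NN c r) (𝓝[>] 0) (𝓝 (Real.sqrt (cs g))) := by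
  have hcs := cs_pos H G
  set κ := Real.sqrt (cs g) with hκ
  have hκ0 : 0 < κ := Real.sqrt_pos.2 hcs
  have hκ2 : κ ^ 2 = cs g := Real.sq_sqrt hcs.le
  rw [tendsto_order]
  have up : ∀ (c' : ℂ) (s : ℝ), κ < s → ∀ᶠ a in 𝓝[>] (0 : ℝ), NN c' r a < s := by
    intro c' s hs
    have h1 : cs g < s ^ 2 := by rw [← hκ2]; nlinarith
    filter_upwards [L1 H G c' hr h1, self_mem_nhdsWithin] with a ha ha0
    exact lt_of_pow_lt_pow_left₀ 2 (by linarith) ha
  refine ⟨fun s hs => ?_, fun s hs => up c s hs⟩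
  -- lower bound
  by_cases hs0 : s < 0
  · filter_upwards [self_mem_nhdsWithin] with a ha0
    exact lt_of_lt_of_le hs0 (NN_nonneg c hr ha0)
  · have hs0' : 0 ≤ s := not_lt.1 hs0
    -- choose `C < c_*` and `S > κ` with `C / S > s`
    obtain ⟨C, hC1, hC2⟩ : ∃ C, s * κ < C ∧ C < cs g := by
      apply _root_.exists_between
      rw [← hκ2]; nlinarith
    obtain ⟨S, hS1, hS2⟩ : ∃ S, κ < S ∧ s * S ≤ C := by
      rcases hs0'.eq_or_lt with h | h
      · exact ⟨κ + 1, by linarith, by rw [← h, zero_mul]; rw [← h, zero_mul] at hC1; exact hC1.le⟩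
      · refine ⟨C / s, ?_, ?_⟩
        · rw [lt_div_iff₀ h]; linarith
        · rw [mul_div_cancel₀ _ h.ne']
    filter_upwards [L2' H G c hr hC2, up (c + 4 * r) S hS1, self_mem_nhdsWithin] with a h1 h2 ha0
    have n1 := NN_nonneg c hr ha0
    have n2 := NN_nonneg (c + 4 * r) hr ha0
    by_contra hcon
    have h3 : NN c r a ≤ s := not_lt.1 hcon
    have h4 : NN c r a * NN (c + 4 * r) r a ≤ s * S := mul_le_mul h3 h2.le n2 hs0'
    linarith

/-- **S3**: one-point function of discs -/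
theorem S3 (H : SpinInB .plus Lam) (G : TwoPt g) :
    ∃ κ : ℝ, 0 < κ ∧ ∀ (c : ℂ) (r : ℝ), 0 < r → ∀ z ∈ Metric.ball c r,
      SLim .plus (Metric.ball c r) (fun _ : Fin 1 => z) (κ * fb c r z) := by
  refine ⟨Real.sqrt (cs g), Real.sqrt_pos.2 (cs_pos H G), fun c r hr z hz u hu => ?_⟩
  obtain ⟨σ, hσ, e⟩ := key1 H c hr hz hu
  have h1 := (NN_tendsto H G c hr).mul hσ
  refine h1.congr' ?_
  filter_upwards [e] with a ha
  rw [← ha]
  have : -(((1 : ℕ) : ℝ) / 8) = -(1 : ℝ) / 8 := by push_cast; ring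
  rw [this]

end Crest.Agent.R165.Nm2x422
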