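import Crest.Agent.R165.Nm2_422
import Crest.Agent.R165.GeoD_65
import Crest.Agent.Lib.InjHolo

/-!
# Row 165 (S0250), U5 / S4 part 1: Schwarz–Pick and the conformal radius (helper422)

`RMap D f` : `f` maps `D` conformally onto the unit disc; `cr f z` its conformal radius.
* `schwarz_pick`, `SPgen`, `SPin`, `SPout`, `SPext`
* `exists_limit` : a squeeze criterion for the existence of a positive limit
* `lam_one` : the one-point function is `K · crad^{-1/8}`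
-/

set_option autoImplicit false
set_option linter.unusedSectionVars false
set_option linter.unusedVariables false

noncomputable section

open Filter Topology
open Crest.ProbabilityR.IsingModel

namespace Crest.Agent.R165.Nm3x422

open Crest.Agent.R165.U5Px422
open Crest.Agent.R165.USpinx641 (SpinInB)
open Crest.Agent.R165.Nm1x422
open Crest.Agent.R165.Nm2x422
open Crest.Agent.R165.Redx541

/-! ### Schwarz–Pick -/

theorem one_sub_sq_pos {w : ℂ} (hw : w ∈ Metric.ball (0 : ℂ) 1) : 0 < 1 - ‖w‖ ^ 2 := by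
  have := normSq_lt_one hw
  rw [Complex.normSq_eq_norm_sq] at this
  linarith

/-- Schwarz–Pick on the unit disc -/
theorem schwarz_pick_unit {h : ℂ → ℂ} (hd : DifferentiableOn ℂ h (Metric.ball 0 1))
    (hm : Set.MapsTo h (Metric.ball 0 1) (Metric.ball 0 1)) {w : ℂ}
    (hw : w ∈ Metric.ball (0 : ℂ) 1) :
    ‖deriv h w‖ * (1 - ‖w‖ ^ 2) ≤ 1 - ‖h w‖ ^ 2 := by
  have h0 : (0 : ℂ) ∈ Metric.ball (0 : ℂ) 1 := Metric.mem_ball_self one_pos
  have hhw := hm hw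
  set k : ℂ → ℂ := fun z => mob (h w) (h (mob w z)) with hk
  have hk0 : k 0 = 0 := by simp only [hk, mob_zero, mob_self]
  have hkd : DifferentiableOn ℂ k (Metric.ball 0 1) := by
    have h1 : DifferentiableOn ℂ (fun z => h (mob w z)) (Metric.ball 0 1) :=
      hd.comp (mob_diff hw) (fun z hz => mob_mem hw hz)
    exact (mob_diff hhw).comp h1 (fun z hz => hm (mob_mem hw hz))
  have hkm : Set.MapsTo k (Metric.ball 0 1) (Metric.closedBall (k 0) 1) := by
    intro z hz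
    rw [hk0]
    exact Metric.ball_subset_closedBall (mob_mem hhw (hm (mob_mem hw hz)))
  have h2 := Complex.norm_deriv_le_one_of_mapsTo_ball hkd hkm one_pos
  have hopen : Metric.ball (0 : ℂ) 1 ∈ 𝓝 w := Metric.isOpen_ball.mem_nhds hw
  have d1 : HasDerivAt (mob w) (deriv (mob w) 0) 0 :=
    ((mob_hasDeriv hw h0).differentiableAt).hasDerivAt
  have d2 : HasDerivAt h (deriv h w) (mob w 0) := by
    rw [mob_zero]; exact (hd.differentiableAt hopen).hasDerivAt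
  have d3 : HasDerivAt (mob (h w)) (deriv (mob (h w)) (h w)) (h (mob w 0)) := by
    rw [mob_zero]; exact ((mob_hasDeriv hhw hhw).differentiableAt).hasDerivAt
  have d4 : HasDerivAt k (deriv (mob (h w)) (h w) * (deriv h w * deriv (mob w) 0)) 0 := by
    have := d3.comp (0 : ℂ) (d2.comp (0 : ℂ) d1)
    exact this
  rw [d4.deriv, norm_mul, norm_mul, mob_deriv_self hhw, mob_deriv_zero hw] at h2
  have p1 := one_sub_sq_pos hhw
  rw [inv_mul_le_iff₀ p1, mul_one] at h2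
  exact h2

/-- Schwarz–Pick on a disc, in terms of its conformal radius -/
theorem schwarz_pick {h : ℂ → ℂ} {q : ℂ} {ρ : ℝ} (hd : DifferentiableOn ℂ h (Metric.ball q ρ))
    (hm : Set.MapsTo h (Metric.ball q ρ) (Metric.ball 0 1)) {z : ℂ}
    (hz : z ∈ Metric.ball q ρ) :
    ‖deriv h z‖ * cb q ρ z ≤ 1 - ‖h z‖ ^ 2 := by
  have hρ : 0 < ρ := by
    rw [mem_ball_iff_norm] at hz
    exact lt_of_le_of_lt (norm_nonneg _) hz
  have haff := affine_bij q hρ
  obtain ⟨w, hw, hwz⟩ := haff.surjOn hz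
  have hd' : DifferentiableOn ℂ (fun v : ℂ => h (q + ρ * v)) (Metric.ball 0 1) :=
    hd.comp (by fun_prop) (fun v hv => haff.mapsTo hv)
  have hm' : Set.MapsTo (fun v : ℂ => h (q + ρ * v)) (Metric.ball 0 1) (Metric.ball 0 1) :=
    fun v hv => hm (haff.mapsTo hv)
  have h1 := schwarz_pick_unit hd' hm' hw
  have d1 : HasDerivAt (fun v : ℂ => q + ρ * v) (ρ : ℂ) w := by
    simpa using ((hasDerivAt_id w).const_mul (ρ : ℂ)).const_add q
  have d2 : HasDerivAt h (deriv h z) (q + ρ * w) := by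
    have e : q + ρ * w = z := hwz
    rw [e]; exact (hd.differentiableAt (Metric.isOpen_ball.mem_nhds hz)).hasDerivAt
  have d3 : HasDerivAt (fun v : ℂ => h (q + ρ * v)) (deriv h z * ρ) w := d2.comp w d1
  rw [d3.deriv, norm_mul, Complex.norm_real, Real.norm_of_nonneg hρ.le] at h1
  have e1 : cb q ρ z = ρ * (1 - ‖w‖ ^ 2) := by
    rw [← hwz]
    show cb q ρ (q + ρ * w) = _
    rw [cb_affine q hρ]
    simp [cb]
  have e2 : h (q + ρ * w) = h z := by
    have e : q + ρ * w = z := hwz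
    rw [e]
  rw [e1, ← mul_assoc]
  rw [e2] at h1
  exact h1

/-- a conformal map of `D` onto the unit disc -/
structure RMap (D : Set ℂ) (f : ℂ → ℂ) : Prop where
  diff : DifferentiableOn ℂ f D
  bij : Set.BijOn f D (Metric.ball 0 1)

/-- conformal radius -/
def cr (f : ℂ → ℂ) (z : ℂ) : ℝ := (1 - ‖f z‖ ^ 2) / ‖deriv f z‖

theorem RMap.deriv_pos {D : Set ℂ} {f : ℂ → ℂ} (R : RMap D f) (hO : IsOpen D) {z : ℂ}
    (hz : z ∈ D) : 0 < ‖deriv f z‖ :=
  norm_pos_iff.2 (Crest.Agent.Lib.deriv_ne_zero_of_injOn hO R.diff R.bij.injOn hz)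

theorem RMap.cr_pos {D : Set ℂ} {f : ℂ → ℂ} (R : RMap D f) (hO : IsOpen D) {z : ℂ}
    (hz : z ∈ D) : 0 < cr f z :=
  div_pos (one_sub_sq_pos (R.bij.mapsTo hz)) (R.deriv_pos hO hz)

/-- discs inside `D` have smaller conformal radius -/
theorem SPin {D : Set ℂ} {f : ℂ → ℂ} (R : RMap D f) (hO : IsOpen D) {q : ℂ} {ρ : ℝ}
    (hB : Metric.ball q ρ ⊆ D) {z : ℂ} (hz : z ∈ Metric.ball q ρ) : cb q ρ z ≤ cr f z := by
  have h1 := schwarz_pick (R.diff.mono hB) (R.bij.mapsTo.mono_left hB) hz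
  unfold cr
  rw [le_div_iff₀ (R.deriv_pos hO (hB hz)), mul_comm]
  exact h1

/-- general Schwarz–Pick for maps of `D` into the unit disc -/
theorem SPgen {D : Set ℂ} {f : ℂ → ℂ} (R : RMap D f) (hO : IsOpen D) {T : ℂ → ℂ}
    (hT : DifferentiableOn ℂ T D) (hTm : Set.MapsTo T D (Metric.ball 0 1)) {z : ℂ} (hz : z ∈ D) :
    ‖deriv T z‖ * cr f z ≤ 1 - ‖T z‖ ^ 2 := by
  obtain ⟨φ, hφd, hφi, hφD, hφf, hfφ⟩ :=
    Crest.Agent.Lib.exists_holomorphic_inverse hO R.diff R.bij.injOn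
  rw [R.bij.image_eq] at hφd hφi hφD hfφ
  have hφm : Set.MapsTo φ (Metric.ball 0 1) D := fun w hw => by
    rw [← hφD]; exact Set.mem_image_of_mem φ hw
  have hw := R.bij.mapsTo hz
  have h1 := schwarz_pick_unit (hT.comp hφd hφm) (hTm.comp hφm) hw
  have hzf : φ (f z) = z := hφf z hz
  have d1 : HasDerivAt φ (deriv φ (f z)) (f z) :=
    (hφd.differentiableAt (Metric.isOpen_ball.mem_nhds hw)).hasDerivAt
  have d2 : HasDerivAt T (deriv T z) (φ (f z)) := by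
    rw [hzf]; exact (hT.differentiableAt (hO.mem_nhds hz)).hasDerivAt
  have d3 : HasDerivAt f (deriv f z) z := (R.diff.differentiableAt (hO.mem_nhds hz)).hasDerivAt
  have d4 := d2.comp (f z) d1
  have d5 : HasDerivAt (fun v => φ (f v)) (deriv φ (f z) * deriv f z) z := d1.comp z d3
  have d6 : HasDerivAt (fun v => φ (f v)) 1 z := by
    refine (hasDerivAt_id z).congr_of_eventuallyEq ?_
    filter_upwards [hO.mem_nhds hz] with v hv
    exact hφf v hv
  have e1 : deriv φ (f z) * deriv f z = 1 := d5.unique d6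
  have e2 : ‖deriv φ (f z)‖ * ‖deriv f z‖ = 1 := by rw [← norm_mul, e1, norm_one]
  have e3 : deriv (T ∘ φ) (f z) = deriv T z * deriv φ (f z) := d4.deriv
  rw [e3, norm_mul, Function.comp_apply, hzf] at h1
  have p1 := R.deriv_pos hO hz
  unfold cr
  have e4 : ‖deriv φ (f z)‖ = 1 / ‖deriv f z‖ := by rw [eq_div_iff p1.ne']; exact e2
  rw [e4] at h1
  calc ‖deriv T z‖ * ((1 - ‖f z‖ ^ 2) / ‖deriv f z‖)
      = ‖deriv T z‖ * (1 / ‖deriv f z‖) * (1 - ‖f z‖ ^ 2) := by ring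
    _ ≤ _ := h1

/-- `D` inside a disc -/
theorem SPout {D : Set ℂ} {f : ℂ → ℂ} (R : RMap D f) (hO : IsOpen D) {q : ℂ} {ρ : ℝ}
    (hB : D ⊆ Metric.ball q ρ) {z : ℂ} (hz : z ∈ D) : cr f z ≤ cb q ρ z := by
  have hρ : 0 < ρ := by
    have := hB hz
    rw [mem_ball_iff_norm] at this
    exact lt_of_le_of_lt (norm_nonneg _) this
  have hρ' : (ρ : ℂ) ≠ 0 := Complex.ofReal_ne_zero.2 hρ.ne'
  have hT : DifferentiableOn ℂ (fun v : ℂ => (v - q) / ρ) D := by fun_prop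
  have hTm : Set.MapsTo (fun v : ℂ => (v - q) / ρ) D (Metric.ball 0 1) := by
    intro v hv
    have h1 := hB hv
    rw [mem_ball_iff_norm] at h1
    rw [mem_ball_iff_norm, sub_zero, norm_div, Complex.norm_real, Real.norm_of_nonneg hρ.le,
      div_lt_one hρ]
    exact h1
  have h1 := SPgen R hO hT hTm hz
  have d : HasDerivAt (fun v : ℂ => (v - q) / ρ) (1 / (ρ : ℂ)) z :=
    ((hasDerivAt_id z).sub_const q).div_const (ρ : ℂ)
  rw [d.deriv, norm_div, norm_one, norm_div, Complex.norm_real, Real.norm_of_nonneg hρ.le] at h1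
  unfold cb
  rw [le_div_iff₀ hρ]
  have h2 : 1 / ρ * cr f z * ρ ^ 2 ≤ (1 - (‖z - q‖ / ρ) ^ 2) * ρ ^ 2 :=
    mul_le_mul_of_nonneg_right h1 (sq_nonneg _)
  have e1 : 1 / ρ * cr f z * ρ ^ 2 = cr f z * ρ := by field_simp
  have e2 : (1 - (‖z - q‖ / ρ) ^ 2) * ρ ^ 2 = ρ ^ 2 - ‖z - q‖ ^ 2 := by field_simp
  rw [e1, e2] at h2
  exact h2

/-- `D` outside a disc -/
theorem SPext {D : Set ℂ} {f : ℂ → ℂ} (R : RMap D f) (hO : IsOpen D) {e : ℂ} {ρ : ℝ}
    (hρ : 0 < ρ) (hB : ∀ v ∈ D, ρ < ‖v - e‖) {z : ℂ} (hz : z ∈ D) :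
    cr f z ≤ (‖z - e‖ ^ 2 - ρ ^ 2) / ρ := by
  have hne : ∀ v ∈ D, v - e ≠ 0 := fun v hv => norm_pos_iff.1 (hρ.trans (hB v hv))
  have hT : DifferentiableOn ℂ (fun v : ℂ => (ρ : ℂ) / (v - e)) D := by
    intro v hv
    exact ((differentiableAt_const (ρ : ℂ)).div (differentiableAt_id.sub_const e)
      (hne v hv)).differentiableWithinAt
  have hTm : Set.MapsTo (fun v : ℂ => (ρ : ℂ) / (v - e)) D (Metric.ball 0 1) := by
    intro v hv
    rw [mem_ball_iff_norm, sub_zero, norm_div, Complex.norm_real, Real.norm_of_nonneg hρ.le,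
      div_lt_one (norm_pos_iff.2 (hne v hv))]
    exact hB v hv
  have h1 := SPgen R hO hT hTm hz
  have d : HasDerivAt (fun v : ℂ => (ρ : ℂ) / (v - e)) (-(ρ : ℂ) / (z - e) ^ 2) z := by
    have := ((hasDerivAt_const z (ρ : ℂ)).div ((hasDerivAt_id z).sub_const e) (hne z hz))
    refine this.congr_deriv ?_
    simp
  have hp := norm_pos_iff.2 (hne z hz)
  rw [d.deriv, norm_div, norm_neg, norm_pow, norm_div, Complex.norm_real,
    Real.norm_of_nonneg hρ.le] at h1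
  rw [le_div_iff₀ hρ]
  have h2 : ρ / ‖z - e‖ ^ 2 * cr f z * ‖z - e‖ ^ 2 ≤
      (1 - (ρ / ‖z - e‖) ^ 2) * ‖z - e‖ ^ 2 := mul_le_mul_of_nonneg_right h1 (sq_nonneg _)
  have e1 : ρ / ‖z - e‖ ^ 2 * cr f z * ‖z - e‖ ^ 2 = cr f z * ρ := by field_simp
  have e2 : (1 - (ρ / ‖z - e‖) ^ 2) * ‖z - e‖ ^ 2 = ‖z - e‖ ^ 2 - ρ ^ 2 := by field_simp
  rw [e1, e2] at h2
  exact h2

/-! ### squeeze criterion -/

/-- if for every `ε` the function is eventually in some `[A, (1+ε) A]`, `A > 0`, it has a positive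
limit -/
theorem exists_limit {α : Type*} {l : Filter α} [NeBot l] {h : α → ℝ}
    (H : ∀ ε > 0, ∃ A > 0, ∀ᶠ a in l, A ≤ h a ∧ h a ≤ (1 + ε) * A) :
    ∃ F : ℝ, 0 < F ∧ Tendsto h l (𝓝 F) := by
  obtain ⟨A₁, hA₁, hev₁⟩ := H 1 one_pos
  have hc : Cauchy (map h l) := by
    rw [Metric.cauchy_iff]
    refine ⟨inferInstance, fun ε hε => ?_⟩
    obtain ⟨A, hA, hev⟩ := H (ε / (2 * A₁ + 1) / 2) (by positivity)
    refine ⟨{x | A ≤ x ∧ x ≤ (1 + ε / (2 * A₁ + 1) / 2) * A ∧ x ≤ 2 * A₁}, ?_, ?_⟩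
    · rw [mem_map]
      filter_upwards [hev, hev₁] with a h1 h2
      exact ⟨h1.1, h1.2, by linarith [h2.2]⟩
    · rintro x ⟨hx1, hx2, hx3⟩ y ⟨hy1, hy2, hy3⟩
      rw [Real.dist_eq, abs_lt]
      have hAle : A ≤ 2 * A₁ := hx1.trans hx3
      have h3 : ε / (2 * A₁ + 1) / 2 * A < ε := by
        have : ε / (2 * A₁ + 1) / 2 * A ≤ ε / (2 * A₁ + 1) / 2 * (2 * A₁ + 1) :=
          mul_le_mul_of_nonneg_left (by linarith) (by positivity)
        have e : ε / (2 * A₁ + 1) / 2 * (2 * A₁ + 1) = ε / 2 := by field_simp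
        linarith
      constructor <;> nlinarith
  obtain ⟨F, hF⟩ := CompleteSpace.complete hc
  have hF' : Tendsto h l (𝓝 F) := hF
  refine ⟨F, lt_of_lt_of_le hA₁ (ge_of_tendsto hF' ?_), hF'⟩
  filter_upwards [hev₁] with a ha
  exact ha.1

/-! ### the one-point function of a general domain, up to a constant -/

variable {Lam : (n : ℕ) → Set ℂ → (Fin n → ℂ) → ℝ}

theorem lam_one (H : SpinInB .plus Lam) {D : Set ℂ} (hD : IsC2JordanDomain D) (hO : IsOpen D)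
    {f : ℂ → ℂ} (R : RMap D f) :
    ∃ K : ℝ, 0 < K ∧ ∀ z ∈ D, Lam 1 D (fun _ => z) = K * (cr f z) ^ (-(1 : ℝ) / 8) := by
  have hA : Allow .plus 1 := Or.inl rfl
  obtain ⟨k, hk, hcov⟩ := H.cov 1 D _ hA hD (isC2_ball 0 one_pos) f R.diff R.bij
  obtain ⟨C, hC, hlam⟩ := lam_ball H (0 : ℂ) one_pos
  refine ⟨C / k, div_pos hC hk, fun z hz => ?_⟩
  have h1 := hcov _ (conf_one hz)
  simp only [Finset.univ_unique, Finset.prod_const, Finset.card_singleton, pow_one] at h1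
  rw [hlam _ (R.bij.mapsTo hz)] at h1
  have hp := R.deriv_pos hO hz
  have hs := one_sub_sq_pos (R.bij.mapsTo hz)
  have e1 : cb 0 1 (f z) = 1 - ‖f z‖ ^ 2 := by simp [cb]
  rw [e1] at h1
  unfold cr
  rw [Real.div_rpow hs.le hp.le]
  have e2 : ‖deriv f z‖ ^ (-(1 : ℝ) / 8) = (‖deriv f z‖ ^ ((1 : ℝ) / 8))⁻¹ := by
    rw [← Real.rpow_neg hp.le]; congr 1; ring
  rw [e2, div_inv_eq_mul]
  have h2 : Lam 1 D (fun _ => z) = k⁻¹ * (k * Lam 1 D (fun _ => z)) := by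
    field_simp
  rw [h2, ← h1]
  ring

end Crest.Agent.R165.Nm3x422
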