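import Crest.Agent.R165.Nm3_422
import Crest.Agent.R165.GeoC_65

/-!
# Row 165 (S0250), U5 / S4: one-point function of a general `C²` Jordan domain (helper422)

`S4 : ... → a^{-1/8} ⟨σ_z⟩⁺_D → κ crad(z, D)^{-1/8}` for every `C²` Jordan domain.
-/

set_option autoImplicit false
set_option linter.unusedSectionVars false
set_option linter.unusedVariables false

noncomputable section

open Filter Topology
open Crest.ProbabilityR.IsingModel

namespace Crest.Agent.R165.Nm4x422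

open Crest.Agent.R165.U5Px422
open Crest.Agent.R165.USpinx641 (SpinInB)
open Crest.Agent.R165.Nm1x422
open Crest.Agent.R165.Nm2x422
open Crest.Agent.R165.Nm3x422
open Crest.Agent.R165.Redx541

variable {Lam : (n : ℕ) → Set ℂ → (Fin n → ℂ) → ℝ}

/-! ### transfer of limits between configurations -/

theorem eventually_ne {b : BoundaryCondition} (H : SpinInB b Lam) {n : ℕ} {D : Set ℂ}
    (hA : Allow b n) (hD : IsC2JordanDomain D) {x : Fin n → ℂ} (hx : x ∈ Conf D n)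
    {u : ℝ → Fin n → ℤ × ℤ} (hu : LApp u x) :
    ∀ᶠ a in 𝓝[>] (0 : ℝ), GB b (TT D a) (u a) ≠ 0 := by
  have h2 := H.ratio n D hA hD x hx x hx u u hu hu
  rw [div_self (H.pos n D hA hD x hx).ne'] at h2
  filter_upwards [h2.eventually (lt_mem_nhds (show (0 : ℝ) < 1 from one_pos))] with a ha h5
  rw [h5, div_zero] at ha
  exact lt_irrefl _ ha

/-- the rescaled correlation -/
def hh (b : BoundaryCondition) {n : ℕ} (D : Set ℂ) (u : ℝ → Fin n → ℤ × ℤ) (a : ℝ) : ℝ :=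
  a ^ (-((n : ℝ) / 8)) * GB b (TT D a) (u a)

theorem hh_ratio {b : BoundaryCondition} (H : SpinInB b Lam) {n : ℕ} {D : Set ℂ}
    (hA : Allow b n) (hD : IsC2JordanDomain D) {x x' : Fin n → ℂ} (hx : x ∈ Conf D n)
    (hx' : x' ∈ Conf D n) {u u' : ℝ → Fin n → ℤ × ℤ} (hu : LApp u x) (hu' : LApp u' x') :
    ∀ᶠ a in 𝓝[>] (0 : ℝ), hh b D u a = (GB b (TT D a) (u a) / GB b (TT D a) (u' a)) * hh b D u' a := by
  filter_upwards [eventually_ne H hA hD hx' hu'] with a ha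
  unfold hh
  field_simp

theorem transfer {b : BoundaryCondition} (H : SpinInB b Lam) {n : ℕ} {D : Set ℂ}
    (hA : Allow b n) (hD : IsC2JordanDomain D) {x x' : Fin n → ℂ} (hx : x ∈ Conf D n)
    (hx' : x' ∈ Conf D n) {u' : ℝ → Fin n → ℤ × ℤ} (hu' : LApp u' x') {F : ℝ}
    (hF : Tendsto (hh b D u') (𝓝[>] 0) (𝓝 F)) :
    SLim b D x (Lam n D x / Lam n D x' * F) := by
  intro u hu
  have h1 := (H.ratio n D hA hD x hx x' hx' u u' hu hu').mul hF
  refine h1.congr' ?_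
  filter_upwards [hh_ratio H hA hD hx hx' hu hu'] with a ha
  exact ha.symm

theorem SLim.unique {b : BoundaryCondition} {n : ℕ} {D : Set ℂ} {x : Fin n → ℂ} {F F' : ℝ}
    (h : SLim b D x F) (h' : SLim b D x F') : F = F' :=
  tendsto_nhds_unique (h _ (lapp_meshIndex x)) (h' _ (lapp_meshIndex x))

/-! ### geometry -/

/-- an open set has no point of largest norm -/
theorem exists_larger {D : Set ℂ} (hO : IsOpen D) {z : ℂ} (hz : z ∈ D) :
    ∃ w ∈ D, ‖z‖ < ‖w‖ := by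
  obtain ⟨ε, hε, hb⟩ := Metric.isOpen_iff.1 hO z hz
  by_cases h : z = 0
  · refine ⟨((ε / 2 : ℝ) : ℂ), hb ?_, ?_⟩
    · rw [h, mem_ball_iff_norm, sub_zero, Complex.norm_real, Real.norm_of_nonneg (by positivity)]
      linarith
    · rw [h, norm_zero, Complex.norm_real, Real.norm_of_nonneg (by positivity)]
      positivity
  · have hz0 : 0 < ‖z‖ := norm_pos_iff.2 h
    refine ⟨z + ((ε / 2 / ‖z‖ : ℝ) : ℂ) * z, hb ?_, ?_⟩
    · rw [mem_ball_iff_norm, add_sub_cancel_left, norm_mul, Complex.norm_real,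
        Real.norm_of_nonneg (by positivity), div_mul_cancel₀ _ hz0.ne']
      linarith
    · have e : z + ((ε / 2 / ‖z‖ : ℝ) : ℂ) * z = ((1 + ε / 2 / ‖z‖ : ℝ) : ℂ) * z := by
        push_cast; ring
      rw [e, norm_mul, Complex.norm_real, Real.norm_of_nonneg (by positivity)]
      have h2 : 0 < ε / 2 / ‖z‖ := by positivity
      nlinarith

/-- the farthest boundary point -/
theorem exists_far {D : Set ℂ} (hO : IsOpen D) (hB : Bornology.IsBounded D) (hne : D.Nonempty) :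
    ∃ p ∈ frontier D, 0 < ‖p‖ ∧ D ⊆ Metric.ball 0 ‖p‖ := by
  have hc : IsCompact (closure D) := hB.isCompact_closure
  obtain ⟨p, hp, hmax⟩ := hc.exists_isMaxOn (hne.mono subset_closure) continuous_norm.continuousOn
  have hlt : ∀ z ∈ D, ‖z‖ < ‖p‖ := by
    intro z hz
    obtain ⟨w, hw, hzw⟩ := exists_larger hO hz
    exact lt_of_lt_of_le hzw (hmax (subset_closure hw))
  obtain ⟨z0, hz0⟩ := hne
  refine ⟨p, ⟨hp, fun hi => ?_⟩, lt_of_le_of_lt (norm_nonneg _) (hlt z0 hz0), fun z hz => ?_⟩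
  · rw [hO.interior_eq] at hi
    exact lt_irrefl _ (hlt p hi)
  · rw [mem_ball_iff_norm, sub_zero]; exact hlt z hz

theorem ball_in_ball {q : ℂ} {ρ R : ℝ} (hρ : 0 < ρ)
    (h : Metric.ball q ρ ⊆ Metric.ball (0 : ℂ) R) : ‖q‖ + ρ ≤ R := by
  by_contra hcon
  have hcon : R < ‖q‖ + ρ := not_le.1 hcon
  set d : ℂ := if q = 0 then 1 else q / ‖q‖ with hd
  have hd1 : ‖d‖ = 1 := by
    by_cases hq : q = 0
    · rw [hd, if_pos hq, norm_one]
    · rw [hd, if_neg hq, norm_div, Complex.norm_real, norm_norm, div_self (norm_ne_zero_iff.2 hq)]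
  have hqd : q = ‖q‖ * d := by
    by_cases hq : q = 0
    · rw [hq]; simp
    · rw [hd, if_neg hq]
      have : (‖q‖ : ℂ) ≠ 0 := Complex.ofReal_ne_zero.2 (norm_ne_zero_iff.2 hq)
      field_simp
  obtain ⟨s, hs1, hs2⟩ := exists_between (show max 0 (R - ‖q‖) < ρ by
    rw [max_lt_iff]; exact ⟨hρ, by linarith⟩)
  have hs0 : 0 < s := lt_of_le_of_lt (le_max_left _ _) hs1
  have hsR : R - ‖q‖ < s := lt_of_le_of_lt (le_max_right _ _) hs1
  have hm : q + s * d ∈ Metric.ball q ρ := by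
    rw [mem_ball_iff_norm, add_sub_cancel_left, norm_mul, hd1, mul_one, Complex.norm_real,
      Real.norm_of_nonneg hs0.le]
    exact hs2
  have h2 := h hm
  rw [mem_ball_iff_norm, sub_zero] at h2
  have e : q + s * d = ((‖q‖ + s : ℝ) : ℂ) * d := by
    conv_lhs => rw [hqd]
    push_cast; ring
  rw [e, norm_mul, hd1, mul_one, Complex.norm_real, Real.norm_of_nonneg (by positivity)] at h2
  linarith

/-- norm along the normal at the farthest point -/
theorem norm_far {p n : ℂ} {ρ : ℝ} (hρ : 0 < ρ) (hn : ‖n‖ = 1)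
    (h : Metric.ball (p + ρ * n) ρ ⊆ Metric.ball (0 : ℂ) ‖p‖) (t : ℝ) :
    ‖p + t * n‖ ^ 2 = (‖p‖ - t) ^ 2 := by
  have h1 := ball_in_ball hρ h
  have h2 : ‖p‖ ≤ ‖p + ρ * n‖ + ρ := by
    have e : p = (p + ρ * n) - ρ * n := by ring
    calc ‖p‖ = ‖(p + ρ * n) - ρ * n‖ := by rw [← e]
      _ ≤ ‖p + ρ * n‖ + ‖(ρ : ℂ) * n‖ := norm_sub_le _ _
      _ = _ := by rw [norm_mul, hn, mul_one, Complex.norm_real, Real.norm_of_nonneg hρ.le]
  have h3 : ‖p + ρ * n‖ = ‖p‖ - ρ := by linarith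
  have expand : ∀ s : ℝ, ‖p + s * n‖ ^ 2 = ‖p‖ ^ 2 + 2 * s * (p.re * n.re + p.im * n.im) + s ^ 2 := by
    intro s
    have hn2 : n.re ^ 2 + n.im ^ 2 = 1 := by
      have := Complex.sq_norm n
      rw [hn, Complex.normSq_apply] at this
      linarith
    rw [Complex.sq_norm, Complex.sq_norm, Complex.normSq_apply, Complex.normSq_apply]
    simp only [Complex.add_re, Complex.add_im, Complex.mul_re, Complex.mul_im, Complex.ofReal_re,
      Complex.ofReal_im, zero_mul, sub_zero, add_zero]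
    linear_combination s ^ 2 * hn2
  have h4 := expand ρ
  rw [h3] at h4
  have h5 : p.re * n.re + p.im * n.im = -‖p‖ := by
    have : 2 * ρ * (p.re * n.re + p.im * n.im) = 2 * ρ * (-‖p‖) := by nlinarith
    exact mul_left_cancel₀ (by positivity) this
  rw [expand t, h5]; ring

theorem tangent_mem {p n : ℂ} {ρ t : ℝ} (hn : ‖n‖ = 1) (ht : 0 < t) (htρ : t ≤ ρ) :
    p + t * n ∈ Metric.ball (p + ρ * n) ρ := by
  rw [mem_ball_iff_norm]
  have e : p + t * n - (p + ρ * n) = ((t - ρ : ℝ) : ℂ) * n := by push_cast; ring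
  rw [e, norm_mul, hn, mul_one, Complex.norm_real, Real.norm_eq_abs, abs_sub_comm,
    abs_of_nonneg (by linarith)]
  linarith

theorem cb_tangent {p n : ℂ} {ρ t : ℝ} (hρ : 0 < ρ) (hn : ‖n‖ = 1) :
    cb (p + ρ * n) ρ (p + t * n) = 2 * t - t ^ 2 / ρ := by
  unfold cb
  have e : p + t * n - (p + ρ * n) = ((t - ρ : ℝ) : ℂ) * n := by push_cast; ring
  rw [e, norm_mul, hn, mul_one, Complex.norm_real, Real.norm_eq_abs, sq_abs]
  field_simp
  ring

/-- `((2t - t²/A) / (2t - t²/B))^{-1/8} → 1` (`A`, `B` may be negative) -/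
theorem ratio_tendsto' (A B : ℝ) :
    Tendsto (fun t : ℝ => (2 * t - t ^ 2 / B) ^ (-(1 : ℝ) / 8) / (2 * t - t ^ 2 / A) ^ (-(1 : ℝ) / 8))
      (𝓝[>] 0) (𝓝 1) := by
  have h1 : Tendsto (fun t : ℝ => (2 - t / B) / (2 - t / A)) (𝓝[>] 0) (𝓝 1) := by
    have h2 : ContinuousAt (fun t : ℝ => (2 - t / B) / (2 - t / A)) 0 := by
      apply ContinuousAt.div
      · fun_prop
      · fun_prop
      · simp
    have h3 := h2.tendsto
    simp only [zero_div, sub_zero] at h3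
    rw [div_self (by norm_num : (2 : ℝ) ≠ 0)] at h3
    exact h3.mono_left nhdsWithin_le_nhds
  have h3 : ContinuousAt (fun s : ℝ => s ^ (-(1 : ℝ) / 8)) 1 :=
    Real.continuousAt_rpow_const _ _ (Or.inl one_ne_zero)
  have h4 := h3.tendsto.comp h1
  rw [Real.one_rpow] at h4
  have pos : ∀ C : ℝ, ∀ᶠ t in 𝓝[>] (0 : ℝ), 0 < 2 - t / C := by
    intro C
    have h2 : ContinuousAt (fun t : ℝ => 2 - t / C) 0 := by fun_prop
    have h3 := h2.tendsto
    simp only [zero_div, sub_zero] at h3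
    exact (h3.mono_left nhdsWithin_le_nhds).eventually (lt_mem_nhds (by norm_num))
  refine h4.congr' ?_
  filter_upwards [self_mem_nhdsWithin, pos A, pos B] with t ht hA hB
  have ht' : 0 < t := ht
  have e1 : 2 * t - t ^ 2 / B = t * (2 - t / B) := by ring
  have e2 : 2 * t - t ^ 2 / A = t * (2 - t / A) := by ring
  rw [e1, e2, Real.mul_rpow ht'.le hB.le, Real.mul_rpow ht'.le hA.le,
    mul_div_mul_left _ _ (Real.rpow_pos_of_pos ht' _).ne', ← Real.div_rpow hB.le hA.le]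
  rfl

theorem rpow_anti {x y : ℝ} (hx : 0 < x) (h : x ≤ y) :
    y ^ (-(1 : ℝ) / 8) ≤ x ^ (-(1 : ℝ) / 8) :=
  Real.rpow_le_rpow_of_nonpos hx h (by norm_num)

/-- **S4**: one-point function of a general domain -/
theorem S4 (H : SpinInB .plus Lam) {κ : ℝ} (hκ : 0 < κ)
    (h3 : ∀ (c : ℂ) (r : ℝ), 0 < r → ∀ z ∈ Metric.ball c r,
      SLim .plus (Metric.ball c r) (fun _ : Fin 1 => z) (κ * fb c r z))
    {D : Set ℂ} (hD : IsC2JordanDomain D) {f : ℂ → ℂ} (R : RMap D f) {z : ℂ} (hz : z ∈ D) :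
    SLim .plus D (fun _ : Fin 1 => z) (κ * (cr f z) ^ (-(1 : ℝ) / 8)) := by
  have hA : Allow .plus 1 := Or.inl rfl
  have hne : D.Nonempty := ⟨z, hz⟩
  obtain ⟨r0, M0, hCD⟩ := GeoCx65.exists_CD hD hne
  have hO := hCD.isOpen
  have hB := hCD.bdd
  obtain ⟨p, hp, hp0, hsub⟩ := exists_far hO hB hne
  obtain ⟨n, hn, hball⟩ := GeoDx65.CD.ball_open hCD hp
  obtain ⟨ρ, hρ, hρ1, hρ2⟩ : ∃ ρ : ℝ, 0 < ρ ∧ 2 * ρ ≤ r0 ∧ 2 * M0 * ρ ≤ 1 := by
    refine ⟨min (r0 / 2) (1 / (2 * M0 + 1)), ?_, ?_, ?_⟩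
    · have := hCD.r_pos
      have := hCD.M_nonneg
      positivity
    · have := min_le_left (r0 / 2) (1 / (2 * M0 + 1)); linarith
    · have h1 := min_le_right (r0 / 2) (1 / (2 * M0 + 1))
      have h2 := hCD.M_nonneg
      have h3 : 2 * M0 * min (r0 / 2) (1 / (2 * M0 + 1)) ≤ 2 * M0 * (1 / (2 * M0 + 1)) :=
        mul_le_mul_of_nonneg_left h1 (by linarith)
      have h4 : 2 * M0 * (1 / (2 * M0 + 1)) ≤ 1 := by
        rw [mul_one_div, div_le_one (by linarith)]; linarith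
      linarith
  obtain ⟨hin, -⟩ := hball ρ hρ hρ1 hρ2
  have hin' := hin.trans hsub
  obtain ⟨K, hK, hlam⟩ := lam_one H hD hO R
  intro u hu
  show Tendsto (hh .plus D u) (𝓝[>] 0) _
  -- values at the approach points
  have hcr0 := R.cr_pos hO hz
  set L := κ * (cr f z) ^ (-(1 : ℝ) / 8) with hL
  have hL0 : 0 < L := mul_pos hκ (Real.rpow_pos_of_pos hcr0 _)
  have key : ∀ t : ℝ, 0 < t → t ≤ ρ → ∀ q : ℝ,
      q = (2 * t - t ^ 2 / ρ) ^ (-(1 : ℝ) / 8) / (2 * t - t ^ 2 / ‖p‖) ^ (-(1 : ℝ) / 8) →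
      0 < q ∧ (∀ s, L * q < s → ∀ᶠ a in 𝓝[>] (0 : ℝ), hh .plus D u a < s) ∧
        (∀ s, s < L / q → ∀ᶠ a in 𝓝[>] (0 : ℝ), s < hh .plus D u a) := by
    intro t ht htρ q hq
    set w : ℂ := p + t * n with hw
    have hwB : w ∈ Metric.ball (p + ρ * n) ρ := tangent_mem hn ht htρ
    have hwD : w ∈ D := hin hwB
    have hwO : w ∈ Metric.ball (0 : ℂ) ‖p‖ := hsub hwD
    have e1 : cb (p + ρ * n) ρ w = 2 * t - t ^ 2 / ρ := cb_tangent hρ hn
    have e2 : cb 0 ‖p‖ w = 2 * t - t ^ 2 / ‖p‖ := by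
      unfold cb
      rw [sub_zero, hw, norm_far hρ hn hin' t]
      field_simp
      ring
    have c1 := cb_pos hwB
    have c2 := cb_pos hwO
    have hcrw := R.cr_pos hO hwD
    have l1 : cb (p + ρ * n) ρ w ≤ cr f w := SPin R hO hin hwB
    have l2 : cr f w ≤ cb 0 ‖p‖ w := SPout R hO hsub hwD
    set fB := (cb (p + ρ * n) ρ w) ^ (-(1 : ℝ) / 8) with hfB
    set fR := (cb 0 ‖p‖ w) ^ (-(1 : ℝ) / 8) with hfR
    set fw := (cr f w) ^ (-(1 : ℝ) / 8) with hfw
    have hfB0 : 0 < fB := Real.rpow_pos_of_pos c1 _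
    have hfR0 : 0 < fR := Real.rpow_pos_of_pos c2 _
    have hfw0 : 0 < fw := Real.rpow_pos_of_pos hcrw _
    have l3 : fw ≤ fB := rpow_anti c1 l1
    have l4 : fR ≤ fw := rpow_anti hcrw l2
    have hq' : q = fB / fR := by rw [hq, hfB, hfR, e1, e2]
    have hq0 : 0 < q := by rw [hq']; exact div_pos hfB0 hfR0
    set v : ℝ → Fin 1 → ℤ × ℤ := fun a _ => meshIndex a w with hv
    have hv' : LApp v (fun _ => w) := lapp_meshIndex (fun _ : Fin 1 => w)
    have hr := H.ratio 1 D hA hD _ (conf_one hz) _ (conf_one hwD) u v hu hv'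
    have hev := hh_ratio H hA hD (conf_one hz) (conf_one hwD) hu hv'
    rw [hlam z hz, hlam w hwD, mul_div_mul_left _ _ hK.ne'] at hr
    have hTB : Tendsto (hh .plus (Metric.ball (p + ρ * n) ρ) v) (𝓝[>] 0) (𝓝 (κ * fB)) :=
      h3 _ ρ hρ w hwB v hv'
    have hTR : Tendsto (hh .plus (Metric.ball 0 ‖p‖) v) (𝓝[>] 0) (𝓝 (κ * fR)) :=
      h3 _ ‖p‖ hp0 w hwO v hv'
    have up := hr.mul hTB
    have lo := hr.mul hTR
    have rpos : 0 < (cr f z) ^ (-(1 : ℝ) / 8) / fw :=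
      div_pos (Real.rpow_pos_of_pos hcr0 _) hfw0
    have hrpos := hr.eventually (lt_mem_nhds rpos)
    refine ⟨hq0, fun s hs => ?_, fun s hs => ?_⟩
    · have : (cr f z) ^ (-(1 : ℝ) / 8) / fw * (κ * fB) < s := by
        refine lt_of_le_of_lt ?_ hs
        rw [hL, hq']
        have h5 : fB / fw ≤ fB / fR := div_le_div_of_nonneg_left hfB0.le hfR0 l4
        calc (cr f z) ^ (-(1 : ℝ) / 8) / fw * (κ * fB)
            = κ * (cr f z) ^ (-(1 : ℝ) / 8) * (fB / fw) := by ring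
          _ ≤ κ * (cr f z) ^ (-(1 : ℝ) / 8) * (fB / fR) :=
            mul_le_mul_of_nonneg_left h5 hL0.le
      filter_upwards [up.eventually (gt_mem_nhds this), hev, hrpos, self_mem_nhdsWithin]
        with a h5 h6 h7 ha
      refine lt_of_le_of_lt ?_ h5
      rw [h6]
      refine mul_le_mul_of_nonneg_left ?_ h7.le
      unfold hh
      exact mul_le_mul_of_nonneg_left (GB_plus_anti (TT_mono hB hin ha) _)
        (Real.rpow_nonneg (le_of_lt ha) _)
    · have : s < (cr f z) ^ (-(1 : ℝ) / 8) / fw * (κ * fR) := by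
        refine lt_of_lt_of_le hs ?_
        rw [hL, hq', div_div_eq_mul_div]
        calc κ * (cr f z) ^ (-(1 : ℝ) / 8) * fR / fB
            = κ * (cr f z) ^ (-(1 : ℝ) / 8) * fR * (1 / fB) := by ring
          _ ≤ κ * (cr f z) ^ (-(1 : ℝ) / 8) * fR * (1 / fw) :=
            mul_le_mul_of_nonneg_left (one_div_le_one_div_of_le hfw0 l3)
              (mul_pos hL0 hfR0).le
          _ = _ := by ring
      filter_upwards [lo.eventually (lt_mem_nhds this), hev, hrpos, self_mem_nhdsWithin]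
        with a h5 h6 h7 ha
      refine lt_of_lt_of_le h5 ?_
      rw [h6]
      refine mul_le_mul_of_nonneg_left ?_ h7.le
      unfold hh
      exact mul_le_mul_of_nonneg_left
        (GB_plus_anti (TT_mono Metric.isBounded_ball hsub ha) _)
        (Real.rpow_nonneg (le_of_lt ha) _)
  have hlim := ratio_tendsto' ‖p‖ ρ
  have hsmall : ∀ᶠ t in 𝓝[>] (0 : ℝ), t < ρ :=
    (eventually_lt_nhds hρ).filter_mono nhdsWithin_le_nhds
  rw [tendsto_order]
  refine ⟨fun s hs => ?_, fun s hs => ?_⟩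
  · have h4 := (tendsto_const_nhds (x := L)).div hlim one_ne_zero
    rw [div_one] at h4
    obtain ⟨t, h5, h6, h7⟩ :=
      ((h4.eventually (lt_mem_nhds hs)).and (hsmall.and self_mem_nhdsWithin)).exists
    exact (key t h7 h6.le _ rfl).2.2 s h5
  · have h4 := (tendsto_const_nhds (x := L)).mul hlim
    rw [mul_one] at h4
    obtain ⟨t, h5, h6, h7⟩ :=
      ((h4.eventually (gt_mem_nhds hs)).and (hsmall.and self_mem_nhdsWithin)).exists
    exact (key t h7 h6.le _ rfl).2.1 s h5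

end Crest.Agent.R165.Nm4x422
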