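import Crest.Agent.R165.Nm5_422

/-!
# Row 165 (S0250), U5: `SpinOut .plus n` (helper422)

`spinOut_plus : SpinInB .plus Lam → TwoPt g → (Riemann maps) → SpinOut .plus n`
-/

set_option autoImplicit false
set_option linter.unusedSectionVars false
set_option linter.unusedVariables false

noncomputable section

open Filter Topology
open Crest.ProbabilityR.IsingModel

namespace Crest.Agent.R165.Nm6x422

open Crest.Agent.R165.U5Px422
open Crest.Agent.R165.USpinx641 (SpinInB)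
open Crest.Agent.R165.Nm1x422
open Crest.Agent.R165.Nm2x422
open Crest.Agent.R165.Nm3x422
open Crest.Agent.R165.Nm4x422
open Crest.Agent.R165.Nm5x422

variable {Lam : (n : ℕ) → Set ℂ → (Fin n → ℂ) → ℝ}
variable {g : ℂ → ℝ → (Fin 2 → ℂ) → ℝ}

/-- Riemann maps of `C²` Jordan domains -/
def HasRMap : Prop := ∀ D, IsC2JordanDomain D → D.Nonempty → ∃ f, RMap D f

open Classical in
/-- the scaling limit as a function -/
def FF (n : ℕ) (D : Set ℂ) (x : Fin n → ℂ) : ℝ :=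
  if h : ∃ F : ℝ, 0 < F ∧ SLim .plus D x F then h.choose else 1

theorem FF_spec {n : ℕ} {D : Set ℂ} {x : Fin n → ℂ} (h : ∃ F : ℝ, 0 < F ∧ SLim .plus D x F) :
    0 < FF n D x ∧ SLim .plus D x (FF n D x) := by
  unfold FF
  rw [dif_pos h]
  exact h.choose_spec

theorem slim_zero (D : Set ℂ) (x : Fin 0 → ℂ) : SLim .plus D x 1 := by
  intro u _
  have : (fun a : ℝ => a ^ (-(((0 : ℕ) : ℝ) / 8)) * GB .plus (TT D a) (u a)) = fun _ => 1 := by
    funext a
    rw [GB_plus_zero]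
    simp
  rw [this]
  exact tendsto_const_nhds

theorem rmap_comp {D D' : Set ℂ} {φ f' : ℂ → ℂ} (hφ : DifferentiableOn ℂ φ D)
    (hbij : Set.BijOn φ D D') (R' : RMap D' f') : RMap D (fun z => f' (φ z)) where
  diff := R'.diff.comp hφ hbij.mapsTo
  bij := R'.bij.comp hbij

theorem F1_cov {D D' : Set ℂ} (hO : IsOpen D) (hO' : IsOpen D') {φ f' : ℂ → ℂ}
    (hφ : DifferentiableOn ℂ φ D) (hbij : Set.BijOn φ D D') (R' : RMap D' f') (κ : ℝ) {z : ℂ}
    (hz : z ∈ D) :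
    F1 κ (fun z => f' (φ z)) z = ‖deriv φ z‖ ^ ((1 : ℝ) / 8) * F1 κ f' (φ z) := by
  have R := rmap_comp hφ hbij R'
  have hz' := hbij.mapsTo hz
  have d1 : HasDerivAt φ (deriv φ z) z := (hφ.differentiableAt (hO.mem_nhds hz)).hasDerivAt
  have d2 : HasDerivAt f' (deriv f' (φ z)) (φ z) :=
    (R'.diff.differentiableAt (hO'.mem_nhds hz')).hasDerivAt
  have d3 : HasDerivAt (fun z => f' (φ z)) (deriv f' (φ z) * deriv φ z) z := d2.comp z d1
  have p1 : 0 < ‖deriv φ z‖ :=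
    norm_pos_iff.2 (Crest.Agent.Lib.deriv_ne_zero_of_injOn hO hφ hbij.injOn hz)
  have p2 := R'.deriv_pos hO' hz'
  have p3 := one_sub_sq_pos (R'.bij.mapsTo hz')
  have p4 := R'.cr_pos hO' hz'
  unfold F1
  have e1 : cr (fun z => f' (φ z)) z = cr f' (φ z) / ‖deriv φ z‖ := by
    unfold cr
    rw [d3.deriv, norm_mul]
    field_simp
  rw [e1, Real.div_rpow p4.le p1.le]
  have e2 : ‖deriv φ z‖ ^ (-(1 : ℝ) / 8) = (‖deriv φ z‖ ^ ((1 : ℝ) / 8))⁻¹ := by
    rw [← Real.rpow_neg p1.le]; congr 1; ring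
  rw [e2, div_inv_eq_mul]
  ring

/-- **`SpinOut .plus n`** -/
theorem spinOut_plus (H : SpinInB .plus Lam) (G : TwoPt g) (RM : HasRMap) (n : ℕ) :
    SpinOut .plus n := by
  obtain ⟨κ, hκ, h3⟩ := S3 H G
  have hA : Allow .plus n := Or.inl rfl
  have hex : ∀ D, IsC2JordanDomain D → ∀ x ∈ Conf D n, ∃ F : ℝ, 0 < F ∧ SLim .plus D x F := by
    intro D hD x hx
    rcases Nat.eq_zero_or_pos n with hn | hn
    · subst hn
      exact ⟨1, one_pos, slim_zero D x⟩
    · have hne : D.Nonempty := ⟨x ⟨0, hn⟩, hx.1 _⟩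
      obtain ⟨f, R⟩ := RM D hD hne
      exact S5 H hκ h3 hD R n hx hne
  refine ⟨FF n, fun D hD x hx => FF_spec (hex D hD x hx), ?_⟩
  intro D D' hD hD' φ hφ hbij x hx
  rcases Nat.eq_zero_or_pos n with hn | hn
  · subst hn
    have h1 := (FF_spec (hex D hD x hx)).2
    have h2 : (fun i => φ (x i)) ∈ Conf D' 0 := ⟨fun i => i.elim0, fun i => i.elim0⟩
    have h4 := (FF_spec (hex D' hD' _ h2)).2
    rw [SLim.unique h1 (slim_zero D x), SLim.unique h4 (slim_zero D' _)]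
    simp
  have hne : D.Nonempty := ⟨x ⟨0, hn⟩, hx.1 _⟩
  have hne' : D'.Nonempty := ⟨φ (x ⟨0, hn⟩), hbij.mapsTo (hx.1 _)⟩
  obtain ⟨r0, M0, hCD⟩ := GeoCx65.exists_CD hD hne
  obtain ⟨r0', M0', hCD'⟩ := GeoCx65.exists_CD hD' hne'
  have hO := hCD.isOpen
  have hO' := hCD'.isOpen
  obtain ⟨f', R'⟩ := RM D' hD' hne'
  set f : ℂ → ℂ := fun z => f' (φ z) with hf
  have R : RMap D f := rmap_comp hφ hbij R'
  -- notation
  have hmap : ∀ y ∈ Conf D n, (fun i => φ (y i)) ∈ Conf D' n := fun y hy =>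
    ⟨fun i => hbij.mapsTo (hy.1 i), fun i j h => hy.2 (hbij.injOn (hy.1 i) (hy.1 j) h)⟩
  have hsp : ∀ y ∈ Conf D n, 0 < FF n D y ∧ SLim .plus D y (FF n D y) := fun y hy =>
    FF_spec (hex D hD y hy)
  have hsp' : ∀ y ∈ Conf D' n, 0 < FF n D' y ∧ SLim .plus D' y (FF n D' y) := fun y hy =>
    FF_spec (hex D' hD' y hy)
  set Q : (Fin n → ℂ) → ℝ := fun y => ∏ i, ‖deriv φ (y i)‖ ^ ((1 : ℝ) / 8) with hQ
  have hQ0 : ∀ y ∈ Conf D n, 0 < Q y := fun y hy => Finset.prod_pos fun i _ =>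
    Real.rpow_pos_of_pos (norm_pos_iff.2
      (Crest.Agent.Lib.deriv_ne_zero_of_injOn hO hφ hbij.injOn (hy.1 i))) _
  have hPP : ∀ y ∈ Conf D n, ∏ i, F1 κ f (y i) = Q y * ∏ i, F1 κ f' (φ (y i)) := by
    intro y hy
    rw [hQ, ← Finset.prod_mul_distrib]
    exact Finset.prod_congr rfl fun i _ => F1_cov hO hO' hφ hbij R' κ (hy.1 i)
  -- lower bounds
  have hlow : ∀ y ∈ Conf D n, ∏ i, F1 κ f (y i) ≤ FF n D y := by
    intro y hy
    by_contra hcon
    have hcon' : FF n D y < ∏ i, F1 κ f (y i) := not_le.1 hcon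
    obtain ⟨s, hs1, hs2⟩ := exists_between hcon'
    have h5 := lower (κ := κ) (f := f) (fun i => S4 H hκ h3 hD R (hy.1 i)) (lapp_meshIndex y) hs2
    have h6 : Tendsto (hh .plus D fun a i => meshIndex a (y i)) (𝓝[>] 0) (𝓝 (FF n D y)) :=
      (hsp y hy).2 _ (lapp_meshIndex y)
    obtain ⟨a, ha1, ha2⟩ := (h5.and (h6.eventually (gt_mem_nhds hs1))).exists
    exact lt_irrefl _ (ha1.trans ha2)
  have hlow' : ∀ y ∈ Conf D' n, ∏ i, F1 κ f' (y i) ≤ FF n D' y := by
    intro y hy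
    by_contra hcon
    have hcon' : FF n D' y < ∏ i, F1 κ f' (y i) := not_le.1 hcon
    obtain ⟨s, hs1, hs2⟩ := exists_between hcon'
    have h5 := lower (κ := κ) (f := f') (fun i => S4 H hκ h3 hD' R' (hy.1 i)) (lapp_meshIndex y) hs2
    have h6 : Tendsto (hh .plus D' fun a i => meshIndex a (y i)) (𝓝[>] 0) (𝓝 (FF n D' y)) :=
      (hsp' y hy).2 _ (lapp_meshIndex y)
    obtain ⟨a, ha1, ha2⟩ := (h5.and (h6.eventually (gt_mem_nhds hs1))).exists
    exact lt_irrefl _ (ha1.trans ha2)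
  -- almost equality near the boundary
  have hnear : ∀ ε > 0, ∃ y ∈ Conf D n, FF n D y ≤ (1 + ε) * ∏ i, F1 κ f (y i) := by
    intro ε hε
    obtain ⟨y, hy, U, hU, hup⟩ := near_boundary H hκ h3 hD hne R n hε
    refine ⟨y, hy, ?_⟩
    have h6 : Tendsto (hh .plus D fun a i => meshIndex a (y i)) (𝓝[>] 0) (𝓝 (FF n D y)) :=
      (hsp y hy).2 _ (lapp_meshIndex y)
    refine le_of_tendsto h6 ?_
    filter_upwards [hup _ (lapp_meshIndex y) _ hU] with a ha
    exact ha.le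
  have hnear' : ∀ ε > 0, ∃ y ∈ Conf D' n, FF n D' y ≤ (1 + ε) * ∏ i, F1 κ f' (y i) := by
    intro ε hε
    obtain ⟨y, hy, U, hU, hup⟩ := near_boundary H hκ h3 hD' hne' R' n hε
    refine ⟨y, hy, ?_⟩
    have h6 : Tendsto (hh .plus D' fun a i => meshIndex a (y i)) (𝓝[>] 0) (𝓝 (FF n D' y)) :=
      (hsp' y hy).2 _ (lapp_meshIndex y)
    refine le_of_tendsto h6 ?_
    filter_upwards [hup _ (lapp_meshIndex y) _ hU] with a ha
    exact ha.le
  -- proportionality
  have hprop : ∀ y ∈ Conf D n, ∀ w ∈ Conf D n,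
      FF n D y = Lam n D y / Lam n D w * FF n D w := fun y hy w hw =>
    SLim.unique (hsp y hy).2 (transfer H hA hD hy hw (lapp_meshIndex w)
      ((hsp w hw).2 _ (lapp_meshIndex w)))
  have hprop' : ∀ y ∈ Conf D' n, ∀ w ∈ Conf D' n,
      FF n D' y = Lam n D' y / Lam n D' w * FF n D' w := fun y hy w hw =>
    SLim.unique (hsp' y hy).2 (transfer H hA hD' hy hw (lapp_meshIndex w)
      ((hsp' w hw).2 _ (lapp_meshIndex w)))
  obtain ⟨k, hk, hcov⟩ := H.cov n D D' hA hD hD' φ hφ hbij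
  set k' : ℝ := FF n D' (fun i => φ (x i)) * Q x / FF n D x with hk'
  have hxpos := (hsp x hx).1
  have hconst : ∀ y ∈ Conf D n, FF n D' (fun i => φ (y i)) * Q y = k' * FF n D y := by
    intro y hy
    have c1 := hcov y hy
    have c2 := hcov x hx
    have L1 := H.pos n D hA hD y hy
    have L2 := H.pos n D hA hD x hx
    have L3 := H.pos n D' hA hD' _ (hmap y hy)
    have L4 := H.pos n D' hA hD' _ (hmap x hx)
    have q1 := hQ0 y hy
    have q2 := hQ0 x hx
    rw [hprop' _ (hmap y hy) _ (hmap x hx), hprop y hy x hx, hk']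
    have c1' : Lam n D' (fun i => φ (y i)) * Q y = k * Lam n D y := c1
    have c2' : Lam n D' (fun i => φ (x i)) * Q x = k * Lam n D x := c2
    have e1 : Lam n D' (fun i => φ (y i)) = k * Lam n D y / Q y := by
      rw [eq_div_iff q1.ne']; exact c1'
    have e2 : Lam n D' (fun i => φ (x i)) = k * Lam n D x / Q x := by
      rw [eq_div_iff q2.ne']; exact c2'
    rw [e1, e2]
    field_simp
  have hk'1 : k' = 1 := by
    apply le_antisymm
    · refine le_of_forall_pos_le_add fun ε hε => ?_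
      obtain ⟨y, hy, hyle⟩ := hnear' ε hε
      -- pull back
      have hpre : ∀ i, ∃ z ∈ D, φ z = y i := fun i => hbij.surjOn (hy.1 i)
      choose w hw hwy using hpre
      have hwc : w ∈ Conf D n := ⟨hw, fun i j h => hy.2 (by rw [← hwy i, ← hwy j, h])⟩
      have hwy' : (fun i => φ (w i)) = y := funext hwy
      have h5 := hconst w hwc
      rw [hwy'] at h5
      have h6 := hlow w hwc
      rw [hPP w hwc] at h6
      have h7 : ∏ i, F1 κ f' (φ (w i)) = ∏ i, F1 κ f' (y i) :=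
        Finset.prod_congr rfl fun i _ => by rw [hwy i]
      rw [h7] at h6
      have h8 : k' * FF n D w ≤ (1 + ε) * FF n D w := by
        calc k' * FF n D w = FF n D' y * Q w := h5.symm
          _ ≤ ((1 + ε) * ∏ i, F1 κ f' (y i)) * Q w :=
            mul_le_mul_of_nonneg_right hyle (hQ0 w hwc).le
          _ = (1 + ε) * (Q w * ∏ i, F1 κ f' (y i)) := by ring
          _ ≤ _ := mul_le_mul_of_nonneg_left h6 (by linarith)
      exact le_of_mul_le_mul_right h8 (hsp w hwc).1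
    · by_contra hcon
      have hcon' : k' < 1 := not_le.1 hcon
      have hk'0 : 0 < k' := div_pos (mul_pos (hsp' _ (hmap x hx)).1 (hQ0 x hx)) hxpos
      obtain ⟨ε, hε, hε2⟩ : ∃ ε : ℝ, 0 < ε ∧ k' * (1 + ε) < 1 := by
        refine ⟨(1 - k') / (2 * k'), div_pos (by linarith) (by linarith), ?_⟩
        have : k' * (1 + (1 - k') / (2 * k')) = (1 + k') / 2 := by field_simp; ring
        rw [this]; linarith
      obtain ⟨y, hy, hyle⟩ := hnear ε hε
      have h5 := hconst y hy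
      have h6 := hlow' _ (hmap y hy)
      have h7 := hPP y hy
      have hP : 0 < ∏ i, F1 κ f (y i) := Finset.prod_pos fun i _ => F1_pos hκ R hO (hy.1 i)
      have h8 : ∏ i, F1 κ f (y i) ≤ k' * (1 + ε) * ∏ i, F1 κ f (y i) := by
        calc ∏ i, F1 κ f (y i) = Q y * ∏ i, F1 κ f' (φ (y i)) := h7
          _ ≤ Q y * FF n D' (fun i => φ (y i)) := mul_le_mul_of_nonneg_left h6 (hQ0 y hy).le
          _ = k' * FF n D y := by rw [← h5]; ring
          _ ≤ k' * ((1 + ε) * ∏ i, F1 κ f (y i)) := mul_le_mul_of_nonneg_left hyle hk'0.le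
          _ = _ := by ring
      nlinarith
  have h9 := hconst x hx
  rw [hk'1, one_mul] at h9
  rw [← h9]
  ring

end Crest.Agent.R165.Nm6x422
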