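import Crest.Agent.R165.Nm6_422
import Crest.Agent.R165.GeoP4_67

/-!
# Row 165 (S0250), U5: Riemann maps of `C²` Jordan domains in the form used by U5 (helper422)
-/

set_option autoImplicit false

noncomputable section

open Crest.ProbabilityR.IsingModel

namespace Crest.Agent.R165.Nm7x422

open Crest.Agent.R165.U5Px422
open Crest.Agent.R165.USpinx641 (SpinInB)
open Crest.Agent.R165.Nm3x422
open Crest.Agent.R165.Nm6x422

/-- Riemann maps exist -/
theorem hasRMap : HasRMap := by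
  intro D hD hne
  obtain ⟨r, M, h⟩ := Crest.Agent.R165.GeoCx65.exists_CD hD hne
  obtain ⟨z₀, hz₀⟩ := hne
  obtain ⟨φ, ψ, R⟩ := Crest.Agent.R165.GeoPx67.CD.exists_rmap h hz₀
  exact ⟨φ, R.diff, Set.InvOn.bijOn ⟨R.left, R.right⟩ R.maps R.maps'⟩

/-- **U5 for plus** -/
theorem spinOut_plus' {Lam : (n : ℕ) → Set ℂ → (Fin n → ℂ) → ℝ}
    {g : ℂ → ℝ → (Fin 2 → ℂ) → ℝ} (H : SpinInB .plus Lam) (G : TwoPt g) (n : ℕ) :
    SpinOut .plus n := spinOut_plus H G hasRMap n

end Crest.Agent.R165.Nm7x422
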