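import Crest.Agent.R165.Init1_337
import Crest.Agent.R165.Init_541

/-!
# Row 165 (S0250), block G, (P7): the shooting leaf `P7L` (helper337)

* `init_of` : `Init` (step 0) for fixed constants from 541's `oneStep0`
* `p7L_of_data` : `P7L` from the data of the initial activities and the bound of the explicit part
-/

set_option autoImplicit false

noncomputable section

open scoped ENNReal
open Filter Topology
open Crest.ProbabilityR.IsingModel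
open Crest.Agent.R165.Gr0x606 Crest.Agent.R165.Gr1x606 Crest.Agent.R165.GeOpsx337
open Crest.Agent.R165.Latx683 Crest.Agent.R165.GDefx387 Crest.Agent.R165.GSysx387
open Crest.Agent.R165.KFlowx337 Crest.Agent.R165.Bkgx683 Crest.Agent.R165.PEndx683
open Crest.Agent.R165.Outx683 Crest.Agent.R165.W2x812 Crest.Agent.R165.PStepx417
open Crest.Agent.R165.Initx541

namespace Crest.Agent.R165.P7x337

theorem one_le_Mc (p : ℕ) : 1 ≤ Mc p := by
  unfold Mc cM3 PlaneCoefx901.cM PlaneCoefx901.cK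
  have : (1 : ℝ) ≤ 2 ^ p := one_le_pow₀ (by norm_num)
  push_cast
  nlinarith

/-- `Init` for fixed constants -/
theorem init_of {J : ℝ} (hJ : 0 < J) {R : ℕ} {V : Finset (ℤ × ℤ) → ℝ} {c : Cst} {Cb : ℝ}
    (hp : 4 ≤ c.p) (hΓ : 3 ≤ c.Γ) (hA : 1 ≤ c.A0) (hS : Pl c Cb) (hr : 16 ≤ rr c.p c.k0 0)
    {CK ρ : ℝ} {Kc : ℝ → Fam}
    (D : InitData c.A0 (rr c.p c.k0 0) (nearR c.p c.k0 0) (ENNReal.ofReal c.Γ) CK ρ
      (Kpl J R V c.p c.k0) Kc) {Ce : ℝ} (hCe : 0 ≤ Ce)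
    (hE : ExB c.A0 (rr c.p c.k0 0) (rr c.p c.k0 1) (ENNReal.ofReal c.Γ) (SC c 0) Ce) {ζ : ℝ}
    (hζ : 3 * Ce * c.Γ / (rr c.p c.k0 1 : ℕ) ≤ ζ) : Init J R V c ζ (Mc c.p) := by
  obtain ⟨g, p0, p1, q2, q0, C, hk, hκ⟩ := hS.step 0
  have hR2 : 2 ≤ nearR c.p c.k0 0 := by
    unfold nearR
    have h1 : 16 ≤ rr c.p c.k0 (0 + 1) := hr.trans (rr_mono _ _ (by omega))
    omega
  have hζ' : 3 * (ENNReal.ofReal c.Γ).toReal * Ce / (rr c.p c.k0 1 : ℕ) ≤ ζ := by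
    rw [ENNReal.toReal_ofReal (by linarith)]
    refine le_trans (le_of_eq ?_) hζ
    ring
  obtain ⟨N, P, ρ', hN, hP, hρ', hall⟩ := oneStep0 hk (hS.sym 0) (by norm_num) hκ hA
    (by omega) hR2 D hCe hE (one_le_Mc c.p) hζ'
  refine ⟨N, P, ρ', ρ', 1 / J + 5 / 2 + 3 * CK, by linarith, hP, hρ', hρ', ?_,
    fun ν z => beI J (rr c.p c.k0 0) ν, fun ν z => zzI (rr c.p c.k0 0) ν z, ?_, ?_⟩
  · have := D.C_nonneg
    positivity
  · intro ν z
    have h1 := pI_abs (r := rr c.p c.k0 0) (by omega) ν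
    have h2 := zzI_abs (r := rr c.p c.k0 0) (by omega) ν z
    have h3 : |beI J (rr c.p c.k0 0) ν - criticalBeta J| ≤ 1 / J * |ν| := by
      rw [beI, add_sub_cancel_left, abs_div, abs_of_pos hJ, div_mul_eq_mul_div, one_mul]
      gcongr
    have h4 := D.C_nonneg
    have h5 : 0 ≤ 1 / J := by positivity
    have h6 := abs_nonneg ν
    have h7 := abs_nonneg z
    nlinarith [mul_nonneg h4 h6, mul_nonneg h4 h7, mul_nonneg h5 h7]
  · intro lam hlam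
    obtain ⟨h1, h2⟩ := hall lam
    refine ⟨_, _, _, h1, fun ν z hν hz => ?_⟩
    obtain ⟨h3, h4⟩ := h2 hlam.le ν z hν hz
    constructor
    · have h5 := h4 (plF c (mpar J lam R V (beI J (rr c.p c.k0 0) ν) (zzI (rr c.p c.k0 0) ν z)))
        rfl rfl (bulk_eP c.p c.k0 0) rfl rfl rfl
      rw [h5]
      push_cast
      rfl
    · have h5 : nk c.A0 (rr c.p c.k0 0) (ENNReal.ofReal c.Γ)
          (Kpl J R V c.p c.k0 lam (pI (rr c.p c.k0 0) ν) (zzI (rr c.p c.k0 0) ν z)) ≤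
          ENNReal.ofReal ((1 / J + 5 / 2 + 3 * CK) * (|lam| + |ν| + |z|)) := by
        refine h3.trans (ENNReal.ofReal_le_ofReal ?_)
        have h6 : 0 ≤ 1 / J := by positivity
        refine mul_le_mul_of_nonneg_right (by linarith) (by positivity)
      exact h5

/-- **`P7L`** from the data of the initial activities and the bound of the explicit part -/
theorem p7L_of_data {J : ℝ} (hJ : 0 < J) {R : ℕ} {V : Finset (ℤ × ℤ) → ℝ}
    (hD : ∀ (l k0 : ℕ) (a : ℝ) (Γ : ℝ≥0∞), 1 ≤ a → 3 ≤ Γ → Γ ≠ ∞ → 6 ≤ rr l k0 0 →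
      1 ≤ nearR l k0 0 → ∃ (CK ρ : ℝ) (Kc : ℝ → Fam),
        InitData a (rr l k0 0) (nearR l k0 0) Γ CK ρ (Kpl J R V l k0) Kc)
    (hE : ∀ C : ℝ, BkReg C → ∃ (C' : ℝ) (R₁ : ℕ), 0 ≤ C' ∧ ∀ (a : ℝ) (r r' : ℕ) (Γ : ℝ≥0∞)
      (S : Cov (Fld ℤ)) (p z : ℝ), 1 ≤ a → 8 ≤ r → R₁ ≤ r' → 1 ≤ Γ → Γ ≠ ∞ →
      nk a r' Γ (PStepIdx901.QlG S r (Kex p z)) ≤
        Γ * ENNReal.ofReal (C' * a ^ 2 * (|p| + |z|) / r')) :
    PTopx386.P7L J R V := by
  refine p7L_of fun Cb hreg => ?_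
  obtain ⟨Ce, R₁, hCe, hE⟩ := hE Cb hreg
  refine ⟨3 * Ce, max 16 R₁, fun c hp hΓ hA hS hrr ζ hζ0 hζ => ?_⟩
  have h16 : 16 ≤ rr c.p c.k0 0 := (le_max_left _ _).trans (hrr 0)
  have hG : 3 ≤ ENNReal.ofReal c.Γ := by
    rw [show (3 : ℝ≥0∞) = ENNReal.ofReal 3 by simp]
    exact ENNReal.ofReal_le_ofReal hΓ
  have hn : 1 ≤ nearR c.p c.k0 0 := by
    unfold nearR
    have h1 : 16 ≤ rr c.p c.k0 (0 + 1) := h16.trans (rr_mono _ _ (by omega))
    omega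
  obtain ⟨CK, ρ, Kc, D⟩ := hD c.p c.k0 c.A0 (ENNReal.ofReal c.Γ) hA hG ENNReal.ofReal_ne_top
    (by omega) hn
  exact init_of hJ hp hΓ hA hS h16 D hCe
    (fun p z => hE c.A0 _ _ _ _ p z hA (by omega) ((le_max_right _ _).trans (hrr 1))
      (le_trans (by norm_num) hG) ENNReal.ofReal_ne_top) hζ

end Crest.Agent.R165.P7x337
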