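import Crest.Agent.R165.P7L_337
import Crest.Agent.R165.InitEx_877

/-!
# Row 165 (S0250), block G, (P7): `P7L` from the data of the initial activities (helper337)
-/

set_option autoImplicit false

noncomputable section

open scoped ENNReal
open Crest.Agent.R165.GSysx387 Crest.Agent.R165.PStepx417 Crest.Agent.R165.Initx541

namespace Crest.Agent.R165.P7x337

/-- **`P7L`** from the data of the initial activities of the plane -/
theorem p7L_of_initData {J : ℝ} (hJ : 0 < J) {R : ℕ} {V : Finset (ℤ × ℤ) → ℝ}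
    (hD : ∀ (l k0 : ℕ) (a : ℝ) (Γ : ℝ≥0∞), 1 ≤ a → 3 ≤ Γ → Γ ≠ ∞ → 6 ≤ rr l k0 0 →
      1 ≤ nearR l k0 0 → ∃ (CK ρ : ℝ) (Kc : ℝ → Fam),
        InitData a (rr l k0 0) (nearR l k0 0) Γ CK ρ (Kpl J R V l k0) Kc) :
    PTopx386.P7L J R V :=
  p7L_of_data hJ hD fun _ h => InitExx877.nk_QlG_Kex h

end Crest.Agent.R165.P7x337
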