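import Crest.Agent.R165.PInst_417
import Crest.Agent.R165.Out_683
import Crest.Agent.R165.BkFin_806

/-!
# Row 165 (S0250), block G4: `stepK`, the steps of the plane flow in the form of P7 (337)

* `stPl c k` : the state space of step `k`; `stepPl c k` : the step
* `stepK` : `EvC`: `OneStep` for every step, contraction `1/8`, linear constant `cM3 (2^p)`, and
  uniform quadratic constant and radius; inside the radius the step is `nQ`
-/

set_option autoImplicit false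
set_option linter.unusedSectionVars false

noncomputable section

open scoped ENNReal
open Crest.Agent.R165.Gr0x606 Crest.Agent.R165.Gr1x606 Crest.Agent.R165.Latx683
open Crest.Agent.R165.GDefx387 Crest.Agent.R165.GSysx387 Crest.Agent.R165.GSysOKx439
open Crest.Agent.R165.FRDPolyx439 Crest.Agent.R165.FRDLatx439 Crest.Agent.R165.W2x812
open Crest.Agent.R165.PEndx683 Crest.Agent.R165.Sht3x541 Crest.Agent.R165.Outx683
open Crest.Agent.R165.PStepIdx901 (alQ beQ)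

namespace Crest.Agent.R165.PStepx417

/-- the state space of step `k` -/
abbrev stPl (c : Cst) (k : ℕ) : Type :=
  St c.A0 (rr c.p c.k0 k) (nearR c.p c.k0 k) (ENNReal.ofReal c.Γ)

/-- the step `k` -/
def stepPl (c : Cst) (k : ℕ) (n z : ℝ) (x : stPl c k) : stPl c (k + 1) :=
  nSt (rr c.p c.k0 k) (nearR c.p c.k0 k) (nearR c.p c.k0 (k + 1)) (symS_slC DD c.p c.k0 k)
    (nearR_mono c.p c.k0 (Nat.le_succ k)) n z x

/-- **the steps of the plane flow** -/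
theorem stepK : ∃ Cb : ℝ, BkReg Cb ∧ EvC fun c => 4 ≤ c.p ∧ 3 ≤ c.Γ ∧ 1 ≤ c.A0 ∧
    ∃ P ρ : ℝ, 0 ≤ P ∧ 0 < ρ ∧ ∀ k,
      OneStep (E := stPl c k) (E' := stPl c (k + 1)) (fun x => Nmx x / c.A0 ^ 2)
        (fun x => Nmx x / c.A0 ^ 2) (fun x y => Dsx x y / c.A0 ^ 2)
        (fun x y => Dsx x y / c.A0 ^ 2) (stepPl c k)
        (fun _ _ x => (rr c.p c.k0 (k + 1) : ℝ) *
          alQ (slC DD (wPl ℤ) c.p c.k0 k) (rr c.p c.k0 k) x.Q)
        (fun _ _ x => beQ (slC DD (wPl ℤ) c.p c.k0 k) (rr c.p c.k0 k) x.Q)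
        (1 / 8) 0 0 (cM3 (2 ^ c.p)) P ρ ∧
      ∀ n z (x : stPl c k), |n| ≤ ρ → |z| ≤ ρ → Nmx x / c.A0 ^ 2 ≤ ρ →
        (stepPl c k n z x).Q = nQ (rr c.p c.k0 k) (nearR c.p c.k0 k) (nearR c.p c.k0 (k + 1))
          (slC DD (wPl ℤ) c.p c.k0 k) n z x.Q := by
  obtain ⟨Cb, hCb⟩ := BkFinx806.exists_BkReg
  refine ⟨Cb, hCb, ?_⟩
  refine (ConstAx729.pstep_ev DD hCb (by decide)
    (show (0 : ℝ) < 1 / 8 by norm_num)).mono fun c hc => ?_
  obtain ⟨h1, h2, h3, -, -, h6⟩ := hc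
  have hA : 0 < c.A0 := by linarith
  have hA2 : 0 < c.A0 ^ 2 := by positivity
  have hA1 : 1 ≤ c.A0 ^ 2 := one_le_pow₀ h3
  have hP := cP2_nonneg c.A0 Cb (2 ^ c.p) (ENNReal.ofReal c.Γ)
  have hρ := cρ_pos c.A0 Cb (2 ^ c.p) (ENNReal.ofReal c.Γ)
  refine ⟨h1, h2, h3, cP2 c.A0 Cb (2 ^ c.p) (ENNReal.ofReal c.Γ) * (c.A0 ^ 2) ^ 2,
    cρ c.A0 Cb (2 ^ c.p) (ENNReal.ofReal c.Γ) / c.A0 ^ 2, by positivity, by positivity,
    fun k => ⟨?_, fun n z x hn hz hx => ?_⟩⟩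
  · exact oneStep_a (h6 k c.A0 le_rfl).2 (symS_slC DD c.p c.k0 k) (by norm_num)
      (h6 k c.A0 le_rfl).1.ke_le h3
  · have hle : cρ c.A0 Cb (2 ^ c.p) (ENNReal.ofReal c.Γ) / c.A0 ^ 2 ≤
        cρ c.A0 Cb (2 ^ c.p) (ENNReal.ofReal c.Γ) := div_le_self hρ.le hA1
    refine (nSt_nm (h6 k c.A0 le_rfl).2 (symS_slC DD c.p c.k0 k) (by norm_num)
      (h6 k c.A0 le_rfl).1.ke_le x (hn.trans hle) (hz.trans hle) ?_ le_rfl).1
    exact (div_le_div_iff_of_pos_right hA2).1 hx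

end Crest.Agent.R165.PStepx417
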