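import Crest.Agent.R165.PTop_386

/-!
# Row 165 (S0250): the universality half from its literal leaves, torus half as a limit (helper386)

`TorL2` : the torus bond expectations converge to `(exp (expoT c P S t) - 1) / t`, for all small
`t > 0` (output of `TorFin_599.torBonds_of_flow` or of `TorFin_63.torBonds_of`).
`pflow_of_leaves2 : Leaves2 → PFlow`.
-/

set_option autoImplicit false
set_option linter.unusedSectionVars false

noncomputable section

open Filter Topology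
open scoped ENNReal
open Crest.ProbabilityR.IsingModel
open Crest.Agent.R165.Bkgx683 Crest.Agent.R165.PEndx683 Crest.Agent.R165.Outx683
open Crest.Agent.R165.SrcERx441 Crest.Agent.R165.PinSysx723
open Crest.Agent.R165.Symx541 Crest.Agent.R165.Redx541 Crest.Agent.R165.Red2x541
open Crest.Agent.R165.Centx541 Crest.Agent.R165.Mastx541 Crest.Agent.R165.SRx541
open Crest.Agent.R165.Topx683

namespace Crest.Agent.R165.PTopx386

variable (J : ℝ) (R : ℕ) (V : Finset (ℤ × ℤ) → ℝ)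

/-- **torus half** of the limit of the bond expectations, as a limit -/
def TorL2 : Prop :=
  ForP J (PF J R V) fun c lam β z => ∀ S : Finset ((ℤ × ℤ) × Fin 2), ∃ t0 > 0, ∀ t : ℝ, 0 < t →
    t < t0 → Tendsto (fun L : ℕ => torBonds L J lam R V β S) atTop
      (𝓝 ((Real.exp (expoT c (mpar J lam R V β z) S t) - 1) / t))

/-- energy with functions on the frozen names -/
structure EnL2 (Ze : Cst → ℝ → ℝ → ℝ → ℝ) (eb : Cst → ℝ → ℝ → ℝ → Fin 2 → ℝ) : Prop where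
  one : OneP J (PF J R V) Ze
  dom : EnD J R V Ze eb
  disc : EnP J R V Ze eb

/-- **all leaves**, torus half as a limit -/
structure Leaves2 : Prop where
  p7 : ∀ J : ℝ, 0 < J → ∀ (R : ℕ) (V : Finset (ℤ × ℤ) → ℝ), VHyp R V → P7L J R V
  zeta : ∀ J : ℝ, 0 < J → ∀ (R : ℕ) (V : Finset (ℤ × ℤ) → ℝ), VHyp R V → ZetaL J R V
  spd : ∀ J : ℝ, 0 < J → ∀ (R : ℕ) (V : Finset (ℤ × ℤ) → ℝ), VHyp R V → SpDL J R V
  spp : ∀ J : ℝ, 0 < J → ∀ (R : ℕ) (V : Finset (ℤ × ℤ) → ℝ), VHyp R V → SpPL J R V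
  en : ∀ J : ℝ, 0 < J → ∀ (R : ℕ) (V : Finset (ℤ × ℤ) → ℝ), VHyp R V → EnL J R V
  tor : ∀ J : ℝ, 0 < J → ∀ (R : ℕ) (V : Finset (ℤ × ℤ) → ℝ), VHyp R V → TorL2 J R V
  dis : ∀ J : ℝ, 0 < J → ∀ (R : ℕ) (V : Finset (ℤ × ℤ) → ℝ), VHyp R V → DisL J R V

variable {J R V}

theorem EnL2.enL {Ze : Cst → ℝ → ℝ → ℝ → ℝ} {eb : Cst → ℝ → ℝ → ℝ → Fin 2 → ℝ}
    (h : EnL2 J R V Ze eb) : EnL J R V := ⟨Ze, eb, h.one, h.dom, h.disc⟩

theorem TorL.two (hJ : 0 < J) (hV : VHyp R V) (h : TorL J R V) : TorL2 J R V := by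
  refine ForP.imp h fun c lam β z h S => ?_
  obtain ⟨t0, ht0, h1⟩ := h S
  refine ⟨t0, ht0, fun t ht htt => ?_⟩
  obtain ⟨ZG, ZT, h3, h4⟩ := h1 t ht htt
  exact TorFinx63.torBonds_of hJ hV lam β S ht.ne' h3 h4

theorem dl2 (hT : TorL2 J R V) (hD : DisL J R V) :
    ForP J (PF J R V) fun _ lam β _ => DiscLim J lam R V β := by
  refine ForP.imp (ForP.and hT hD) fun c lam β z h S => ?_
  obtain ⟨t0, ht0, h1⟩ := h.1 S
  obtain ⟨t1, ht1, h2⟩ := h.2 S
  have hm : 0 < min t0 t1 / 2 := by have := lt_min ht0 ht1; linarith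
  set t := min t0 t1 / 2 with ht
  have htlt : t < min t0 t1 := by rw [ht]; linarith
  refine ⟨_, h1 t hm (htlt.trans_le (min_le_left _ _)), ?_⟩
  exact lin_of_ratio hm.ne' (h2 t hm (htlt.trans_le (min_le_right _ _)))
    (Eventually.of_forall fun _ => rfl)

/-- **the instance of `FlowOut`** -/
theorem flowOut_of2
    (h0 : DiscLim 1 0 0 (fun _ => 0) (criticalBeta 1)) (h7 : P7L J R V) (hz : ZetaL J R V)
    (hsd : SpDL J R V) (hsp : SpPL J R V) (he : EnL J R V) (hT : TorL2 J R V) (hD : DisL J R V) :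
    Nonempty (FlowOut J R V) := by
  obtain ⟨Ze, eb, hZe, hEd, hEp⟩ := he
  have herp : ForP J (PF J R V) fun c lam β z =>
      ERP J lam R V β (Ze c lam β z) (eb c lam β z) :=
    ForP.imp hEp fun _ _ _ _ h => ERP_of h
  refine ⟨⟨PF J R V, Zs J R V, Ze, eb, h7, hz.zs, hZe, srd hz hsd,
    ForP.imp hEd fun _ _ _ _ h => ERD_of h, srp hz hsp, herp, dl2 hT hD, ?_⟩⟩
  exact ForP.imp (ForP.and herp (dl2 hT hD)) fun c lam β z h j =>
    EbTorx723.bm_of TorusUTx922.UTb_proof h0 h.1 h.2 j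

/-- **`PFlow` from the literal leaves** -/
theorem pflow_of_leaves2 (h : Leaves2) : PFlow := by
  refine pflow_of fun J hJ R V hV => ?_
  refine flowOut_of2 ?_ (h.p7 J hJ R V hV) (h.zeta J hJ R V hV) (h.spd J hJ R V hV)
    (h.spp J hJ R V hV) (h.en J hJ R V hV) (h.tor J hJ R V hV) (h.dis J hJ R V hV)
  exact discLim_zero (h.p7 1 one_pos 0 _ vhyp_zero)
    (dl2 (h.tor 1 one_pos 0 _ vhyp_zero) (h.dis 1 one_pos 0 _ vhyp_zero))

end Crest.Agent.R165.PTopx386
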