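import Crest.Agent.R165.PTop2_386
import Crest.Agent.R165.PEnd2_683

/-!
# Row 165 (S0250): the universality half from its leaves, final list (helper386)

* energy leaves as `ERD`, `ERP` (441's `ERD_of_run`, `ERP_of_run` produce them): `EnLR`
* `pflow_of_leaves3 : Leaves3 → PFlow`
* `s0250_P` : `ULimB → Leaves3 → ULim ∧ PRatio` is `SPosx894.all_of'` applied to it
-/

set_option autoImplicit false
set_option linter.unusedSectionVars false

noncomputable section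

open Filter Topology
open scoped ENNReal
open Crest.ProbabilityR.IsingModel
open Crest.Agent.R165.Bkgx683 Crest.Agent.R165.PEndx683 Crest.Agent.R165.Outx683
open Crest.Agent.R165.PinSysx723
open Crest.Agent.R165.Symx541 Crest.Agent.R165.Redx541 Crest.Agent.R165.Red2x541
open Crest.Agent.R165.Centx541 Crest.Agent.R165.Mastx541 Crest.Agent.R165.SRx541
open Crest.Agent.R165.Topx683

namespace Crest.Agent.R165.PTopx386

/-- **energy** on given names `Ze`, `eb`: renormalisation, domains, large plus discs -/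
structure EnR (J : ℝ) (R : ℕ) (V : Finset (ℤ × ℤ) → ℝ) (Ze : Cst → ℝ → ℝ → ℝ → ℝ)
    (eb : Cst → ℝ → ℝ → ℝ → Fin 2 → ℝ) : Prop where
  one : OneP J (PF J R V) Ze
  dom : ForP J (PF J R V) fun c lam β z => ERD J lam R V β (Ze c lam β z) (eb c lam β z)
  disc : ForP J (PF J R V) fun c lam β z => ERP J lam R V β (Ze c lam β z) (eb c lam β z)

/-- **all leaves** -/
structure Leaves3 : Prop where
  p7 : ∀ J : ℝ, 0 < J → ∀ (R : ℕ) (V : Finset (ℤ × ℤ) → ℝ), VHyp R V → P7L J R V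
  zeta : ∀ J : ℝ, 0 < J → ∀ (R : ℕ) (V : Finset (ℤ × ℤ) → ℝ), VHyp R V → ZetaL J R V
  spd : ∀ J : ℝ, 0 < J → ∀ (R : ℕ) (V : Finset (ℤ × ℤ) → ℝ), VHyp R V → SpDL J R V
  spp : ∀ J : ℝ, 0 < J → ∀ (R : ℕ) (V : Finset (ℤ × ℤ) → ℝ), VHyp R V → SpPL J R V
  en : ∀ J : ℝ, 0 < J → ∀ (R : ℕ) (V : Finset (ℤ × ℤ) → ℝ), VHyp R V →
    ∃ (Ze : Cst → ℝ → ℝ → ℝ → ℝ) (eb : Cst → ℝ → ℝ → ℝ → Fin 2 → ℝ), EnR J R V Ze eb
  tor : ∀ J : ℝ, 0 < J → ∀ (R : ℕ) (V : Finset (ℤ × ℤ) → ℝ), VHyp R V → TorL2 J R V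
  dis : ∀ J : ℝ, 0 < J → ∀ (R : ℕ) (V : Finset (ℤ × ℤ) → ℝ), VHyp R V → DisL J R V

variable {J : ℝ} {R : ℕ} {V : Finset (ℤ × ℤ) → ℝ}

/-- **the instance of `FlowOut2`** -/
theorem flowOut2_of (h7 : P7L J R V) (hz : ZetaL J R V) (hsd : SpDL J R V) (hsp : SpPL J R V)
    {Ze : Cst → ℝ → ℝ → ℝ → ℝ} {eb : Cst → ℝ → ℝ → ℝ → Fin 2 → ℝ} (he : EnR J R V Ze eb)
    (hT : TorL2 J R V) (hD : DisL J R V) : Nonempty (FlowOut2 J R V) :=
  ⟨⟨PF J R V, Zs J R V, Ze, eb, h7, hz.zs, he.one, srd hz hsd, he.dom, srp hz hsp, he.disc,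
    dl2 hT hD⟩⟩

/-- **`PFlow` from the leaves** -/
theorem pflow_of_leaves3 (h : Leaves3) : PFlow := by
  refine pflow_of2 TorusUTx922.UTb_proof fun J hJ R V hV => ?_
  obtain ⟨Ze, eb, he⟩ := h.en J hJ R V hV
  exact flowOut2_of (h.p7 J hJ R V hV) (h.zeta J hJ R V hV) (h.spd J hJ R V hV)
    (h.spp J hJ R V hV) he (h.tor J hJ R V hV) (h.dis J hJ R V hV)

end Crest.Agent.R165.PTopx386
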