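import Crest.Agent.R165.Pl2_654
import Crest.Agent.R165.Red2_541
import Crest.Agent.R165.UFin_420

/-!
# Row 165 (S0250), plane clause (helper654): final wiring of `UPb`

`UPb_of : T1 → KerPl → SpinPl → UPb`, where

* `T1` (helper922): torus bond products converge to the plane state
* `KerPl`         : kernel limits of the plane = `KerD false univ` of helper420, `n` even
* `SpinPl`        : scaling limits of the plane spin correlations, `n` even (`n = 0` is trivial)
-/

set_option autoImplicit false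

noncomputable section

namespace Crest.Agent.R165.Pl3x654

open Finset Filter Topology
open Crest.ProbabilityR.IsingModel
open Crest.Agent.R165
open Crest.Agent.R165.Gr0x606 Crest.Agent.R165.Enx599
open Crest.Agent.R165.Topx683 Crest.Agent.R165.Redx541 Crest.Agent.R165.Red2x541
  Crest.Agent.R165.Centx541
open Crest.Agent.R165.Latx683 (BW HE hp hq wDom ray wX IsCov covS formS Fld wPl)
open Crest.Agent.R165.UDomBx420 Crest.Agent.R165.UKerx420
open Crest.Agent.R165.Pl1x654 Crest.Agent.R165.Pl2x654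

/-- the limit of centred moments, abstract form of `UDomBx420.domain_limit` -/
theorem abs_limit {n m : ℕ} (W : ℝ → Type) [∀ a, AddCommGroup (W a)] [∀ a, Module ℝ (W a)]
    (S : ∀ a, Cov (W a)) (j : Fin m → Fin 2) (p : ∀ a, Fin m → Fin 2 → W a) (w : ℝ → Fin m → ℝ)
    (Sl : Cov (Fin m → ℂ)) (F : ℝ) (G G0 : ℝ → ℝ)
    (hJ : ∀ᶠ a in 𝓝[>] (0 : ℝ), G a =
      G0 a * EE (S a) (bpr (p a) (w a) (fun _ => e0) (List.finRange m)))
    (hK : KerLim W S j p w Sl)
    (hS : Tendsto (fun a : ℝ => scl n 0 a * G0 a) (𝓝[>] 0) (𝓝 F)) :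
    Tendsto (fun a : ℝ => scl n m a * G a) (𝓝[>] 0) (𝓝 ((-2 * xc) ^ m * Epf Sl j * F)) := by
  obtain ⟨γ, hγ, hlim⟩ := hK
  have h1 : Tendsto (fun a : ℝ => (a⁻¹) ^ (List.finRange m).length *
      EE (S a) (cpr (fun k i => γ a k i • p a k i) (fun _ => cP) (List.finRange m))) (𝓝[>] 0)
      (𝓝 (pfl (M0 Sl j) (2 * (List.finRange m).length) (idx (List.finRange m)))) := by
    refine tendsto_EE_cpr (F := 𝓝[>] (0:ℝ)) S (fun a k i => γ a k i • p a k i) (fun _ _ => cP)
      (fun a => a) (List.finRange m) (List.nodup_finRange m) (M0 Sl j) ?_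
    intro q _ q' _
    refine (hlim q q').congr fun a => ?_
    congr 1
    unfold cmat cBlock
    simp only [map_smul, LinearMap.smul_apply, smul_eq_mul]
    ring
  have h2 : Epf Sl j = pfl (M0 Sl j) (2 * (List.finRange m).length) (idx (List.finRange m)) := by
    unfold Epf
    rw [EE_cpr Sl _ _ _ (List.nodup_finRange m) _ le_rfl]
    congr 1
    funext q q'
    unfold cmat M0
    simp
  rw [← h2, List.length_finRange] at h1
  have h3 : Tendsto (fun a : ℝ => (-2 * xc) ^ m * ((a⁻¹) ^ m *
      EE (S a) (cpr (fun k i => γ a k i • p a k i) (fun _ => cP) (List.finRange m))) *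
      (scl n 0 a * G0 a)) (𝓝[>] 0)
      (𝓝 ((-2 * xc) ^ m * Epf Sl j * F)) := (h1.const_mul _).mul hS
  refine h3.congr' ?_
  filter_upwards [hJ, hγ, self_mem_nhdsWithin] with a ha hγa ha0
  have ha0' : (0 : ℝ) < a := ha0
  rw [ha, bpr_eq (p a) (w a) (γ a) hγa, List.length_finRange, map_smul, smul_eq_mul,
    scl_add n m ha0']
  ring

/-- kernel limits of the plane, `n` even -/
def KerPl : Prop := ∀ (n : ℕ), Even n → ∀ x : Fin n → ℂ, Function.Injective x →
  ∃ bl rg, KerD false Set.univ x bl rg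

/-- plane spin correlations -/
def Psp {n : ℕ} (X : Fin n → ℤ × ℤ) : ℝ := P0c X (![] : Fin 0 → ℤ × ℤ) ![]

/-- spin limits of the plane, `n` even -/
def SpinPl : Prop := ∀ (n : ℕ), 1 ≤ n → Even n → ∀ x : Fin n → ℂ, Function.Injective x →
  ∃ F : ℝ, Tendsto (fun a : ℝ => scl n 0 a * Psp fun i => meshIndex a (x i)) (𝓝[>] 0) (𝓝 F)

theorem Psp_zero (hT : T1) (X : Fin 0 → ℤ × ℤ) : Psp X = 1 := by
  unfold Psp
  rw [P0c_spin hT (by decide) (N := 0) (M := 0) X (fun i => i.elim0) (fun i => i.elim0)]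
  have : BX 0 0 X = ∅ := by
    unfold BX
    simp
  rw [this]
  simp [Pl0bx654.Gam]

/-- for small mesh the bonds at distinct points are distinct -/
theorem eventually_bonds {m : ℕ} (y : Fin m → ℂ) (hy : Function.Injective y) (j : Fin m → Fin 2) :
    ∀ᶠ a in 𝓝[>] (0 : ℝ), Function.Injective fun k => (meshIndex a (y k), j k) := by
  have h1 : ∀ k l : Fin m, ∀ᶠ a in 𝓝[>] (0 : ℝ), k ≠ l → meshIndex a (y k) ≠ meshIndex a (y l) := by
    intro k l
    by_cases hkl : k = l
    · exact Eventually.of_forall fun a h => absurd hkl h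
    · have hne : y k ≠ y l := fun h => hkl (hy h)
      have hd : 0 < dist (y k) (y l) := dist_pos.2 hne
      have h2 : ∀ᶠ a : ℝ in 𝓝[>] 0, a < dist (y k) (y l) / 4 :=
        mem_nhdsWithin_of_mem_nhds (Iio_mem_nhds (by positivity))
      filter_upwards [h2, self_mem_nhdsWithin] with a ha ha0 _ heq
      have ha0' : (0 : ℝ) < a := ha0
      have d1 := meshPoint_index_dist a ha0' (y k)
      have d2 := meshPoint_index_dist a ha0' (y l)
      rw [heq] at d1
      have := dist_triangle_left (y k) (y l) (meshPoint a (meshIndex a (y l)))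
      linarith
  have h2 := eventually_all.2 fun k => eventually_all.2 (h1 k)
  filter_upwards [h2] with a ha k l hkl
  by_contra hne
  exact ha k l hne (congrArg Prod.fst hkl)

/-- **the plane clause of the unperturbed model** -/
theorem UPb_of (hT : T1) (hK : KerPl) (hS : SpinPl) : UPb := by
  intro n m _ hn x y j hinj
  obtain ⟨hx, hy, hxy⟩ := UFinx420.inj_split hinj
  obtain ⟨bl, rg, K⟩ := hK n hn x hx
  obtain ⟨F, hF⟩ : ∃ F : ℝ, Tendsto (fun a : ℝ => scl n 0 a * Psp fun i => meshIndex a (x i))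
      (𝓝[>] 0) (𝓝 F) := by
    rcases Nat.eq_zero_or_pos n with rfl | hn1
    · refine ⟨1, ?_⟩
      simp only [Psp_zero hT, mul_one, scl_zero_zero]
      exact tendsto_const_nhds
    · exact hS n hn1 hn x hx
  have hex : ∀ᶠ a in 𝓝[>] (0 : ℝ), ∃ S, IsCov (wD false Set.univ a (fun i => meshIndex a (x i))) S :=
    Eventually.of_forall fun a => by rw [wD_univ]; exact exists_isCov_plane hn _
  have hker := kerLim_of isOpen_univ K hex y j (fun _ => Set.mem_univ _) hxy hy
  refine ⟨_, abs_limit (n := n) _ _ j _ _ _ F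
    (fun a => P0c (fun i => meshIndex a (x i)) (fun k => meshIndex a (y k)) j)
    (fun a => Psp fun i => meshIndex a (x i)) ?_ hker hF⟩
  filter_upwards [eventually_bonds y hy j] with a ha
  rw [wD_univ]
  exact bondJ2_plane hT hn _ _ j ha

end Crest.Agent.R165.Pl3x654
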