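import Crest.Agent.R165.Pl3_654
import Crest.Agent.R165.UPl_641
import Crest.Agent.R165.SpE_583

/-!
# Row 165 (S0250), plane clause (helper654): literal forms of helper641

* `T1_of : TorPl → T1`
* `exCovPl : ExCovPl`
* `j2Pl : TorPl → J2Pl`
-/

set_option autoImplicit false

noncomputable section

namespace Crest.Agent.R165.Pl4x654

open Finset Filter Topology
open Crest.ProbabilityR.IsingModel
open Crest.Agent.R165
open Crest.Agent.R165.Latx683 (BW Aop wPl yE yN xc IsCov hp hq ray wX)
open Crest.Agent.R165.J1ax606 (HE EG pe qe bb)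
open Crest.Agent.R165.Gr0x606 Crest.Agent.R165.Gr1x606
open Crest.Agent.R165.Pl0bx654 Crest.Agent.R165.Pl1x654 Crest.Agent.R165.Pl2x654
  Crest.Agent.R165.Pl3x654

theorem T1_of (h : Spx583.TorPl) : T1 := by
  intro S
  have h1 := h S
  have e : Spx583.EB S = EE (covOf Spl Spl_skew) (Gam S c2 : Gr (VI (HE ℤ))) := by
    unfold Spx583.EB
    have e1 : (∏ e ∈ S, (1 - (2 * Spx583.xc) • bb e) : Ge (VI (HE ℤ))) = Gam S c2 := by
      unfold Gam
      refine Finset.prod_congr rfl fun e _ => ?_
      unfold c2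
      rw [sub_eq_add_neg, ← neg_smul]
      congr 2
      have : Spx583.xc = xc := rfl
      rw [this]
      ring
    rw [e1]
    rfl
  rwa [e] at h1

theorem exCovPl : UPlx641.ExCovPl := fun _ hn X _ => exists_isCov_plane hn X

theorem j2Pl (h : Spx583.TorPl) : UPlx641.J2Pl := by
  intro n hn m x y j hinj
  obtain ⟨hx, hy, hxy⟩ := UFinx420.inj_split hinj
  filter_upwards [eventually_bonds y hy j] with a ha
  exact bondJ2_plane (T1_of h) hn _ _ j ha

end Crest.Agent.R165.Pl4x654
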