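import Crest.Agent.R165.J2Pl_817
import Crest.Agent.R165.Step3_470

/-!
# Row 165 (S0250), plane clause (helper817): the exact STEP identity and positivity in the plane

`Pc X` (plane spin correlations, `UPl_641`), `X : Fin n → ℤ × ℤ`, `n` even, `wP X = wX (wPl ℤ) X`, `S` any
covariance of `wP X`; everything from `TorPl` (SpE_583).
* `EB_mul_le, EB_pos, Pc_pos` : Griffiths, positivity
* `Pc_move` : one spin moved along any finite set of bonds
* `pl_NE, pl_SW, pl_SE, pl_NW, pl_unit, pl_unit'` : the ratios, literally as `plus_*` of Step2_470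
* `plsh_*` : all eight steps in terms of `sh` and corner forms, as `sh_*` of Step3_470
-/

set_option autoImplicit false
set_option linter.unusedSectionVars false

noncomputable section

namespace Crest.Agent.R165.PlStepx817

open Finset Filter Topology
open Crest.ProbabilityR.IsingModel
open Crest.Agent.R165
open Crest.Agent.R165.Latx683 (BW Aop wPl yE yN xc IsCov wX ray Fld covS formS hp hq)
open Crest.Agent.R165.J1ax606 (HE EG pe qe bb)
open Crest.Agent.R165.Gr0x606 Crest.Agent.R165.Gr1x606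
open Crest.Agent.R165.Symx541 (ep torBonds ep_sq)
open Crest.Agent.R165.Spx583 (TorPl EB EB_empty bond_mean)
open Crest.Agent.R165.UPlx641 (Pc wP)
open Crest.Agent.R165.UKerx420 (Cof Sof Sof_spec Sof_skew)
open Crest.Agent.R165.J2Plx817
open Crest.Agent.R165.Gk1x422 (sp)
open Crest.Agent.R165.Stepx470 (Bf lSW lNE lNW lSE diag anti unit coe_fac sp_update Row3)
open Crest.Agent.R165.Step3x470 (lES lEN lWN lWS skew_form side_bot side_left side_top side_right)

/-! ### Griffiths -/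

theorem posV_bonds (L : ℕ) [NeZero L] (A : Finset (EG ℤ)) :
    Gk0x422.PosV fun σ : ZMod L × ZMod L → Bool => ∏ e ∈ A, ep e fun z => σ (toTorus L z) :=
  Gk0x422.PosV.prod A fun _ _ => (Gk0x422.PosV.spin _).mul (Gk0x422.PosV.spin _)

theorem torBonds_mul_le (L : ℕ) {A B : Finset (EG ℤ)} (h : Disjoint A B) :
    torBonds L 1 0 0 (fun _ => 0) (criticalBeta 1) A *
      torBonds L 1 0 0 (fun _ => 0) (criticalBeta 1) B ≤
      torBonds L 1 0 0 (fun _ => 0) (criticalBeta 1) (A ∪ B) := by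
  unfold torBonds
  rw [Gk1x422.torusExpect_eq, Gk1x422.torusExpect_eq, Gk1x422.torusExpect_eq]
  have hK : 0 ≤ criticalBeta 1 * 1 := by
    rw [mul_one]; exact U5Px422.Kc_nonneg
  have h1 := Gk0x422.gks (p := Gk1x422.tp (L + 1)) (q := Gk1x422.tq (L + 1))
    (T := Finset.univ) (E := Finset.univ) hK (posV_bonds (L + 1) A) (posV_bonds (L + 1) B)
  refine h1.trans_eq ?_
  congr 1
  funext σ
  exact (Finset.prod_union h).symm

theorem EB_mul_le (hT : TorPl) {A B : Finset (EG ℤ)} (h : Disjoint A B) :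
    EB A * EB B ≤ EB (A ∪ B) :=
  le_of_tendsto_of_tendsto' ((hT A).mul (hT B)) (hT (A ∪ B)) fun L => torBonds_mul_le L h

theorem EB_pos (hT : TorPl) (A : Finset (EG ℤ)) : 0 < EB A := by
  induction A using Finset.induction_on with
  | empty => rw [EB_empty]; norm_num
  | insert e A he ih =>
    have h1 := EB_mul_le hT (A := {e}) (B := A) (Finset.disjoint_singleton_left.2 he)
    rw [bond_mean] at h1
    have h2 : ({e} ∪ A : Finset (EG ℤ)) = insert e A := rfl
    rw [h2] at h1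
    have h3 : 0 < Redx541.e0 := by unfold Redx541.e0; positivity
    exact (mul_pos h3 ih).trans_le h1

/-- **plane spin correlations are positive** -/
theorem Pc_pos (hT : TorPl) {n : ℕ} (hn : Even n) (X : Fin n → ℤ × ℤ) : 0 < Pc X := by
  obtain ⟨B, hB⟩ := exists_pairs hn X
  rw [Pc_eq hT hB]
  exact EB_pos hT B

/-! ### moving one spin -/

/-- the chosen covariance is every covariance -/
theorem Cof_eq {n : ℕ} (hn : Even n) {X : Fin n → ℤ × ℤ} {S : HE ℤ → HE ℤ → ℝ}
    (hS : IsCov (wP X) S) : Cof (wP X) = covS S hS.skew := by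
  have h : Sof (wP X) = S := plane_unique hn X (Sof_spec ⟨S, hS⟩) hS
  unfold Cof
  congr

theorem pairs_update {n : ℕ} {X : Fin n → ℤ × ℤ} {B : Finset (EG ℤ)} (hB : Pairs X B) (i : Fin n)
    (y : ℤ × ℤ) (A : Finset (EG ℤ))
    (hA : ∀ s : ℤ × ℤ → Bool, spinSign (s (X i)) * spinSign (s y) = ∏ e ∈ A, ep e s) :
    Pairs (Function.update X i y) (symmDiff B A) := by
  intro s
  rw [prod_symmDiff, ← hB s, ← hA s]
  exact sp_update X i y s

/-- **moving one spin along a set of bonds** -/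
theorem Pc_move (hT : TorPl) {n : ℕ} (hn : Even n) {X : Fin n → ℤ × ℤ} {S : HE ℤ → HE ℤ → ℝ}
    (hS : IsCov (wP X) S) (i : Fin n) (y : ℤ × ℤ) (A : Finset (EG ℤ))
    (hA : ∀ s : ℤ × ℤ → Bool, spinSign (s (X i)) * spinSign (s y) = ∏ e ∈ A, ep e s) :
    Pc (Function.update X i y) = Pc X *
      EE (covS S hS.skew) ((∏ e ∈ A, (1 - (2 * wP X e.1 e.2) • bb e) : Ge (VI (HE ℤ))) :
        Gr (VI (HE ℤ))) := by
  obtain ⟨B, hB⟩ := exists_pairs hn X
  rw [Pc_eq hT (pairs_update hB i y A hA), Pc_eq hT hB, EB_symmDiff hB A, Cof_eq hn hS]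

section steps

variable (hT : TorPl) {n : ℕ} (hn : Even n) {X : Fin n → ℤ × ℤ} {S : HE ℤ → HE ℤ → ℝ}
  (hc : IsCov (wP X) S) (i : Fin n)
include hT hn hc

theorem Pc_one (y z : ℤ × ℤ) (j : Fin 2)
    (h : ∀ s : ℤ × ℤ → Bool, spinSign (s (X i)) * spinSign (s y) = ep (z, j) s) :
    Pc (Function.update X i y) = Pc X * EE (covS S hc.skew) (Bf (wP X) z j) := by
  have := Pc_move hT hn hc i y {(z, j)} (by simpa using h)
  rw [Finset.prod_singleton] at this
  rw [this, ← coe_fac (wP X) (z, j)]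

theorem Pc_two (y z z' : ℤ × ℤ) (j j' : Fin 2) (hne : (z, j) ≠ (z', j'))
    (h : ∀ s : ℤ × ℤ → Bool, spinSign (s (X i)) * spinSign (s y) = ep (z, j) s * ep (z', j') s) :
    Pc (Function.update X i y) =
      Pc X * EE (covS S hc.skew) (Bf (wP X) z j * Bf (wP X) z' j') := by
  have := Pc_move hT hn hc i y {(z, j), (z', j')} (by
    intro s; rw [h s, Finset.prod_pair hne])
  rw [Finset.prod_pair hne, Ge.coe_mul] at this
  rw [this, ← coe_fac (wP X) (z, j), ← coe_fac (wP X) (z', j')]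

/-- **STEP along the diagonal of the face `f`** (`SW ↔ NE`), both directions, product form -/
theorem step_diag (y f : ℤ × ℤ)
    (h : (X i = f ∧ y = (f.1 + 1, f.2 + 1)) ∨ (X i = (f.1 + 1, f.2 + 1) ∧ y = f)) :
    Pc (Function.update X i y) = -formS S (lSW (wP X) f) (lNE (wP X) f) * Pc X := by
  have hv : ∀ s : ℤ × ℤ → Bool, ep (f, 0) s * ep ((f.1 + 1, f.2), 1) s =
      spinSign (s f) * spinSign (s (f.1 + 1, f.2 + 1)) := by
    intro s
    have e1 : f + unitVec 0 = (f.1 + 1, f.2) := by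
      simp [unitVec, Prod.ext_iff]
    have e2 : ((f.1 + 1, f.2) : ℤ × ℤ) + unitVec 1 = (f.1 + 1, f.2 + 1) := by
      simp [unitVec]
    unfold ep
    simp only
    rw [e1, e2]
    have h2 := UDomAx420.spinSign_sq (s (f.1 + 1, f.2))
    linear_combination (spinSign (s f) * spinSign (s (f.1 + 1, f.2 + 1))) * h2
  rw [Pc_two hT hn hc i y f (f.1 + 1, f.2) 0 1 (by simp) (by
    intro s
    rw [hv s]
    rcases h with ⟨h1, h2⟩ | ⟨h1, h2⟩
    · rw [h1, h2]
    · rw [h1, h2, mul_comm]), diag _ S hc.skew f (Stepx470.IsCov.row3 hc _)]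
  ring

/-- **STEP along the antidiagonal of the face `f`** (`NW ↔ SE`), both directions, product form -/
theorem step_anti (y f : ℤ × ℤ)
    (h : (X i = (f.1, f.2 + 1) ∧ y = (f.1 + 1, f.2)) ∨
      (X i = (f.1 + 1, f.2) ∧ y = (f.1, f.2 + 1))) :
    Pc (Function.update X i y) = formS S (lNW (wP X) f) (lSE (wP X) f) * Pc X := by
  have hv : ∀ s : ℤ × ℤ → Bool, ep ((f.1, f.2 + 1), 0) s * ep ((f.1 + 1, f.2), 1) s =
      spinSign (s (f.1, f.2 + 1)) * spinSign (s (f.1 + 1, f.2)) := by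
    intro s
    have e1 : ((f.1, f.2 + 1) : ℤ × ℤ) + unitVec 0 = (f.1 + 1, f.2 + 1) := by
      simp [unitVec]
    have e2 : ((f.1 + 1, f.2) : ℤ × ℤ) + unitVec 1 = (f.1 + 1, f.2 + 1) := by
      simp [unitVec]
    unfold ep
    simp only
    rw [e1, e2]
    have h2 := UDomAx420.spinSign_sq (s (f.1 + 1, f.2 + 1))
    linear_combination (spinSign (s (f.1, f.2 + 1)) * spinSign (s (f.1 + 1, f.2))) * h2
  rw [Pc_two hT hn hc i y (f.1, f.2 + 1) (f.1 + 1, f.2) 0 1 (by simp) (by
    intro s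
    rw [hv s]
    rcases h with ⟨h1, h2⟩ | ⟨h1, h2⟩
    · rw [h1, h2]
    · rw [h1, h2, mul_comm]), anti _ S hc.skew f (Stepx470.IsCov.row3 hc _)]
  ring

/-- **unit STEP** along the bond `(z, j)`, both directions, product form -/
theorem step_unit (y z : ℤ × ℤ) (j : Fin 2)
    (h : (X i = z ∧ y = z + unitVec j) ∨ (X i = z + unitVec j ∧ y = z)) :
    Pc (Function.update X i y) = (1 - 2 * wP X z j * S (hp z j) (hq z j)) * Pc X := by
  rw [Pc_one hT hn hc i y z j (by
    intro s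
    unfold ep
    rcases h with ⟨h1, h2⟩ | ⟨h1, h2⟩
    · rw [h1, h2]
    · rw [h1, h2, mul_comm]), unit _ S hc.skew z j]
  ring

/-! ### the eight steps as ratios -/

/-- **STEP `v = (1, 1)`** -/
theorem pl_NE : Pc (Function.update X i (X i + (1, 1))) / Pc X =
    -formS S (lSW (wP X) (X i)) (lNE (wP X) (X i)) := by
  rw [div_eq_iff (Pc_pos hT hn X).ne']
  exact step_diag hT hn hc i _ _ (Or.inl ⟨rfl, rfl⟩)

/-- **STEP `v = (-1, -1)`** -/
theorem pl_SW : Pc (Function.update X i (X i - (1, 1))) / Pc X =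
    -formS S (lSW (wP X) (X i - (1, 1))) (lNE (wP X) (X i - (1, 1))) := by
  rw [div_eq_iff (Pc_pos hT hn X).ne']
  exact step_diag hT hn hc i _ _ (Or.inr ⟨by simp, rfl⟩)

/-- **STEP `v = (1, -1)`** -/
theorem pl_SE : Pc (Function.update X i (X i + (1, -1))) / Pc X =
    formS S (lNW (wP X) (X i - (0, 1))) (lSE (wP X) (X i - (0, 1))) := by
  rw [div_eq_iff (Pc_pos hT hn X).ne']
  exact step_anti hT hn hc i _ _ (Or.inl ⟨by simp, by
    refine Prod.ext ?_ ?_ <;> simp [sub_eq_add_neg]⟩)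

/-- **STEP `v = (-1, 1)`** -/
theorem pl_NW : Pc (Function.update X i (X i + (-1, 1))) / Pc X =
    formS S (lNW (wP X) (X i - (1, 0))) (lSE (wP X) (X i - (1, 0))) := by
  rw [div_eq_iff (Pc_pos hT hn X).ne']
  exact step_anti hT hn hc i _ _ (Or.inr ⟨by simp, by
    refine Prod.ext ?_ ?_ <;> simp [sub_eq_add_neg]⟩)

/-- **STEP `v = unitVec j`** -/
theorem pl_unit (j : Fin 2) : Pc (Function.update X i (X i + unitVec j)) / Pc X =
      1 - 2 * wP X (X i) j * S (hp (X i) j) (hq (X i) j) := by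
  rw [div_eq_iff (Pc_pos hT hn X).ne']
  exact step_unit hT hn hc i _ _ j (Or.inl ⟨rfl, rfl⟩)

/-- **STEP `v = -unitVec j`** -/
theorem pl_unit' (j : Fin 2) : Pc (Function.update X i (X i - unitVec j)) / Pc X =
      1 - 2 * wP X (X i - unitVec j) j * S (hp (X i - unitVec j) j) (hq (X i - unitVec j) j) := by
  rw [div_eq_iff (Pc_pos hT hn X).ne']
  exact step_unit hT hn hc i _ _ j (Or.inr ⟨by simp, rfl⟩)

/-! ### `sh` form, corners -/

open Crest.Agent.R165.PathIntx641 (sh)

theorem plsh_NE : Pc (sh X i (1, 1)) / Pc X =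
    formS S (lNE (wP X) (X i)) (lSW (wP X) (X i)) := by
  rw [skew_form hc.skew]; exact pl_NE hT hn hc i

theorem plsh_SW : Pc (sh X i (-1, -1)) / Pc X =
    formS S (lNE (wP X) (X i - (1, 1))) (lSW (wP X) (X i - (1, 1))) := by
  rw [skew_form hc.skew]; exact pl_SW hT hn hc i

theorem plsh_SE : Pc (sh X i (1, -1)) / Pc X =
    formS S (lNW (wP X) (X i - (0, 1))) (lSE (wP X) (X i - (0, 1))) :=
  pl_SE hT hn hc i

theorem plsh_NW : Pc (sh X i (-1, 1)) / Pc X =
    formS S (lNW (wP X) (X i - (1, 0))) (lSE (wP X) (X i - (1, 0))) :=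
  pl_NW hT hn hc i

/-- unit step to the right: the corners `SW`, `SE` of the face `X i` -/
theorem plsh_E : Pc (sh X i (1, 0)) / Pc X =
    formS S (lSW (wP X) (X i)) (lES (wP X) (X i)) := by
  rw [← side_bot hc.skew (Step3x470.IsCov.row4 hc (X i))]
  exact pl_unit hT hn hc i 0

/-- unit step up: the corners `NW`, `SW` of the face `X i` -/
theorem plsh_N : Pc (sh X i (0, 1)) / Pc X =
    formS S (lNW (wP X) (X i)) (lSW (wP X) (X i)) := by
  rw [← side_left hc.skew (Step3x470.IsCov.row4 hc (X i))]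
  exact pl_unit hT hn hc i 1

/-- unit step to the left: the corners `NE`, `NW` of the face `X i - (1, 1)` -/
theorem plsh_W : Pc (sh X i (-1, 0)) / Pc X =
    formS S (lEN (wP X) (X i - (1, 1))) (lNW (wP X) (X i - (1, 1))) := by
  rw [← side_top hc.skew (Step3x470.IsCov.row4 hc (X i - (1, 1)))]
  have h := pl_unit' hT hn hc i 0
  have e1 : X i - unitVec 0 = ((X i - (1, 1)).1, (X i - (1, 1)).2 + 1) := by
    simp [unitVec, Prod.ext_iff]
  have e2 : sh X i (-1, 0) = Function.update X i (X i - unitVec 0) := by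
    unfold sh
    congr 1
  rw [e2, h, e1]

/-- unit step down: the corners `SE`, `NE` of the face `X i - (1, 1)` -/
theorem plsh_S : Pc (sh X i (0, -1)) / Pc X =
    formS S (lSE (wP X) (X i - (1, 1))) (lEN (wP X) (X i - (1, 1))) := by
  rw [← side_right hc.skew (Step3x470.IsCov.row4 hc (X i - (1, 1)))]
  have h := pl_unit' hT hn hc i 1
  have e1 : X i - unitVec 1 = ((X i - (1, 1)).1 + 1, (X i - (1, 1)).2) := by
    simp [unitVec, Prod.ext_iff]
  have e2 : sh X i (0, -1) = Function.update X i (X i - unitVec 1) := by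
    unfold sh
    congr 1
  rw [e2, h, e1]

end steps

end Crest.Agent.R165.PlStepx817
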