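import Crest.Agent.R165.U5b_697
import Crest.Agent.R165.USpin_641

/-!
# Row 165 (S0250), block U5, step S2: two-point functions (helper697)

* `Wu P`      : the diagonal two-point function (input)
* `plane2`    : `a^{-1/4} P ![u₀, u₁] → C₀ |x - y|^{-1/4}` for all lattice approximations
* `exists_twoPt` : the two-point functions of discs, with the merging asymptotics `C₀ |x - y|^{-1/4}`
-/

set_option autoImplicit false
set_option linter.unusedSectionVars false
set_option linter.unusedVariables false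

noncomputable section

open Filter Topology Finset
open Crest.ProbabilityR.IsingModel

namespace Crest.Agent.R165.U5cx697

open Crest.Agent.R165.Gk0x422
open Crest.Agent.R165.Gk1x422
open Crest.Agent.R165.U5Px422
open Crest.Agent.R165.U5ax697
open Crest.Agent.R165.U5bx697
open Crest.Agent.R165.Nm1x697
open Crest.Agent.R165.Nm2x697
open Crest.Agent.R165.USpinx641 (SpinInB)

/-- discs are `C²` Jordan domains -/
def BallC2 : Prop := ∀ (c : ℂ) (r : ℝ), 0 < r → IsC2JordanDomain (Metric.ball c r)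

/-- Wu's law on the diagonal -/
def Wu (P : {n : ℕ} → (Fin n → ℤ × ℤ) → ℝ) : Prop :=
  ∃ C > (0 : ℝ), Tendsto (fun n : ℕ => (n : ℝ) ^ ((1 : ℝ) / 4) *
    P (n := 2) ![(0, 0), ((n : ℤ), (n : ℤ))]) atTop (𝓝 C)

variable {P : {n : ℕ} → (Fin n → ℤ × ℤ) → ℝ}
  {Lam : (n : ℕ) → Set ℂ → (Fin n → ℂ) → ℝ}

theorem conf_ball {R : ℝ} {w : ℂ} (hw : w ≠ 0) (hR : ‖w‖ < R) :
    (![0, w] : Fin 2 → ℂ) ∈ Conf (Metric.ball (0 : ℂ) R) 2 := by
  have hR0 : 0 < R := (norm_nonneg w).trans_lt hR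
  refine ⟨fun i => ?_, fun i j hij => ?_⟩
  · rw [mem_ball_zero_iff]
    fin_cases i
    · simpa using hR0
    · simpa using hR
  · fin_cases i <;> fin_cases j
    · rfl
    · exact absurd hij.symm hw
    · exact absurd hij hw
    · rfl

theorem lapp_pair {u : ℝ → ℤ × ℤ} {w : ℂ} (h : Ap u w) :
    LApp (fun a => ![(0, 0), u a]) (![0, w] : Fin 2 → ℂ) := by
  intro i
  fin_cases i
  · have : ∀ a : ℝ, meshPoint a (0, 0) = 0 := fun a => by
      apply Complex.ext <;> simp [meshPoint]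
    simp [this]
  · exact h

theorem inp (hP : PlaneLim P) (hL : SpinInB .plus Lam) (hb : BallC2) (hM : Merge P) (hW : Wu P) :
    Inp (fun u => P (n := 2) ![(0, 0), u])
      (fun R a u => GB .plus (TT (Metric.ball (0 : ℂ) R) a) ![(0, 0), u])
      (fun R w => Lam 2 (Metric.ball (0 : ℂ) R) ![0, w]) where
  nonneg R a u := GB_nonneg (by decide) _ _
  pos R hR w hw hwR := hL.pos 2 _ (Or.inl rfl) (hb _ _ hR) _ (conf_ball hw hwR)
  swap u := by
    have h := P_swap hP (n := 2) ![(0, 0), u]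
    rw [← h]
    congr 1
    funext i
    fin_cases i <;> rfl
  ratio R hR w w' hw hwR hw' hwR' u u' hu hu' :=
    hL.ratio 2 _ (Or.inl rfl) (hb _ _ hR) _ (conf_ball hw hwR) _ (conf_ball hw' hwR')
      _ _ (lapp_pair hu) (lapp_pair hu')
  rot R hR c hc w w' hw hwR hw' hwR' := by
    have hc0 : c ≠ 0 := by intro h0; rw [h0, norm_zero] at hc; exact one_ne_zero hc.symm
    have hbij : Set.BijOn (fun z : ℂ => c * z) (Metric.ball (0 : ℂ) R) (Metric.ball (0 : ℂ) R) := by
      refine ⟨fun z hz => ?_, fun z _ z' _ h => mul_left_cancel₀ hc0 h, fun z hz => ?_⟩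
      · rw [mem_ball_zero_iff] at hz ⊢
        simp only
        rw [norm_mul, hc, one_mul]; exact hz
      · refine ⟨c⁻¹ * z, ?_, ?_⟩
        · rw [mem_ball_zero_iff] at hz ⊢
          rw [norm_mul, norm_inv, hc, inv_one, one_mul]; exact hz
        · simp only
          rw [← mul_assoc, mul_inv_cancel₀ hc0, one_mul]
    obtain ⟨k, hk, hk2⟩ := hL.cov 2 _ _ (Or.inl rfl) (hb 0 R hR) (hb 0 R hR)
      (fun z => c * z) ((differentiable_id.const_mul c).differentiableOn) hbij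
    have hd : ∀ z : ℂ, ‖deriv (fun z : ℂ => c * z) z‖ = 1 := by
      intro z
      rw [deriv_const_mul_field, deriv_id'', mul_one, hc]
    have key : ∀ w : ℂ, w ≠ 0 → ‖w‖ < R → Lam 2 (Metric.ball (0 : ℂ) R) ![0, c * w]
        = k * Lam 2 (Metric.ball (0 : ℂ) R) ![0, w] := by
      intro w hw hwR
      have h := hk2 _ (conf_ball hw hwR)
      rw [← h]
      simp only [hd, Real.one_rpow, Finset.prod_const_one, mul_one]
      congr 1
      funext i
      fin_cases i <;> simp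
    rw [key w hw hwR, key w' hw' hwR', mul_div_mul_left _ _ hk.ne']
  merge ε hε := by
    obtain ⟨δ, hδ, hδ2⟩ := hM 0 1 one_pos 0 (by simp) ε hε
    refine ⟨min δ 1, lt_min hδ one_pos, fun R hR w hw hwR u hu => ?_⟩
    have hwn : ‖w / (R : ℂ)‖ = ‖w‖ / R := by
      rw [norm_div, Complex.norm_real, Real.norm_of_nonneg hR.le]
    have h1 : ‖w / (R : ℂ)‖ < δ := by
      rw [hwn, div_lt_iff₀ hR]
      exact hwR.trans_le (mul_le_mul_of_nonneg_right (min_le_left _ _) hR.le)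
    have h2 : ‖w / (R : ℂ)‖ < 1 := by
      rw [hwn, div_lt_iff₀ hR]
      exact hwR.trans_le (mul_le_mul_of_nonneg_right (min_le_right _ _) hR.le)
    have hne : w / (R : ℂ) ≠ 0 := div_ne_zero hw (Complex.ofReal_ne_zero.2 hR.ne')
    have hu2 : Ap (fun a => u (a / R⁻¹)) (((R⁻¹ : ℝ) : ℂ) * w) := hu.scale (inv_pos.2 hR)
    have e : (((R⁻¹ : ℝ) : ℂ) * w) = w / (R : ℂ) := by
      rw [Complex.ofReal_inv, div_eq_inv_mul]
    rw [e] at hu2
    have h3 := hδ2 ![0, w / (R : ℂ)] (by simpa using hne.symm) (by simpa using hδ)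
      (by simpa using h1) _ (lapp_pair hu2)
    have h4 := (lapp_pair hu2).mem Metric.isBounded_ball Metric.isOpen_ball
      (conf_ball hne h2).1
    have h5 := (tendsto_div_pos hR).eventually (h3.and h4)
    filter_upwards [h5, self_mem_nhdsWithin] with a ha ha0
    have ha' : (0 : ℝ) < a := ha0
    obtain ⟨⟨p0, p1, -⟩, p2⟩ := ha
    have e2 : a / R / R⁻¹ = a := by field_simp
    rw [e2] at p0 p1 p2
    rw [← TT_ball_scale ha' hR] at p1 p2
    refine ⟨?_, plane_le_plus hP p2⟩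
    have hG : 0 ≤ GB .plus (TT (Metric.ball (0 : ℂ) R) a) ![(0, 0), u a] := GB_nonneg (by decide) _ _
    by_cases hε1 : ε ≤ 1
    · have := mul_le_mul_of_nonneg_left p1 (show 0 ≤ 1 - ε by linarith)
      refine this.trans ?_
      have : (1 - ε) * ((1 + ε) * P (n := 2) ![(0, 0), u a])
          = P (n := 2) ![(0, 0), u a] - ε ^ 2 * P (n := 2) ![(0, 0), u a] := by ring
      rw [this]
      have : 0 ≤ ε ^ 2 * P (n := 2) ![(0, 0), u a] := mul_nonneg (sq_nonneg _) p0.le
      linarith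
    · push Not at hε1
      have : (1 - ε) * GB .plus (TT (Metric.ball (0 : ℂ) R) a) ![(0, 0), u a] ≤ 0 :=
        mul_nonpos_of_nonpos_of_nonneg (by linarith) hG
      linarith
  wu := hW

theorem lapp_sub {u : ℝ → Fin 2 → ℤ × ℤ} {x : Fin 2 → ℂ} (h : LApp u x) :
    Ap (fun a => u a 1 - u a 0) (x 1 - x 0) := by
  refine ((h 1).sub (h 0)).congr fun a => ?_
  rw [meshPoint_sub]

/-- **plane two-point function** -/
theorem plane2 (hP : PlaneLim P) (hL : SpinInB .plus Lam) (hb : BallC2) (hM : Merge P) (hW : Wu P) :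
    ∃ C₀ > (0 : ℝ), ∀ x : Fin 2 → ℂ, x 0 ≠ x 1 → ∀ u : ℝ → Fin 2 → ℤ × ℤ, LApp u x →
      Tendsto (fun a : ℝ => a ^ (-(1 : ℝ) / 4) * P (u a)) (𝓝[>] 0)
        (𝓝 (C₀ * ‖x 0 - x 1‖ ^ (-(1 : ℝ) / 4))) := by
  obtain ⟨C₀, hC, h⟩ := plane_two_point (inp hP hL hb hM hW)
  refine ⟨C₀, hC, fun x hx u hu => ?_⟩
  have h1 := h (x 1 - x 0) (sub_ne_zero.2 hx.symm) _ (lapp_sub hu)
  rw [norm_sub_rev] at h1
  refine h1.congr fun a => ?_
  congr 1
  have h2 := P_add hP (n := 2) ![(0, 0), u a 1 - u a 0] (u a 0)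
  rw [← h2]
  congr 1
  funext i
  fin_cases i
  · simp
  · simp

end Crest.Agent.R165.U5cx697
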