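import Crest.Agent.R165.SpE_583
import Crest.Agent.R165.UPl_641
import Crest.Agent.R165.U5c_697

/-!
Row 165, block U2 (helper583): `TorPl → Wu Pc` (697's input for `U2c`).
-/

set_option autoImplicit false

open Filter Topology

namespace Crest.Agent.R165.Spx583

/-- **Wu's law on the diagonal**, in the form of helper697 -/
theorem wu_Pc (h : TorPl) : U5cx697.Wu @UPlx641.Pc := by
  obtain ⟨C, hC, hl⟩ := WuAsyx408.Dg_asymp
  refine ⟨C, hC, hl.congr fun n => ?_⟩
  have := P0c_diag h (0, 0) n
  simp only [zero_add] at this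
  unfold UPlx641.Pc
  rw [this, mul_comm]

end Crest.Agent.R165.Spx583
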