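import Crest.Agent.R165.U5f_697
import Crest.Agent.R165.UPl_641
import Crest.Agent.R165.Nm1_422

/-!
# Row 165 (S0250), block U5, step S7 and wiring (helper697)

* `PlIn P LamP` : ratio limits of the plane correlations (input, `n` even)
* `plane_lim`   : scaling limits of the plane correlations
* `ballC2`, `merge`, `plane2'`, `twoPt`, `u2c`, `spinOut_free'`, `spPl` : final statements from
  `UTb`, `SpinInB`, `MuIn`, `Wu`, `PlIn`
-/

set_option autoImplicit false
set_option linter.unusedSectionVars false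
set_option linter.unusedVariables false

noncomputable section

open Filter Topology Finset
open Crest.ProbabilityR.IsingModel

namespace Crest.Agent.R165.U5gx697

open Crest.Agent.R165.Gk0x422
open Crest.Agent.R165.Gk1x422
open Crest.Agent.R165.U5Px422
open Crest.Agent.R165.U5ax697
open Crest.Agent.R165.U5bx697
open Crest.Agent.R165.U5cx697
open Crest.Agent.R165.U5dx697
open Crest.Agent.R165.U5ex697
open Crest.Agent.R165.U5fx697
open Crest.Agent.R165.Nm1x697
open Crest.Agent.R165.Nm2x697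
open Crest.Agent.R165.USpinx641 (SpinInB)
open Crest.Agent.R165.UPlx641
open Crest.Agent.R165.Topx683 Crest.Agent.R165.Redx541 Crest.Agent.R165.Red2x541

variable {P : {n : ℕ} → (Fin n → ℤ × ℤ) → ℝ}
  {Lam Lamf : (n : ℕ) → Set ℂ → (Fin n → ℂ) → ℝ} {LamP : (n : ℕ) → (Fin n → ℂ) → ℝ}

/-- ratio limits in the plane -/
structure PlIn (P : {n : ℕ} → (Fin n → ℤ × ℤ) → ℝ) (LamP : (n : ℕ) → (Fin n → ℂ) → ℝ) : Prop where
  pos : ∀ n, Even n → ∀ x : Fin n → ℂ, Function.Injective x → 0 < LamP n x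
  ratio : ∀ n, Even n → ∀ x x' : Fin n → ℂ, Function.Injective x → Function.Injective x' →
    ∀ u u' : ℝ → Fin n → ℤ × ℤ, LApp u x → LApp u' x' →
      Tendsto (fun a : ℝ => P (u a) / P (u' a)) (𝓝[>] 0) (𝓝 (LamP n x / LamP n x'))

/-- **S7** -/
theorem plane_lim (hP : PlaneLim P) (hM : Merge P) {C₀ : ℝ} (hC : 0 < C₀) (h2 : Plane2 P C₀)
    (hL : PlIn P LamP) {n : ℕ} (hn : Even n) :
    ∃ c > (0 : ℝ), ∀ x : Fin n → ℂ, Function.Injective x → ∀ u, LApp u x →
      Tendsto (fun a : ℝ => a ^ (-((n : ℝ) / 8)) * P (u a)) (𝓝[>] 0) (𝓝 (c * LamP n x)) := by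
  obtain ⟨c, hc, h⟩ := norm_lemma (l := 𝓝[>] (0 : ℝ)) (X := {x : Fin n → ℂ // Function.Injective x})
    (fun a x => P fun i => meshIndex a (x.1 i))
    (fun a => a ^ (-((n : ℝ) / 8))) (fun x => LamP n x.1)
    (fun x => hL.pos n hn x.1 x.2)
    (fun x y => hL.ratio n hn x.1 y.1 x.2 y.2 _ _ (lapp_meshIndex x.1) (lapp_meshIndex y.1))
    (fun ε hε => by
      obtain ⟨x, hx, L, hL0, g⟩ := hn_even hP hM hC h2 hn 0 1 one_pos ε hε
      refine ⟨⟨x, hx.2⟩, L, hL0, ?_⟩
      filter_upwards [g _ (lapp_meshIndex x), self_mem_nhdsWithin,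
        (lapp_meshIndex x).mem Metric.isBounded_ball Metric.isOpen_ball hx.1] with a g1 ha m1
      have ha' : (0 : ℝ) < a := ha
      have hs : 0 < a ^ (-((n : ℝ) / 8)) := Real.rpow_pos_of_pos ha' _
      exact ⟨g1.1.trans (mul_le_mul_of_nonneg_left
          (free_le_plane hP (Finset.Subset.refl _) m1) hs.le),
        (mul_le_mul_of_nonneg_left (plane_le_plus hP m1) hs.le).trans g1.2⟩)
  refine ⟨c, hc, fun x hx u hu => ?_⟩
  have h1 := hL.ratio n hn x x hx hx u _ hu (lapp_meshIndex x)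
  have hne : LamP n x ≠ 0 := (hL.pos n hn x hx).ne'
  rw [div_self hne] at h1
  have h2 := h1.mul (h ⟨x, hx⟩)
  rw [one_mul] at h2
  refine h2.congr' ?_
  filter_upwards [h1.eventually (lt_mem_nhds one_half_lt_one)] with a ha
  have hne2 : P (fun i => meshIndex a (x i)) ≠ 0 := fun h0 => by
    rw [h0, div_zero] at ha
    norm_num at ha
  field_simp

/-! ### wiring -/

theorem ballC2 : BallC2 := fun c _ hr => Nm1x422.isC2_ball c hr

/-- inputs of the wiring: torus clause, plus ratio limits, the dual two-point function, Wu's law -/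
structure In5 (Lam : (n : ℕ) → Set ℂ → (Fin n → ℂ) → ℝ) (B : ℂ → ℂ → ℝ) : Prop where
  ut : UTb
  spin : SpinInB .plus Lam
  mu : MuIn B
  wu : Wu @Pc

variable {B : ℂ → ℂ → ℝ}

theorem In5.lim (h : In5 Lam B) : PlaneLim @Pc := planeLim_Pc h.ut

theorem In5.merge (h : In5 Lam B) : Merge @Pc := merge_of_mu h.lim h.mu

theorem In5.plane2 (h : In5 Lam B) : ∃ C₀ > (0 : ℝ), Plane2 @Pc C₀ :=
  U5cx697.plane2 h.lim h.spin ballC2 h.merge h.wu

theorem In5.twoPt (h : In5 Lam B) : ∃ g, TwoPt g := by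
  obtain ⟨C₀, hC, h2⟩ := h.plane2
  exact exists_twoPt h.lim h.spin ballC2 h.merge hC h2

/-- **clause U2** -/
theorem In5.u2c (h : In5 Lam B) : U2c := by
  obtain ⟨C₀, hC, h2⟩ := h.plane2
  refine ⟨C₀, hC.ne', fun x y hxy => ?_⟩
  have := h2 ![x, y] (by simpa using hxy) _ (lapp_meshIndex ![x, y])
  simp only [Matrix.cons_val_zero, Matrix.cons_val_one] at this
  refine this.congr fun a => ?_
  have e : (fun i => meshIndex a ((![x, y] : Fin 2 → ℂ) i)) = ![meshIndex a x, meshIndex a y] := by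
    funext i
    fin_cases i <;> rfl
  rw [e]
  rfl

/-- **free boundary conditions** -/
theorem In5.spinOut_free (h : In5 Lam B) (hf : SpinInB .free Lamf) {n : ℕ} (hn : Even n) :
    SpinOut .free n := by
  obtain ⟨C₀, hC, h2⟩ := h.plane2
  exact U5fx697.spinOut_free h.lim hf h.merge hC h2 hn

/-- **plane spin limits** -/
theorem In5.spPl (h : In5 Lam B) (hp : PlIn @Pc LamP) : SpPl := by
  intro n hn1 hn x hx
  obtain ⟨C₀, hC, h2⟩ := h.plane2
  obtain ⟨c, hc, hlim⟩ := plane_lim h.lim h.merge hC h2 hp hn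
  refine ⟨c * LamP n x, (hlim x hx _ (lapp_meshIndex x)).congr fun a => ?_⟩
  unfold scl
  simp

end Crest.Agent.R165.U5gx697
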