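import Crest.Agent.R165.UBrL_641
import Crest.Agent.R165.UJ4_420
import Crest.Agent.R165.UKerPl_304
import Crest.Agent.R165.U3Cov4_67
import Crest.Agent.R165.GeoRc_416
import Crest.Agent.R165.U5g_697
import Crest.Agent.R165.SpF_583
import Crest.Agent.R165.Nm7_422
import Crest.Agent.R165.Pl3_654

/-!
# Row 165 (S0250): ASSEMBLY OF BLOCK U (helper641)

`ulimB` : the unperturbed scaling limits `ULimB` (Red2_541) from the remaining leaves

* `TorPl` (922): torus bond expectations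
* `MacLeaf` (622, 610): kernel limits, plus families
* `BrLeaf` (644, 813): branch limits, plus families
* `LdLeaf` (813): logarithmic derivatives, plus families
* `Uniq`, `DiscTwo` (719): uniqueness, two branch points in the disc
* `KerAll .free` (802): kernels, free
* `SpinInB .free` (422): ratio limits, free
* `KerPl`, `PlLd` (654, 304): kernels and logarithmic derivatives of the plane
-/

set_option autoImplicit false

noncomputable section

open Filter Topology Set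
open Crest.ProbabilityR.IsingModel

namespace Crest.Agent.R165.UAsmx641

open Crest.Agent.R165.Latx683 (IsCov)
open Crest.Agent.R165.ConfTopx641 Crest.Agent.R165.USpinx641 Crest.Agent.R165.UB3x641
  Crest.Agent.R165.UBrLx641 Crest.Agent.R165.UPlx641
open Crest.Agent.R165.PathGlx641 Crest.Agent.R165.PathSeqx641 Crest.Agent.R165.PathIntx641
open Crest.Agent.R165.U3x719 Crest.Agent.R165.U3Covx67
open Crest.Agent.R165.UKerPlx304 Crest.Agent.R165.UFinx420
open Crest.Agent.R165.UKerx420 (fpt KerCov KerD)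
open Crest.Agent.R165.Red2x541 Crest.Agent.R165.Redx541
open Crest.Agent.R165.U5Px422 (SpinOut LApp)
open Crest.Agent.R165.U5gx697

/-! ### covariance of the logarithmic derivatives -/

theorem biL_of {D D' : Set ℂ} (hD : IsC2JordanDomain D) (hD' : IsC2JordanDomain D')
    (hne : D.Nonempty) {φ : ℂ → ℂ} (hφ : DifferentiableOn ℂ φ D) (hb : BijOn φ D D') :
    ∃ r M, Geo.CD D r M ∧ Tp416.BiL D D' φ := by
  obtain ⟨r, M, h⟩ := GeoCx65.exists_CD hD hne
  have hne' : D'.Nonempty := by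
    obtain ⟨z, hz⟩ := hne
    exact ⟨φ z, hb.mapsTo hz⟩
  obtain ⟨r', M', h'⟩ := GeoCx65.exists_CD hD' hne'
  exact ⟨r, M, h, Geo.CD.biL h' h hφ hb⟩

theorem aiCov (hU : Uniq) : AiCov := by
  intro D D' hD hD' φ hφ hbij n x hx i g g' hg hg'
  obtain ⟨r, M, h, hbl⟩ := biL_of hD hD' ⟨x i, hx.1 i⟩ hφ hbij
  rw [Ai_cov hU h hbl hx.2 hx.1 hg hg']
  congr 1
  push_cast
  rw [div_mul_eq_div_div_swap]
  ring

/-! ### kernels, plus -/

theorem kerAll_plus (hM : MacLeaf) (hU : Uniq) : KerAll .plus := by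
  classical
  intro n _
  have key : ∀ (D : Set ℂ) (x : Fin n → ℂ), ∃ g : ℂ → ℂ → ℂ → ℂ,
      IsC2JordanDomain D → x ∈ Conf n D → KerFam D x g ∧
      ∃ (bl : ℂ → ℂ → LinearMap.BilinForm ℝ ℂ) (rg : ℂ → LinearMap.BilinForm ℝ ℂ),
      (∀ z ∈ D, ∀ y ∈ D, z ≠ y → (∀ i, x i ≠ z) → (∀ i, x i ≠ y) → ∀ c c',
        bl z y c c' = kerB x g z y c c' / (2 * Real.pi * Latx683.xc)) ∧
      (∀ y ∈ D, (∀ i, x i ≠ y) → ∀ c c',
        rg y c c' = kerR x g y c c' / (2 * Real.pi * Latx683.xc)) ∧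
      ∀ (w : ℝ → Latx683.BW ℤ) (X : ℝ → Fin n → ℤ × ℤ), BgFam D w → LApp X x →
        KerF D x w X bl rg := by
    intro D x
    by_cases h : IsC2JordanDomain D ∧ x ∈ Conf n D
    · obtain ⟨bl, rg, g, h1, h2, h3, -, -, h6⟩ := hM D h.1 n x h.2
      exact ⟨g, fun _ _ => ⟨h1, bl, rg, h2, h3, h6⟩⟩
    · exact ⟨fun _ _ _ => 0, fun h1 h2 => absurd ⟨h1, h2⟩ h⟩
  choose g hg using key
  refine ⟨fun D x z z' c c' => kerB x (g D x) z z' c c' / (2 * Real.pi * Latx683.xc),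
    fun D x z c c' => kerR x (g D x) z c c' / (2 * Real.pi * Latx683.xc), ?_, ?_⟩
  · intro D hD x hx hinj
    obtain ⟨-, bl, rg, h2, h3, h6⟩ := hg D x hD ⟨hx, hinj⟩
    have hK := h6 _ _ (bgFam_dom hD) (U5Px422.lapp_meshIndex x)
    refine ⟨fun z z' hz hz' hne hxz hxz' => ⟨bl z z', fun c c' =>
        (h2 z hz z' hz' hne hxz hxz' c c').symm⟩,
      fun z hz hxz => ⟨rg z, fun c c' => (h3 z hz hxz c c').symm⟩, ?_, ?_⟩
    · intro S hS z z' hz hz' hne hxz hxz' i i' f f' hf hf'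
      have h := hK.off S hS z z' hz hz' hne hxz hxz' i i' f f' hf hf'
      rw [h2 z hz z' hz' hne hxz hxz'] at h
      exact h
    · intro S hS z hz hxz j i i'
      have h := hK.diag S hS z hz hxz (fun a => meshIndex a z) (mesh_self z) j i i'
      rw [h3 z hz hxz] at h
      exact h
  · intro D D' hD hD' φ hφ hbij x hx hinj
    rcases D.eq_empty_or_nonempty with rfl | hne
    · exact ⟨fun _ => 0, fun z hz => absurd hz (Set.notMem_empty z),
        fun z _ hz => absurd hz (Set.notMem_empty z), fun z hz => absurd hz (Set.notMem_empty z)⟩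
    obtain ⟨r, M, h, hbl⟩ := biL_of hD hD' hne hφ hbij
    have hx' : (fun k => φ (x k)) ∈ Conf n D' :=
      ⟨fun i => hbij.mapsTo (hx i), fun i j hij => hinj (hbij.injOn (hx i) (hx j) hij)⟩
    obtain ⟨ρ, h1, h2, h3⟩ := ker_cov hU h hbl hinj hx (hg D x hD ⟨hx, hinj⟩).1
      (hg D' _ hD' hx').1
    refine ⟨ρ, h1, fun z z' hz hz' hne hxz hxz' c c' => ?_, fun z hz hxz c c' => ?_⟩
    · show _ / _ = _ / _
      rw [h2 z z' hz hz' hne hxz hxz' c c']
    · show _ / _ = _ / _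
      rw [h3 z hz hxz c c']

/-! ### the plane -/

/-- **logarithmic derivatives of the plane** (654, 813) -/
def PlLd : Prop :=
  ∃ A : (n : ℕ) → Fin n → (Fin n → ℂ) → ℂ, ∀ n : ℕ, Even n →
    LDD n Set.univ (fun _ u => Pc u) (gOf (A n))

theorem conf_univ_nonempty (n : ℕ) : (Conf n (Set.univ : Set ℂ)).Nonempty :=
  ⟨fun i => ((i : ℕ) : ℂ), fun _ => Set.mem_univ _, fun i j h => by
    have h' : ((i : ℕ) : ℂ) = ((j : ℕ) : ℂ) := h
    exact Fin.ext (by exact_mod_cast h')⟩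

theorem plIn_of (h : PlLd) : ∃ LamP, PlIn @Pc LamP := by
  obtain ⟨A, hA⟩ := h
  choose x0 hx0 using conf_univ_nonempty
  refine ⟨fun n x => Gl (fun _ u => Pc u) (x0 n) x, ?_, ?_⟩
  · intro n hn x hx
    exact (hA n hn).gl_pos (hx0 n) ⟨fun _ => Set.mem_univ _, hx⟩
  · intro n hn x x' hx hx' u u' hu hu'
    have hxc : x ∈ Conf n Set.univ := ⟨fun _ => Set.mem_univ _, hx⟩
    have hxc' : x' ∈ Conf n Set.univ := ⟨fun _ => Set.mem_univ _, hx'⟩
    have L := hA n hn
    have h1 := L.rel_gl hxc' hxc _ le_rfl _ _ (lapp_mc hu') (lapp_mc hu)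
    have e : Gl (fun _ u => Pc u) (x0 n) x / Gl (fun _ u => Pc u) (x0 n) x' =
        Gl (fun (_ : ℝ) (u : Fin n → ℤ × ℤ) => Pc u) x' x := by
      rw [div_eq_iff (L.gl_pos (hx0 n) hxc').ne', mul_comm, L.gl_mul (hx0 n) hxc' hxc]
    rw [e]
    exact h1

/-! ### assembly -/

/-- the remaining leaves of block U -/
structure ULeaves : Prop where
  tor : Spx583.TorPl
  mac : MacLeaf
  br : BrLeaf
  ld : LdLeaf
  uniq : Uniq
  disc : DiscTwo
  kerFree : KerAll .free
  spFree : ∃ Lf, SpinInB .free Lf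
  kerPl : UPlx641.KerPl
  plLd : PlLd
  exPl : UPlx641.ExCovPl
  j2Pl : UPlx641.J2Pl

theorem ldf_dom (h : LdLeaf) {D : Set ℂ} (hD : IsC2JordanDomain D) : LDF AAf D (U5Px422.TT D) :=
  h D hD _ (latApp_TT hD) (Kw9x871.noHole_TT hD)

theorem spinInB (H : ULeaves) : SpinInB .plus Lam :=
  spinInB_plus (fun _ hD => ldf_dom H.ld hD) (covA_of (aiCov H.uniq) H.br)

theorem in5 (H : ULeaves) : In5 Lam Kw9x871.kapB where
  ut := Spx583.UTb_of H.tor
  spin := spinInB H
  mu := Kw9x871.muIn_kapB (brLim_of H.br H.disc)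
  wu := Spx583.wu_Pc H.tor

theorem spinLeaf (H : ULeaves) : SpinLeaf := by
  intro b n hn hR
  rcases hR with rfl | ⟨rfl, he⟩
  · obtain ⟨g, hg⟩ := (in5 H).twoPt
    exact Nm7x422.spinOut_plus' (spinInB H) hg n
  · obtain ⟨Lf, hf⟩ := H.spFree
    exact (in5 H).spinOut_free hf he

/-- **BLOCK U** -/
theorem ulimB (H : ULeaves) : ULimB where
  ud := UJ4x420.UDb_of' (spinLeaf H) (kerEx_of_B (kerExB_of UJ4x420.exCov (kerAll_plus H.mac H.uniq))
    (kerExB_of UJ4x420.exCov H.kerFree))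
  ut := (in5 H).ut
  up := by
    obtain ⟨LamP, hP⟩ := plIn_of H.plLd
    exact UPlx641.UPb_of ((in5 H).spPl hP) H.exPl H.kerPl H.j2Pl (in5 H).ut
  u2 := (in5 H).u2c
  uc := UJ4x420.UCb_of' (spinLeaf H) (kerEx_of_B (kerExB_of UJ4x420.exCov (kerAll_plus H.mac H.uniq))
    (kerExB_of UJ4x420.exCov H.kerFree))
    (kerCv_of_B (kerCvB_of UJ4x420.exCov (kerAll_plus H.mac H.uniq))
      (kerCvB_of UJ4x420.exCov H.kerFree))

end Crest.Agent.R165.UAsmx641
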