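import Crest.Agent.R165.LdGen3_817
import Crest.Agent.R165.PlOut_304
import Crest.Agent.R165.PlStep_817
import Crest.Agent.R165.TorPl_922
import Crest.Agent.R165.UAsm_641
import Crest.Agent.R165.LatSeq_416

/-!
# Row 165 (S0250), block U (helper817): the leaf `PlLd` from the resolvent convergence in the plane

`plLd_of` : `UAsmx641.PlLd` from `ResConv (Om univ x) x (PlSeq x) Q` (any `Q`).
-/

set_option autoImplicit false

noncomputable section

open MeasureTheory Filter Topology Set Metric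
open Crest.ProbabilityR.IsingModel

namespace Crest.Agent.R165.PlLdx817

open Crest.Agent.R165.Mac0x622 (Om)
open Crest.Agent.R165.MacIx622 (ResConv)
open Crest.Agent.R165.Latx683 Crest.Agent.R165.Gr3x813 Crest.Agent.R165.LogDx813
open Crest.Agent.R165.PathIntx641 (mc sh)
open Crest.Agent.R165.PathSeqx641 (NF)
open Crest.Agent.R165.PathGlx641 (LDD)
open Crest.Agent.R165.ConfTopx641
open Crest.Agent.R165.FrFinx887 (toF)
open Crest.Agent.R165.UPlx641 (Pc wP)
open Crest.Agent.R165.USpinx641 (gOf gOf_zero gOf_one)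
open Crest.Agent.R165.PlOutx304 (PlSeq)
open Crest.Agent.R165.LdGenx817
open Crest.Agent.R165.PlStepx817

theorem lSW_eq (w : BW ℤ) (f : ℤ × ℤ) : Stepx470.lSW w f = lS w f := by
  unfold Stepx470.lSW lS
  rw [Finsupp.smul_single, smul_eq_mul, mul_one]

theorem lNE_eq (w : BW ℤ) (f : ℤ × ℤ) : Stepx470.lNE w f = lN w f := by
  unfold Stepx470.lNE lN
  rw [Finsupp.smul_single, smul_eq_mul, mul_one]

theorem lNW_eq (w : BW ℤ) (X : ℤ × ℤ) : Stepx470.lNW w (X - (0, 1)) = lS2 w X := by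
  unfold Stepx470.lNW lS2
  have e1 : X - (0, 1) = (X.1, X.2 - 1) := by ext <;> simp
  rw [Finsupp.smul_single, smul_eq_mul, mul_one, e1]
  simp

theorem lSE_eq (w : BW ℤ) (X : ℤ × ℤ) : Stepx470.lSE w (X - (0, 1)) = lN2 w X := by
  unfold Stepx470.lSE lN2
  have e1 : X - (0, 1) = (X.1, X.2 - 1) := by ext <;> simp
  rw [Finsupp.smul_single, smul_eq_mul, mul_one, e1]
  have e2 : (X.2 - 1 - 1 : ℤ) = X.2 - 2 := by ring
  simp only [e2]

theorem toF_wPl (f : ℤ × ℤ) (h : Fin 4) : toF (wPl ℤ) f h = Tr1x40.xc := by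
  fin_cases h <;> rfl

/-- the plane backgrounds are in the class `PlSeq` -/
theorem plSeq {n : ℕ} {x : Fin n → ℂ} {a : ℕ → ℝ} {X : ℕ → Fin n → ℤ × ℤ} (hpos : ∀ k, 0 < a k)
    (hlim : Tendsto a atTop (𝓝 0))
    (htip : ∀ i, Tendsto (fun k => meshPoint (a k) (X k i)) atTop (𝓝 (x i))) :
    PlSeq x a (fun k => toF (wX (wPl ℤ) (X k))) X :=
  ⟨hpos, hlim, fun k f h => by rw [LatSeqx416.toF_wX, toF_wPl], htip⟩

theorem inn_plane (D : Set ℂ) : Inn D fun _ => wPl ℤ := fun _ _ _ =>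
  Eventually.of_forall fun _ _ _ _ => rfl

theorem rc_plane {n : ℕ} {x : Fin n → ℂ} {Q : Set ℂ → (ℂ → ℂ) → Prop}
    (h : ResConv (Om univ x) x (PlSeq x) Q) : RC univ x fun _ => wPl ℤ :=
  rc_of h fun _ _ hpos hlim htip => ⟨0, fun M _ => plSeq (fun _ => hpos _)
    ((tendsto_add_atTop_iff_nat M).2 hlim) fun i => (tendsto_add_atTop_iff_nat M).2 (htip i)⟩

/-- the three STEP identities of the plane -/
theorem step3_plane {n : ℕ} (hn : Even n) (p : ℝ × (Fin n → ℤ × ℤ)) :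
    ∃ S, Step3 (fun _ u => Pc u) (wX (wPl ℤ) p.2) p S := by
  obtain ⟨B, hB⟩ := J2Plx817.exists_pairs hn p.2
  obtain ⟨S, hc⟩ : ∃ S, IsCov (wX (wPl ℤ) p.2) S := by
    obtain ⟨g, S, -, -, -, -, hc, -⟩ := J2Plx817.exists_planeCov hB
    exact ⟨_, hc⟩
  refine ⟨S, hc, fun i => ?_, fun i => ?_, fun i => ?_⟩
  · have h := plsh_NE TorPlx922.torPl hn hc i
    rw [lNE_eq, lSW_eq] at h
    exact h
  · have h := plsh_SE TorPlx922.torPl hn hc i
    rw [lNW_eq, lSE_eq] at h
    exact h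
  · have h := pl_unit TorPlx922.torPl hn hc i 0
    have h7 : sh p.2 i (1, 0) = Function.update p.2 i (p.2 i + unitVec 0) := by
      unfold sh
      congr 1
    rw [h7]
    exact h

/-- **the logarithmic derivatives of the plane** -/
theorem ldd_plane {n : ℕ} (hn : Even n)
    (hRes : ∀ x : Fin n → ℂ, Function.Injective x → ∃ Q, ResConv (Om univ x) x (PlSeq x) Q) :
    ∃ g : Fin n → Fin 2 → (Fin n → ℂ) → ℝ, LDD n univ (fun _ u => Pc u) g := by
  refine ldd_of isOpen_univ isPreconnected_univ (inn_plane _) (fun x hx => ?_)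
    (fun x _ => Eventually.of_forall fun p => Pc_pos TorPlx922.torPl hn p.2)
    (fun x _ => Eventually.of_forall fun p => step3_plane hn p)
  obtain ⟨Q, hQ⟩ := hRes x hx.2
  exact rc_plane hQ

/-- **the leaf `PlLd`** -/
theorem plLd_of (hRes : ∀ n, Even n → ∀ x : Fin n → ℂ, Function.Injective x →
    ∃ Q, ResConv (Om univ x) x (PlSeq x) Q) : UAsmx641.PlLd := by
  classical
  have key : ∀ n : ℕ, ∃ g : Fin n → Fin 2 → (Fin n → ℂ) → ℝ, Even n →
      LDD n univ (fun _ u => Pc u) g := by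
    intro n
    by_cases hn : Even n
    · obtain ⟨g, hg⟩ := ldd_plane hn (hRes n hn)
      exact ⟨g, fun _ => hg⟩
    · exact ⟨fun _ _ _ => 0, fun h => absurd h hn⟩
  choose g hg using key
  refine ⟨fun n i x => (g n i 0 x : ℂ) - (g n i 1 x : ℂ) * Complex.I, fun n hn => ?_⟩
  have e : gOf (fun (i : Fin n) (x : Fin n → ℂ) =>
      (g n i 0 x : ℂ) - (g n i 1 x : ℂ) * Complex.I) = g n := by
    funext i j x
    fin_cases j
    · simp [gOf]
    · simp [gOf]
  rw [e]
  exact hg n hn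

end Crest.Agent.R165.PlLdx817
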