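import Crest.Agent.R165.OutB_999
import Crest.Agent.R165.ClAll_117
import Crest.Agent.R165.PlOut_304
import Crest.Agent.R165.MacNC2_917

/-!
# Row 165 (S0250), plane MAC (helper811): a-priori bounds for the class `PlSeq`

* `clG_rays` : an even family of rays is a neutral cluster (`ClG` of `OutB_999`)
* `PSrc`     : the hypotheses of `MacI_622.ResConv` on the sources and the solutions
* `bounds`   : scaled mass on discs and decay `O(1/|z|)`
* `small_mass`, `no_conc` : small mass on sets of small area, in particular near the insertions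
-/

set_option autoImplicit false

noncomputable section

open MeasureTheory Filter Topology Set Metric
open Crest.ProbabilityR.IsingModel
open Crest.Agent.R165.Tr1x40 Crest.Agent.R165.Embx622
open Crest.Agent.R165.Mac0x622 Crest.Agent.R165.MacNCx917
open Crest.Agent.R165.Schurx811 (dd dd_le_iff)
open Crest.Agent.R165.Cl7x999 (sm cut comm E2)
open Crest.Agent.R165.PlOutx304 (PlSeq)

namespace Crest.Agent.R165.PlCx811

/-! ### the gauge -/

theorem wl_rays {n : ℕ} (V : Fin n → Face) :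
    Bridgex386.wl (Latx683.wX (Latx683.wPl ℤ) V) = fun f h => rays V f h * xc := by
  funext f h
  rw [MacWx304.rays_eq]
  have e : Latx683.xc = Tr1x40.xc := rfl
  fin_cases h <;>
    simp [Bridgex386.wl, ofEN, Latx683.yE, Latx683.yN, Latx683.wX, Latx683.wPl,
      FrFinx887.toF, ClAllx117.pf_int, e]

theorem rays_sq {n : ℕ} (V : Fin n → Face) (f : Face) (h : Fin 4) : rays V f h ^ 2 = 1 := by
  unfold rays
  rw [← Finset.prod_pow]
  exact Finset.prod_eq_one fun i _ => RIfx891.rayw_sq _ _ _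

/-- an even family of rays is a neutral cluster -/
theorem clG_rays {n : ℕ} (hn : Even n) {V : Fin n → Face} {x0 : Face} {R : ℝ} (hR : 0 ≤ R)
    (hV : ∀ i, V i ∈ RIfx891.bx x0 R) :
    OutBx999.ClG (fun f h => rays V f h * xc) (ClAllx117.clg x0 V) x0 (R + 1) where
  sym := PlOutx304.sym_rays V
  gauge := ClAllx117.gauge_clg x0 V
  sq f h := by rw [mul_pow, rays_sq, one_mul]
  out f hf h := by
    have h1 := ClAllx117.wl_wX_clu hn (Latx683.wPl ℤ) hR hV hf h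
    rw [wl_rays] at h1
    have h2 : Bridgex386.wl (Latx683.wPl ℤ) f h = xc := by
      have := (ClAllx117.planeOn_wPl f 0).eq f (by rw [RIfx891.mem_bx_real]; simp) h
      simpa using this
    rw [h2] at h1
    exact h1

/-! ### geometry -/

theorem mem_bx_of_norm {a r : ℝ} (ha : 0 < a) {f : Face} (h : ‖meshPoint a f‖ ≤ a * r) :
    f ∈ RIfx891.bx 0 r := by
  rw [RIfx891.mem_bx_real]
  have h1 := (Complex.abs_re_le_norm (meshPoint a f)).trans h
  have h2 := (Complex.abs_im_le_norm (meshPoint a f)).trans h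
  rw [meshPoint_re, abs_mul, abs_of_pos ha] at h1
  rw [meshPoint_im, abs_mul, abs_of_pos ha] at h2
  constructor
  · simpa using le_of_mul_le_mul_left h1 ha
  · simpa using le_of_mul_le_mul_left h2 ha

theorem abs_le_dd (f : Face) : |(f.1 : ℝ)| ≤ dd f 0 ∧ |(f.2 : ℝ)| ≤ dd f 0 := by
  have h := (dd_le_iff (z := f) (w := 0) (t := dd f 0)).1 le_rfl
  simp only [Prod.fst_zero, Prod.snd_zero, zero_sub, zero_add] at h
  obtain ⟨⟨h1, h2⟩, h3, h4⟩ := h
  have h1' : -((dd f 0 : ℕ) : ℝ) ≤ (f.1 : ℝ) := by exact_mod_cast h1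
  have h2' : (f.1 : ℝ) ≤ ((dd f 0 : ℕ) : ℝ) := by exact_mod_cast h2
  have h3' : -((dd f 0 : ℕ) : ℝ) ≤ (f.2 : ℝ) := by exact_mod_cast h3
  have h4' : (f.2 : ℝ) ≤ ((dd f 0 : ℕ) : ℝ) := by exact_mod_cast h4
  exact ⟨abs_le.2 ⟨h1', h2'⟩, abs_le.2 ⟨h3', h4'⟩⟩

theorem norm_le_dd {a : ℝ} (ha : 0 < a) (f : Face) : ‖meshPoint a f‖ ≤ 2 * (a * dd f 0) := by
  have h := abs_le_dd f
  refine (Complex.norm_le_abs_re_add_abs_im _).trans ?_
  rw [meshPoint_re, meshPoint_im, abs_mul, abs_mul, abs_of_pos ha]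
  have h1 := mul_le_mul_of_nonneg_left h.1 ha.le
  have h2 := mul_le_mul_of_nonneg_left h.2 ha.le
  linarith

theorem dd_le_of_norm {a : ℝ} (ha : 0 < a) {f : Face} {m : ℕ} (h : ‖meshPoint a f‖ ≤ a * m) :
    dd f 0 ≤ m := by
  have h1 := mem_bx_of_norm ha h
  rw [Cl7x999.mem_rbx (Nat.cast_nonneg m)] at h1
  simpa using h1

/-! ### sources -/

/-- sources and solutions, as in `MacI_622.ResConv` -/
structure PSrc (K : Set ℂ) (G : ℂ → Fin 4 → ℝ) (a : ℕ → ℝ) (w g φ : ℕ → Fld) : Prop where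
  supp : ∀ᶠ k in atTop, ∀ f h, g k f h ≠ 0 → meshPoint (a k) f ∈ K
  conv : ∀ h, Tendsto (fun k => ∫⁻ z, ENNReal.ofReal
    ((emb (a k) (fun f => g k f h) z - G z h) ^ 2)) atTop (𝓝 0)
  van : ∀ k, Tendsto (fun b : Face × Fin 4 => φ k b.1 b.2) cofinite (𝓝 0)
  eqn : ∀ᶠ k in atTop, ∀ f h, A (w k) (φ k) f h = a k * g k f h

theorem PSrc.gbd {K : Set ℂ} {G : ℂ → Fin 4 → ℝ} {a : ℕ → ℝ} {w g φ : ℕ → Fld}
    (hpos : ∀ k, 0 < a k) (hG : ∀ h, MemLp (fun z => G z h) 2) (S : PSrc K G a w g φ) :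
    ∃ G0 : ℝ, 0 ≤ G0 ∧ ∀ᶠ k in atTop, ∀ E : Finset Face,
      a k ^ 2 * ∑ f ∈ E, nsq (g k f) ≤ G0 ^ 2 := by
  choose C hC0 hC using fun h => MacNC2x917.mass_bd hpos (hG h) (S.conv h)
  refine ⟨Real.sqrt (∑ h, C h), Real.sqrt_nonneg _, ?_⟩
  filter_upwards [eventually_all.2 hC] with k hk E
  rw [Real.sq_sqrt (Finset.sum_nonneg fun h _ => hC0 h)]
  simp only [nsq]
  rw [Finset.sum_comm, Finset.mul_sum]
  exact Finset.sum_le_sum fun h _ => hk h _

theorem meshPoint_zero_norm (a : ℝ) (f : Face) : ‖meshPoint a f‖ = ‖meshPoint a f - 0‖ := by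
  rw [sub_zero]

/-- **a-priori bounds** -/
theorem bounds : ∃ C : ℝ, 0 < C ∧ ∀ {n : ℕ} (_ : Even n) {x : Fin n → ℂ} {K : Set ℂ} {T0 : ℝ}
    (_ : 0 < T0) (_ : ∀ i, ‖x i‖ ≤ T0) (_ : ∀ z ∈ K, ‖z‖ ≤ T0) {G : ℂ → Fin 4 → ℝ} {a : ℕ → ℝ}
    {w : ℕ → Fld} {V : ℕ → Fin n → Face} {g φ : ℕ → Fld} (_ : PlSeq x a w V)
    (_ : PSrc K G a w g φ) {G0 : ℝ} (_ : 0 ≤ G0)
    (_ : ∀ᶠ k in atTop, ∀ E : Finset Face, a k ^ 2 * ∑ f ∈ E, nsq (g k f) ≤ G0 ^ 2) (T : ℝ)
    (_ : T0 ≤ T), ∀ᶠ k in atTop,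
      (∀ E : Finset Face, (∀ f ∈ E, ‖meshPoint (a k) f‖ ≤ 8 * T) →
        a k ^ 2 * ∑ f ∈ E, nsq (φ k f) ≤ (C * T * G0) ^ 2) ∧
      ∀ f, 32 * T ≤ ‖meshPoint (a k) f‖ →
        nsq (φ k f) ≤ (C * T * G0 / ‖meshPoint (a k) f‖) ^ 2 := by
  obtain ⟨C, hC, hout⟩ := OutBx999.out_bound
  refine ⟨4 * C, by positivity, ?_⟩
  intro n hn x K T0 hT0 hx hK G a w V g φ H S G0 hG0 hg T hT
  have hT' : 0 < T := lt_of_lt_of_le hT0 hT
  have htip : ∀ᶠ k in atTop, ∀ i, ‖meshPoint (a k) (V k i)‖ < 5 / 4 * T := by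
    rw [eventually_all]
    intro i
    have h1 := (H.tip i).norm
    exact h1.eventually (eventually_lt_nhds (by have := hx i; linarith))
  filter_upwards [htip, S.supp, S.eqn, hg,
    H.lim.eventually (eventually_lt_nhds (show (0 : ℝ) < T / 2 by linarith))]
    with k htip hsupp heqn hg hak
  have ha := H.pos k
  set R : ℝ := 2 * T / a k with hR
  have haR : a k * R = 2 * T := by rw [hR]; field_simp
  have hR4 : 4 ≤ R := by
    rw [hR, le_div_iff₀ ha]; linarith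
  have hw : w k = fun f h => rays (V k) f h * xc := by
    funext f h; exact H.wt k f h
  have hcl : OutBx999.ClG (w k) (ClAllx117.clg 0 (V k)) 0 R := by
    rw [hw]
    have := clG_rays hn (V := V k) (x0 := 0) (R := R - 1) (by linarith) (fun i => by
      refine mem_bx_of_norm ha ((htip i).le.trans ?_)
      rw [mul_sub, haR, mul_one]
      linarith)
    rwa [sub_add_cancel] at this
  have hAw : A (w k) (φ k) = a k • g k := by
    funext f h
    rw [heqn f h]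
    rfl
  have hz : ∀ f, f ∉ RIfx891.bx 0 R → A (w k) (φ k) f = 0 := by
    intro f hf
    rw [hAw]
    funext h
    show a k * g k f h = 0
    by_contra hne
    have h1 := hsupp f h (fun h0 => hne (by rw [h0, mul_zero]))
    refine hf (mem_bx_of_norm ha ((hK _ h1).trans ?_))
    rw [haR]; linarith
  obtain ⟨b1, b2⟩ := hout (w k) (ClAllx117.clg 0 (V k)) 0 R (by linarith) hcl (φ k) (S.van k) hz
  have hNA : RIfx891.NB 0 R (A (w k) (φ k)) ≤ G0 := by
    rw [hAw, map_smul_eq_mul, Real.norm_eq_abs, abs_of_pos ha]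
    have h0 : 0 ≤ RIfx891.NB 0 R (g k) := apply_nonneg _ _
    have h1 : (a k * RIfx891.NB 0 R (g k)) ^ 2 ≤ G0 ^ 2 := by
      rw [mul_pow, RIfx891.NB_sq]
      exact hg _
    exact (abs_le_of_sq_le_sq' h1 hG0).2
  have hNA0 : 0 ≤ RIfx891.NB 0 R (A (w k) (φ k)) := apply_nonneg _ _
  constructor
  · intro E hE
    have hsub : E ⊆ RIfx891.bx 0 (4 * R) := by
      intro f hf
      refine mem_bx_of_norm ha ((hE f hf).trans ?_)
      have : a k * (4 * R) = 4 * (a k * R) := by ring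
      rw [this, haR]; linarith
    have h1 : ∑ f ∈ E, nsq (φ k f) ≤ RIfx891.NB 0 (4 * R) (φ k) ^ 2 := by
      rw [RIfx891.NB_sq]
      exact Finset.sum_le_sum_of_subset_of_nonneg hsub fun f _ _ => nsq_nonneg _
    have h2 : a k * RIfx891.NB 0 (4 * R) (φ k) ≤ 4 * C * T * G0 := by
      calc a k * RIfx891.NB 0 (4 * R) (φ k)
          ≤ a k * (C * R * RIfx891.NB 0 R (A (w k) (φ k))) := mul_le_mul_of_nonneg_left b1 ha.le
        _ = C * (a k * R) * RIfx891.NB 0 R (A (w k) (φ k)) := by ring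
        _ = C * (2 * T) * RIfx891.NB 0 R (A (w k) (φ k)) := by rw [haR]
        _ ≤ C * (2 * T) * G0 := by gcongr
        _ ≤ 4 * C * T * G0 := by nlinarith [mul_nonneg (mul_nonneg hC.le hT'.le) hG0]
    have h3 : 0 ≤ a k * RIfx891.NB 0 (4 * R) (φ k) := mul_nonneg ha.le (apply_nonneg _ _)
    calc a k ^ 2 * ∑ f ∈ E, nsq (φ k f) ≤ a k ^ 2 * RIfx891.NB 0 (4 * R) (φ k) ^ 2 :=
          mul_le_mul_of_nonneg_left h1 (sq_nonneg _)
      _ = (a k * RIfx891.NB 0 (4 * R) (φ k)) ^ 2 := by ring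
      _ ≤ _ := pow_le_pow_left₀ h3 h2 2
  · intro f hf
    have hN0 : 0 < ‖meshPoint (a k) f‖ := by linarith
    have hdd := norm_le_dd ha f
    have hd0 : (0 : ℝ) < dd f 0 := by
      by_contra h
      have : (dd f 0 : ℝ) = 0 := le_antisymm (not_lt.1 h) (Nat.cast_nonneg _)
      rw [this] at hdd
      linarith
    have h8 : 8 * R ≤ dd f 0 := by
      have h1 : a k * (8 * R) ≤ a k * dd f 0 := by
        have : a k * (8 * R) = 8 * (a k * R) := by ring
        rw [this, haR]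
        linarith
      exact le_of_mul_le_mul_left h1 ha
    refine (b2 f h8).trans ?_
    have h1 : R / dd f 0 ≤ 4 * T / ‖meshPoint (a k) f‖ := by
      rw [div_le_div_iff₀ hd0 hN0]
      have h2 : R * ‖meshPoint (a k) f‖ ≤ R * (2 * (a k * dd f 0)) :=
        mul_le_mul_of_nonneg_left hdd (by linarith)
      calc R * ‖meshPoint (a k) f‖ ≤ R * (2 * (a k * dd f 0)) := h2
        _ = 2 * (a k * R) * dd f 0 := by ring
        _ = 4 * T * dd f 0 := by rw [haR]; ring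
    have h2 : 0 ≤ R / dd f 0 := by positivity
    apply pow_le_pow_left₀ (by positivity)
    calc C * (R / dd f 0) * RIfx891.NB 0 R (A (w k) (φ k))
        ≤ C * (4 * T / ‖meshPoint (a k) f‖) * G0 := by gcongr
      _ = 4 * C * T * G0 / ‖meshPoint (a k) f‖ := by ring

/-! ### sets of small area -/

theorem isPlus_plSeq {n : ℕ} {x : Fin n → ℂ} {a : ℕ → ℝ} {w : ℕ → Fld} {V : ℕ → Fin n → Face}
    (H : PlSeq x a w V) (k : ℕ) : IsPlus (w k) := fun f h => Or.inl (by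
  rw [H.wt, mul_pow, rays_sq, one_mul])

theorem w_sq_le {n : ℕ} {x : Fin n → ℂ} {a : ℕ → ℝ} {w : ℕ → Fld} {V : ℕ → Fin n → Face}
    (H : PlSeq x a w V) (k : ℕ) (f : Face) (h : Fin 4) : w k f h ^ 2 ≤ 1 := by
  rw [H.wt, mul_pow, rays_sq, one_mul]
  have h1 := xc_pos
  have h2 := xc_lt_one
  nlinarith

/-- **small mass on sets of small area** -/
theorem small_mass {n : ℕ} (hn : Even n) {x : Fin n → ℂ} {K : Set ℂ} {T0 : ℝ}
    (hT0 : 0 < T0) (hx : ∀ i, ‖x i‖ ≤ T0) (hK : ∀ z ∈ K, ‖z‖ ≤ T0) {G : ℂ → Fin 4 → ℝ} {a : ℕ → ℝ}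
    {w : ℕ → Fld} {V : ℕ → Fin n → Face} {g φ : ℕ → Fld} (H : PlSeq x a w V)
    (S : PSrc K G a w g φ) {G0 : ℝ} (hG0 : 0 ≤ G0)
    (hg : ∀ᶠ k in atTop, ∀ E : Finset Face, a k ^ 2 * ∑ f ∈ E, nsq (g k f) ≤ G0 ^ 2) {T : ℝ}
    (hT : T0 ≤ T) : ∃ M : ℝ, 0 ≤ M ∧ ∀ᶠ k in atTop, ∀ E : Finset Face,
      (∀ f ∈ E, ‖meshPoint (a k) f‖ ≤ T) →
        a k ^ 2 * ∑ f ∈ E, nsq (φ k f) ≤ M * (a k + 5 * (a k * Real.sqrt E.card)) := by
  obtain ⟨C, hC, hb⟩ := bounds
  have hT' : 0 < T := lt_of_lt_of_le hT0 hT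
  refine ⟨6000000000 * (C * T * G0 * Real.sqrt (2 * G0 ^ 2 + 2 * (C * G0) ^ 2)), by positivity, ?_⟩
  filter_upwards [hb hn hT0 hx hK H S hG0 hg T hT, S.eqn, hg,
    H.lim.eventually (eventually_lt_nhds (show (0 : ℝ) < T / 4 by linarith))]
    with k hk heqn hg hak E hE
  have ha := H.pos k
  obtain ⟨hmass, -⟩ := hk
  set m : ℕ := ⌈T / a k⌉₊ with hm
  have hm1 : T / a k ≤ m := Nat.le_ceil _
  have hm2 : (m : ℝ) < T / a k + 1 := Nat.ceil_lt_add_one (by positivity)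
  have hm0' : (0 : ℝ) < m := lt_of_lt_of_le (by positivity) hm1
  have hm0 : 0 < m := by exact_mod_cast hm0'
  have ham1 : T ≤ a k * m := by
    rw [div_le_iff₀ ha] at hm1; linarith
  have ham2 : a k * m ≤ T + a k := by
    have := mul_le_mul_of_nonneg_left hm2.le ha.le
    calc a k * m ≤ a k * (T / a k + 1) := this
      _ = T + a k := by field_simp
  set χ : Face → ℝ := cut 0 m m with hχ
  set ψ : Fld := sm χ (φ k) with hψ
  have hEdd : ∀ f ∈ E, dd f 0 ≤ m := fun f hf => dd_le_of_norm ha ((hE f hf).trans ham1)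
  have hψE : ∀ f ∈ E, nsq (ψ f) = nsq (φ k f) := by
    intro f hf
    rw [hψ, Cl7x999.nsq_sm, hχ, Cl7x999.cut_eq_one hm0 (hEdd f hf)]
    ring
  have hsupp : Sqx54.Supp (Cl7x999.bx 0 (2 * m)) ψ := by
    intro f hf h
    rw [Cl7x999.mem_bx] at hf
    show χ f * φ k f h = 0
    rw [hχ, Cl7x999.cut_eq_zero (by omega), zero_mul]
  have hbxn : ∀ N : ℕ, N ≤ 2 * m + 2 → ∀ f ∈ Cl7x999.bx (0 : Face) N,
      ‖meshPoint (a k) f‖ ≤ 8 * T := by
    intro N hN f hf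
    rw [Cl7x999.mem_bx] at hf
    have h1 := norm_le_dd ha f
    have h2 : (dd f 0 : ℝ) ≤ 2 * m + 2 := by
      have : dd f 0 ≤ 2 * m + 2 := hf.trans hN
      exact_mod_cast this
    have h3 : a k * dd f 0 ≤ a k * (2 * m + 2) := mul_le_mul_of_nonneg_left h2 ha.le
    have h4 : a k * (2 * m + 2) = 2 * (a k * m) + 2 * a k := by ring
    linarith
  -- the norm of `ψ`
  have hP : ∑' f, nsq (ψ f) ≤ (C * T * G0 / a k) ^ 2 := by
    have e : ∑' f, nsq (ψ f) = ∑ f ∈ Cl7x999.bx 0 (2 * m), nsq (ψ f) :=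
      tsum_eq_sum fun f hf => by
        have : ψ f = 0 := funext fun h => hsupp f hf h
        rw [this]; simp [nsq]
    rw [e]
    have h1 : ∑ f ∈ Cl7x999.bx 0 (2 * m), nsq (ψ f) ≤
        ∑ f ∈ Cl7x999.bx 0 (2 * m), nsq (φ k f) := by
      refine Finset.sum_le_sum fun f _ => ?_
      rw [hψ, Cl7x999.nsq_sm]
      have h2 := Cl7x999.cut_sq_le 0 m m f
      have h3 := nsq_nonneg (φ k f)
      nlinarith
    have h2 := hmass (Cl7x999.bx 0 (2 * m)) (hbxn _ (by omega))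
    rw [div_pow, le_div_iff₀ (by positivity)]
    calc (∑ f ∈ Cl7x999.bx 0 (2 * m), nsq (ψ f)) * a k ^ 2
        ≤ (∑ f ∈ Cl7x999.bx 0 (2 * m), nsq (φ k f)) * a k ^ 2 :=
          mul_le_mul_of_nonneg_right h1 (sq_nonneg _)
      _ = a k ^ 2 * ∑ f ∈ Cl7x999.bx 0 (2 * m), nsq (φ k f) := mul_comm _ _
      _ ≤ _ := h2
  -- the norm of `A ψ`
  have hAψ : A (w k) ψ = sm χ (A (w k) (φ k)) + comm (w k) χ (φ k) := Cl7x999.A_sm _ _ _
  have hQ : ∑' f, nsq (A (w k) ψ f) ≤ 2 * G0 ^ 2 + 2 * (C * G0) ^ 2 := by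
    have e : ∑' f, nsq (A (w k) ψ f) = ∑ f ∈ Cl7x999.bx 0 (2 * m + 1), nsq (A (w k) ψ f) := by
      refine tsum_eq_sum fun f hf => ?_
      rw [Cl7x999.mem_bx, not_le] at hf
      have h1 : A (w k) ψ f = 0 := by
        funext h
        have e1 : ψ f = 0 := funext fun h => hsupp f (by rw [Cl7x999.mem_bx]; omega) h
        have e2 : ψ (nb f h) = 0 := funext fun h' => hsupp (nb f h) (by
          rw [Cl7x999.mem_bx]
          have := Cl7x999.dd_le_nb f 0 h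
          omega) h'
        have e3 : A0 (0 : Fin 4 → ℝ) h = 0 := by fin_cases h <;> simp [A0]
        simp only [A, Y, e1, e2, e3, Pi.zero_apply, mul_zero, add_zero]
      rw [h1]; simp [nsq]
    rw [e, hAψ]
    have h1 : ∑ f ∈ Cl7x999.bx 0 (2 * m + 1), nsq ((sm χ (A (w k) (φ k)) +
        comm (w k) χ (φ k)) f) ≤ ∑ f ∈ Cl7x999.bx 0 (2 * m + 1),
          (2 * nsq (sm χ (A (w k) (φ k)) f) + 2 * nsq (comm (w k) χ (φ k) f)) := by
      refine Finset.sum_le_sum fun f _ => ?_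
      simp only [nsq, Pi.add_apply, Finset.mul_sum]
      rw [← Finset.sum_add_distrib]
      refine Finset.sum_le_sum fun h _ => ?_
      nlinarith [sq_nonneg (sm χ (A (w k) (φ k)) f h - comm (w k) χ (φ k) f h)]
    refine h1.trans ?_
    rw [Finset.sum_add_distrib, ← Finset.mul_sum, ← Finset.mul_sum]
    have h2 : ∑ f ∈ Cl7x999.bx 0 (2 * m + 1), nsq (sm χ (A (w k) (φ k)) f) ≤ G0 ^ 2 := by
      refine le_trans (le_of_le_of_eq (Finset.sum_le_sum (g := fun f => a k ^ 2 * nsq (g k f))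
        fun f _ => ?_) (Finset.mul_sum _ _ _).symm) (hg (Cl7x999.bx 0 (2 * m + 1)))
      have e3 : nsq (A (w k) (φ k) f) = a k ^ 2 * nsq (g k f) := by
        simp only [nsq, heqn, Finset.mul_sum]
        exact Finset.sum_congr rfl fun h _ => by ring
      rw [Cl7x999.nsq_sm, e3]
      have h2 := Cl7x999.cut_sq_le 0 m m f
      have h3 : 0 ≤ a k ^ 2 * nsq (g k f) := mul_nonneg (sq_nonneg _) (nsq_nonneg _)
      nlinarith
    have h3 : ∑ f ∈ Cl7x999.bx 0 (2 * m + 1), nsq (comm (w k) χ (φ k) f) ≤ (C * G0) ^ 2 := by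
      have h4 := Cl7x999.E2_comm_le (w := w k) (w_sq_le H k) (c := χ) (δ := 1 / m)
        (Cl7x999.cut_lip 0 m m) (φ k) (Cl7x999.bx 0 (2 * m + 1)) (Cl7x999.bx 0 (2 * m + 2))
        (fun f hf h => by
          rw [Cl7x999.mem_bx] at hf ⊢
          have := Cl7x999.dd_nb_le f 0 h
          omega)
      refine h4.trans ?_
      have h5 := hmass (Cl7x999.bx 0 (2 * m + 2)) (hbxn _ le_rfl)
      have h6 : E2 (Cl7x999.bx 0 (2 * m + 2)) (φ k) ≤ (C * T * G0) ^ 2 / a k ^ 2 := by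
        rw [le_div_iff₀ (by positivity)]
        calc E2 (Cl7x999.bx 0 (2 * m + 2)) (φ k) * a k ^ 2
            = a k ^ 2 * ∑ f ∈ Cl7x999.bx 0 (2 * m + 2), nsq (φ k f) := mul_comm _ _
          _ ≤ _ := h5
      calc (1 / (m : ℝ)) ^ 2 * E2 (Cl7x999.bx 0 (2 * m + 2)) (φ k)
          ≤ (1 / (m : ℝ)) ^ 2 * ((C * T * G0) ^ 2 / a k ^ 2) :=
            mul_le_mul_of_nonneg_left h6 (sq_nonneg _)
        _ = (T / (a k * m)) ^ 2 * (C * G0) ^ 2 := by field_simp
        _ ≤ 1 ^ 2 * (C * G0) ^ 2 := by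
            apply mul_le_mul_of_nonneg_right _ (sq_nonneg _)
            apply pow_le_pow_left₀ (by positivity)
            rw [div_le_one (by positivity)]
            exact ham1
        _ = (C * G0) ^ 2 := by ring
    linarith
  -- the square trick
  have hmain := Sqx54.sq_main (H.sym k) (isPlus_plSeq H k) hsupp E _ (wt_sum_le E)
  rw [Finset.sum_congr rfl hψE] at hmain
  have hs1 : Real.sqrt (∑' f, nsq (ψ f)) ≤ C * T * G0 / a k := by
    rw [← Real.sqrt_sq (show 0 ≤ C * T * G0 / a k by positivity)]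
    exact Real.sqrt_le_sqrt hP
  have hs2 : Real.sqrt (∑' f, nsq (A (w k) ψ f)) ≤
      Real.sqrt (2 * G0 ^ 2 + 2 * (C * G0) ^ 2) := Real.sqrt_le_sqrt hQ
  set s := Real.sqrt (E.card : ℝ) with hs
  have hs0 : 0 ≤ s := Real.sqrt_nonneg _
  calc a k ^ 2 * ∑ f ∈ E, nsq (φ k f)
      ≤ a k ^ 2 * (6000000000 * (1 + 5 * s) * (Real.sqrt (∑' f, nsq (ψ f)) *
          Real.sqrt (∑' f, nsq (A (w k) ψ f)))) := mul_le_mul_of_nonneg_left hmain (sq_nonneg _)
    _ ≤ a k ^ 2 * (6000000000 * (1 + 5 * s) * (C * T * G0 / a k *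
          Real.sqrt (2 * G0 ^ 2 + 2 * (C * G0) ^ 2))) := by gcongr
    _ = 6000000000 * (C * T * G0 * Real.sqrt (2 * G0 ^ 2 + 2 * (C * G0) ^ 2)) *
          (a k + 5 * (a k * s)) := by field_simp

/-- **no concentration near the insertions** -/
theorem no_conc {n : ℕ} (hn : Even n) {x : Fin n → ℂ} {K : Set ℂ} {T0 : ℝ}
    (hT0 : 0 < T0) (hx : ∀ i, ‖x i‖ ≤ T0) (hK : ∀ z ∈ K, ‖z‖ ≤ T0) {G : ℂ → Fin 4 → ℝ} {a : ℕ → ℝ}
    {w : ℕ → Fld} {V : ℕ → Fin n → Face} {g φ : ℕ → Fld} (H : PlSeq x a w V)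
    (S : PSrc K G a w g φ) {G0 : ℝ} (hG0 : 0 ≤ G0)
    (hg : ∀ᶠ k in atTop, ∀ E : Finset Face, a k ^ 2 * ∑ f ∈ E, nsq (g k f) ≤ G0 ^ 2)
    {η : ℝ} (hη : 0 < η) : ∃ δ : ℝ, 0 < δ ∧ ∀ᶠ k in atTop, ∀ E : Finset Face,
      (∀ f ∈ E, meshPoint (a k) f ∈ thickening δ (range x)) →
        a k ^ 2 * ∑ f ∈ E, nsq (φ k f) ≤ η := by
  obtain ⟨M, hM0, hM⟩ := small_mass hn hT0 hx hK H S hG0 hg (T := T0 + 1) (by linarith)
  set v := η / (12 * (M + 1)) with hv
  have hv0 : 0 < v := by positivity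
  have hTv : volume (range x) = 0 := (finite_range x).measure_zero _
  obtain ⟨δ, hδ0, hδ⟩ : ∃ δ : ℝ, 0 < δ ∧ δ ≤ 1 ∧
      volume (cthickening (2 * δ) (range x)) ≤ ENNReal.ofReal (v ^ 2) := by
    have h1 : Tendsto (fun r => volume (cthickening r (range x))) (𝓝 0) (𝓝 0) := by
      have := tendsto_measure_cthickening_of_isClosed (μ := (volume : Measure ℂ)) (s := range x)
        ⟨1, one_pos, ((finite_range x).isBounded.cthickening.measure_lt_top).ne⟩
        (finite_range x).isClosed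
      rwa [hTv] at this
    have h2 : ∀ᶠ r in 𝓝 (0 : ℝ), volume (cthickening r (range x)) < ENNReal.ofReal (v ^ 2) :=
      h1.eventually (eventually_lt_nhds (by rw [ENNReal.ofReal_pos]; positivity))
    obtain ⟨ε, hε, hball⟩ := Metric.eventually_nhds_iff.1 h2
    refine ⟨min (ε / 4) 1, by positivity, min_le_right _ _, (hball ?_).le⟩
    rw [Real.dist_eq, sub_zero, abs_of_pos (by positivity)]
    have := min_le_left (ε / 4) (1 : ℝ)
    linarith
  refine ⟨δ, hδ0, ?_⟩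
  filter_upwards [hM, H.lim.eventually (eventually_le_nhds (show (0 : ℝ) < min (δ / 2) v by
    positivity))] with k hk hak E hE
  have ha := H.pos k
  have hk1 : a k ≤ δ / 2 := hak.trans (min_le_left _ _)
  have hk2 : a k ≤ v := hak.trans (min_le_right _ _)
  have hcard : a k * Real.sqrt E.card ≤ v := by
    refine a_sqrt_card_le ha hv0.le _ (N := cthickening (2 * δ) (range x)) (fun z hz => ?_) hδ.2
    have h1 := hE _ hz
    have h2 := norm_sub_meshPoint ha z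
    rw [mem_thickening_iff] at h1
    obtain ⟨y, hy, hyd⟩ := h1
    refine mem_cthickening_of_dist_le z y _ _ hy ?_
    have h3 : dist z y ≤ dist z (meshPoint (a k) (meshIndex (a k) z)) +
      dist (meshPoint (a k) (meshIndex (a k) z)) y := dist_triangle _ _ _
    have h4 : dist z (meshPoint (a k) (meshIndex (a k) z)) ≤ 2 * a k := by
      rw [dist_comm, dist_eq_norm]; exact h2
    linarith
  have hET : ∀ f ∈ E, ‖meshPoint (a k) f‖ ≤ T0 + 1 := by
    intro f hf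
    have h1 := hE f hf
    rw [mem_thickening_iff] at h1
    obtain ⟨y, ⟨i, rfl⟩, hyd⟩ := h1
    rw [dist_eq_norm] at hyd
    have h2 : ‖meshPoint (a k) f‖ ≤ ‖meshPoint (a k) f - x i‖ + ‖x i‖ := by
      have := norm_add_le (meshPoint (a k) f - x i) (x i)
      rwa [sub_add_cancel] at this
    have := hx i
    have := hδ.1
    linarith
  refine (hk E hET).trans ?_
  calc M * (a k + 5 * (a k * Real.sqrt E.card)) ≤ (M + 1) * (v + 5 * v) := by
        apply mul_le_mul (by linarith) (by linarith) _ (by linarith)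
        positivity
    _ = η / 2 := by rw [hv]; field_simp; ring
    _ ≤ η := by linarith

end Crest.Agent.R165.PlCx811
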