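import Crest.Agent.R165.PlMacC_811
import Crest.Agent.R165.PlMacB_811
import Crest.Agent.R165.MacT_610

/-!
# Row 165 (S0250), plane MAC (helper811): strong limits on discs are spinors, uniqueness

* `SLim`     : strong `L²` limit on all discs along a filter, holomorphic off the source
* `ld`       : the data `LD` of the limit laws on `ball 0 T`
* `isSpin`   : the limit is a spinor with sources in `K ∪ {T ≤ |z|}`
* `diff_hol` : differences of two limits are holomorphic off the insertions
* `decay`    : `|F z| ≤ C / |z|`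
* `unique`   : two limits with the same sources agree
-/

set_option autoImplicit false

noncomputable section

open MeasureTheory Filter Topology Set Metric
open Crest.ProbabilityR.IsingModel
open Crest.Agent.R165.Tr1x40 Crest.Agent.R165.LimAx610 Crest.Agent.R165.LimQx610
open Crest.Agent.R165.LimRx610 Crest.Agent.R165.Embx622
open Crest.Agent.R165.RIfx891 (lv)
open Crest.Agent.R165.Mac0x622 Crest.Agent.R165.LimSx610
open Crest.Agent.R165.MacSx610 Crest.Agent.R165.MacTx610
open Crest.Agent.R165.PlOutx304 (PlSeq)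
open Crest.Agent.R165.PlCx811
open scoped ENNReal ContDiff

namespace Crest.Agent.R165.PlDx811

/-- strong limit on all discs -/
structure SLim {n : ℕ} (x : Fin n → ℂ) (K : Set ℂ) (a : ℕ → ℝ) (φ : ℕ → Fld) (U : Filter ℕ)
    (F : ℂ → ℂ) : Prop where
  mem : ∀ T : ℝ, MemLp F 2 (volume.restrict (ball 0 T))
  conv : ∀ (T : ℝ) h, Tendsto (fun k => eLpNorm (fun z => emb (a k) (fun f => φ k f h) z -
    lv (F z) h) 2 (volume.restrict (ball 0 T))) U (𝓝 0)
  hol : ∃ gg : ℂ → ℂ, DifferentiableOn ℂ gg (Om univ x \ K) ∧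
    ∀ z ∈ Om univ x \ K, F z * U3x719.rX x z = gg z

variable {n : ℕ} {x : Fin n → ℂ} {K : Set ℂ} {G : ℂ → Fin 4 → ℝ} {a : ℕ → ℝ}
  {w : ℕ → Fld} {V : ℕ → Fin n → Face} {g φ : ℕ → Fld} {U : Filter ℕ} {F : ℂ → ℂ}

theorem ld (H : PlSeq x a w V) (S : PSrc K G a w g φ)
    (hG : ∀ h, MemLp (fun z => G z h) 2) (hU : U ≤ atTop) (L : SLim x K a φ U F) (T : ℝ) :
    LD U univ (ball 0 T) a w φ (fun h z => lv (F z) h) (fun h z => G z h) where
  pos := H.pos
  lim := H.lim.mono_left hU
  sym := H.sym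
  plus := isPlus_plSeq H
  opn := isOpen_univ
  meas := measurableSet_ball
  memΦ h := memLp_lv (L.mem T) h
  memG h := (hG h).restrict _
  zero h := Eventually.of_forall fun z hz => absurd (mem_univ z) hz
  crit K' _ _ := Eventually.of_forall fun k z _ h => by
    rw [H.wt, mul_pow, PlCx811.rays_sq, one_mul]
  convΦ h := L.conv T h
  convG h := by
    have h1 := (tendsto_eLpNorm (S.conv h)).mono_left hU
    refine tendsto_of_tendsto_of_tendsto_of_le_of_le' tendsto_const_nhds h1
      (Eventually.of_forall fun _ => bot_le) ?_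
    filter_upwards [hU S.eqn] with k hk
    have e : src (a k) (w k) (φ k) = g k := by
      funext f h
      rw [src, hk, ← mul_assoc, inv_mul_cancel₀ (H.pos k).ne', one_mul]
    rw [e]
    exact eLpNorm_mono_measure _ Measure.restrict_le_self

/-- **limits are spinors** -/
theorem isSpin (hK : IsCompact K) (H : PlSeq x a w V) (S : PSrc K G a w g φ)
    (hG : ∀ h, MemLp (fun z => G z h) 2) (hG0 : ∀ z, z ∉ K → ∀ h, G z h = 0) [U.NeBot]
    (hU : U ≤ atTop) (L : SLim x K a φ U F) (T : ℝ) :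
    U3x719.IsSpin univ x (K ∪ {z : ℂ | T ≤ ‖z‖}) (fun z => om8 * F z) := by
  have hLD := ld H S hG hU L T
  have hcl : IsClosed {z : ℂ | T ≤ ‖z‖} := isClosed_le continuous_const continuous_norm
  have hdb : ∀ (χ : ℂ → ℝ) z, ((om8 * F z) ^ 2 * U3x719.db χ z).re
      = fderiv ℝ χ z 1 * (F z ^ 2).im + fderiv ℝ χ z Complex.I * (F z ^ 2).re := by
    intro χ z
    rw [mul_pow, om8_sq, U3x719.db]
    simp only [Complex.mul_re, Complex.mul_im, Complex.neg_re, Complex.neg_im, Complex.I_re,
      Complex.I_im, Complex.add_re, Complex.add_im, Complex.ofReal_re, Complex.ofReal_im]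
    ring
  have hdb' : ∀ (χ : ℂ → ℝ) z, ((om8 * F z) ^ 2 * U3x719.db χ z).im
      = -(fderiv ℝ χ z 1 * (F z ^ 2).re - fderiv ℝ χ z Complex.I * (F z ^ 2).im) := by
    intro χ z
    rw [mul_pow, om8_sq, U3x719.db]
    simp only [Complex.mul_re, Complex.mul_im, Complex.neg_re, Complex.neg_im, Complex.I_re,
      Complex.I_im, Complex.add_re, Complex.add_im, Complex.ofReal_re, Complex.ofReal_im]
    ring
  have hz : ∀ χ : ℂ → ℝ, Disjoint (tsupport χ) (K ∪ {z : ℂ | T ≤ ‖z‖}) →
      ∀ᵐ z ∂volume.restrict (ball (0 : ℂ) T), χ z ≠ 0 → ∀ h, G z h = 0 := by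
    intro χ hχ
    refine Eventually.of_forall fun z hχz h => hG0 z (fun hzK => ?_) h
    exact disjoint_left.1 hχ (subset_tsupport χ hχz) (Or.inl hzK)
  have hsub : ∀ χ : ℂ → ℝ, Disjoint (tsupport χ) (K ∪ {z : ℂ | T ≤ ‖z‖}) →
      tsupport χ ⊆ ball 0 T := by
    intro χ hχ z hz
    rw [mem_ball_zero_iff]
    by_contra hc
    exact disjoint_left.1 hχ hz (Or.inr (not_lt.1 hc))
  have hnb : ∀ χ : ℂ → ℝ, HasCompactSupport χ → Disjoint (tsupport χ) (K ∪ {z : ℂ | T ≤ ‖z‖}) →
      ∃ δ > 0, Metric.thickening δ (tsupport χ) ⊆ ball (0 : ℂ) T := by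
    intro χ hc hχ
    obtain ⟨δ, hδ, h⟩ := hc.isCompact.exists_thickening_subset_open isOpen_ball (hsub χ hχ)
    exact ⟨δ, hδ, h⟩
  have hzero : ∀ (χ : ℂ → ℝ), Disjoint (tsupport χ) (K ∪ {z : ℂ | T ≤ ‖z‖}) →
      ∀ z, z ∉ ball (0 : ℂ) T → fderiv ℝ χ z = 0 := by
    intro χ hχ z hz
    have hz' : z ∉ tsupport χ := fun hc => hz (hsub χ hχ hc)
    have : χ =ᶠ[𝓝 z] 0 := notMem_tsupport_iff_eventuallyEq.1 hz'
    rw [this.fderiv_eq]
    simp
  refine ⟨fun W hW hKW => ?_, ?_, ?_, ?_⟩
  · refine ((L.mem T).const_mul om8).mono_measure (Measure.restrict_mono ?_ le_rfl)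
    rintro z ⟨-, hz⟩
    rw [mem_ball_zero_iff]
    by_contra hc
    exact hz (hKW (Or.inr (not_lt.1 hc)))
  · obtain ⟨gg, h1, h2⟩ := L.hol
    refine ⟨fun z => om8 * gg z, ?_, ?_⟩
    · refine (h1.mono ?_).const_mul _
      rintro z ⟨-, hz⟩
      exact ⟨⟨mem_univ z, fun h => hz (Or.inl h)⟩, fun h => hz (Or.inr (Or.inl h))⟩
    · rw [ae_restrict_iff' (MeasurableSet.univ.diff (hK.isClosed.union hcl).measurableSet)]
      filter_upwards [ae_not_range x] with z hz hzD
      rw [mul_assoc, h2 z ⟨⟨mem_univ z, hz⟩, fun h => hzD.2 (Or.inl h)⟩]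
  · rintro χ ⟨C, hC⟩ hc hχ hdis
    have hT := Test.of_contDiffOn isOpen_univ hC hc (hnb χ hc hdis) hχ
    have h := curl_law hLD hT (hz χ hdis)
    simp only [hdb, Measure.restrict_univ]
    rw [← h]
    exact (setIntegral_eq_integral_of_forall_compl_eq_zero fun z hzD => by
      rw [hzero χ hdis z hzD]; simp).symm
  · rintro χ ⟨C, hC⟩ hc hχ hdis hχ0
    have hT := Test.of_contDiffOn isOpen_univ hC hc (hnb χ hc hdis) hχ
    have h := div_law hLD hT hχ0 (hz χ hdis)
    simp only [hdb', integral_neg, Measure.restrict_univ]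
    rw [neg_nonpos]
    refine h.trans (le_of_eq (setIntegral_eq_integral_of_forall_compl_eq_zero fun z hzD => ?_))
    rw [hzero χ hdis z hzD]
    simp

/-- spinor without source near the insertions -/
theorem locSpin (hK : IsCompact K) (hKO : K ⊆ Om univ x) (H : PlSeq x a w V)
    (S : PSrc K G a w g φ) (hG : ∀ h, MemLp (fun z => G z h) 2)
    (hG0 : ∀ z, z ∉ K → ∀ h, G z h = 0) [U.NeBot] (hU : U ≤ atTop) (L : SLim x K a φ U F)
    (j : Fin n) : PlBx811.LocSpin x (fun z => om8 * F z) (x j) := by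
  have hs := isSpin hK H S hG hG0 hU L (‖x j‖ + 1)
  have hcl : IsClosed (K ∪ {z : ℂ | ‖x j‖ + 1 ≤ ‖z‖}) :=
    hK.isClosed.union (isClosed_le continuous_const continuous_norm)
  have hj : x j ∈ univ \ (K ∪ {z : ℂ | ‖x j‖ + 1 ≤ ‖z‖}) := by
    refine ⟨mem_univ _, ?_⟩
    rintro (h | h)
    · exact (hKO h).2 (mem_range_self j)
    · have h' : ‖x j‖ + 1 ≤ ‖x j‖ := h
      linarith
  obtain ⟨δ, hδ, hb⟩ := Metric.isOpen_iff.1 (isOpen_univ.sdiff hcl) _ hj
  exact ⟨univ, _, _, δ, isOpen_univ, hcl, hδ, hs, hb, Eventually.of_forall fun z => rfl⟩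

/-- the local equation -/
theorem local_eq (H : PlSeq x a w V) (S : PSrc K G a w g φ)
    (hG : ∀ h, MemLp (fun z => G z h) 2) [U.NeBot] (hU : U ≤ atTop)
    (L : SLim x K a φ U F) {z0 : ℂ} (hz0 : z0 ∈ Om univ x) :
    ∃ r0 > 0, ∀ r, 0 < r → r < r0 → ∀ (χ : ℂ → ℝ) (C : NNReal), LipschitzWith C χ →
      HasCompactSupport χ → (∃ δ > 0, Metric.thickening δ (tsupport χ) ⊆ ball z0 r) →
      ContDiff ℝ 1 χ → ∀ f : ℂ,
      ∫ z in ball z0 r, ∑ h, χ z * (lv f h * (gc x z0 z * G z h))
        = xc * ∫ z in ball z0 r, ((f * (gc x z0 z * F z)) * U3x719.db χ z).im := by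
  have hz : ∀ i, x i ≠ z0 := fun i h => hz0.2 ⟨i, h⟩
  obtain ⟨r1, hr1, hg1⟩ := local_gauge H.pos H.lim H.tip hz
  refine ⟨r1 / 2, by positivity, fun r hr hrr χ C hC hc hnb hχ f => ?_⟩
  have hsub : ball z0 r ⊆ ball 0 (‖z0‖ + r) := by
    intro z hz
    rw [mem_ball, dist_eq_norm] at hz
    rw [mem_ball_zero_iff]
    have := norm_add_le (z - z0) z0
    rw [sub_add_cancel] at this
    linarith
  have hLD := (ld H S hG hU L (‖z0‖ + r)).mono hsub measurableSet_ball
  have hLG := LD_gauge hLD (s := fun k => gz x z0 (V k)) (σ := gc x z0)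
    (fun k f => gz_sq x z0 (V k) f) (fun u => gc_sq x z0 u) (measurable_gc x z0)
    (gconv_gz H.pos H.lim H.tip z0 (ball z0 r) hU)
  have eΦ : (fun (h : Fin 4) z => gc x z0 z * lv (F z) h)
      = fun h z => lv ((gc x z0 z : ℂ) * F z) h := by
    funext h z
    rw [lv_smul]
  rw [eΦ] at hLG
  have hT : Test univ (ball z0 r) χ C := Test.of_contDiffOn isOpen_univ hC hc hnb hχ.contDiffOn
  refine hol_law hLG hT measure_ball_lt_top.ne ?_ f
  refine hU ?_
  filter_upwards [hg1, mesh_eventually H.pos H.lim (show 0 < r1 / 4 by positivity)]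
    with k hk1 hk3 z hz h
  have h3 := hk3 z
  rw [mem_ball, dist_eq_norm] at hz
  have h4 : ‖meshPoint (a k) (meshIndex (a k) z) - z0‖ < r1 := by
    have e : meshPoint (a k) (meshIndex (a k) z) - z0
        = (meshPoint (a k) (meshIndex (a k) z) - z) + (z - z0) := by ring
    rw [e]
    have := norm_add_le (meshPoint (a k) (meshIndex (a k) z) - z) (z - z0)
    linarith
  have h5 := hk1 _ h4 h
  simp only [gaw]
  rw [H.wt, h5]
  have s1 := gz_sq x z0 (V k) (meshIndex (a k) z)
  have s2 := gz_sq x z0 (V k) (nb (meshIndex (a k) z) h)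
  linear_combination xc * gz x z0 (V k) (nb (meshIndex (a k) z) h) ^ 2 * s1 + xc * s2

/-- **differences of limits are holomorphic** -/
theorem diff_hol (hG : ∀ h, MemLp (fun z => G z h) 2)
    (H : PlSeq x a w V) (S : PSrc K G a w g φ) [U.NeBot] (hU : U ≤ atTop)
    (L : SLim x K a φ U F)
    {a' : ℕ → ℝ} {w' : ℕ → Fld} {V' : ℕ → Fin n → Face} {g' φ' : ℕ → Fld}
    (H' : PlSeq x a' w' V') (S' : PSrc K G a' w' g' φ') {U' : Filter ℕ} [U'.NeBot]
    (hU' : U' ≤ atTop) {F' : ℂ → ℂ} (L' : SLim x K a' φ' U' F') :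
    ∃ d : ℂ → ℂ, DifferentiableOn ℂ d (Om univ x) ∧
      ∀ᵐ z, (F z - F' z) * U3x719.rX x z = d z := by
  have hOm : IsOpen (Om univ x) := isOpen_univ.sdiff (finite_range x).isClosed
  obtain ⟨d, hd1, hd2⟩ := patch (U := Om univ x)
    (u := fun z => (F z - F' z) * U3x719.rX x z) (by
    intro z0 hz0
    have hz : ∀ i, x i ≠ z0 := fun i h => hz0.2 ⟨i, h⟩
    obtain ⟨r1, hr1, e1⟩ := local_eq H S hG hU L hz0
    obtain ⟨r2, hr2, e2⟩ := local_eq H' S' hG hU' L' hz0
    obtain ⟨r3, hr3, e3⟩ := gc_rX_diff hz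
    obtain ⟨r4, hr4, e4⟩ := Metric.isOpen_iff.1 hOm z0 hz0
    set r := min (min r1 r2) (min r3 r4) / 2 with hr
    have hm : 0 < min (min r1 r2) (min r3 r4) := by positivity
    have hr0 : 0 < r := by positivity
    have q1 : r < r1 := by
      have := min_le_left (min r1 r2) (min r3 r4)
      have := min_le_left r1 r2
      linarith
    have q2 : r < r2 := by
      have := min_le_left (min r1 r2) (min r3 r4)
      have := min_le_right r1 r2
      linarith
    have q3 : r < r3 := by
      have := min_le_right (min r1 r2) (min r3 r4)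
      have := min_le_left r3 r4
      linarith
    have q4 : r < r4 := by
      have := min_le_right (min r1 r2) (min r3 r4)
      have := min_le_right r3 r4
      linarith
    set B := ball z0 r with hB
    set u : ℂ → ℂ := fun z => gc x z0 z * (F z - F' z) with hu
    have hsub : ball z0 r ⊆ ball 0 (‖z0‖ + r) := by
      intro z hz
      rw [mem_ball, dist_eq_norm] at hz
      rw [mem_ball_zero_iff]
      have := norm_add_le (z - z0) z0
      rw [sub_add_cancel] at this
      linarith
    have hfin : IsFiniteMeasure (volume.restrict B) := ⟨by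
      rw [Measure.restrict_apply_univ]; exact measure_ball_lt_top⟩
    have hFi : IntegrableOn F B :=
      ((L.mem (‖z0‖ + r)).mono_measure (Measure.restrict_mono hsub le_rfl)).integrable
        (by norm_num)
    have hFi' : IntegrableOn F' B :=
      ((L'.mem (‖z0‖ + r)).mono_measure (Measure.restrict_mono hsub le_rfl)).integrable
        (by norm_num)
    have hgcm : Measurable fun z => (gc x z0 z : ℂ) :=
      Complex.measurable_ofReal.comp (measurable_gc x z0)
    have hgF : IntegrableOn (fun z => (gc x z0 z : ℂ) * F z) B :=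
      hFi.bdd_mul (c := 1) hgcm.aestronglyMeasurable (Eventually.of_forall fun z => by
        rw [Complex.norm_real, Real.norm_eq_abs, gc_abs])
    have hgF' : IntegrableOn (fun z => (gc x z0 z : ℂ) * F' z) B :=
      hFi'.bdd_mul (c := 1) hgcm.aestronglyMeasurable (Eventually.of_forall fun z => by
        rw [Complex.norm_real, Real.norm_eq_abs, gc_abs])
    have hui : IntegrableOn u B := by
      refine (hgF.sub hgF').congr (Eventually.of_forall fun z => ?_)
      simp only [hu, Pi.sub_apply]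
      ring
    have hw : Cl3x722.WDbar B u 0 := by
      refine wdbar_of_real isOpen_ball hui fun χ C hC hc hnb hχ => ?_
      have bdd : ∀ z, ‖U3x719.db χ z‖ ≤ 2 * C := by
        intro z
        have h1 := (fderiv ℝ χ z).le_opNorm 1
        have h2 := (fderiv ℝ χ z).le_opNorm Complex.I
        have h3 := norm_fderiv_le_of_lipschitz ℝ hC (x₀ := z)
        rw [norm_one, mul_one] at h1
        rw [Complex.norm_I, mul_one] at h2
        unfold U3x719.db
        refine (norm_add_le _ _).trans ?_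
        rw [norm_mul, Complex.norm_I, one_mul, Complex.norm_real, Complex.norm_real]
        linarith
      have meas : Measurable (U3x719.db χ) := by
        unfold U3x719.db
        exact (Complex.measurable_ofReal.comp (measurable_fderiv_apply_const ℝ χ 1)).add
          ((Complex.measurable_ofReal.comp
            (measurable_fderiv_apply_const ℝ χ Complex.I)).const_mul _)
      have i1 : IntegrableOn (fun z => ((gc x z0 z : ℂ) * F z) * U3x719.db χ z) B := by
        refine (Integrable.bdd_mul (c := 2 * C) hgF meas.aestronglyMeasurable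
          (Eventually.of_forall fun z => bdd z)).congr (Eventually.of_forall fun z => ?_)
        simp only
        ring
      have i2 : IntegrableOn (fun z => ((gc x z0 z : ℂ) * F' z) * U3x719.db χ z) B := by
        refine (Integrable.bdd_mul (c := 2 * C) hgF' meas.aestronglyMeasurable
          (Eventually.of_forall fun z => bdd z)).congr (Eventually.of_forall fun z => ?_)
        simp only
        ring
      set J : ℂ := ∫ z in B, ((gc x z0 z : ℂ) * F z) * U3x719.db χ z with hJ
      set J' : ℂ := ∫ z in B, ((gc x z0 z : ℂ) * F' z) * U3x719.db χ z with hJ'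
      have key : ∀ f : ℂ, (f * J).im = (f * J').im := by
        intro f
        have k1 := e1 r hr0 q1 χ C hC hc hnb hχ f
        have k2 := e2 r hr0 q2 χ C hC hc hnb hχ f
        have k3 : ∫ z in B, ((f * ((gc x z0 z : ℂ) * F z)) * U3x719.db χ z).im = (f * J).im := by
          rw [hJ, ← integral_const_mul]
          have := integral_im (𝕜 := ℂ) (i1.const_mul f)
          simp only [RCLike.im_to_complex] at this
          rw [← this]
          refine integral_congr_ae (Eventually.of_forall fun z => ?_)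
          simp only [mul_assoc]
        have k4 : ∫ z in B, ((f * ((gc x z0 z : ℂ) * F' z)) * U3x719.db χ z).im
            = (f * J').im := by
          rw [hJ', ← integral_const_mul]
          have := integral_im (𝕜 := ℂ) (i2.const_mul f)
          simp only [RCLike.im_to_complex] at this
          rw [← this]
          refine integral_congr_ae (Eventually.of_forall fun z => ?_)
          simp only [mul_assoc]
        rw [k3] at k1
        rw [k4] at k2
        rw [k1] at k2
        exact mul_left_cancel₀ xc_pos.ne' k2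
      have hJJ : J = J' := by
        have t1 := key 1
        have t2 := key Complex.I
        simp only [one_mul, Complex.mul_im, Complex.I_re, Complex.I_im, zero_mul, zero_add] at t1 t2
        exact Complex.ext t2 t1
      have e : ∫ z in B, u z * U3x719.db χ z = J - J' := by
        rw [hJ, hJ', ← integral_sub i1 i2]
        refine integral_congr_ae (Eventually.of_forall fun z => ?_)
        simp only [hu]
        ring
      rw [e, hJJ, sub_self]
    obtain ⟨v, hv1, hv2⟩ := Cl4x722.weyl isOpen_ball hui.locallyIntegrableOn hw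
    refine ⟨r, hr0, (ball_subset_ball q4.le).trans e4,
      fun z => v z * ((gc x z0 z : ℂ) * U3x719.rX x z),
      hv1.mul (e3.mono (ball_subset_ball q3.le)), ?_⟩
    filter_upwards [hv2] with z hz hzB
    rw [← hz hzB]
    simp only [hu]
    have hg : (gc x z0 z : ℂ) ^ 2 = 1 := by
      have := gc_sq x z0 z; exact_mod_cast this
    linear_combination (-(F z - F' z) * U3x719.rX x z) * hg)
  refine ⟨d, hd1, ?_⟩
  filter_upwards [hd2, ae_not_range x] with z hz hzx
  exact hz ⟨mem_univ z, hzx⟩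

/-! ### decay -/

/-- pointwise bounds pass to strong limits -/
theorem bound_of_strong {B : Set ℂ} (hB : MeasurableSet B) {f : ℕ → ℂ → ℝ} {Φ : ℂ → ℝ}
    {b : ℂ → ℝ} [U.NeBot] (hf : ∀ k, AEStronglyMeasurable (f k) (volume.restrict B))
    (hΦ : AEStronglyMeasurable Φ (volume.restrict B))
    (hb : AEStronglyMeasurable b (volume.restrict B))
    (hc : Tendsto (fun k => eLpNorm (fun z => f k z - Φ z) 2 (volume.restrict B)) U (𝓝 0))
    (hle : ∀ᶠ k in U, ∀ z ∈ B, |f k z| ≤ b z) : ∀ᵐ z ∂volume.restrict B, |Φ z| ≤ b z := by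
  set h : ℂ → ℝ := fun z => max (|Φ z| - b z) 0 with hh
  have hhm : AEStronglyMeasurable h (volume.restrict B) :=
    (hΦ.norm.sub hb).sup aestronglyMeasurable_const
  have h0 : eLpNorm h 2 (volume.restrict B) = 0 := by
    refine le_antisymm (ge_of_tendsto hc ?_) bot_le
    filter_upwards [hle] with k hk
    refine eLpNorm_mono_ae ?_
    filter_upwards [ae_restrict_mem hB] with z hz
    rw [Real.norm_eq_abs, Real.norm_eq_abs, abs_of_nonneg (le_max_right _ _)]
    refine max_le ?_ (abs_nonneg _)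
    have h1 := hk z hz
    have h2 : |Φ z| ≤ |f k z - Φ z| + |f k z| := by
      have := abs_add_le (-(f k z - Φ z)) (f k z)
      rw [abs_neg] at this
      refine le_trans (le_of_eq ?_) this
      congr 1
      ring
    linarith
  rw [eLpNorm_eq_zero_iff hhm (by norm_num)] at h0
  filter_upwards [h0] with z hz
  have h1 : |Φ z| - b z ≤ 0 := by
    have := le_max_left (|Φ z| - b z) 0
    have h2 : max (|Φ z| - b z) 0 = 0 := hz
    rwa [h2] at this
  linarith

/-- **decay of the limit** -/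
theorem decay (hn : Even n) (hK : IsCompact K) (H : PlSeq x a w V) (S : PSrc K G a w g φ)
    (hG : ∀ h, MemLp (fun z => G z h) 2) [U.NeBot] (hU : U ≤ atTop) (L : SLim x K a φ U F) :
    ∃ C T : ℝ, ∀ᵐ z, T ≤ ‖z‖ → ‖F z‖ ≤ C / ‖z‖ := by
  obtain ⟨R1, hR1⟩ := hK.isBounded.exists_norm_le
  obtain ⟨R2, hR2⟩ := (finite_range x).isBounded.exists_norm_le
  set T0 := max (max R1 R2) 1 with hT0
  have hT0' : 0 < T0 := by positivity
  obtain ⟨G0, hG0, hg⟩ := S.gbd H.pos hG
  obtain ⟨C, hC, hb⟩ := bounds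
  have hxT : ∀ i, ‖x i‖ ≤ T0 := fun i =>
    (hR2 _ (mem_range_self i)).trans ((le_max_right _ _).trans (le_max_left _ _))
  have hKT : ∀ z ∈ K, ‖z‖ ≤ T0 := fun z hz =>
    (hR1 z hz).trans ((le_max_left _ _).trans (le_max_left _ _))
  have hbd := hb hn hT0' hxT hKT H S hG0 hg T0 le_rfl
  have key : ∀ N : ℕ, ∀ᵐ z ∂volume.restrict (ball (0 : ℂ) N ∩ {z : ℂ | 64 * T0 ≤ ‖z‖}),
      ‖F z‖ ≤ 4 * C * T0 * G0 / ‖z‖ := by
    intro N
    set B : Set ℂ := ball (0 : ℂ) N ∩ {z : ℂ | 64 * T0 ≤ ‖z‖} with hB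
    have hBm : MeasurableSet B :=
      measurableSet_ball.inter (isClosed_le continuous_const continuous_norm).measurableSet
    have hBs : B ⊆ ball 0 N := inter_subset_left
    have hcomp : ∀ h, ∀ᵐ z ∂volume.restrict B, |lv (F z) h| ≤ 2 * C * T0 * G0 / ‖z‖ := by
      intro h
      refine bound_of_strong (U := U) hBm
        (f := fun k z => emb (a k) (fun f => φ k f h) z)
        (fun k => (emb_measurable (a k) _).aestronglyMeasurable) ?_ ?_ ?_ ?_
      · exact ((memLp_lv (L.mem N) h).mono_measure (Measure.restrict_mono hBs le_rfl)).1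
      · exact (Measurable.aestronglyMeasurable (by fun_prop))
      · refine tendsto_of_tendsto_of_tendsto_of_le_of_le tendsto_const_nhds (L.conv N h)
          (fun _ => bot_le) fun k => eLpNorm_mono_measure _ (Measure.restrict_mono hBs le_rfl)
      · refine hU ?_
        filter_upwards [hbd, mesh_eventually H.pos H.lim hT0'] with k hk hk2 z hz
        have h64 : 64 * T0 ≤ ‖z‖ := hz.2
        have h1 : ‖z‖ / 2 ≤ ‖meshPoint (a k) (meshIndex (a k) z)‖ := by
          have h2 := hk2 z
          have h3 : ‖z‖ ≤ ‖meshPoint (a k) (meshIndex (a k) z)‖ +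
              ‖meshPoint (a k) (meshIndex (a k) z) - z‖ := by
            have := norm_sub_le (meshPoint (a k) (meshIndex (a k) z))
              (meshPoint (a k) (meshIndex (a k) z) - z)
            rwa [sub_sub_cancel] at this
          linarith
        have h2 := hk.2 (meshIndex (a k) z) (by linarith)
        have hz0 : 0 < ‖z‖ := by linarith
        have h3 : C * T0 * G0 / ‖meshPoint (a k) (meshIndex (a k) z)‖ ≤
            2 * C * T0 * G0 / ‖z‖ := by
          rw [div_le_div_iff₀ (by linarith) hz0]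
          have h4 : 0 ≤ C * T0 * G0 := by positivity
          nlinarith
        have h5 : φ k (meshIndex (a k) z) h ^ 2 ≤ nsq (φ k (meshIndex (a k) z)) :=
          Finset.single_le_sum (f := fun b => φ k (meshIndex (a k) z) b ^ 2)
            (fun _ _ => sq_nonneg _) (Finset.mem_univ h)
        have h6 : 0 ≤ 2 * C * T0 * G0 / ‖z‖ := by positivity
        have h7 : φ k (meshIndex (a k) z) h ^ 2 ≤ (2 * C * T0 * G0 / ‖z‖) ^ 2 :=
          (h5.trans h2).trans (pow_le_pow_left₀ (by positivity) h3 2)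
        show |φ k (meshIndex (a k) z) h| ≤ _
        exact abs_le_of_sq_le_sq h7 h6
    filter_upwards [hcomp 1, hcomp 3] with z h1 h3
    refine (norm_le_lv (F z)).trans ?_
    calc |lv (F z) 1| + |lv (F z) 3| ≤ 2 * C * T0 * G0 / ‖z‖ + 2 * C * T0 * G0 / ‖z‖ :=
          add_le_add h1 h3
      _ = 4 * C * T0 * G0 / ‖z‖ := by ring
  refine ⟨4 * C * T0 * G0, 64 * T0, ?_⟩
  have hall : ∀ᵐ z : ℂ, ∀ N : ℕ, z ∈ ball (0 : ℂ) N ∩ {z : ℂ | 64 * T0 ≤ ‖z‖} →
      ‖F z‖ ≤ 4 * C * T0 * G0 / ‖z‖ := by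
    rw [ae_all_iff]
    intro N
    have hBm : MeasurableSet (ball (0 : ℂ) N ∩ {z : ℂ | 64 * T0 ≤ ‖z‖}) :=
      measurableSet_ball.inter (isClosed_le continuous_const continuous_norm).measurableSet
    exact (ae_restrict_iff' hBm).1 (key N)
  filter_upwards [hall] with z hz hzT
  obtain ⟨N, hN⟩ := exists_nat_gt ‖z‖
  exact hz N ⟨by rw [mem_ball_zero_iff]; exact hN, hzT⟩

/-- **uniqueness of the limits** -/
theorem unique (hn : Even n) (hx : Function.Injective x) (hK : IsCompact K)
    (hKO : K ⊆ Om univ x) (hG : ∀ h, MemLp (fun z => G z h) 2)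
    (hG0 : ∀ z, z ∉ K → ∀ h, G z h = 0)
    (H : PlSeq x a w V) (S : PSrc K G a w g φ) [U.NeBot] (hU : U ≤ atTop)
    (L : SLim x K a φ U F)
    {a' : ℕ → ℝ} {w' : ℕ → Fld} {V' : ℕ → Fin n → Face} {g' φ' : ℕ → Fld}
    (H' : PlSeq x a' w' V') (S' : PSrc K G a' w' g' φ') {U' : Filter ℕ} [U'.NeBot]
    (hU' : U' ≤ atTop) {F' : ℂ → ℂ} (L' : SLim x K a' φ' U' F') : F =ᵐ[volume] F' := by
  obtain ⟨d, hd1, hd2⟩ := diff_hol hG H S hU L H' S' hU' L'
  obtain ⟨C1, T1, hb1⟩ := decay hn hK H S hG hU L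
  obtain ⟨C2, T2, hb2⟩ := decay hn hK H' S' hG hU' L'
  have hom : ‖om8‖ = 1 := by
    unfold om8
    rw [Complex.norm_exp]
    simp
  have hm : ∀ {F : ℂ → ℂ} {C T : ℝ}, C ≤ max C1 C2 → T ≤ max (max T1 T2) 1 →
      (∀ᵐ z, T ≤ ‖z‖ → ‖F z‖ ≤ C / ‖z‖) →
      ∀ᵐ z, max (max T1 T2) 1 ≤ ‖z‖ → ‖om8 * F z‖ ≤ max C1 C2 / ‖z‖ := by
    intro F C T hC hT hb
    filter_upwards [hb] with z hz hzT
    have h1 : 1 ≤ ‖z‖ := (le_max_right _ _).trans hzT
    rw [norm_mul, hom, one_mul]
    refine (hz (hT.trans hzT)).trans ?_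
    exact div_le_div_of_nonneg_right hC (by linarith)
  have h := PlBx811.uniqPl hx (F₁ := fun z => om8 * F z) (F₂ := fun z => om8 * F' z)
    (fun j => locSpin hK hKO H S hG hG0 hU L j)
    (fun j => locSpin hK hKO H' S' hG hG0 hU' L' j)
    (d := fun z => om8 * d z) (hd1.const_mul _) (by
      filter_upwards [hd2] with z hz
      rw [← hz]; ring)
    (hm (le_max_left _ _) ((le_max_left _ _).trans (le_max_left _ _)) hb1)
    (hm (le_max_right _ _) ((le_max_right _ _).trans (le_max_left _ _)) hb2)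
  filter_upwards [h] with z hz
  exact mul_left_cancel₀ om8_ne hz

end Crest.Agent.R165.PlDx811
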