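import Crest.Agent.R165.PlMacE_654
import Crest.Agent.R165.MacT_610

/-!
# Row 165 (S0250), plane MAC (helper654): `PDiff`

Differences of limits along two plane sequences with the same source are holomorphic off the tips
(610's `MacT_610` for the class `PlSeq`).
-/

set_option autoImplicit false

noncomputable section

open MeasureTheory Filter Topology Set Metric
open Crest.ProbabilityR.IsingModel
open Crest.Agent.R165.Tr1x40 Crest.Agent.R165.LimAx610 Crest.Agent.R165.LimQx610
open Crest.Agent.R165.LimRx610 Crest.Agent.R165.RIfx891 Crest.Agent.R165.Embx622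
open Crest.Agent.R165.Mac0x622 Crest.Agent.R165.LimSx610

open Crest.Agent.R165.MacSx610 (rays_sq memLp_lv tendsto_eLpNorm lv_smul mesh_eventually
  ae_not_range)
open Crest.Agent.R165.MacTx610
open Crest.Agent.R165.PlOutx304 (PlSeq)
open Crest.Agent.R165.PlEx654
open scoped ENNReal ContDiff

namespace Crest.Agent.R165.PlDx654

variable {n : ℕ} {x : Fin n → ℂ} {K : Set ℂ} {G : ℂ → Fin 4 → ℝ} {a : ℕ → ℝ}
  {w : ℕ → Fld} {V : ℕ → Fin n → Face} {g φ : ℕ → Fld} {U : Filter ℕ} {F : ℂ → ℂ}

theorem sq_of (H : PlSeq x a w V) (k : ℕ) (f : Face) (h : Fin 4) : w k f h ^ 2 = xc ^ 2 := by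
  rw [H.wt, mul_pow, rays_sq, one_mul]

theorem src_eq (H : PlSeq x a w V) (S : PSrcs K G a w g φ) (k : ℕ) :
    LimQx610.src (a k) (w k) (φ k) = g k := by
  funext f h
  rw [LimQx610.src, S.eqn, ← mul_assoc, inv_mul_cancel₀ (H.pos k).ne', one_mul]

/-- the data of the limit laws on a ball -/
theorem ld (H : PlSeq x a w V) (S : PSrcs K G a w g φ)
    (hG : ∀ h, MemLp (fun z => G z h) 2) (hU : U ≤ atTop) (L : PLim x K U a φ F) {B : Set ℂ}
    (hB : MeasurableSet B) {T : ℝ} (hBT : B ⊆ ball 0 T) :
    LD U univ B a w φ (fun h z => lv (F z) h) (fun h z => G z h) where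
  pos := H.pos
  lim := H.lim.mono_left hU
  sym := H.sym
  plus k f h := Or.inl (sq_of H k f h)
  opn := isOpen_univ
  meas := hB
  memΦ h := memLp_lv ((L.l2 T).mono_measure (Measure.restrict_mono hBT le_rfl)) h
  memG h := (hG h).restrict B
  zero h := Eventually.of_forall fun z hz => absurd (mem_univ z) hz
  crit K' hK' hK'D := Eventually.of_forall fun k z hz h => sq_of H k _ h
  convΦ h := by
    have h1 : Tendsto (fun k => ∫⁻ z in B, ENNReal.ofReal
        ((emb (a k) (fun f => φ k f h) z - lv (F z) h) ^ 2)) U (𝓝 0) :=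
      tendsto_of_tendsto_of_tendsto_of_le_of_le tendsto_const_nhds (L.conv T h)
        (fun _ => bot_le) fun k => lintegral_mono_set hBT
    exact tendsto_eLpNorm h1
  convG h := by
    have h1 : Tendsto (fun k => ∫⁻ z in B, ENNReal.ofReal
        ((emb (a k) (fun f => g k f h) z - G z h) ^ 2)) U (𝓝 0) :=
      tendsto_of_tendsto_of_tendsto_of_le_of_le tendsto_const_nhds ((S.conv h).mono_left hU)
        (fun _ => bot_le) fun k => setLIntegral_le_lintegral _ _
    refine (tendsto_eLpNorm h1).congr fun k => ?_
    rw [src_eq H S]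
    rfl

theorem local_eq (H : PlSeq x a w V)
    (S : PSrcs K G a w g φ) (hG : ∀ h, MemLp (fun z => G z h) 2) [U.NeBot] (hU : U ≤ atTop)
    (L : PLim x K U a φ F) {z0 : ℂ} (hz0 : z0 ∈ Om univ x) :
    ∃ r0 > 0, ∀ r, 0 < r → r < r0 → ∀ (χ : ℂ → ℝ) (C : NNReal), LipschitzWith C χ →
      HasCompactSupport χ → (∃ δ > 0, Metric.thickening δ (tsupport χ) ⊆ ball z0 r) →
      ContDiff ℝ 1 χ → ∀ f : ℂ,
      ∫ z in ball z0 r, ∑ h, χ z * (lv f h * (gc x z0 z * G z h))
        = xc * ∫ z in ball z0 r, ((f * (gc x z0 z * F z)) * U3x719.db χ z).im := by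
  have hz : ∀ i, x i ≠ z0 := fun i h => hz0.2 ⟨i, h⟩
  obtain ⟨r1, hr1, hg1⟩ := local_gauge H.pos H.lim H.tip hz
  refine ⟨r1 / 2, by positivity, fun r hr hrr χ C hC hc hnb hχ f => ?_⟩
  have hBT : ball z0 r ⊆ ball 0 (‖z0‖ + r) := by
    intro z hz
    rw [mem_ball, dist_eq_norm] at hz
    rw [mem_ball_zero_iff]
    have := norm_le_norm_add_norm_sub' z z0
    linarith
  have hLD := ld H S hG hU L (measurableSet_ball (x := z0) (ε := r)) hBT
  have hLG := LD_gauge hLD (s := fun k => gz x z0 (V k)) (σ := gc x z0)
    (fun k f => gz_sq x z0 (V k) f) (fun u => gc_sq x z0 u) (measurable_gc x z0)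
    (gconv_gz H.pos H.lim H.tip z0 (ball z0 r) hU)
  have eΦ : (fun (h : Fin 4) z => gc x z0 z * lv (F z) h)
      = fun h z => lv ((gc x z0 z : ℂ) * F z) h := by
    funext h z
    rw [lv_smul]
  rw [eΦ] at hLG
  have hT : Test univ (ball z0 r) χ C := Test.of_contDiffOn isOpen_univ hC hc hnb hχ.contDiffOn
  refine hol_law hLG hT measure_ball_lt_top.ne ?_ f
  refine hU ?_
  have hq : 0 < r1 / 2 := by positivity
  filter_upwards [hg1, mesh_eventually H.pos H.lim (half_pos hq)] with k hk1 hk3 z hz h
  have h3 := hk3 z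
  rw [mem_ball, dist_eq_norm] at hz
  have h4 : ‖meshPoint (a k) (meshIndex (a k) z) - z0‖ < r1 := by
    have e : meshPoint (a k) (meshIndex (a k) z) - z0
        = (meshPoint (a k) (meshIndex (a k) z) - z) + (z - z0) := by ring
    rw [e]
    have := norm_add_le (meshPoint (a k) (meshIndex (a k) z) - z) (z - z0)
    linarith
  have h5 := hk1 _ h4 h
  simp only [gaw]
  rw [H.wt, h5]
  have s1 := gz_sq x z0 (V k) (meshIndex (a k) z)
  have s2 := gz_sq x z0 (V k) (nb (meshIndex (a k) z) h)
  linear_combination xc * gz x z0 (V k) (nb (meshIndex (a k) z) h) ^ 2 * s1 + xc * s2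

/-- **differences of limits are holomorphic** -/
theorem diff_hol (hG : ∀ h, MemLp (fun z => G z h) 2)
    (H : PlSeq x a w V) (S : PSrcs K G a w g φ) [U.NeBot] (hU : U ≤ atTop)
    (L : PLim x K U a φ F)
    {a' : ℕ → ℝ} {w' : ℕ → Fld} {V' : ℕ → Fin n → Face} {g' φ' : ℕ → Fld}
    (H' : PlSeq x a' w' V') (S' : PSrcs K G a' w' g' φ') {U' : Filter ℕ} [U'.NeBot]
    (hU' : U' ≤ atTop) {F' : ℂ → ℂ} (L' : PLim x K U' a' φ' F') :
    ∃ d : ℂ → ℂ, DifferentiableOn ℂ d (Om univ x) ∧
      ∀ᵐ z, (F z - F' z) * U3x719.rX x z = d z := by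
  have hOm : IsOpen (Om univ x) := isOpen_univ.sdiff (finite_range x).isClosed
  obtain ⟨d, hd1, hd2⟩ := patch (U := Om univ x)
    (u := fun z => (F z - F' z) * U3x719.rX x z) (by
    intro z0 hz0
    have hz : ∀ i, x i ≠ z0 := fun i h => hz0.2 ⟨i, h⟩
    obtain ⟨r1, hr1, e1⟩ := local_eq H S hG hU L hz0
    obtain ⟨r2, hr2, e2⟩ := local_eq H' S' hG hU' L' hz0
    obtain ⟨r3, hr3, e3⟩ := gc_rX_diff hz
    obtain ⟨r4, hr4, e4⟩ := Metric.isOpen_iff.1 hOm z0 hz0
    set r := min (min r1 r2) (min r3 r4) / 2 with hr
    have hm : 0 < min (min r1 r2) (min r3 r4) := by positivity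
    have hr0 : 0 < r := by positivity
    have q1 : r < r1 := by
      have := min_le_left (min r1 r2) (min r3 r4)
      have := min_le_left r1 r2
      linarith
    have q2 : r < r2 := by
      have := min_le_left (min r1 r2) (min r3 r4)
      have := min_le_right r1 r2
      linarith
    have q3 : r < r3 := by
      have := min_le_right (min r1 r2) (min r3 r4)
      have := min_le_left r3 r4
      linarith
    have q4 : r < r4 := by
      have := min_le_right (min r1 r2) (min r3 r4)
      have := min_le_right r3 r4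
      linarith
    set B := ball z0 r with hB
    have hBT : B ⊆ ball 0 (‖z0‖ + r) := by
      intro z hz
      rw [hB, mem_ball, dist_eq_norm] at hz
      rw [mem_ball_zero_iff]
      have := norm_le_norm_add_norm_sub' z z0
      linarith
    set u : ℂ → ℂ := fun z => gc x z0 z * (F z - F' z) with hu
    have hFi : IntegrableOn F B := by
      have : IsFiniteMeasure (volume.restrict B) := ⟨by
        rw [Measure.restrict_apply_univ]; exact measure_ball_lt_top⟩
      exact ((L.l2 _).mono_measure (Measure.restrict_mono hBT le_rfl)).integrable (by norm_num)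
    have hFi' : IntegrableOn F' B := by
      have : IsFiniteMeasure (volume.restrict B) := ⟨by
        rw [Measure.restrict_apply_univ]; exact measure_ball_lt_top⟩
      exact ((L'.l2 _).mono_measure (Measure.restrict_mono hBT le_rfl)).integrable (by norm_num)
    have hgcm : Measurable fun z => (gc x z0 z : ℂ) :=
      Complex.measurable_ofReal.comp (measurable_gc x z0)
    have hgF : IntegrableOn (fun z => (gc x z0 z : ℂ) * F z) B :=
      hFi.bdd_mul (c := 1) hgcm.aestronglyMeasurable (Eventually.of_forall fun z => by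
        rw [Complex.norm_real, Real.norm_eq_abs, gc_abs])
    have hgF' : IntegrableOn (fun z => (gc x z0 z : ℂ) * F' z) B :=
      hFi'.bdd_mul (c := 1) hgcm.aestronglyMeasurable (Eventually.of_forall fun z => by
        rw [Complex.norm_real, Real.norm_eq_abs, gc_abs])
    have hui : IntegrableOn u B := by
      refine (hgF.sub hgF').congr (Eventually.of_forall fun z => ?_)
      simp only [hu, Pi.sub_apply]
      ring
    have hw : Cl3x722.WDbar B u 0 := by
      refine wdbar_of_real isOpen_ball hui fun χ C hC hc hnb hχ => ?_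
      have bdd : ∀ z, ‖U3x719.db χ z‖ ≤ 2 * C := by
        intro z
        have h1 := (fderiv ℝ χ z).le_opNorm 1
        have h2 := (fderiv ℝ χ z).le_opNorm Complex.I
        have h3 := norm_fderiv_le_of_lipschitz ℝ hC (x₀ := z)
        rw [norm_one, mul_one] at h1
        rw [Complex.norm_I, mul_one] at h2
        unfold U3x719.db
        refine (norm_add_le _ _).trans ?_
        rw [norm_mul, Complex.norm_I, one_mul, Complex.norm_real, Complex.norm_real]
        linarith
      have meas : Measurable (U3x719.db χ) := by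
        unfold U3x719.db
        exact (Complex.measurable_ofReal.comp (measurable_fderiv_apply_const ℝ χ 1)).add
          ((Complex.measurable_ofReal.comp
            (measurable_fderiv_apply_const ℝ χ Complex.I)).const_mul _)
      have i1 : IntegrableOn (fun z => ((gc x z0 z : ℂ) * F z) * U3x719.db χ z) B := by
        refine (Integrable.bdd_mul (c := 2 * C) hgF meas.aestronglyMeasurable
          (Eventually.of_forall fun z => bdd z)).congr (Eventually.of_forall fun z => ?_)
        simp only
        ring
      have i2 : IntegrableOn (fun z => ((gc x z0 z : ℂ) * F' z) * U3x719.db χ z) B := by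
        refine (Integrable.bdd_mul (c := 2 * C) hgF' meas.aestronglyMeasurable
          (Eventually.of_forall fun z => bdd z)).congr (Eventually.of_forall fun z => ?_)
        simp only
        ring
      set J : ℂ := ∫ z in B, ((gc x z0 z : ℂ) * F z) * U3x719.db χ z with hJ
      set J' : ℂ := ∫ z in B, ((gc x z0 z : ℂ) * F' z) * U3x719.db χ z with hJ'
      have key : ∀ f : ℂ, (f * J).im = (f * J').im := by
        intro f
        have k1 := e1 r hr0 q1 χ C hC hc hnb hχ f
        have k2 := e2 r hr0 q2 χ C hC hc hnb hχ f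
        have k3 : ∫ z in B, ((f * ((gc x z0 z : ℂ) * F z)) * U3x719.db χ z).im = (f * J).im := by
          rw [hJ, ← integral_const_mul]
          have := integral_im (𝕜 := ℂ) (i1.const_mul f)
          simp only [RCLike.im_to_complex] at this
          rw [← this]
          refine integral_congr_ae (Eventually.of_forall fun z => ?_)
          simp only [mul_assoc]
        have k4 : ∫ z in B, ((f * ((gc x z0 z : ℂ) * F' z)) * U3x719.db χ z).im
            = (f * J').im := by
          rw [hJ', ← integral_const_mul]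
          have := integral_im (𝕜 := ℂ) (i2.const_mul f)
          simp only [RCLike.im_to_complex] at this
          rw [← this]
          refine integral_congr_ae (Eventually.of_forall fun z => ?_)
          simp only [mul_assoc]
        rw [k3] at k1
        rw [k4] at k2
        rw [k1] at k2
        exact mul_left_cancel₀ xc_pos.ne' k2
      have hJJ : J = J' := by
        have t1 := key 1
        have t2 := key Complex.I
        simp only [one_mul, Complex.mul_im, Complex.I_re, Complex.I_im, zero_mul, zero_add] at t1 t2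
        exact Complex.ext t2 t1
      have e : ∫ z in B, u z * U3x719.db χ z = J - J' := by
        rw [hJ, hJ', ← integral_sub i1 i2]
        refine integral_congr_ae (Eventually.of_forall fun z => ?_)
        simp only [hu]
        ring
      rw [e, hJJ, sub_self]
    obtain ⟨v, hv1, hv2⟩ := Cl4x722.weyl isOpen_ball hui.locallyIntegrableOn hw
    refine ⟨r, hr0, (ball_subset_ball q4.le).trans e4,
      fun z => v z * ((gc x z0 z : ℂ) * U3x719.rX x z),
      hv1.mul (e3.mono (ball_subset_ball q3.le)), ?_⟩
    filter_upwards [hv2] with z hz hzB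
    rw [← hz hzB]
    simp only [hu]
    have hg : (gc x z0 z : ℂ) ^ 2 = 1 := by
      have := gc_sq x z0 z; exact_mod_cast this
    linear_combination (-(F z - F' z) * U3x719.rX x z) * hg)
  refine ⟨d, hd1, ?_⟩
  filter_upwards [hd2, ae_not_range x] with z hz hzx
  exact hz ⟨mem_univ z, hzx⟩

/-- **differences of limits on the plane** -/
theorem pDiff (x : Fin n → ℂ) : PDiff x :=
  fun _ _ _ _ hG _ _ _ H _ _ S _ hU _ L _ _ _ H' _ _ S' _ hU' _ L' =>
    diff_hol hG H S hU L H' S' hU' L'

/-- resolvent convergence on the plane from compactness -/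
theorem resConv_of_comp {x : Fin n → ℂ} (hx : Function.Injective x) (hc : PComp x) :
    MacIx622.ResConv (Om univ x) x (PlSeq x) (fun _ _ => True) :=
  resConv_plane hx hc (pDiff x)

end Crest.Agent.R165.PlDx654
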