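import Crest.Agent.R165.PlMacB_811
import Crest.Agent.R165.PlOut_304
import Crest.Agent.R165.MacV_610

/-!
# Row 165 (S0250), plane MAC (helper654): final assembly of the resolvent convergence on the plane

* `PSrcs`  : sources in `K` convergent in `L²`, solutions tending to `0` at infinity
* `PLim`   : strong `L²` limit on every ball along a filter
* `PComp`  : compactness along ultrafilters (helper811)
* `PDiff`  : the difference of two limits with the same source is holomorphic off the tips (helper811)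
* `resConv_plane : PComp x → PDiff x → ResConv (Om univ x) x (PlSeq x) (fun _ _ => True)`
-/

set_option autoImplicit false

noncomputable section

open MeasureTheory Filter Topology Set Metric
open Crest.ProbabilityR.IsingModel
open Crest.Agent.R165.Tr1x40 Crest.Agent.R165.RIfx891 Crest.Agent.R165.Embx622
open Crest.Agent.R165.Mac0x622 Crest.Agent.R165.MacIx622 Crest.Agent.R165.PlOutx304
open Crest.Agent.R165.PlBx811 (LocSpin uniqPl)
open Crest.Agent.R165.MacSx610 (om8 om8_ne)

namespace Crest.Agent.R165.PlEx654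

variable {n : ℕ}

/-- the equations: sources `g k → G` in `K`, solutions `φ k` tending to `0` at infinity -/
structure PSrcs (K : Set ℂ) (G : ℂ → Fin 4 → ℝ) (a : ℕ → ℝ) (w g φ : ℕ → Fld) : Prop where
  supp : ∀ k f, meshPoint (a k) f ∉ K → ∀ h, g k f h = 0
  conv : ∀ h, Tendsto (fun k => ∫⁻ z, ENNReal.ofReal
    ((emb (a k) (fun f => g k f h) z - G z h) ^ 2)) atTop (𝓝 0)
  van : ∀ k, Tendsto (fun b : Face × Fin 4 => φ k b.1 b.2) cofinite (𝓝 0)
  eqn : ∀ k f h, A (w k) (φ k) f h = a k * g k f h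

/-- strong `L²` limit on every ball along `U`: light field of amplitude `F` -/
structure PLim (x : Fin n → ℂ) (K : Set ℂ) (U : Filter ℕ) (a : ℕ → ℝ) (φ : ℕ → Fld) (F : ℂ → ℂ) :
    Prop where
  l2 : ∀ T : ℝ, MemLp F 2 (volume.restrict (ball 0 T))
  conv : ∀ (T : ℝ) (h : Fin 4), Tendsto (fun k => ∫⁻ z in ball 0 T, ENNReal.ofReal
    ((emb (a k) (fun f => φ k f h) z - lv (F z) h) ^ 2)) U (𝓝 0)
  hol : ∃ gg : ℂ → ℂ, ContinuousOn gg (Om univ x \ K) ∧
    ∀ z ∈ Om univ x \ K, F z * rX x z = gg z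
  loc : ∀ j, LocSpin x (fun z => om8 * F z) (x j)
  dec : ∃ C T : ℝ, ∀ᵐ z, T ≤ ‖z‖ → ‖F z‖ ≤ C / ‖z‖

/-- compactness on the plane -/
def PComp (x : Fin n → ℂ) : Prop :=
  ∀ K : Set ℂ, IsCompact K → K ⊆ Om univ x → ∀ G : ℂ → Fin 4 → ℝ, (∀ h, MemLp (fun z => G z h) 2) →
  ∀ (a : ℕ → ℝ) (w : ℕ → Fld) (V : ℕ → Fin n → Face), PlSeq x a w V →
  ∀ g φ : ℕ → Fld, PSrcs K G a w g φ →
  ∀ U : Ultrafilter ℕ, (U : Filter ℕ) ≤ atTop → ∃ F : ℂ → ℂ, PLim x K U a φ F

/-- two limits with the same source differ by a field which is holomorphic off the tips -/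
def PDiff (x : Fin n → ℂ) : Prop :=
  ∀ K : Set ℂ, IsCompact K → K ⊆ Om univ x → ∀ G : ℂ → Fin 4 → ℝ, (∀ h, MemLp (fun z => G z h) 2) →
  ∀ (a : ℕ → ℝ) (w : ℕ → Fld) (V : ℕ → Fin n → Face), PlSeq x a w V →
  ∀ g φ : ℕ → Fld, PSrcs K G a w g φ →
  ∀ U : Ultrafilter ℕ, (U : Filter ℕ) ≤ atTop → ∀ F : ℂ → ℂ, PLim x K U a φ F →
  ∀ (a' : ℕ → ℝ) (w' : ℕ → Fld) (V' : ℕ → Fin n → Face), PlSeq x a' w' V' →
  ∀ g' φ' : ℕ → Fld, PSrcs K G a' w' g' φ' →
  ∀ U' : Ultrafilter ℕ, (U' : Filter ℕ) ≤ atTop → ∀ F' : ℂ → ℂ, PLim x K U' a' φ' F' →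
  ∃ d : ℂ → ℂ, DifferentiableOn ℂ d (Om univ x) ∧
    ∀ᵐ z, (F z - F' z) * U3x719.rX x z = d z

/-- uniqueness of the limits -/
theorem unique {x : Fin n → ℂ} (hx : Function.Injective x) {K K' : Set ℂ} {U U' : Filter ℕ}
    {a a' : ℕ → ℝ} {φ φ' : ℕ → Fld} {F F' : ℂ → ℂ} (L : PLim x K U a φ F)
    (L' : PLim x K' U' a' φ' F')
    (hd : ∃ d : ℂ → ℂ, DifferentiableOn ℂ d (Om univ x) ∧
      ∀ᵐ z, (F z - F' z) * U3x719.rX x z = d z) : F =ᵐ[volume] F' := by
  obtain ⟨d, hd1, hd2⟩ := hd
  obtain ⟨C, T, hb⟩ := L.dec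
  obtain ⟨C', T', hb'⟩ := L'.dec
  have hom : ‖om8‖ = 1 := by
    unfold om8
    rw [Complex.norm_exp]
    simp
  have b : ∀ᵐ z, max (max T T') 1 ≤ ‖z‖ → ‖om8 * F z‖ ≤ (|C| + |C'|) / ‖z‖ := by
    filter_upwards [hb] with z hz h
    rw [norm_mul, hom, one_mul]
    refine (hz ((le_max_left _ _).trans ((le_max_left _ _).trans h))).trans ?_
    apply div_le_div_of_nonneg_right _ (norm_nonneg z)
    have := le_abs_self C
    have := abs_nonneg C'
    linarith
  have b' : ∀ᵐ z, max (max T T') 1 ≤ ‖z‖ → ‖om8 * F' z‖ ≤ (|C| + |C'|) / ‖z‖ := by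
    filter_upwards [hb'] with z hz h
    rw [norm_mul, hom, one_mul]
    refine (hz ((le_max_right _ _).trans ((le_max_left _ _).trans h))).trans ?_
    apply div_le_div_of_nonneg_right _ (norm_nonneg z)
    have := le_abs_self C'
    have := abs_nonneg C
    linarith
  have h := uniqPl hx L.loc L'.loc (d := fun z => om8 * d z) (hd1.const_mul _) (by
    filter_upwards [hd2] with z hz
    rw [← hz]
    ring) b b'
  filter_upwards [h] with z hz
  exact mul_left_cancel₀ om8_ne hz

/-- **resolvent convergence on the plane** -/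
theorem resConv_plane {x : Fin n → ℂ} (hx : Function.Injective x) (hc : PComp x) (hd : PDiff x) :
    ResConv (Om univ x) x (PlSeq x) (fun _ _ => True) := by
  classical
  intro K hK hKO G hG _
  -- replace the finitely many bad indices
  have hA0 : ∀ (w : Fld) f h, A w (fun _ _ => 0) f h = 0 := by
    intro w f h
    fin_cases h <;> simp [A, A0, Y]
  by_cases hex : ∃ (a : ℕ → ℝ) (w : ℕ → Fld) (V : ℕ → Fin n → Face) (g φ : ℕ → Fld),
      PlSeq x a w V ∧ PSrcs K G a w g φ
  · obtain ⟨a, w, V, g, φ, H, S⟩ := hex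
    have hU0 : ((hyperfilter ℕ : Ultrafilter ℕ) : Filter ℕ) ≤ atTop := by
      rw [← Nat.cofinite_eq_atTop]; exact hyperfilter_le_cofinite
    obtain ⟨F, L⟩ := hc K hK hKO G hG a w V H g φ S (hyperfilter ℕ) hU0
    refine ⟨F, trivial, L.hol, ?_⟩
    intro a' w' V' H' g' φ' hsupp hconv hvan heq z₀ _
    set P : ℕ → Prop := fun k => (∀ f h, g' k f h ≠ 0 → meshPoint (a' k) f ∈ K) ∧
      ∀ f h, A (w' k) (φ' k) f h = a' k * g' k f h with hP
    have hPe : ∀ᶠ k in atTop, P k := hsupp.and heq
    have S' : PSrcs K G a' w' (fun k => if P k then g' k else fun _ _ => 0)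
        (fun k => if P k then φ' k else fun _ _ => 0) := by
      refine ⟨?_, ?_, ?_, ?_⟩
      · intro k f hf h
        by_cases hk : P k
        · simp only [if_pos hk]
          by_contra hne
          exact hf (hk.1 f h hne)
        · simp only [if_neg hk]
      · intro h
        refine (hconv h).congr' ?_
        filter_upwards [hPe] with k hk
        simp only [if_pos hk]
      · intro k
        by_cases hk : P k
        · simp only [if_pos hk]
          exact hvan k
        · simp only [if_neg hk]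
          exact tendsto_const_nhds
      · intro k f h
        by_cases hk : P k
        · simp only [if_pos hk]
          exact hk.2 f h
        · simp only [if_neg hk]
          rw [hA0, mul_zero]
    refine ⟨1, one_pos, fun h => ?_⟩
    rw [tendsto_iff_ultrafilter]
    intro U' hU'
    obtain ⟨F', L'⟩ := hc K hK hKO G hG a' w' V' H' _ _ S' U' hU'
    have he := unique hx L L' (hd K hK hKO G hG a w V H g φ S _ hU0 F L a' w' V' H' _ _ S' U' hU' F' L')
    have h1 := L'.conv (‖z₀‖ + 1) h
    have h2 : Tendsto (fun k => ∫⁻ z in ball 0 (‖z₀‖ + 1), ENNReal.ofReal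
        ((emb (a' k) (fun f => φ' k f h) z - lv (F z) h) ^ 2)) U' (𝓝 0) := by
      refine h1.congr' ?_
      have hPU : ∀ᶠ k in (U' : Filter ℕ), P k := hU' hPe
      filter_upwards [hPU] with k hk
      simp only [if_pos hk]
      refine lintegral_congr_ae ?_
      filter_upwards [ae_restrict_of_ae he] with z hz
      rw [hz]
    refine tendsto_of_tendsto_of_tendsto_of_le_of_le tendsto_const_nhds h2 (fun _ => bot_le)
      fun k => lintegral_mono_set ?_
    intro z hz
    rw [mem_ball] at hz ⊢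
    have := dist_triangle z z₀ 0
    rw [dist_zero_right z₀] at this
    linarith
  · refine ⟨0, trivial, ⟨0, continuousOn_const, fun z _ => by simp⟩, ?_⟩
    intro a' w' V' H' g' φ' hsupp hconv hvan heq z₀ _
    exfalso
    set P : ℕ → Prop := fun k => (∀ f h, g' k f h ≠ 0 → meshPoint (a' k) f ∈ K) ∧
      ∀ f h, A (w' k) (φ' k) f h = a' k * g' k f h with hP
    have hPe : ∀ᶠ k in atTop, P k := hsupp.and heq
    refine hex ⟨a', w', V', (fun k => if P k then g' k else fun _ _ => 0),
        (fun k => if P k then φ' k else fun _ _ => 0), H', ⟨?_, ?_, ?_, ?_⟩⟩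
    · intro k f hf h
      by_cases hk : P k
      · simp only [if_pos hk]
        by_contra hne
        exact hf (hk.1 f h hne)
      · simp only [if_neg hk]
    · intro h
      refine (hconv h).congr' ?_
      filter_upwards [hPe] with k hk
      simp only [if_pos hk]
    · intro k
      by_cases hk : P k
      · simp only [if_pos hk]
        exact hvan k
      · simp only [if_neg hk]
        exact tendsto_const_nhds
    · intro k f h
      by_cases hk : P k
      · simp only [if_pos hk]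
        exact hk.2 f h
      · simp only [if_neg hk]
        rw [hA0, mul_zero]

end Crest.Agent.R165.PlEx654
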