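import Crest.Agent.R165.PlOut_304
import Crest.Agent.R165.Mac6_622

/-!
# Row 165 (S0250), plane kernels (helper304): `KerPl` from `ResConv` (any `Q`) for `PlSeq`

* `out0_of_lim` : `MacLim` and the regular limit give `Out0`
* `out0_of_res` : `ResConv` gives `Out0`
* `kerPl_of_res` : `ExCovPl`, `ResConv` for `PlSeq` give `KerPl`
-/

set_option autoImplicit false

noncomputable section

open MeasureTheory Filter Topology Set Metric
open Crest.ProbabilityR.IsingModel
open Crest.Agent.R165.Tr1x40 Crest.Agent.R165.RIfx891 Crest.Agent.R165.Embx622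
open Crest.Agent.R165.Mac0x622 Crest.Agent.R165.MacIx622
open Crest.Agent.R165.Mac4x622 (CS)
open Crest.Agent.R165.Mac6x622 (MacLim GSpec mac_lim)
open Crest.Agent.R165.MacOx622
open Crest.Agent.R165.Latx683 (BW HE hp hq wDom wPl ray wX IsCov)
open Crest.Agent.R165.UKerx420 (edir hb kap fpt cB wD KerD tendsto_mesh)
open Crest.Agent.R165.FrFinx887 (toF cur sym_toF A_toF)
open Crest.Agent.R165.UKerPlx304 Crest.Agent.R165.MacWx304 Crest.Agent.R165.PlOutx304
open Crest.Agent.R165.U3x719 (kerB kerR src IsKer rXa e8)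

namespace Crest.Agent.R165.PlOut2x304

variable {n : ℕ} {x : Fin n → ℂ} {D : Set ℂ}
  {CC : (ℕ → ℝ) → (ℕ → Fld) → (ℕ → Fin n → Face) → Prop} {g : ℂ → ℂ → ℂ → ℂ}

theorem isOpen_Om (hD : IsOpen D) : IsOpen (Om D x) :=
  hD.sdiff (finite_range x).isClosed

/-- `g` cut off outside `Om D x` -/
def gcut (D : Set ℂ) {n : ℕ} (x : Fin n → ℂ) (g : ℂ → ℂ → ℂ → ℂ) (y c z : ℂ) : ℂ := by
  classical exact if z ∈ Om D x then g y c z else 0

theorem gcut_of {y c z : ℂ} (hz : z ∈ Om D x) : gcut D x g y c z = g y c z := by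
  unfold gcut; rw [if_pos hz]

theorem gcut_not {y c z : ℂ} (hz : z ∉ Om D x) : gcut D x g y c z = 0 := by
  unfold gcut; rw [if_neg hz]

theorem kerB_gcut {z y : ℂ} (hz : z ∈ Om D x) (c c' : ℂ) :
    kerB x (gcut D x g) z y c c' = kerB x g z y c c' := by
  unfold U3x719.kerB
  rw [gcut_of hz]

theorem sub_gcut (hD : IsOpen D) {y : ℂ} (hy : y ∈ Om D x) (c : ℂ) :
    (fun z => gcut D x g y c z - src x y c / (z - y)) =ᶠ[𝓝[≠] y]
      fun z => g y c z - src x y c / (z - y) := by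
  filter_upwards [mem_nhdsWithin_of_mem_nhds ((isOpen_Om (x := x) hD).mem_nhds hy)] with z hz
  rw [gcut_of hz]

theorem kerR_gcut (hD : IsOpen D) {y : ℂ} (hy : y ∈ Om D x) (c c' : ℂ) :
    kerR x (gcut D x g) y c c' = kerR x g y c c' := by
  have h : limUnder (𝓝[≠] y) (fun z => gcut D x g y c' z - src x y c' / (z - y)) =
      limUnder (𝓝[≠] y) (fun z => g y c' z - src x y c' / (z - y)) := by
    unfold limUnder
    rw [Filter.map_congr (sub_gcut hD hy c')]
  unfold U3x719.kerR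
  rw [h]

theorem out0_of_lim (hD : IsOpen D) (H : MacLim (Om D x) x CC g)
    (hreg : ∀ y ∈ Om D x, ∀ c : ℂ, ∃ l : ℂ,
      Tendsto (fun z => g y c z - src x y c / (z - y)) (𝓝[≠] y) (𝓝 l)) :
    Out0 D x CC (gcut D x g) where
  reg y hy c := by
    obtain ⟨l, hl⟩ := hreg y hy c
    exact ⟨l, hl.congr' (sub_gcut hD hy c).symm⟩
  add y hy c d z hz hzy := by
    by_cases h : z ∈ Om D x
    · rw [gcut_of h, gcut_of h, gcut_of h, H.add y hy c d z h hzy]
    · rw [gcut_not h, gcut_not h, gcut_not h, add_zero]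
  smul y hy s c z hz hzy := by
    by_cases h : z ∈ Om D x
    · rw [gcut_of h, gcut_of h, H.smul y hy s c z h hzy]
    · rw [gcut_not h, gcut_not h, mul_zero]
  off a w V hC S hS z hz z' hz' hne f f' hf hf' i i' := by
    rw [kerB_gcut hz]
    exact H.off a w V hC S hS z hz z' hz' hne f f' hf hf' i i'
  diag a w V hC S hS z hz f f' hf hf' i i' := by
    rw [kerR_gcut hD hz]
    exact H.diag a w V hC S hS z hz f f' hf hf' i i'

/-- resolvent convergence (any `Q`) gives the limits of the kernels -/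
theorem out0_of_res (hD : IsOpen D) {Q : Set ℂ → (ℂ → ℂ) → Prop}
    (hRC : ResConv (Om D x) x CC Q) (hcl : ClassOK (Om D x) x CC)
    (hne : ∃ a w V S, CS CC a w V S) : ∃ g, Out0 D x CC g := by
  obtain ⟨g, r₀, F, hL, hG⟩ := mac_lim hRC hcl hne
  refine ⟨_, out0_of_lim hD hL fun y hy c => ?_⟩
  exact ⟨_, (hG y hy).lim (isOpen_Om hD) hcl.tips (hG y hy).pos le_rfl c⟩

/-- `a_k = 1/(k+1)` -/
theorem tendsto_mesh0 : Tendsto (fun k : ℕ => (1 : ℝ) / (k + 1)) atTop (𝓝[>] 0) := by
  refine tendsto_nhdsWithin_iff.2 ⟨tendsto_one_div_add_atTop_nhds_zero_nat, ?_⟩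
  exact Eventually.of_forall fun k => by
    show (0 : ℝ) < 1 / (k + 1)
    positivity

/-- plane sequences with covariances -/
theorem exists_cs (hEx : UPlx641.ExCovPl) (hn : Even n) (hinj : Function.Injective x) :
    ∃ a w V S, CS (PlSeq x) a w V S := by
  classical
  have hF := famIn_plane' (x := x) _ tendsto_mesh0
  obtain ⟨K, hK⟩ := hF
  have h1 := exCov_plane hEx hn hinj
  set u : ℕ → ℝ := fun k => (1 : ℝ) / (((k + K : ℕ) : ℝ) + 1) with hu
  have hut : Tendsto u atTop (𝓝[>] 0) := tendsto_mesh0.comp (tendsto_add_atTop_nat K)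
  have h2 := hut.eventually h1
  refine ⟨_, _, _, fun k => if h : ∃ S, IsCov (wD false univ (u k)
    (fun i => meshIndex (u k) (x i))) S then h.choose else fun _ _ => 0, hK, ?_⟩
  filter_upwards [h2] with k hk
  have h3 : IsCov (wD false univ (u k) (fun i => meshIndex (u k) (x i))) hk.choose :=
    hk.choose_spec
  rw [dif_pos hk]
  exact cov40_of_isCov h3

/-- **`KerPl` from `ResConv`** -/
theorem kerPl_of_res (hEx : UPlx641.ExCovPl)
    (hM : ∀ n : ℕ, Even n → ∀ x : Fin n → ℂ, Function.Injective x →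
      ∃ Q, ResConv (Om univ x) x (PlSeq x) Q) : UPlx641.KerPl :=
  kerPl_of hEx fun n hn x hinj => by
    obtain ⟨Q, hQ⟩ := hM n hn x hinj
    exact out0_of_res isOpen_univ hQ (classOK_plSeq x) (exists_cs hEx hn hinj)

end Crest.Agent.R165.PlOut2x304
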