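import Crest.Agent.R165.PlMacD_811
import Crest.Agent.R165.PlOut2_304
import Crest.Agent.R165.Pl4_654

/-!
# Row 165 (S0250), plane MAC (helper654): resolvent convergence on the plane from compactness

* `H1 x`   : compactness along ultrafilters, in the names of `PlMacC_811`, `PlMacD_811`
* `resConv : H1 x → ResConv (Om univ x) x (PlSeq x) (fun _ _ => True)`
* `kerPl`  : the plane kernels
-/

set_option autoImplicit false

noncomputable section

open MeasureTheory Filter Topology Set Metric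
open Crest.ProbabilityR.IsingModel
open Crest.Agent.R165.Tr1x40 Crest.Agent.R165.RIfx891 Crest.Agent.R165.Embx622
open Crest.Agent.R165.Mac0x622 Crest.Agent.R165.MacIx622 Crest.Agent.R165.PlOutx304
open Crest.Agent.R165.PlCx811 (PSrc)
open Crest.Agent.R165.PlDx811 (SLim)

namespace Crest.Agent.R165.PlFx654

variable {n : ℕ}

/-- compactness on the plane along ultrafilters -/
def H1 (x : Fin n → ℂ) : Prop :=
  ∀ K : Set ℂ, IsCompact K → K ⊆ Om univ x → ∀ G : ℂ → Fin 4 → ℝ,
  (∀ h, MemLp (fun z => G z h) 2) → (∀ z, z ∉ K → ∀ h, G z h = 0) →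
  ∀ (a : ℕ → ℝ) (w : ℕ → Fld) (V : ℕ → Fin n → Face), PlSeq x a w V →
  ∀ g φ : ℕ → Fld, PSrc K G a w g φ →
  ∀ U : Ultrafilter ℕ, (U : Filter ℕ) ≤ atTop → ∃ F : ℂ → ℂ, SLim x K a φ U F

/-- **resolvent convergence on the plane** -/
theorem resConv (hn : Even n) {x : Fin n → ℂ} (hx : Function.Injective x) (hc : H1 x) :
    ResConv (Om univ x) x (PlSeq x) (fun _ _ => True) := by
  classical
  intro K hK hKO G hG hG0
  by_cases hex : ∃ (a : ℕ → ℝ) (w : ℕ → Fld) (V : ℕ → Fin n → Face) (g φ : ℕ → Fld),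
      PlSeq x a w V ∧ PSrc K G a w g φ
  · obtain ⟨a, w, V, g, φ, H, S⟩ := hex
    have hU0 : ((hyperfilter ℕ : Ultrafilter ℕ) : Filter ℕ) ≤ atTop := by
      rw [← Nat.cofinite_eq_atTop]; exact hyperfilter_le_cofinite
    obtain ⟨F, L⟩ := hc K hK hKO G hG hG0 a w V H g φ S (hyperfilter ℕ) hU0
    refine ⟨F, trivial, ?_, ?_⟩
    · obtain ⟨gg, h1, h2⟩ := L.hol
      exact ⟨gg, h1.continuousOn, h2⟩
    intro a' w' V' H' g' φ' hsupp hconv hvan heq z₀ _
    have S' : PSrc K G a' w' g' φ' := ⟨hsupp, hconv, hvan, heq⟩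
    refine ⟨1, one_pos, fun h => ?_⟩
    rw [tendsto_iff_ultrafilter]
    intro U' hU'
    obtain ⟨F', L'⟩ := hc K hK hKO G hG hG0 a' w' V' H' g' φ' S' U' hU'
    have he := PlDx811.unique hn hx hK hKO hG hG0 H S hU0 L H' S' hU' L'
    have h1 := MacSx610.tendsto_lintegral (L'.conv (‖z₀‖ + 1) h)
    have h2 : Tendsto (fun k => ∫⁻ z in ball 0 (‖z₀‖ + 1), ENNReal.ofReal
        ((emb (a' k) (fun f => φ' k f h) z - lv (F z) h) ^ 2)) U' (𝓝 0) := by
      refine h1.congr fun k => ?_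
      refine lintegral_congr_ae ?_
      filter_upwards [ae_restrict_of_ae he] with z hz
      rw [hz]
    refine tendsto_of_tendsto_of_tendsto_of_le_of_le tendsto_const_nhds h2 (fun _ => bot_le)
      fun k => lintegral_mono_set ?_
    intro z hz
    rw [mem_ball] at hz ⊢
    have := dist_triangle z z₀ 0
    rw [dist_zero_right z₀] at this
    linarith
  · refine ⟨0, trivial, ⟨0, continuousOn_const, fun z _ => by simp⟩, ?_⟩
    intro a' w' V' H' g' φ' hsupp hconv hvan heq z₀ _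
    exact absurd ⟨a', w', V', g', φ', H', hsupp, hconv, hvan, heq⟩ hex

/-- **plane kernels** from compactness -/
theorem kerPl (hc : ∀ n : ℕ, Even n → ∀ x : Fin n → ℂ, Function.Injective x → H1 x) :
    UPlx641.KerPl :=
  PlOut2x304.kerPl_of_res Pl4x654.exCovPl fun n hn x hx => ⟨_, resConv hn hx (hc n hn x hx)⟩

end Crest.Agent.R165.PlFx654
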