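import Crest.Agent.R165.PlMacH_811

/-!
# Row 165 (S0250), plane MAC (helper422): gluing of local `L²` limits

`glue` : local strong limits in an open `O` of full measure in `ball 0 (T + 1)`, and no
concentration off the compacts of `O`, give the strong limit on `ball 0 T`.
-/

set_option autoImplicit false

noncomputable section

namespace Crest.Agent.R165.PlMacGx422

open Filter Topology MeasureTheory Metric Set
open Crest.ProbabilityR.IsingModel
open Crest.Agent.R165.Tr1x40 hiding sq2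
open Crest.Agent.R165.RIfx891 (lv)
open Crest.Agent.R165.PotAx894 (FS)
open Crest.Agent.R165.Embx622 (emb)
open Crest.Agent.R165.MacC3x943 Crest.Agent.R165.MacC4x943

open Classical in
/-- cut at radius `R` -/
def ct (a R : ℝ) (φ : Fld) : Fld := fun f h => if ‖meshPoint a f‖ ≤ R then φ f h else 0

theorem ct_FS {a : ℝ} (ha : 0 < a) (R : ℝ) (φ : Fld) (h : Fin 4) : FS fun f => ct a R φ f h := by
  refine PotAx894.FS.of_finset (MacNCx917.disc a (R + 1)) fun f hf => ?_
  rw [MacNCx917.mem_disc ha, not_lt] at hf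
  unfold ct
  rw [if_neg (by linarith)]

theorem ct_sum (a R : ℝ) (φ : Fld) (S : Finset Face) :
    ∃ S' : Finset Face, (∀ f ∈ S', f ∈ S ∧ ‖meshPoint a f‖ ≤ R) ∧
      ∑ f ∈ S, nsq (ct a R φ f) = ∑ f ∈ S', nsq (φ f) := by
  classical
  refine ⟨S.filter fun f => ‖meshPoint a f‖ ≤ R, fun f hf => Finset.mem_filter.1 hf, ?_⟩
  rw [Finset.sum_filter]
  refine Finset.sum_congr rfl fun f _ => ?_
  unfold ct nsq
  split_ifs with hf <;> simp

theorem ct_eq {a T : ℝ} {φ : Fld} (hm : ∀ z, ‖meshPoint a (meshIndex a z) - z‖ ≤ 1) {z : ℂ}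
    (hz : z ∈ ball (0 : ℂ) T) (h : Fin 4) :
    emb a (fun f => ct a (T + 1) φ f h) z = emb a (fun f => φ f h) z := by
  have h1 : ‖meshPoint a (meshIndex a z)‖ ≤ T + 1 := by
    rw [mem_ball_zero_iff] at hz
    have h2 := norm_sub_norm_le (meshPoint a (meshIndex a z)) z
    have h3 := hm z
    linarith
  exact if_pos h1

theorem Cv.cover {U : Filter ℕ} {a : ℕ → ℝ} {u : ℕ → Face → ℝ} {O L : Set ℂ} (hL : IsCompact L)
    (hLO : L ⊆ O) (hloc : ∀ z ∈ O, ∃ ρ > 0, Cv U a u (ball z ρ)) :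
    ∃ B, MeasurableSet B ∧ L ⊆ B ∧ Cv U a u B := by
  refine hL.induction_on (p := fun S => ∃ B, MeasurableSet B ∧ S ⊆ B ∧ Cv U a u B)
    ⟨∅, MeasurableSet.empty, Set.Subset.rfl, Cv.empty _ _ _⟩ ?_ ?_ ?_
  · rintro s t hst ⟨B, h1, h2, h3⟩
    exact ⟨B, h1, hst.trans h2, h3⟩
  · rintro s t ⟨B, h1, h2, h3⟩ ⟨B', h1', h2', h3'⟩
    exact ⟨B ∪ B', h1.union h1', Set.union_subset_union h2 h2', h3.union h1 h1' h3'⟩
  · intro z hz
    obtain ⟨ρ, hρ, hΦ⟩ := hloc z (hLO hz)
    exact ⟨ball z ρ, mem_nhdsWithin_of_mem_nhds (ball_mem_nhds z hρ), ball z ρ,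
      measurableSet_ball, Set.Subset.rfl, hΦ⟩

section
variable {U : Filter ℕ} [U.NeBot] {a : ℕ → ℝ} {O : Set ℂ} {φ : ℕ → Fld} {F : ℂ → ℂ} {T : ℝ}

/-- global limit of each component -/
theorem exists_comp (hU : U ≤ atTop) (hpos : ∀ k, 0 < a k) (hlim : Tendsto a atTop (𝓝 0))
    (hO : IsOpen O) (h : Fin 4)
    (hloc : ∀ z ∈ O, ∃ ρ > 0, Cv U a (fun k f => φ k f h) (ball z ρ))
    (hnc : ∀ η : ℝ, 0 < η → ∃ L : Set ℂ, IsCompact L ∧ L ⊆ O ∧ ∀ᶠ k in U, ∀ S : Finset Face,
      (∀ f ∈ S, ‖meshPoint (a k) f‖ ≤ T + 1 ∧ meshPoint (a k) f ∉ L) →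
        a k ^ 2 * ∑ f ∈ S, nsq (φ k f) ≤ η) :
    ∃ Φ : ℂ → ℝ, MemLp Φ 2 (volume.restrict (ball 0 T)) ∧
      Tendsto (fun k => E (volume.restrict (ball 0 T))
        (fun z => emb (a k) (fun f => φ k f h) z - Φ z)) U (𝓝 0) := by
  have hm1 : ∀ᶠ k in U, ∀ z, ‖meshPoint (a k) (meshIndex (a k) z) - z‖ ≤ 1 :=
    hU (MacSx610.mesh_eventually hpos hlim one_pos)
  have hsmall : ∀ δ : ℝ, 0 < δ → ∀ᶠ k in U, 2 * a k ≤ δ := by
    intro δ hδ
    refine hU ?_
    have := hlim.eventually (eventually_le_nhds (show (0 : ℝ) < δ / 2 by positivity))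
    filter_upwards [this] with k hk
    linarith
  have hmem : ∀ k, MemLp (emb (a k) (fun f => ct (a k) (T + 1) (φ k) f h)) 2
      (volume.restrict (ball 0 T)) := fun k =>
    (memLp_emb (hpos k) (ct_FS (hpos k) (T + 1) (φ k) h)).restrict _
  obtain ⟨Φ, hΦ, hlimΦ⟩ := Relx943.exists_L2_lim (U := U) (μ := volume.restrict (ball 0 T))
    (fun k => emb (a k) (fun f => ct (a k) (T + 1) (φ k) f h)) hmem (by
    intro ε hε
    obtain ⟨L, hLc, hLO, hL⟩ := hnc ((ε / 2) ^ 2) (by positivity)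
    obtain ⟨δ, hδ, hsub⟩ := hLc.exists_cthickening_subset_open hO hLO
    obtain ⟨B, hBm, hLB, Φ, hΦ, hc⟩ := Cv.cover hLc.cthickening hsub hloc
    refine ⟨B.indicator Φ, ((memLp_indicator_iff_restrict hBm).2 hΦ).restrict _, ?_⟩
    have hev : ∀ᶠ k in U, E (volume.restrict B)
        (fun z => emb (a k) (fun f => φ k f h) z - Φ z) < ENNReal.ofReal (ε / 2) :=
      hc.eventually (eventually_lt_nhds (by rw [ENNReal.ofReal_pos]; positivity))
    filter_upwards [hev, hL, hsmall δ hδ, hm1] with k h1 h2 h3 h4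
    set u := fun f => φ k f h with hu
    set v := fun f => ct (a k) (T + 1) (φ k) f h with hv
    have h5 : E (volume.restrict Bᶜ) (emb (a k) v) ≤ ENNReal.ofReal (ε / 2) := by
      have := out_mass (φ := ct (a k) (T + 1) (φ k)) (hpos k) h3 hBm (L := L)
        (fun z hz w hw => hLB (mem_cthickening_of_dist_le w z δ L hz
          (by rw [dist_eq_norm]; exact hw))) (η := (ε / 2) ^ 2) (by positivity) (fun S hS => by
            obtain ⟨S', hS', e⟩ := ct_sum (a k) (T + 1) (φ k) S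
            rw [e]
            exact h2 S' fun f hf => ⟨(hS' f hf).2, hS f (hS' f hf).1⟩) h
      rwa [Real.sqrt_sq (by positivity)] at this
    have hm : AEStronglyMeasurable (fun z => emb (a k) u z - Φ z) (volume.restrict B) :=
      (Embx622.emb_measurable _ _).aestronglyMeasurable.sub hΦ.1
    change E (volume.restrict (ball 0 T)) (fun z => emb (a k) v z - B.indicator Φ z) ≤ _
    calc E (volume.restrict (ball 0 T)) (fun z => emb (a k) v z - B.indicator Φ z)
        = E (volume.restrict (ball 0 T)) (fun z => B.indicator (fun z => emb (a k) u z - Φ z) z +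
          Bᶜ.indicator (emb (a k) v) z) := by
          refine E_congr ?_
          rw [EventuallyEq, ae_restrict_iff' measurableSet_ball]
          refine Eventually.of_forall fun z hz => ?_
          have e : emb (a k) v z = emb (a k) u z := ct_eq h4 hz h
          by_cases hzB : z ∈ B
          · simp [Set.indicator, hzB, e]
          · simp [Set.indicator, hzB]
      _ ≤ E (volume.restrict (ball 0 T)) (B.indicator fun z => emb (a k) u z - Φ z) +
          E (volume.restrict (ball 0 T)) (Bᶜ.indicator (emb (a k) v)) :=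
          E_add_le ((aestronglyMeasurable_indicator_iff hBm).2 hm).restrict
            ((Embx622.emb_measurable _ _).indicator hBm.compl).aestronglyMeasurable
      _ ≤ E volume (B.indicator fun z => emb (a k) u z - Φ z) +
          E volume (Bᶜ.indicator (emb (a k) v)) :=
          add_le_add (E_restrict_le _ _) (E_restrict_le _ _)
      _ ≤ ENNReal.ofReal (ε / 2) + ENNReal.ofReal (ε / 2) := by
          rw [E_indicator hBm, E_indicator hBm.compl]
          exact add_le_add h1.le h5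
      _ = ENNReal.ofReal ε := by
          rw [← ENNReal.ofReal_add (by positivity) (by positivity)]
          congr 1
          ring)
  refine ⟨Φ, hΦ, hlimΦ.congr' ?_⟩
  filter_upwards [hm1] with k hk
  refine E_congr ?_
  rw [EventuallyEq, ae_restrict_iff' measurableSet_ball]
  refine Eventually.of_forall fun z hz => ?_
  exact congrArg (fun t => t - Φ z) (ct_eq hk hz h)

/-- uniqueness of the limit -/
theorem ae_eq_of_tendsto {μ : Measure ℂ} {u : ℕ → ℂ → ℝ} {Φ Ψ : ℂ → ℝ}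
    (hu : ∀ k, Measurable (u k)) (hΦ : AEStronglyMeasurable Φ μ) (hΨ : AEStronglyMeasurable Ψ μ)
    (h1 : Tendsto (fun k => E μ (fun z => u k z - Φ z)) U (𝓝 0))
    (h2 : Tendsto (fun k => E μ (fun z => u k z - Ψ z)) U (𝓝 0)) : Φ =ᵐ[μ] Ψ := by
  have h3 := h1.add h2
  rw [add_zero] at h3
  have h4 : E μ (fun z => Φ z - Ψ z) ≤ 0 := by
    refine ge_of_tendsto h3 (Eventually.of_forall fun k => ?_)
    calc E μ (fun z => Φ z - Ψ z) = E μ (fun z => (Φ z - u k z) + (u k z - Ψ z)) := by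
          congr 1; funext z; ring
      _ ≤ E μ (fun z => Φ z - u k z) + E μ (fun z => u k z - Ψ z) :=
          E_add_le (hΦ.sub (hu k).aestronglyMeasurable) ((hu k).aestronglyMeasurable.sub hΨ)
      _ = E μ (fun z => u k z - Φ z) + E μ (fun z => u k z - Ψ z) := by
          congr 1
          exact eLpNorm_congr_norm_ae (Eventually.of_forall fun z => norm_sub_rev _ _)
  have h5 := (eLpNorm_eq_zero_iff (hΦ.sub hΨ) (by norm_num)).1 (le_antisymm h4 zero_le)
  filter_upwards [h5] with z hz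
  exact sub_eq_zero.1 hz

/-- **gluing** -/
theorem glue (hU : U ≤ atTop) (hpos : ∀ k, 0 < a k) (hlim : Tendsto a atTop (𝓝 0))
    (hO : IsOpen O) (hloc : ∀ z0 ∈ O, ∃ ρ > 0, MemLp F 2 (volume.restrict (ball z0 ρ)) ∧
      ∀ h, Tendsto (fun k => ∫⁻ z in ball z0 ρ, ENNReal.ofReal
        ((emb (a k) (fun f => φ k f h) z - lv (F z) h) ^ 2)) U (𝓝 0))
    (hnull : volume (ball (0 : ℂ) (T + 1) \ O) = 0)
    (hnc : ∀ η : ℝ, 0 < η → ∃ L : Set ℂ, IsCompact L ∧ L ⊆ O ∧ ∀ᶠ k in U, ∀ S : Finset Face,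
      (∀ f ∈ S, ‖meshPoint (a k) f‖ ≤ T + 1 ∧ meshPoint (a k) f ∉ L) →
        a k ^ 2 * ∑ f ∈ S, nsq (φ k f) ≤ η) :
    MemLp F 2 (volume.restrict (ball 0 T)) ∧
      ∀ h, Tendsto (fun k => eLpNorm (fun z => emb (a k) (fun f => φ k f h) z - lv (F z) h) 2
        (volume.restrict (ball 0 T))) U (𝓝 0) := by
  have hloc' : ∀ z ∈ O, ∃ ρ > 0, ∀ h, MemLp (fun z => lv (F z) h) 2 (volume.restrict (ball z ρ)) ∧
      Tendsto (fun k => E (volume.restrict (ball z ρ))
        (fun z => emb (a k) (fun f => φ k f h) z - lv (F z) h)) U (𝓝 0) := by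
    intro z hz
    obtain ⟨ρ, hρ, h1, h2⟩ := hloc z hz
    exact ⟨ρ, hρ, fun h => ⟨MacSx610.memLp_lv h1 h, MacSx610.tendsto_eLpNorm (h2 h)⟩⟩
  have hex : ∀ h, ∃ Φ : ℂ → ℝ, MemLp Φ 2 (volume.restrict (ball 0 T)) ∧
      Tendsto (fun k => E (volume.restrict (ball 0 T))
        (fun z => emb (a k) (fun f => φ k f h) z - Φ z)) U (𝓝 0) := by
    intro h
    refine exists_comp hU hpos hlim hO h (fun z hz => ?_) hnc
    obtain ⟨ρ, hρ, h1⟩ := hloc' z hz
    exact ⟨ρ, hρ, _, (h1 h).1, (h1 h).2⟩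
  choose Φ hΦ hlimΦ using hex
  have hid : ∀ h, Φ h =ᵐ[volume.restrict (ball 0 T)] fun z => lv (F z) h := by
    intro h
    have h1 : ∀ᵐ z, z ∈ O → z ∈ ball (0 : ℂ) T → Φ h z = lv (F z) h := by
      refine MacC6x943.ae_of_local hO.measurableSet fun z hz => ?_
      obtain ⟨ρ, hρ, h1⟩ := hloc' z hz
      refine ⟨ρ, hρ, ?_⟩
      have hs1 : ball z ρ ∩ ball 0 T ⊆ ball z ρ := inter_subset_left
      have hs2 : ball z ρ ∩ ball 0 T ⊆ ball 0 T := inter_subset_right
      have h2 := ae_eq_of_tendsto (U := U) (μ := volume.restrict (ball z ρ ∩ ball 0 T))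
        (u := fun k => emb (a k) (fun f => φ k f h)) (Φ := Φ h) (Ψ := fun z => lv (F z) h)
        (fun k => Embx622.emb_measurable _ _)
        ((hΦ h).1.mono_measure (Measure.restrict_mono_set _ hs2))
        ((h1 h).1.1.mono_measure (Measure.restrict_mono_set _ hs1))
        (tendsto_of_tendsto_of_tendsto_of_le_of_le tendsto_const_nhds (hlimΦ h)
          (fun _ => zero_le) fun k => E_mono_set hs2 _)
        (tendsto_of_tendsto_of_tendsto_of_le_of_le tendsto_const_nhds (h1 h).2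
          (fun _ => zero_le) fun k => E_mono_set hs1 _)
      rw [EventuallyEq, ae_restrict_iff' (measurableSet_ball.inter measurableSet_ball)] at h2
      rw [ae_restrict_iff' measurableSet_ball]
      filter_upwards [h2] with u hu h3 h4
      exact hu ⟨h3, h4⟩
    have h2 : ∀ᵐ z : ℂ, z ∉ ball (0 : ℂ) (T + 1) \ O :=
      measure_eq_zero_iff_ae_notMem.1 hnull
    rw [EventuallyEq, ae_restrict_iff' measurableSet_ball]
    filter_upwards [h1, h2] with z hz1 hz2 hz
    refine hz1 ?_ hz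
    by_contra hc
    exact hz2 ⟨ball_subset_ball (by linarith) hz, hc⟩
  refine ⟨?_, fun h => ?_⟩
  · have h1 : MemLp (fun z => ((Φ 1 z : ℝ) : ℂ) + ((-Φ 3 z : ℝ) : ℂ) * Complex.I) 2
        (volume.restrict (ball 0 T)) := by
      refine MemLp.add (hΦ 1).ofReal ?_
      have := ((hΦ 3).neg.ofReal (K := ℂ)).mul_const Complex.I
      exact this
    refine h1.ae_eq ?_
    filter_upwards [hid 1, hid 3] with z hz1 hz3
    rw [hz1, hz3]
    simp only [lv, neg_neg]
    exact Complex.re_add_im (F z)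
  · refine (hlimΦ h).congr fun k => E_congr ?_
    filter_upwards [hid h] with z hz
    rw [hz]

end

/-- the `Prop` of `PlMacH_811` -/
theorem glue_prop : PlHx811.Glue := by
  intro U _ hU a hpos hlim O hO φ F hloc T hnull hnc
  exact glue hU hpos hlim hO hloc hnull hnc

end Crest.Agent.R165.PlMacGx422
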