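import Crest.Agent.R165.PlMacR_654
import Crest.Agent.R165.MacL2_943

/-!
# Row 165 (S0250), plane MAC (helper654): gluing of local strong limits
-/

set_option autoImplicit false

noncomputable section

open MeasureTheory Filter Topology Set Metric
open Crest.ProbabilityR.IsingModel
open Crest.Agent.R165.Tr1x40 Crest.Agent.R165.Embx622 Crest.Agent.R165.RIfx891
open Crest.Agent.R165.Mac0x622 Crest.Agent.R165.MacSx610
open scoped ENNReal

namespace Crest.Agent.R165.PlKx654

/-- mass of the embedding outside `L` -/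
theorem emb_le {a η T δ : ℝ} (ha : 0 < a) {φ : Fld} {L A : Set ℂ} (hA : MeasurableSet A)
    (hAT : ∀ z ∈ A, ‖z‖ < T)
    (hAL : ∀ z ∈ A, ∀ u, ‖u - z‖ ≤ δ → u ∉ L) (h1 : ∀ z, ‖meshPoint a (meshIndex a z) - z‖ ≤ δ)
    (hδ : δ ≤ 1)
    (hS : ∀ S : Finset Face, (∀ f ∈ S, ‖meshPoint a f‖ ≤ T + 1 ∧ meshPoint a f ∉ L) →
      a ^ 2 * ∑ f ∈ S, nsq (φ f) ≤ η) (h : Fin 4) :
    ∫⁻ z in A, ENNReal.ofReal (emb a (fun f => φ f h) z ^ 2) ≤ ENNReal.ofReal η := by
  classical
  set P : Set Face := {f | ‖meshPoint a f‖ ≤ T + 1 ∧ meshPoint a f ∉ L} with hP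
  have hmem : ∀ z ∈ A, meshIndex a z ∈ P := by
    intro z hz
    refine ⟨?_, hAL z hz _ (h1 z)⟩
    have h2 := h1 z
    have h3 := norm_le_norm_add_norm_sub' (meshPoint a (meshIndex a z)) z
    have h4 := hAT z hz
    linarith
  calc ∫⁻ z in A, ENNReal.ofReal (emb a (fun f => φ f h) z ^ 2)
      ≤ ∫⁻ z in A, emb a (P.indicator fun f => ENNReal.ofReal (φ f h ^ 2)) z := by
        refine setLIntegral_mono' hA fun z hz => ?_
        unfold emb
        rw [indicator_of_mem (hmem z hz)]
    _ ≤ ∫⁻ z, emb a (P.indicator fun f => ENNReal.ofReal (φ f h ^ 2)) z :=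
        setLIntegral_le_lintegral _ _
    _ = ∑' f, ENNReal.ofReal (a ^ 2) * P.indicator (fun f => ENNReal.ofReal (φ f h ^ 2)) f := by
        rw [lintegral_emb ha, ENNReal.tsum_mul_left]
    _ ≤ ENNReal.ofReal η := by
        refine ENNReal.summable.tsum_le_of_sum_le fun S => ?_
        have e : ∑ f ∈ S, ENNReal.ofReal (a ^ 2) *
            P.indicator (fun f => ENNReal.ofReal (φ f h ^ 2)) f
            = ∑ f ∈ S.filter (· ∈ P), ENNReal.ofReal (a ^ 2 * φ f h ^ 2) := by
          rw [Finset.sum_filter]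
          refine Finset.sum_congr rfl fun f _ => ?_
          by_cases hf : f ∈ P
          · rw [indicator_of_mem hf, if_pos hf, ENNReal.ofReal_mul (sq_nonneg _)]
          · rw [indicator_of_notMem hf, if_neg hf, mul_zero]
        rw [e, ← ENNReal.ofReal_sum_of_nonneg fun f _ => by positivity]
        refine ENNReal.ofReal_le_ofReal ?_
        rw [← Finset.mul_sum]
        refine le_trans (mul_le_mul_of_nonneg_left (Finset.sum_le_sum fun f _ => ?_)
          (sq_nonneg _)) (hS (S.filter (· ∈ P)) fun f hf => (Finset.mem_filter.1 hf).2)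
        exact Finset.single_le_sum (f := fun h => φ f h ^ 2) (fun _ _ => sq_nonneg _)
          (Finset.mem_univ h)

section conv

variable {U : Filter ℕ} {a : ℕ → ℝ} {O : Set ℂ} {φ : ℕ → Fld} {F : ℂ → ℂ}

/-- strong convergence on compact subsets of `O` -/
theorem conv_compact (hloc : ∀ z0 ∈ O, ∃ ρ > 0, MemLp F 2 (volume.restrict (ball z0 ρ)) ∧
    ∀ h, Tendsto (fun k => ∫⁻ z in ball z0 ρ, ENNReal.ofReal
      ((emb (a k) (fun f => φ k f h) z - lv (F z) h) ^ 2)) U (𝓝 0)) {K : Set ℂ}
    (hK : IsCompact K) (hKO : K ⊆ O) : MemLp F 2 (volume.restrict K) ∧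
    ∀ h, Tendsto (fun k => ∫⁻ z in K, ENNReal.ofReal
      ((emb (a k) (fun f => φ k f h) z - lv (F z) h) ^ 2)) U (𝓝 0) := by
  refine hK.induction_on (p := fun s => MemLp F 2 (volume.restrict s) ∧
    ∀ h, Tendsto (fun k => ∫⁻ z in s, ENNReal.ofReal
      ((emb (a k) (fun f => φ k f h) z - lv (F z) h) ^ 2)) U (𝓝 0)) ?_ ?_ ?_ ?_
  · constructor
    · rw [Measure.restrict_empty]
      exact memLp_measure_zero
    · intro h
      simpa using tendsto_const_nhds
  · intro s t hst ht
    refine ⟨ht.1.mono_measure (Measure.restrict_mono hst le_rfl), fun h => ?_⟩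
    exact tendsto_of_tendsto_of_tendsto_of_le_of_le tendsto_const_nhds (ht.2 h)
      (fun _ => bot_le) fun k => lintegral_mono_set hst
  · intro s t hs ht
    constructor
    · have h1 : AEStronglyMeasurable F (volume.restrict (s ∪ t)) :=
        aestronglyMeasurable_union_iff.2 ⟨hs.1.1, ht.1.1⟩
      refine ⟨h1, ?_⟩
      rw [eLpNorm_lt_top_iff_lintegral_rpow_enorm_lt_top (by norm_num) (by norm_num)]
      have h2 := (eLpNorm_lt_top_iff_lintegral_rpow_enorm_lt_top (by norm_num) (by norm_num)).1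
        hs.1.2
      have h3 := (eLpNorm_lt_top_iff_lintegral_rpow_enorm_lt_top (by norm_num) (by norm_num)).1
        ht.1.2
      exact (lintegral_union_le _ _ _).trans_lt (ENNReal.add_lt_top.2 ⟨h2, h3⟩)
    · intro h
      have := (hs.2 h).add (ht.2 h)
      rw [add_zero] at this
      exact tendsto_of_tendsto_of_tendsto_of_le_of_le tendsto_const_nhds this
        (fun _ => bot_le) fun k => lintegral_union_le _ _ _
  · intro z hz
    obtain ⟨ρ, hρ, h1, h2⟩ := hloc z (hKO hz)
    exact ⟨ball z ρ, mem_nhdsWithin_of_mem_nhds (ball_mem_nhds z hρ), h1, h2⟩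

/-- mass of the limit away from `L` -/
theorem limit_le [U.NeBot] (hloc : ∀ z0 ∈ O, ∃ ρ > 0, MemLp F 2 (volume.restrict (ball z0 ρ)) ∧
    ∀ h, Tendsto (fun k => ∫⁻ z in ball z0 ρ, ENNReal.ofReal
      ((emb (a k) (fun f => φ k f h) z - lv (F z) h) ^ 2)) U (𝓝 0)) (hO : IsOpen O) {A : Set ℂ}
    {η : ℝ} (h : Fin 4)
    (hA : ∀ᶠ k in U, ∫⁻ z in A, ENNReal.ofReal (emb (a k) (fun f => φ k f h) z ^ 2)
      ≤ ENNReal.ofReal η) :
    ∫⁻ z in A ∩ O, ENNReal.ofReal (lv (F z) h ^ 2) ≤ ENNReal.ofReal η := by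
  obtain ⟨K, hK1, hK2, hK3⟩ := LimRx610.exists_compacts hO
  -- increasing exhaustion
  set L : ℕ → Set ℂ := fun n => ⋃ m ∈ Finset.range (n + 1), K m with hL
  have hLc : ∀ n, IsCompact (L n) := fun n =>
    (Finset.range (n + 1)).isCompact_biUnion fun m _ => hK1 m
  have hLO : ∀ n, L n ⊆ O := fun n => iUnion₂_subset fun m _ => hK2 m
  have hLm : Monotone L := by
    intro n m hnm
    refine iUnion₂_subset fun i hi => ?_
    refine subset_biUnion_of_mem (u := fun m => K m) ?_
    exact Finset.mem_coe.2 (Finset.mem_range.2 (by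
      have := Finset.mem_range.1 hi; omega))
  have hcov : A ∩ O = ⋃ n, A ∩ L n := by
    rw [← inter_iUnion]
    congr 1
    refine Subset.antisymm (fun z hz => ?_) (iUnion_subset hLO)
    obtain ⟨n, hn⟩ := hK3 z hz
    exact mem_iUnion.2 ⟨n, mem_iUnion₂.2 ⟨n, Finset.self_mem_range_succ n, hn⟩⟩
  rw [hcov, setLIntegral_iUnion_of_directed]
  · refine iSup_le fun n => ?_
    obtain ⟨c1, c2⟩ := conv_compact hloc (hLc n) (hLO n)
    set μ : Measure ℂ := volume.restrict (A ∩ L n) with hμ
    have m1 : MemLp (fun z => lv (F z) h) 2 μ :=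
      memLp_lv (c1.mono_measure (Measure.restrict_mono inter_subset_right le_rfl)) h
    have t1 : Tendsto (fun k => eLpNorm (fun z => emb (a k) (fun f => φ k f h) z - lv (F z) h) 2 μ)
        U (𝓝 0) := by
      refine tendsto_eLpNorm ?_
      exact tendsto_of_tendsto_of_tendsto_of_le_of_le tendsto_const_nhds (c2 h)
        (fun _ => bot_le) fun k => lintegral_mono_set inter_subset_right
    have key : eLpNorm (fun z => lv (F z) h) 2 μ ≤ (ENNReal.ofReal η) ^ ((2 : ℝ)⁻¹) := by
      have t2 := (tendsto_const_nhds (x := (ENNReal.ofReal η) ^ ((2 : ℝ)⁻¹)) (f := U)).add t1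
      rw [add_zero] at t2
      refine ge_of_tendsto t2 ?_
      filter_upwards [hA] with k hk
      have e : (fun z => lv (F z) h) = (fun z => emb (a k) (fun f => φ k f h) z)
          - fun z => emb (a k) (fun f => φ k f h) z - lv (F z) h := by
        funext z
        simp
      rw [e]
      have mk : AEStronglyMeasurable (fun z => emb (a k) (fun f => φ k f h) z) μ :=
        (emb_measurable (a k) _).aestronglyMeasurable
      refine (eLpNorm_sub_le mk (mk.sub m1.1) (by norm_num)).trans ?_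
      refine add_le_add ?_ le_rfl
      rw [eLpNorm_eq_sq]
      exact ENNReal.rpow_le_rpow ((lintegral_mono_set inter_subset_left).trans hk) (by norm_num)
    rw [eLpNorm_eq_sq] at key
    exact (ENNReal.rpow_le_rpow_iff (by norm_num)).1 key
  · intro n m
    exact ⟨max n m, inter_subset_inter_right _ (hLm (le_max_left _ _)),
      inter_subset_inter_right _ (hLm (le_max_right _ _))⟩

end conv

/-- **gluing** -/
theorem glue : PlHx811.Glue := by
  intro U _ hU a hpos hlim O hO φ F hloc T hnull hnc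
  have hnullT : volume (ball (0 : ℂ) T \ O) = 0 :=
    measure_mono_null (sdiff_subset_sdiff_left (ball_subset_ball (by linarith))) hnull
  have hae : (ball (0 : ℂ) T ∩ O : Set ℂ) =ᵐ[volume] (ball (0 : ℂ) T : Set ℂ) := by
    rw [ae_eq_set]
    constructor
    · rw [sdiff_eq_empty.2 inter_subset_left]
      exact measure_empty
    · rw [sdiff_self_inter]
      exact hnullT
  have hres : volume.restrict (ball (0 : ℂ) T) = volume.restrict (ball (0 : ℂ) T ∩ O) :=
    (Measure.restrict_congr_set hae).symm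
  -- separation
  have hsep : ∀ η : ℝ, 0 < η → ∃ C : Set ℂ, IsCompact C ∧ C ⊆ O ∧ ∀ h, ∀ᶠ k in U,
      ∫⁻ z in ball 0 T \ C, ENNReal.ofReal (emb (a k) (fun f => φ k f h) z ^ 2)
        ≤ ENNReal.ofReal η := by
    intro η hη
    obtain ⟨L, hL, hLO, hk⟩ := hnc η hη
    obtain ⟨δ, hδ, hδO⟩ := hL.exists_cthickening_subset_open hO hLO
    refine ⟨cthickening δ L, hL.cthickening, hδO, fun h => ?_⟩
    have hm : 0 < min δ 1 := lt_min hδ one_pos
    filter_upwards [hk, hU (mesh_eventually hpos hlim hm)] with k h1 h2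
    refine emb_le (δ := min δ 1) (T := T) (L := L) (hpos k) (measurableSet_ball.diff
      isClosed_cthickening.measurableSet) (fun z hz => ?_) (fun z hz u hu huL => ?_) h2
      (min_le_right _ _) h1 h
    · have := hz.1
      rwa [mem_ball_zero_iff] at this
    · refine hz.2 (mem_cthickening_of_dist_le z u δ L huL ?_)
      rw [dist_comm, dist_eq_norm]
      exact hu.trans (min_le_left _ _)
  -- measurability
  have hmeas : AEStronglyMeasurable F (volume.restrict (ball (0 : ℂ) T)) := by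
    rw [hres]
    obtain ⟨K, hK1, hK2, hK3⟩ := LimRx610.exists_compacts hO
    have h1 : AEStronglyMeasurable F (volume.restrict (⋃ n, K n)) :=
      aestronglyMeasurable_iUnion_iff.2 fun n => (conv_compact hloc (hK1 n) (hK2 n)).1.1
    refine h1.mono_measure (Measure.restrict_mono (fun z hz => ?_) le_rfl)
    obtain ⟨n, hn⟩ := hK3 z hz.2
    exact mem_iUnion.2 ⟨n, hn⟩
  have hsub : ∀ C : Set ℂ, ball (0 : ℂ) T ∩ O ⊆ C ∪ ((ball 0 T \ C) ∩ O) := by
    intro C z hz
    by_cases h : z ∈ C
    · exact Or.inl h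
    · exact Or.inr ⟨⟨hz.1, h⟩, hz.2⟩
  have hmem : ∀ h, MemLp (fun z => lv (F z) h) 2 (volume.restrict (ball (0 : ℂ) T)) := by
    intro h
    refine ⟨(continuous_lv h).comp_aestronglyMeasurable hmeas, ?_⟩
    obtain ⟨C, hC, hCO, hb⟩ := hsep 1 one_pos
    have h1 := limit_le hloc hO h (hb h)
    have h2 := (memLp_lv (conv_compact hloc hC hCO).1 h).2
    rw [eLpNorm_eq_sq] at h2 ⊢
    rw [hres]
    refine ENNReal.rpow_lt_top_of_nonneg (by norm_num) (ne_of_lt ?_)
    refine (lintegral_mono_set (hsub C)).trans_lt ((lintegral_union_le _ _ _).trans_lt ?_)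
    refine ENNReal.add_lt_top.2 ⟨?_, h1.trans_lt ENNReal.ofReal_lt_top⟩
    by_contra hc
    rw [not_lt, top_le_iff] at hc
    rw [hc, ENNReal.top_rpow_of_pos (by norm_num)] at h2
    exact lt_irrefl _ h2
  refine ⟨?_, fun h => ?_⟩
  · refine MemLp.mono' (g := fun z => |lv (F z) 1| + |lv (F z) 3|)
      ((hmem 1).abs.add (hmem 3).abs) hmeas (Eventually.of_forall fun z => ?_)
    exact norm_le_lv _
  · refine tendsto_eLpNorm ?_
    rw [ENNReal.tendsto_nhds_zero]
    intro ε hε
    -- choice of `η`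
    obtain ⟨η, hη, hηε⟩ : ∃ η : ℝ, 0 < η ∧ 4 * ENNReal.ofReal η ≤ ε / 2 := by
      have h1 : 0 < min ε 1 := lt_min hε one_pos
      have h2 : min ε 1 ≠ ⊤ := ne_top_of_le_ne_top ENNReal.one_ne_top (min_le_right _ _)
      have h3 : 0 < (min ε 1).toReal := ENNReal.toReal_pos h1.ne' h2
      refine ⟨(min ε 1).toReal / 8, by positivity, ?_⟩
      rw [ENNReal.ofReal_div_of_pos (by norm_num), ENNReal.ofReal_toReal h2]
      have e : (4 : ℝ≥0∞) * (min ε 1 / ENNReal.ofReal 8) = min ε 1 / 2 := by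
        rw [ENNReal.ofReal_ofNat, ENNReal.div_eq_inv_mul, ← mul_assoc, ENNReal.div_eq_inv_mul]
        congr 1
        rw [← ENNReal.toReal_eq_toReal_iff' (by simp [ENNReal.mul_eq_top]) (by simp)]
        simp
        norm_num
      rw [e]
      exact ENNReal.div_le_div_right (min_le_left _ _) _
    obtain ⟨C, hC, hCO, hb⟩ := hsep η hη
    have h1 := limit_le hloc hO h (hb h)
    have h2 := (conv_compact hloc hC hCO).2 h
    rw [ENNReal.tendsto_nhds_zero] at h2
    filter_upwards [h2 (ε / 2) (ENNReal.half_pos hε.ne'), hb h] with k k1 k2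
    rw [hres]
    refine (lintegral_mono_set (hsub C)).trans ((lintegral_union_le _ _ _).trans ?_)
    rw [← ENNReal.add_halves ε]
    refine add_le_add k1 (le_trans ?_ hηε)
    have hm1 : Measurable fun z => ENNReal.ofReal (emb (a k) (fun f => φ k f h) z ^ 2) :=
      ((emb_measurable (a k) _).pow_const 2).ennreal_ofReal
    calc ∫⁻ z in (ball 0 T \ C) ∩ O, ENNReal.ofReal
          ((emb (a k) (fun f => φ k f h) z - lv (F z) h) ^ 2)
        ≤ ∫⁻ z in (ball 0 T \ C) ∩ O, (2 * ENNReal.ofReal (emb (a k) (fun f => φ k f h) z ^ 2)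
          + 2 * ENNReal.ofReal (lv (F z) h ^ 2)) := by
          refine lintegral_mono fun z => ?_
          have h3 : (emb (a k) (fun f => φ k f h) z - lv (F z) h) ^ 2
              ≤ 2 * emb (a k) (fun f => φ k f h) z ^ 2 + 2 * lv (F z) h ^ 2 := by
            nlinarith [sq_nonneg (emb (a k) (fun f => φ k f h) z + lv (F z) h)]
          refine (ENNReal.ofReal_le_ofReal h3).trans ?_
          rw [ENNReal.ofReal_add (by positivity) (by positivity),
            ENNReal.ofReal_mul (by norm_num), ENNReal.ofReal_mul (by norm_num),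
            ENNReal.ofReal_ofNat]
      _ = 2 * (∫⁻ z in (ball 0 T \ C) ∩ O, ENNReal.ofReal (emb (a k) (fun f => φ k f h) z ^ 2))
          + 2 * (∫⁻ z in (ball 0 T \ C) ∩ O, ENNReal.ofReal (lv (F z) h ^ 2)) := by
          rw [lintegral_add_left (hm1.const_mul 2), lintegral_const_mul 2 hm1,
            lintegral_const_mul' 2 _ (by norm_num)]
      _ ≤ 2 * ENNReal.ofReal η + 2 * ENNReal.ofReal η := by
          refine add_le_add (mul_le_mul' le_rfl ?_) (mul_le_mul' le_rfl h1)
          exact (lintegral_mono_set inter_subset_left).trans k2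
      _ = 4 * ENNReal.ofReal η := by ring

/-- local compactness in the form of `PlMacH_811` -/
theorem locComp : PlHx811.LocComp := by
  intro O n x a w V H hO hx K hK g φ hs hg hφ he U hU
  exact MacL2x943.comp_loc H hO hx hK (Eventually.of_forall hs) hg hφ (Eventually.of_forall he)
    U hU

/-- **the leaf `resPl`** -/
theorem resPl : ∀ n : ℕ, Even n → ∀ x : Fin n → ℂ, Function.Injective x →
    ∃ Q, MacIx622.ResConv (Mac0x622.Om Set.univ x) x (PlOutx304.PlSeq x) Q :=
  PlRx654.resPl locComp glue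

/-- **the plane kernels** -/
theorem kerPl : UPlx641.KerPl := PlRx654.kerPl locComp glue

end Crest.Agent.R165.PlKx654
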