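import Crest.Agent.R165.PlMacD_811
import Crest.Agent.R165.PlMacE_654
import Crest.Agent.R165.MacC6_943

/-!
# Row 165 (S0250), plane MAC (helper811): compactness in the plane

* `pdiff` : `PDiff x` of `PlMacE_654`
* `LocComp` [943], `Glue` [422] : local compactness, gluing
* `pcomp` : `LocComp → Glue → PComp x`
-/

set_option autoImplicit false

noncomputable section

open MeasureTheory Filter Topology Set Metric
open Crest.ProbabilityR.IsingModel
open Crest.Agent.R165.Tr1x40 Crest.Agent.R165.Embx622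
open Crest.Agent.R165.RIfx891 (lv)
open Crest.Agent.R165.Mac0x622 Crest.Agent.R165.MacSx610
open Crest.Agent.R165.PlOutx304 (PlSeq)
open Crest.Agent.R165.PlCx811 Crest.Agent.R165.PlDx811
open Crest.Agent.R165.PlEx654 (PSrcs PLim PComp PDiff)
open scoped ENNReal

namespace Crest.Agent.R165.PlHx811

variable {n : ℕ} {x : Fin n → ℂ}

theorem _root_.Crest.Agent.R165.PlEx654.PSrcs.pSrc {K : Set ℂ} {G : ℂ → Fin 4 → ℝ} {a : ℕ → ℝ}
    {w g φ : ℕ → Fld} (S : PSrcs K G a w g φ) : PSrc K G a w g φ :=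
  ⟨Eventually.of_forall fun k f h hne => by
      by_contra hc
      exact hne (S.supp k f hc h),
    S.conv, S.van, Eventually.of_forall S.eqn⟩

/-- from `PLim` to `SLim`, holomorphic version of the last field not needed -/
theorem slim_conv {K : Set ℂ} {U : Filter ℕ} {a : ℕ → ℝ} {φ : ℕ → Fld} {F : ℂ → ℂ}
    (L : PLim x K U a φ F) (T : ℝ) (h : Fin 4) :
    Tendsto (fun k => eLpNorm (fun z => emb (a k) (fun f => φ k f h) z - lv (F z) h) 2
      (volume.restrict (ball 0 T))) U (𝓝 0) := tendsto_eLpNorm (L.conv T h)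

/-- the source vanishes off `K` -/
theorem source_zero {K : Set ℂ} {G : ℂ → Fin 4 → ℝ} {a : ℕ → ℝ} {w g φ : ℕ → Fld}
    (hpos : ∀ k, 0 < a k) (hlim : Tendsto a atTop (𝓝 0)) (hK : IsClosed K)
    (S : PSrc K G a w g φ) (hG : ∀ h, MemLp (fun z => G z h) 2) :
    ∀ᵐ z, z ∉ K → ∀ h, G z h = 0 := by
  have key : ∀ h, ∀ᵐ z, z ∉ K → G z h = 0 := by
    intro h
    have h1 : Tendsto (fun k => eLpNorm (emb (a k) (fun f => g k f h) - fun z => G z h) 2
        (volume : Measure ℂ)) atTop (𝓝 0) := tendsto_eLpNorm (S.conv h)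
    have h2 := tendstoInMeasure_of_tendsto_eLpNorm (by norm_num)
      (fun k => (emb_measurable (a k) (fun f => g k f h)).aestronglyMeasurable) (hG h).1 h1
    obtain ⟨ns, hns, hae⟩ := h2.exists_seq_tendsto_ae
    filter_upwards [hae] with z hz hzK
    have h3 : ∀ᶠ j in atTop, emb (a (ns j)) (fun f => g (ns j) f h) z = 0 := by
      obtain ⟨δ, hδ, hb⟩ := Metric.mem_nhds_iff.1 (hK.isOpen_compl.mem_nhds hzK)
      have h4 := mesh_eventually hpos hlim (half_pos hδ)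
      filter_upwards [hns.tendsto_atTop.eventually h4, hns.tendsto_atTop.eventually S.supp]
        with j hj hj2
      by_contra hne
      refine (hb ?_) (hj2 _ h hne)
      rw [mem_ball, dist_eq_norm]
      exact (hj z).trans_lt (half_lt_self hδ)
    exact tendsto_nhds_unique hz (tendsto_const_nhds.congr' (h3.mono fun _ h => h.symm))
  filter_upwards [ae_all_iff.2 key] with z hz hzK h
  exact hz h hzK

open Classical in
/-- the source, cut off `K` -/
def GK (K : Set ℂ) (G : ℂ → Fin 4 → ℝ) (z : ℂ) (h : Fin 4) : ℝ := if z ∈ K then G z h else 0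

theorem GK_ae {K : Set ℂ} {G : ℂ → Fin 4 → ℝ} (h : ∀ᵐ z, z ∉ K → ∀ h, G z h = 0) :
    ∀ᵐ z, ∀ h, GK K G z h = G z h := by
  filter_upwards [h] with z hz h
  unfold GK
  split_ifs with hK
  · rfl
  · exact (hz hK h).symm

theorem GK_off {K : Set ℂ} {G : ℂ → Fin 4 → ℝ} (z : ℂ) (hz : z ∉ K) (h : Fin 4) :
    GK K G z h = 0 := by
  unfold GK
  rw [if_neg hz]

theorem GK_mem {K : Set ℂ} {G : ℂ → Fin 4 → ℝ} (hG : ∀ h, MemLp (fun z => G z h) 2)
    (h0 : ∀ᵐ z, z ∉ K → ∀ h, G z h = 0) (h : Fin 4) : MemLp (fun z => GK K G z h) 2 :=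
  (hG h).ae_eq (by filter_upwards [GK_ae h0] with z hz using (hz h).symm)

theorem GK_src {K : Set ℂ} {G : ℂ → Fin 4 → ℝ} {a : ℕ → ℝ} {w g φ : ℕ → Fld}
    (S : PSrc K G a w g φ) (h0 : ∀ᵐ z, z ∉ K → ∀ h, G z h = 0) : PSrc K (GK K G) a w g φ :=
  ⟨S.supp, fun h => (S.conv h).congr fun k => lintegral_congr_ae (by
    filter_upwards [GK_ae h0] with z hz
    rw [hz h]), S.van, S.eqn⟩

/-! ### hypotheses -/

/-- locally bounded scaled mass -/
def BddL (O : Set ℂ) (a : ℕ → ℝ) (φ : ℕ → Fld) : Prop :=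
  ∀ L : Set ℂ, IsCompact L → L ⊆ O → ∃ C : ℝ, ∀ᶠ k in atTop, ∀ S : Finset Face,
    (∀ f ∈ S, meshPoint (a k) f ∈ L) → a k ^ 2 * ∑ f ∈ S, nsq (φ k f) ≤ C

/-- local compactness [943] -/
def LocComp : Prop := ∀ {O : Set ℂ} {n : ℕ} {x : Fin n → ℂ} {a : ℕ → ℝ} {w : ℕ → Fld}
  {V : ℕ → Fin n → Face} (_ : OmSeq O x a w V) (_ : IsOpen O) (_ : ∀ i, x i ∉ O) {K : Set ℂ}
  (_ : IsClosed K) {g φ : ℕ → Fld} (_ : ∀ k f, meshPoint (a k) f ∉ K → ∀ h, g k f h = 0)
  (_ : BddL O a g) (_ : BddL O a φ) (_ : ∀ k f h, A (w k) (φ k) f h = a k * g k f h)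
  (U : Ultrafilter ℕ) (_ : (U : Filter ℕ) ≤ atTop), ∃ F : ℂ → ℂ,
    (∀ z0 ∈ O, ∃ ρ > 0, MemLp F 2 (volume.restrict (ball z0 ρ)) ∧
      ∀ h, Tendsto (fun k => ∫⁻ z in ball z0 ρ, ENNReal.ofReal
        ((emb (a k) (fun f => φ k f h) z - lv (F z) h) ^ 2)) U (𝓝 0)) ∧
    ∃ gg : ℂ → ℂ, DifferentiableOn ℂ gg (O \ K) ∧ ∀ z ∈ O \ K, F z * U3x719.rX x z = gg z

/-- gluing [422] -/
def Glue : Prop := ∀ {U : Filter ℕ} [U.NeBot] (_ : U ≤ atTop) {a : ℕ → ℝ}
  (_ : ∀ k, 0 < a k) (_ : Tendsto a atTop (𝓝 0)) {O : Set ℂ} (_ : IsOpen O) {φ : ℕ → Fld}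
  {F : ℂ → ℂ} (_ : ∀ z0 ∈ O, ∃ ρ > 0, MemLp F 2 (volume.restrict (ball z0 ρ)) ∧
    ∀ h, Tendsto (fun k => ∫⁻ z in ball z0 ρ, ENNReal.ofReal
      ((emb (a k) (fun f => φ k f h) z - lv (F z) h) ^ 2)) U (𝓝 0))
  {T : ℝ} (_ : volume (ball (0 : ℂ) (T + 1) \ O) = 0)
  (_ : ∀ η : ℝ, 0 < η → ∃ L : Set ℂ, IsCompact L ∧ L ⊆ O ∧ ∀ᶠ k in U, ∀ S : Finset Face,
    (∀ f ∈ S, ‖meshPoint (a k) f‖ ≤ T + 1 ∧ meshPoint (a k) f ∉ L) →
      a k ^ 2 * ∑ f ∈ S, nsq (φ k f) ≤ η),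
  MemLp F 2 (volume.restrict (ball 0 T)) ∧
    ∀ h, Tendsto (fun k => eLpNorm (fun z => emb (a k) (fun f => φ k f h) z - lv (F z) h) 2
      (volume.restrict (ball 0 T))) U (𝓝 0)

/-- **compactness** : every ultrafilter has a strong limit -/
theorem exists_slim (hL : LocComp) (hGl : Glue) (hn : Even n) {K : Set ℂ} (hK : IsCompact K)
    {G : ℂ → Fin 4 → ℝ} (hG : ∀ h, MemLp (fun z => G z h) 2) {a : ℕ → ℝ} {w : ℕ → Fld}
    {V : ℕ → Fin n → Face} (H : PlSeq x a w V) {g φ : ℕ → Fld} (S : PSrcs K G a w g φ)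
    (U : Ultrafilter ℕ) (hU : (U : Filter ℕ) ≤ atTop) : ∃ F, SLim x K a φ U F := by
  have HO : OmSeq (Om univ x) x a w V := (PlOutx304.classOK_plSeq x).seq a w V H
  have hO : IsOpen (Om univ x) := isOpen_univ.sdiff (finite_range x).isClosed
  have hxO : ∀ i, x i ∉ Om univ x := fun i hc => hc.2 ⟨i, rfl⟩
  have S' := S.pSrc
  obtain ⟨R1, hR1⟩ := hK.isBounded.exists_norm_le
  obtain ⟨R2, hR2⟩ := (finite_range x).isBounded.exists_norm_le
  set T0 := max (max R1 R2) 1 with hT0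
  have hT0' : 0 < T0 := by positivity
  obtain ⟨G0, hG0, hg⟩ := S'.gbd H.pos hG
  obtain ⟨C, hC, hb⟩ := bounds
  have hxT : ∀ i, ‖x i‖ ≤ T0 := fun i =>
    (hR2 _ (mem_range_self i)).trans ((le_max_right _ _).trans (le_max_left _ _))
  have hKT : ∀ z ∈ K, ‖z‖ ≤ T0 := fun z hz =>
    (hR1 z hz).trans ((le_max_left _ _).trans (le_max_left _ _))
  have hbg : BddL (Om univ x) a g := fun L _ _ => ⟨G0 ^ 2, hg.mono fun k hk E _ => hk E⟩
  have hbφ : BddL (Om univ x) a φ := by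
    intro L hLc _
    obtain ⟨R3, hR3⟩ := hLc.isBounded.exists_norm_le
    have h1 := hb hn hT0' hxT hKT H S' hG0 hg (max T0 R3) (le_max_left _ _)
    refine ⟨_, h1.mono fun k hk E hE => hk.1 E fun f hf => ?_⟩
    have h2 := hR3 _ (hE f hf)
    have h3 := le_max_right T0 R3
    have h4 := le_max_left T0 R3
    linarith
  obtain ⟨F, hF1, hF2⟩ := hL HO hO hxO hK.isClosed S.supp hbg hbφ S.eqn U hU
  have hgl : ∀ T : ℝ, MemLp F 2 (volume.restrict (ball 0 T)) ∧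
      ∀ h, Tendsto (fun k => eLpNorm (fun z => emb (a k) (fun f => φ k f h) z - lv (F z) h) 2
        (volume.restrict (ball 0 T))) U (𝓝 0) := by
    intro T
    refine hGl hU H.pos H.lim hO hF1 ?_ ?_
    · refine measure_mono_null ?_ ((finite_range x).measure_zero volume)
      rintro z ⟨-, hz⟩
      by_contra hc
      exact hz ⟨mem_univ z, hc⟩
    · intro η hη
      obtain ⟨δ, hδ, hnc⟩ := no_conc hn hT0' hxT hKT H S' hG0 hg hη
      refine ⟨closedBall 0 (T + 1) \ thickening δ (range x),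
        (isCompact_closedBall 0 (T + 1)).diff isOpen_thickening, ?_, ?_⟩
      · rintro z ⟨-, hz⟩
        exact ⟨mem_univ z, fun hc => hz (self_subset_thickening hδ _ hc)⟩
      · refine hU ?_
        filter_upwards [hnc] with k hk E hE
        refine hk E fun f hf => ?_
        by_contra hc
        exact (hE f hf).2 ⟨by rw [mem_closedBall_zero_iff]; exact (hE f hf).1, hc⟩
  exact ⟨F, fun T => (hgl T).1, fun T => (hgl T).2, hF2⟩

/-- **`PComp` of `PlMacE_654`** -/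
theorem pcomp (hL : LocComp) (hGl : Glue) (hn : Even n) : PComp x := by
  intro K hK hKO G hG a w V H g φ S U hU
  obtain ⟨F, L⟩ := exists_slim hL hGl hn hK hG H S U hU
  have h0 := source_zero H.pos H.lim hK.isClosed S.pSrc hG
  have S2 := GK_src S.pSrc h0
  have hG2 := GK_mem hG h0
  refine ⟨F, L.mem, fun T h => tendsto_lintegral (L.conv T h), ?_, fun j => ?_, ?_⟩
  · obtain ⟨gg, h1, h2⟩ := L.hol
    exact ⟨gg, h1.continuousOn, h2⟩
  · exact locSpin hK hKO H S2 hG2 (fun z hz h => GK_off z hz h) hU L j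
  · exact decay hn hK H S.pSrc hG hU L

/-- **`PDiff` of `PlMacE_654`** -/
theorem pdiff : PDiff x := by
  intro K hK hKO G hG a w V H g φ S U hU F L a' w' V' H' g' φ' S' U' hU' F' L'
  have key : ∀ {a : ℕ → ℝ} {w g φ : ℕ → Fld} {U : Filter ℕ} {F : ℂ → ℂ},
      PSrcs K G a w g φ → PLim x K U a φ F → PSrc univ G a w g φ ∧ SLim x univ a φ U F := by
    intro a w g φ U F S L
    refine ⟨⟨Eventually.of_forall fun k f h _ => mem_univ _, S.conv, S.van,
      Eventually.of_forall S.eqn⟩, L.l2, slim_conv L, ⟨0, ?_, ?_⟩⟩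
    · rw [sdiff_univ]
      exact differentiableOn_empty
    · intro z hz
      exact absurd (mem_univ z) hz.2
  exact diff_hol hG H (key S L).1 hU (key S L).2 H' (key S' L').1 hU' (key S' L').2

end Crest.Agent.R165.PlHx811
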