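import Crest.Agent.R165.PlMacH_811
import Crest.Agent.R165.PlMacDiff_654
import Crest.Agent.R165.PlOut2_304
import Crest.Agent.R165.Pl4_654

/-!
# Row 165 (S0250), plane MAC (helper654): the leaf `resPl` from 943's local compactness and 422's
gluing lemma
-/

set_option autoImplicit false

noncomputable section

open MeasureTheory Filter Topology Set Metric
open Crest.ProbabilityR.IsingModel

namespace Crest.Agent.R165.PlRx654

/-- resolvent convergence on the plane -/
theorem resConv (hL : PlHx811.LocComp) (hG : PlHx811.Glue) {n : ℕ} (hn : Even n)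
    {x : Fin n → ℂ} (hx : Function.Injective x) :
    MacIx622.ResConv (Mac0x622.Om Set.univ x) x (PlOutx304.PlSeq x) (fun _ _ => True) :=
  PlDx654.resConv_of_comp hx (PlHx811.pcomp hL hG hn)

/-- the leaf `resPl` of `UOpen` -/
theorem resPl (hL : PlHx811.LocComp) (hG : PlHx811.Glue) :
    ∀ n : ℕ, Even n → ∀ x : Fin n → ℂ, Function.Injective x →
      ∃ Q, MacIx622.ResConv (Mac0x622.Om Set.univ x) x (PlOutx304.PlSeq x) Q :=
  fun _ hn _ hx => ⟨_, resConv hL hG hn hx⟩

/-- **the plane kernels** -/
theorem kerPl (hL : PlHx811.LocComp) (hG : PlHx811.Glue) : UPlx641.KerPl :=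
  PlOut2x304.kerPl_of_res Pl4x654.exCovPl (resPl hL hG)

end Crest.Agent.R165.PlRx654
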