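import Crest.Agent.R165.Sq4_54
import Crest.Agent.R165.EXb7_811
import Crest.Agent.R165.BxW_936

/-!
# Row 165 (S0250), block R: the leaves are closed (helper891)

`GapU` (helper54), `EXb` (helper811), `EXbr` (helper797, helper936) with one constant, and the
regularity theorems `regB`, `regBr` of `RIface_891` without hypotheses.
-/

set_option autoImplicit false

noncomputable section

namespace Crest.Agent.R165.RAllx891

open Crest.Agent.R165.RIfx891 Crest.Agent.R165.Tr1x40 Crest.Agent.R165.Campx891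

theorem Ex1On.mono {w : Fld} {x : Face} {r t M M' : ℝ} (h : M ≤ M') (H : Ex1On w x r t M) :
    Ex1On w x r t M' := fun e he =>
  (H e he).trans (mul_le_mul_of_nonneg_right h (apply_nonneg _ _))

theorem Ex2On.mono {w : Fld} {x : Face} {r t M M' : ℝ} {u : Fld} (h : M ≤ M')
    (H : Ex2On w x r t u M) : Ex2On w x r t u M' := fun e he =>
  (H e he).imp fun _ hκ => hκ.trans (mul_le_mul_of_nonneg_right h (apply_nonneg _ _))

theorem EXb.mono {C C' : ℝ} (h : C ≤ C') (H : EXb C) : EXb C' := by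
  intro m η hη
  obtain ⟨r0, ε0, hε, H⟩ := H m η hη
  refine ⟨r0, ε0, hε, fun w s x r n c hr hn hc hP => ?_⟩
  have hq := q_pos
  obtain ⟨h1, h2⟩ := H w s x r n c hr hn hc hP
  exact ⟨Ex1On.mono (by gcongr) h1, Ex2On.mono (by gcongr) h2⟩

theorem EXbr.mono {C C' : ℝ} (h : C ≤ C') (H : EXbr C) : EXbr C' := by
  intro m η hη
  obtain ⟨r0, H⟩ := H m η hη
  refine ⟨r0, fun w s v r hr hB => ?_⟩
  have hq := q_pos
  obtain ⟨h1, h2⟩ := H w s v r hr hB
  exact ⟨Ex1On.mono (by gcongr) h1, Ex2On.mono (by gcongr) h2⟩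

/-- the constants of block R -/
structure RConst (Cs C : ℝ) : Prop where
  Cs_nonneg : 0 ≤ Cs
  C_nonneg : 0 ≤ C
  gap : GapU Cs
  exb : EXb C
  exbr : EXbr C

/-- **block R** -/
theorem exists_RConst : ∃ Cs C : ℝ, RConst Cs C := by
  obtain ⟨C, hC, hE⟩ := EXb7x811.exb
  obtain ⟨C', hC', hE'⟩ := BxWx936.exbr
  exact ⟨110000000000, max C C', by norm_num, le_max_of_le_left hC, Sqx54.gapU,
    EXb.mono (le_max_left _ _) hE, EXbr.mono (le_max_right _ _) hE'⟩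

/-- the gap constant -/
def Cs : ℝ := exists_RConst.choose

/-- the constant of the exact theorems -/
def Cx : ℝ := exists_RConst.choose_spec.choose

theorem rConst : RConst Cs Cx := exists_RConst.choose_spec.choose_spec

/-- the constant of the regularity theorems -/
def KR : ℝ := K2 Cx Cs

/-- **Reg1/Reg2 at a plus boundary**, no hypotheses left -/
theorem reg_boundary (J : ℕ) : ∃ r0 ε0 : ℝ, 0 < ε0 ∧
    ∀ (w : Fld) (s : Face → ℝ) (x : Face) (ρ : ℝ) (n c : ℂ), r0 ≤ ρ → ‖n‖ = 1 →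
      c ^ 2 = (starRingEnd ℂ) n → PlusFlat w s x ρ n ε0 →
      ∀ f : Fld, NB x ρ f ≤ 1 → NB x ρ (A w f) ≤ 1 / ρ → NB x ρ (A w (A w f)) ≤ 1 / ρ ^ 2 →
        NB x (ρ * q ^ (2 * J)) f ≤ KR * q ^ (2 * J) ∧
        ∃ κ : ℝ, NB x (ρ * q ^ (2 * J)) (f - κ • modeB s x n c) ≤ KR * q ^ (3 * J) :=
  regB rConst.C_nonneg rConst.Cs_nonneg rConst.gap rConst.exb J

/-- **Reg1/Reg2 at a branch vertex**, no hypotheses left -/
theorem reg_branch (J : ℕ) : ∃ r0 : ℝ,
    ∀ (w : Fld) (s : Face → ℝ) (v : Face) (ρ : ℝ), r0 ≤ ρ → BranchOn w s v ρ →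
      ∀ f : Fld, NB v ρ f ≤ 1 → NB v ρ (A w f) ≤ 1 / ρ → NB v ρ (A w (A w f)) ≤ 1 / ρ ^ 2 →
        NB v (ρ * q ^ (2 * J)) f ≤ KR * q ^ J ∧
        ∃ κ : ℝ, NB v (ρ * q ^ (2 * J)) (f - κ • modeBr s v) ≤ KR * q ^ (2 * J) :=
  regBr rConst.C_nonneg rConst.Cs_nonneg rConst.gap rConst.exbr J

end Crest.Agent.R165.RAllx891
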