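import Crest.Agent.R165.UAsm_641
import Crest.Agent.R165.FrI_802

/-!
# Row 165 (S0250), block U: `PlusIn`, `PlusCov` of helper802 from `MacLeaf`, `BrLeaf`, `Uniq` (helper641)

* `seq_of_fam` : limits along families `a ↓ 0` imply limits along sequences (splicing)
* `Dat`, `plusIn`, `plusCov`
-/

set_option autoImplicit false

noncomputable section

open Filter Topology Set
open Crest.ProbabilityR.IsingModel

namespace Crest.Agent.R165.UPlusInx641

open Crest.Agent.R165.Latx683 (BW HE wDom wX IsCov)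
open Crest.Agent.R165.UDomBx420 (ed)
open Crest.Agent.R165.UKerx420 (kap edir hb cB fpt Sof Sof_spec wD)
open Crest.Agent.R165.ConfTopx641 Crest.Agent.R165.USpinx641 Crest.Agent.R165.UB3x641
open Crest.Agent.R165.U3x719 Crest.Agent.R165.U3Covx67
open Crest.Agent.R165.UAsmx641
open Crest.Agent.R165.FrIx802
open Crest.Agent.R165.U5Px422 (LApp)

/-! ### splicing -/

section splice

variable {α : Type*}

/-- the sequence `e` on the points `b k`, the family `d0` elsewhere -/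
def spl (b : ℕ → ℝ) (e : ℕ → α) (d0 : ℝ → α) (t : ℝ) : α := by
  classical exact if h : ∃ k, b k = t then e h.choose else d0 t

theorem spl_apply {b : ℕ → ℝ} (hb : Function.Injective b) (e : ℕ → α) (d0 : ℝ → α) (k : ℕ) :
    spl b e d0 (b k) = e k := by
  have h : ∃ m, b m = b k := ⟨k, rfl⟩
  unfold spl
  rw [dif_pos h, hb h.choose_spec]

theorem ev_spl {b : ℕ → ℝ} (hb : StrictAnti b) (hpos : ∀ k, 0 < b k) {P : ℝ → α → Prop}
    {e : ℕ → α} {d0 : ℝ → α} (he : ∀ᶠ k in atTop, P (b k) (e k))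
    (hd : ∀ᶠ t in 𝓝[>] (0 : ℝ), P t (d0 t)) : ∀ᶠ t in 𝓝[>] (0 : ℝ), P t (spl b e d0 t) := by
  obtain ⟨N, hN⟩ := eventually_atTop.1 he
  have h1 : ∀ᶠ t in 𝓝[>] (0 : ℝ), t < b N := mem_nhdsWithin_of_mem_nhds (Iio_mem_nhds (hpos N))
  filter_upwards [h1, hd] with t ht hdt
  by_cases h : ∃ k, b k = t
  · obtain ⟨k, rfl⟩ := h
    rw [spl_apply hb.injective]
    exact hN k (hb.lt_iff_gt.1 ht).le
  · unfold spl
    rw [dif_neg h]
    exact hdt

/-- limits along families imply limits along sequences -/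
theorem seq_of_fam (F : ℝ → α → ℝ) {L : ℝ} (d0 : ℝ → α) (a : ℕ → ℝ) (hpos : ∀ k, 0 < a k)
    (hlim : Tendsto a atTop (𝓝 0)) (e : ℕ → α)
    (hfam : ∀ d : ℝ → α, (∀ P : ℝ → α → Prop, (∀ᶠ k in atTop, P (a k) (e k)) →
      (∀ᶠ t in 𝓝[>] (0 : ℝ), P t (d0 t)) → ∀ᶠ t in 𝓝[>] (0 : ℝ), P t (d t)) →
      Tendsto (fun t => F t (d t)) (𝓝[>] 0) (𝓝 L)) :
    Tendsto (fun k => F (a k) (e k)) atTop (𝓝 L) := by
  refine tendsto_of_subseq_tendsto fun ns hns => ?_
  have h1 : Tendsto (fun k => (a (ns k))⁻¹) atTop atTop := by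
    refine tendsto_inv_nhdsGT_zero.comp ?_
    exact tendsto_nhdsWithin_iff.2 ⟨hlim.comp hns, Eventually.of_forall fun k => hpos _⟩
  obtain ⟨φ, hφ, hφ2⟩ := strictMono_subseq_of_tendsto_atTop h1
  refine ⟨φ, ?_⟩
  set b : ℕ → ℝ := fun k => a (ns (φ k)) with hbdef
  have hb : StrictAnti b := by
    intro i j hij
    have h2 := hφ2 hij
    exact (inv_lt_inv₀ (hpos _) (hpos _)).1 h2
  have hsub : Tendsto (fun k => ns (φ k)) atTop atTop := hns.comp hφ.tendsto_atTop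
  have hbl : Tendsto b atTop (𝓝[>] 0) :=
    tendsto_nhdsWithin_iff.2 ⟨hlim.comp hsub, Eventually.of_forall fun k => hpos _⟩
  have h3 := (hfam (spl b (fun k => e (ns (φ k))) d0) fun P h4 h5 =>
    ev_spl hb (fun k => hpos _) (hsub.eventually h4) h5).comp hbl
  refine h3.congr fun k => ?_
  show F (b k) (spl b (fun k => e (ns (φ k))) d0 (b k)) = _
  rw [spl_apply hb.injective]

end splice

/-! ### the data of one lattice -/

/-- background, insertions, covariance, two faces -/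
structure LD5 (n : ℕ) where
  w : BW ℤ
  X : Fin n → ℤ × ℤ
  S : HE ℤ → HE ℤ → ℝ
  f : ℤ × ℤ
  f' : ℤ × ℤ

variable {n : ℕ}

/-- default family -/
def dflt (D : Set ℂ) (x : Fin n → ℂ) (z z' : ℂ) (t : ℝ) : LD5 n where
  w := wDom (domainSites D t) false
  X := fun i => meshIndex t (x i)
  S := Sof (wX (wDom (domainSites D t) false) fun i => meshIndex t (x i))
  f := meshIndex t z
  f' := meshIndex t z'

/-- a family good in the sense of `seq_of_fam` -/
structure GoodFam (D : Set ℂ) (x : Fin n → ℂ) (z z' : ℂ) (d : ℝ → LD5 n) : Prop where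
  bg : BgFam D fun t => (d t).w
  app : LApp (fun t => (d t).X) x
  cov : ∀ᶠ t in 𝓝[>] (0 : ℝ), IsCov (wX (d t).w (d t).X) (d t).S
  lf : Tendsto (fun t => fpt t (d t).f) (𝓝[>] 0) (𝓝 z)
  lf' : Tendsto (fun t => fpt t (d t).f') (𝓝[>] 0) (𝓝 z')

theorem tendsto_of_ev {ι : Type*} {l : Filter ι} {u : ι → ℂ} {z : ℂ}
    (h : ∀ ε > (0 : ℝ), ∀ᶠ k in l, dist (u k) z < ε) : Tendsto u l (𝓝 z) :=
  Metric.tendsto_nhds.2 h

theorem good_of {D : Set ℂ} (hD : IsC2JordanDomain D) {x : Fin n → ℂ} (hx : x ∈ Conf n D)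
    {a : ℕ → ℝ} {y : ℕ → BW ℤ} {V : ℕ → Fin n → ℤ × ℤ} (H : LatB D x a y V)
    {S : ℕ → HE ℤ → HE ℤ → ℝ} (hS : ∀ k, IsCov (wX (y k) (V k)) (S k)) {z z' : ℂ}
    {f f' : ℕ → ℤ × ℤ} (hf : Tendsto (fun k => meshPoint (a k) (f k)) atTop (𝓝 z))
    (hf' : Tendsto (fun k => meshPoint (a k) (f' k)) atTop (𝓝 z')) {d : ℝ → LD5 n}
    (hd : ∀ P : ℝ → LD5 n → Prop,
      (∀ᶠ k in atTop, P (a k) ⟨y k, V k, S k, f k, f' k⟩) →
      (∀ᶠ t in 𝓝[>] (0 : ℝ), P t (dflt D x z z' t)) → ∀ᶠ t in 𝓝[>] (0 : ℝ), P t (d t)) :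
    GoodFam D x z z' d where
  bg := by
    have h0 := bgFam_dom hD
    refine ⟨?_, fun K hK hKD => ?_, fun K hK hKD => ?_⟩
    · exact hd (fun _ e => ∀ z j, e.w z j = 0 ∨ e.w z j = Latx683.xc)
        (Eventually.of_forall fun k z j => (H.val k z j).symm) h0.val
    · exact hd (fun t e => ∀ z j, meshPoint t z ∈ K → e.w z j = Latx683.xc)
        ((H.ins K hK hKD).mono fun k h z j hz => h z hz j) (h0.inn K hK hKD)
    · refine hd (fun t e => ∀ z j, meshPoint t z ∈ K → e.w z j = 0) ?_ (h0.out K hK hKD)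
      obtain ⟨R, hR⟩ := H.bdd
      have h1 := H.out (K ∩ Metric.closedBall 0 R) ((isCompact_closedBall _ _).inter_left hK)
        (hKD.mono_left inter_subset_left)
      filter_upwards [h1] with k h z j hz
      by_cases hc : meshPoint (a k) z ∈ Metric.closedBall 0 R
      · exact h z ⟨hz, hc⟩ j
      · refine hR k z ?_ j
        rw [mem_closedBall_zero_iff, not_le] at hc
        exact hc.le
  app := fun i => tendsto_of_ev fun ε hε =>
    hd (fun t e => dist (meshPoint t (e.X i)) (x i) < ε)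
      (Metric.tendsto_nhds.1 (H.tip i) ε hε)
      (Metric.tendsto_nhds.1 (U5Px422.lapp_meshIndex x i) ε hε)
  cov := by
    refine hd (fun _ e => IsCov (wX e.w e.X) e.S) (Eventually.of_forall hS) ?_
    filter_upwards [UJ4x420.exCov .plus n (Or.inl rfl) D hD x hx.1 hx.2] with t ht
    exact Sof_spec ht
  lf := tendsto_of_ev fun ε hε =>
    hd (fun t e => dist (fpt t e.f) z < ε) (Metric.tendsto_nhds.1 hf ε hε)
      (Metric.tendsto_nhds.1 (UKerPlx304.mesh_self z) ε hε)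
  lf' := tendsto_of_ev fun ε hε =>
    hd (fun t e => dist (fpt t e.f') z' < ε) (Metric.tendsto_nhds.1 hf' ε hε)
      (Metric.tendsto_nhds.1 (UKerPlx304.mesh_self z') ε hε)

/-! ### `PlusIn` -/

/-- the linear form of a source at `x_j` -/
def etaOf (c1 : ℝ) (x : Fin n → ℂ) (g : Fin n → ℂ → ℂ) (j : Fin n) (z : ℂ) : ℂ →ₗ[ℝ] ℝ where
  toFun c := c1 * (c * e8 * (g j z / rXa x z)).re
  map_add' c c' := by
    rw [← mul_add, ← Complex.add_re]
    congr 2
    ring
  map_smul' t c := by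
    simp only [RingHom.id_apply, smul_eq_mul, Complex.real_smul]
    rw [mul_assoc (t : ℂ), mul_assoc (t : ℂ), Complex.re_ofReal_mul]
    ring

/-- the matrix of the branch limits -/
def bOf (c2 : ℝ) (x : Fin n → ℂ) (g : Fin n → ℂ → ℂ) : Matrix (Fin n) (Fin n) ℝ := fun i j =>
  if i = j then 0 else c2 * (g j (x i) / (Complex.I * gsrc x i)).re

theorem sqrt_inv_eq {t : ℝ} (ht : 0 < t) : (Real.sqrt t)⁻¹ = t ^ (-(1 : ℝ) / 2) := by
  rw [Real.sqrt_eq_rpow, ← Real.rpow_neg ht.le]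
  congr 1
  norm_num

theorem cSS_self {S : HE ℤ → HE ℤ → ℝ} (hS : ∀ h h', S h h' = -S h' h) (v : ℤ × ℤ) :
    ∑ b, ∑ b', S (v, b) (v, b') = 0 := by
  have h1 : ∑ b : Fin 4, ∑ b' : Fin 4, S (v, b) (v, b') =
      -∑ b : Fin 4, ∑ b' : Fin 4, S (v, b) (v, b') := by
    conv_lhs => rw [Finset.sum_comm]
    rw [← Finset.sum_neg_distrib]
    refine Finset.sum_congr rfl fun b _ => ?_
    rw [← Finset.sum_neg_distrib]
    exact Finset.sum_congr rfl fun b' _ => hS _ _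
  linarith

/-- **`PlusIn`** from the family limits -/
theorem plusIn {D : Set ℂ} (hD : IsC2JordanDomain D) {x : Fin n → ℂ} (hx : x ∈ Conf n D)
    {bl : ℂ → ℂ → LinearMap.BilinForm ℝ ℂ} {rg : ℂ → LinearMap.BilinForm ℝ ℂ}
    (skew : ∀ z z', z ∈ D → z' ∈ D → z ≠ z' → ∀ c c', bl z z' c c' = -bl z' z c' c)
    (alt : ∀ z, z ∈ D → ∀ c, rg z c c = 0)
    (hK : ∀ (w : ℝ → BW ℤ) (X : ℝ → Fin n → ℤ × ℤ), BgFam D w → LApp X x → KerF D x w X bl rg)
    {c1 c2 : ℝ} {g : Fin n → ℂ → ℂ}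
    (hB : ∀ (w : ℝ → BW ℤ) (X : ℝ → Fin n → ℤ × ℤ), BgFam D w → LApp X x →
      BrF c1 c2 D x w X g) :
    PlusIn D x bl rg (etaOf c1 x g) (bOf c2 x g) where
  off a y V H S hS z z' hz hz' hne hxz hxz' i i' f f' hf hf' := by
    refine seq_of_fam (α := LD5 n) (fun t e => t⁻¹ * (kap x e.X z e.f * kap x e.X z' e.f' *
      e.S (e.f, i) (e.f', i'))) (dflt D x z z') a H.pos H.lim
      (fun k => ⟨y k, V k, S k, f k, f' k⟩) fun d hd => ?_
    have G := good_of hD hx H hS hf hf' hd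
    exact (hK _ _ G.bg G.app).off _ G.cov z z' hz hz' hne hxz hxz' i i' _ _ G.lf G.lf'
  diag a y V H S hS z hz hxz j i i' f hf := by
    refine seq_of_fam (α := LD5 n) (fun t e => t⁻¹ * (kap x e.X z (hb e.f j i).1 *
      kap x e.X z (hb e.f j i').1 * e.S (hb e.f j i) (hb e.f j i') - cB i i'))
      (dflt D x z z) a H.pos H.lim (fun k => ⟨y k, V k, S k, f k, f k⟩) fun d hd => ?_
    have G := good_of hD hx H hS hf hf hd
    exact (hK _ _ G.bg G.app).diag _ G.cov z hz hxz _ G.lf j i i'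
  skew z z' hz hz' hne _ _ c c' := skew z z' hz hz' hne c c'
  alt z hz _ c := alt z hz c
  eta a y V H S hS z hz hxz j i f hf := by
    have h := seq_of_fam (α := LD5 n) (fun t e => t ^ (-(1 : ℝ) / 2) *
      (kap x e.X z e.f * kapX x e.X j * cS e.S (e.f, i) (e.X j)))
      (dflt D x z z) a H.pos H.lim (fun k => ⟨y k, V k, S k, f k, f k⟩)
      (L := etaOf c1 x g j z (edir i)) (fun d hd => by
        have G := good_of hD hx H hS hf hf hd
        exact (hB _ _ G.bg G.app).eta _ G.cov z hz hxz j i _ G.lf)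
    refine h.congr fun k => ?_
    rw [sqrt_inv_eq (H.pos k)]
    rfl
  bb a y V H S hS i j := by
    by_cases hij : i = j
    · subst hij
      have e : bOf c2 x g i i = 0 := by unfold bOf; rw [if_pos rfl]
      rw [e]
      refine tendsto_const_nhds.congr fun k => ?_
      rw [cSS_self (hS k).skew, mul_zero]
    · have h := seq_of_fam (α := LD5 n) (fun t e =>
        kapX x e.X i * kapX x e.X j * cSS e.S (e.X i) (e.X j))
        (dflt D x (x i) (x i)) a H.pos H.lim (fun k => ⟨y k, V k, S k, V k i, V k i⟩)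
        (L := c2 * (g j (x i) / (Complex.I * gsrc x i)).re) (fun d hd => by
          have G := good_of hD hx H hS (H.tip i) (H.tip i) hd
          exact (hB _ _ G.bg G.app).cor _ G.cov j i (Ne.symm hij))
      have e : bOf c2 x g i j = c2 * (g j (x i) / (Complex.I * gsrc x i)).re := by
        unfold bOf; rw [if_neg hij]
      rw [e]
      exact h

/-! ### covariance -/

/-- relation of the normalised spinors under a conformal map -/
theorem br_rel (hU : Uniq) {D E : Set ℂ} {r M : ℝ} (hD : Geo.CD D r M) {φ : ℂ → ℂ}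
    (h : Tp416.BiL D E φ) {x : Fin n → ℂ} (hx : x ∈ Conf n D) {q : ℂ → ℂ} (hq : IsQ D φ x q)
    {g g' : Fin n → ℂ → ℂ} (hg : ∀ i, IsBrN D x i (g i))
    (hg' : ∀ i, IsBrN E (fun k => φ (x k)) i (g' i)) :
    ∃ ε : Fin n → ℝ, (∀ i, ε i ^ 2 = 1) ∧ (∀ i, ∀ z ∈ D, g i z = ε i * (q z * g' i (φ z))) ∧
      ∀ i, gsrc x i = ε i * (q (x i) * gsrc (fun k => φ (x k)) i) := by
  have key : ∀ i, ∃ s : ℝ, s ^ 2 = 1 ∧ ∀ z ∈ D, g i z = s * (q z * g' i (φ z)) := by
    intro i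
    rcases IsBr.unique hU hD hx.2 hx.1 (hg i).br (br_pull h hx.1 hq (hg' i).br) with he | he
    · exact ⟨1, by norm_num, fun z hz => by rw [he hz]; push_cast; ring⟩
    · exact ⟨-1, by norm_num, fun z hz => by rw [he hz]; push_cast; ring⟩
  choose ε hε h1 using key
  refine ⟨ε, hε, h1, fun i => ?_⟩
  rw [← (hg i).nrm, h1 i (x i) (hx.1 i), ← (hg' i).nrm]

/-- **`PlusCov`** -/
theorem plusCov (hU : Uniq) {D D' : Set ℂ} (hD : IsC2JordanDomain D) (hD' : IsC2JordanDomain D')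
    {φ : ℂ → ℂ} (hφ : DifferentiableOn ℂ φ D) (hbij : BijOn φ D D') {x : Fin n → ℂ}
    (hx : x ∈ Conf n D) (hne : D.Nonempty) {bl bl' : ℂ → ℂ → LinearMap.BilinForm ℝ ℂ}
    {rg rg' : ℂ → LinearMap.BilinForm ℝ ℂ} {G G' : ℂ → ℂ → ℂ → ℂ}
    (hG : KerFam D x G) (hG' : KerFam D' (fun k => φ (x k)) G')
    (hbl : ∀ z ∈ D, ∀ y ∈ D, z ≠ y → (∀ i, x i ≠ z) → (∀ i, x i ≠ y) → ∀ c c',
        bl z y c c' = kerB x G z y c c' / (2 * Real.pi * Latx683.xc))
    (hrg : ∀ y ∈ D, (∀ i, x i ≠ y) → ∀ c c',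
        rg y c c' = kerR x G y c c' / (2 * Real.pi * Latx683.xc))
    (hbl' : ∀ z ∈ D', ∀ y ∈ D', z ≠ y → (∀ i, φ (x i) ≠ z) → (∀ i, φ (x i) ≠ y) → ∀ c c',
        bl' z y c c' = kerB (fun k => φ (x k)) G' z y c c' / (2 * Real.pi * Latx683.xc))
    (hrg' : ∀ y ∈ D', (∀ i, φ (x i) ≠ y) → ∀ c c',
        rg' y c c' = kerR (fun k => φ (x k)) G' y c c' / (2 * Real.pi * Latx683.xc))
    {g g' : Fin n → ℂ → ℂ} (hg : ∀ i, IsBrN D x i (g i))
    (hg' : ∀ i, IsBrN D' (fun k => φ (x k)) i (g' i)) (c1 c2 : ℝ) :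
    PlusCov D x φ bl bl' rg rg' (etaOf c1 x g) (etaOf c1 (fun k => φ (x k)) g') (bOf c2 x g)
      (bOf c2 (fun k => φ (x k)) g') := by
  obtain ⟨r, M, h, hb⟩ := biL_of hD hD' hne hφ hbij
  obtain ⟨q, hq⟩ := exists_q h hφ hbij.injOn x hx.1
  obtain ⟨ε, hε, h1, h2⟩ := br_rel hU h hb hx hq hg hg'
  have hne' : ∀ z ∈ D, (∀ i, x i ≠ z) → ∀ i, φ (x i) ≠ φ z := fun z hz hxz i e =>
    hxz i (hbij.injOn (hx.1 i) hz e)
  refine ⟨rr φ x q, ε, hε, fun z hz hxz => rr_sq hq h.isOpen hφ hbij.injOn hx.1 hz hxz,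
    ?_, ?_, ?_, ?_⟩
  · intro z z' hz hz' hzz hxz hxz' c c'
    rw [hbl z hz z' hz' hzz hxz hxz', hbl' (φ z) (hbij.mapsTo hz) (φ z') (hbij.mapsTo hz')
      (fun e => hzz (hbij.injOn hz hz' e)) (hne' z hz hxz) (hne' z' hz' hxz'),
      kerB_cov hU h hb hx.2 hx.1 hq hG hG' hz hz' hzz hxz hxz']
  · intro z hz hxz c c'
    rw [hrg z hz hxz, hrg' (φ z) (hbij.mapsTo hz) (hne' z hz hxz),
      kerR_cov hU h hb hx.2 hx.1 hq hG hG' hz hxz]
  · intro j z hz hxz c
    have ha : rXa x z ≠ 0 := rXa_ne hxz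
    have hb' : rXa (fun k => φ (x k)) (φ z) ≠ 0 := rXa_ne (hne' z hz hxz)
    show c1 * (c * e8 * (g j z / rXa x z)).re =
      ε j * (c1 * (rr φ x q z * c * e8 * (g' j (φ z) / rXa (fun k => φ (x k)) (φ z))).re)
    have e : c * e8 * (g j z / rXa x z) =
        (ε j : ℂ) * (rr φ x q z * c * e8 * (g' j (φ z) / rXa (fun k => φ (x k)) (φ z))) := by
      rw [h1 j z hz]
      unfold rr
      field_simp
    rw [e, Complex.re_ofReal_mul]
    ring
  · intro i j
    by_cases hij : i = j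
    · unfold bOf
      rw [if_pos hij, if_pos hij, mul_zero]
    · have hq0 : q (x i) ≠ 0 := hq.ne _ (hx.1 i)
      have hgs : gsrc (fun k => φ (x k)) i ≠ 0 := by
        have hw : U3x719.wX (fun k => φ (x k)) i ≠ 0 := by
          refine U3Covx67.wX_ne ?_ i
          intro a b hab
          exact hx.2 (hbij.injOn (hx.1 a) (hx.1 b) hab)
        intro h0
        have := gsrc_sq (fun k => φ (x k)) i
        rw [h0] at this
        have h3 : Complex.I * U3x719.wX (fun k => φ (x k)) i ≠ 0 :=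
          mul_ne_zero Complex.I_ne_zero hw
        exact h3 (by rw [← this]; ring)
      have hεi : (ε i : ℂ) ≠ 0 := by
        intro h0
        have h3 : ε i = 0 := by exact_mod_cast h0
        have := hε i
        rw [h3] at this
        norm_num at this
      have hεi2 : (ε i : ℂ) * (ε i : ℂ) = 1 := by
        have := hε i
        rw [pow_two] at this
        exact_mod_cast this
      have e : g j (x i) / (Complex.I * gsrc x i) =
          ((ε i * ε j : ℝ) : ℂ) * (g' j (φ (x i)) / (Complex.I * gsrc (fun k => φ (x k)) i)) := by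
        rw [h1 j (x i) (hx.1 i), h2 i]
        have hI := Complex.I_ne_zero
        push_cast
        field_simp
        linear_combination (-(ε j : ℂ) * g' j (φ (x i))) * hεi2
      unfold bOf
      rw [if_neg hij, if_neg hij, e, Complex.re_ofReal_mul]
      ring

end Crest.Agent.R165.UPlusInx641
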