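import Crest.Agent.R165.UAsm2_641
import Crest.Agent.R165.UPlusIn_641
import Crest.Agent.R165.Fr7_802
import Crest.Agent.R165.MacLf_304
import Crest.Agent.R165.PlOut2_304

/-!
# Row 165 (S0250): the free kernels, and block U from six leaves (helper641)

* `freeData` : `KerD true` and `KerCov` for free boundary conditions from `MacLeaf`, `BrLeaf`, `Uniq`
  (802's transfer, `UPlusIn_641`, 422's positivity of the determinant)
* `ULeaves3`, `ulimB3` : block U from the remaining leaves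
-/

set_option autoImplicit false

noncomputable section

open Filter Topology Set
open Crest.ProbabilityR.IsingModel

namespace Crest.Agent.R165.UFreex641

open Crest.Agent.R165.Latx683 (IsCov BW)
open Crest.Agent.R165.ConfTopx641 Crest.Agent.R165.USpinx641 Crest.Agent.R165.UB3x641
  Crest.Agent.R165.UBrLx641 Crest.Agent.R165.UPlx641 Crest.Agent.R165.UAsmx641
  Crest.Agent.R165.UPlusInx641 Crest.Agent.R165.UAsm2x641
open Crest.Agent.R165.U3x719 Crest.Agent.R165.U3Covx67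
open Crest.Agent.R165.UKerPlx304 Crest.Agent.R165.UFinx420
open Crest.Agent.R165.UKerx420 (KerCov KerD)
open Crest.Agent.R165.Red2x541 Crest.Agent.R165.Redx541
open Crest.Agent.R165.U5Px422 (SpinOut LApp)
open Crest.Agent.R165.FrIx802 Crest.Agent.R165.Fr7x802

/-- the data of the plus kernels and branch functions of one configuration -/
structure FD (c1 c2 : ℝ) {n : ℕ} (D : Set ℂ) (x : Fin n → ℂ)
    (bl : ℂ → ℂ → LinearMap.BilinForm ℝ ℂ) (rg : ℂ → LinearMap.BilinForm ℝ ℂ)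
    (G : ℂ → ℂ → ℂ → ℂ) (g : Fin n → ℂ → ℂ) : Prop where
  ker : KerFam D x G
  hbl : ∀ z ∈ D, ∀ y ∈ D, z ≠ y → (∀ i, x i ≠ z) → (∀ i, x i ≠ y) → ∀ c c',
        bl z y c c' = kerB x G z y c c' / (2 * Real.pi * Latx683.xc)
  hrg : ∀ y ∈ D, (∀ i, x i ≠ y) → ∀ c c',
        rg y c c' = kerR x G y c c' / (2 * Real.pi * Latx683.xc)
  br : ∀ i, IsBrN D x i (g i)
  inn : PlusIn D x bl rg (etaOf c1 x g) (bOf c2 x g)
  lim : ∀ (w : ℝ → BW ℤ) (X : ℝ → Fin n → ℤ × ℤ), BgFam D w → LApp X x → BrF c1 c2 D x w X g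

theorem exists_FD (hM : MacLeaf) {c1 c2 : ℝ}
    (hB : ∀ D : Set ℂ, IsC2JordanDomain D → ∀ (n : ℕ) (x : Fin n → ℂ),
    x ∈ Conf n D → ∃ g : Fin n → ℂ → ℂ, (∀ i, IsBrN D x i (g i)) ∧
      ∀ (w : ℝ → BW ℤ) (X : ℝ → Fin n → ℤ × ℤ), BgFam D w → LApp X x → BrF c1 c2 D x w X g)
    {D : Set ℂ} (hD : IsC2JordanDomain D) {n : ℕ} {x : Fin n → ℂ} (hx : x ∈ Conf n D) :
    ∃ bl rg G g, FD c1 c2 D x bl rg G g := by
  obtain ⟨bl, rg, G, h1, h2, h3, h4, h5, h6⟩ := hM D hD n x hx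
  obtain ⟨g, k1, k2⟩ := hB D hD n x hx
  exact ⟨bl, rg, G, g, h1, h2, h3, k1, plusIn hD hx h4 h5 h6 k2, k2⟩

/-- the matrix of the branch points is regular -/
theorem FD.unit {c1 c2 : ℝ} {n : ℕ} {D : Set ℂ} {x : Fin n → ℂ}
    {bl : ℂ → ℂ → LinearMap.BilinForm ℝ ℂ} {rg : ℂ → LinearMap.BilinForm ℝ ℂ}
    {G : ℂ → ℂ → ℂ → ℂ} {g : Fin n → ℂ → ℂ} (F : FD c1 c2 D x bl rg G g)
    (hB : BrLeaf) (hU : Uniq) (hK : Kw9x871.BrLim Kw9x871.kapB) (hS : SpinOut .plus 1)
    (hD : IsC2JordanDomain D) (hx : x ∈ Conf n D) (hn : Even n) : IsUnit (bOf c2 x g).det := by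
  obtain ⟨m, hm⟩ := hn
  have hm2 : n = 2 * m := by omega
  subst hm2
  have h1 := SpFr3x422.rl_pos hB hU hK hS hD m x hx
  rw [SpFr3x422.rl_eq hD hx F.lim] at h1
  have h2 : SpFr1x422.Bm c2 x g = bOf c2 x g := rfl
  rw [h2] at h1
  exact isUnit_iff_ne_zero.2 (Real.sqrt_pos.1 h1).ne'

section
variable (hM : MacLeaf) (hB : BrLeaf) (hU : Uniq) (hK : Kw9x871.BrLim Kw9x871.kapB)
  (hS : SpinOut .plus 1)
include hM hB hU hK hS

theorem kerExB_free : KerExB .free := by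
  intro n hR D hD x hx hinj
  have hn : Even n := by
    rcases hR with h | ⟨-, h⟩
    · exact absurd h (by decide)
    · exact h
  have hx' : x ∈ Conf n D := ⟨hx, hinj⟩
  obtain ⟨c1, c2, -, -, h⟩ := id hB
  obtain ⟨bl, rg, G, g, F⟩ := exists_FD hM h hD hx'
  exact ⟨_, _, kerD_free (isOpen_of_C2 hD) (bounded_of_C2 hD) hx hinj F.inn
    (F.unit hB hU hK hS hD hx' hn)⟩

theorem kerCvB_free : KerCvB .free := by
  intro n hR D D' hD hD' φ hφ hbij x hx hinj bl rg bl' rg' L L'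
  have hn : Even n := by
    rcases hR with h | ⟨-, h⟩
    · exact absurd h (by decide)
    · exact h
  rcases D.eq_empty_or_nonempty with rfl | hne
  · exact ⟨fun _ => 0, fun z hz => absurd hz (Set.notMem_empty z),
      fun z _ hz => absurd hz (Set.notMem_empty z), fun z hz => absurd hz (Set.notMem_empty z)⟩
  have hxC : x ∈ Conf n D := ⟨hx, hinj⟩
  have hx' : ∀ i, φ (x i) ∈ D' := fun i => hbij.mapsTo (hx i)
  have hinj' : Function.Injective (fun i => φ (x i)) := fun i j e =>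
    hinj (hbij.injOn (hx i) (hx j) e)
  have hxC' : (fun i => φ (x i)) ∈ Conf n D' := ⟨hx', hinj'⟩
  obtain ⟨c1, c2, -, -, h⟩ := id hB
  obtain ⟨b, r, G, g, F⟩ := exists_FD hM h hD hxC
  obtain ⟨b', r', G', g', F'⟩ := exists_FD hM h hD' hxC'
  have K1 := kerD_free (isOpen_of_C2 hD) (bounded_of_C2 hD) hx hinj F.inn
    (F.unit hB hU hK hS hD hxC hn)
  have K2 := kerD_free (isOpen_of_C2 hD') (bounded_of_C2 hD') hx' hinj' F'.inn
    (F'.unit hB hU hK hS hD' hxC' hn)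
  obtain ⟨ρ, h1, h2, h3⟩ := kerCov_free (plusCov hU hD hD' hφ hbij hxC hne F.ker F'.ker F.hbl F.hrg
    F'.hbl F'.hrg F.br F'.br c1 c2) hbij.injOn hx
  have hex := UJ4x420.exCov .free n hR D hD x hx hinj
  have hex' := UJ4x420.exCov .free n hR D' hD' _ hx' hinj'
  have hne' : ∀ z ∈ D, (∀ i, x i ≠ z) → ∀ i, φ (x i) ≠ φ z := fun z hz hxz i e =>
    hxz i (hbij.injOn (hx i) hz e)
  refine ⟨ρ, h1, fun z z' hz hz' hzz hxz hxz' c c' => ?_, fun z hz hxz c c' => ?_⟩
  · rw [off_unique L K1 hex hz hz' hzz hxz hxz',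
      off_unique L' K2 hex' (hbij.mapsTo hz) (hbij.mapsTo hz')
        (fun e => hzz (hbij.injOn hz hz' e)) (hne' z hz hxz) (hne' z' hz' hxz')]
    exact h2 z z' hz hz' hzz hxz hxz' c c'
  · rw [diag_unique L K1 hex hz hxz, diag_unique L' K2 hex' (hbij.mapsTo hz) (hne' z hz hxz)]
    exact h3 z hz hxz c c'

end

/-! ### block U from the remaining leaves -/

/-- the leaves of block U which are still open -/
structure ULeaves3 : Prop where
  /-- compactness of the lattice resolvents (943) -/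
  comp : ∀ D : Set ℂ, IsC2JordanDomain D → MacIx610.Comp D
  /-- uniqueness of `L²` spinors (719) -/
  uniqL2 : ∀ D : Set ℂ, IsC2JordanDomain D → MacIx610.UniqL2 D
  /-- branch limits (576, 644) -/
  br : BrLeaf
  /-- logarithmic derivatives (813) -/
  ld : LdLeaf
  /-- uniqueness of spinors with finitely many singularities (719, 697, 67) -/
  uniq : Uniq
  /-- resolvent limits in the plane (811, 654, 422) -/
  resPl : ∀ n : ℕ, Even n → ∀ x : Fin n → ℂ, Function.Injective x →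
    ∃ Q, MacIx622.ResConv (Mac0x622.Om Set.univ x) x (PlOutx304.PlSeq x) Q
  /-- logarithmic derivatives of the plane (817) -/
  plLd : PlLd

theorem mac (H : ULeaves3) : MacLeaf := MacLfx304.macLeaf H.comp H.uniqL2

theorem kerPl (H : ULeaves3) : UPlx641.KerPl :=
  PlOut2x304.kerPl_of_res Pl4x654.exCovPl H.resPl

theorem spinPlus (H : ULeaves3) : SpinInB .plus Lam :=
  spinInB_plus (fun _ hD => ldf_dom H.ld hD) (covA_of (aiCov H.uniq) H.br)

theorem brLim (H : ULeaves3) : Kw9x871.BrLim Kw9x871.kapB := brLim_of H.br U3Twox697.discTwo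

theorem in5 (H : ULeaves3) : U5gx697.In5 Lam Kw9x871.kapB where
  ut := Spx583.UTb_of torPl
  spin := spinPlus H
  mu := Kw9x871.muIn_kapB (brLim H)
  wu := Spx583.wu_Pc torPl

theorem spinOut_plus (H : ULeaves3) (n : ℕ) : SpinOut .plus n := by
  obtain ⟨g, hg⟩ := (in5 H).twoPt
  exact Nm7x422.spinOut_plus' (spinPlus H) hg n

theorem spinFree (H : ULeaves3) : SpinInB .free SpFr3x422.LamF :=
  SpFr3x422.spinInB_free H.ld H.br H.uniq (brLim H) (spinOut_plus H 1)

theorem spinLeaf (H : ULeaves3) : SpinLeaf := by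
  intro b n hn hR
  rcases hR with rfl | ⟨rfl, he⟩
  · exact spinOut_plus H n
  · exact (in5 H).spinOut_free (spinFree H) he

theorem kerEx (H : ULeaves3) : KerEx :=
  kerEx_of_B (kerExB_of UJ4x420.exCov (kerAll_plus (mac H) H.uniq))
    (kerExB_free (mac H) H.br H.uniq (brLim H) (spinOut_plus H 1))

theorem kerCv (H : ULeaves3) : KerCv :=
  kerCv_of_B (kerCvB_of UJ4x420.exCov (kerAll_plus (mac H) H.uniq))
    (kerCvB_free (mac H) H.br H.uniq (brLim H) (spinOut_plus H 1))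

/-- **BLOCK U** from the open leaves -/
theorem ulimB3 (H : ULeaves3) : ULimB where
  ud := UJ4x420.UDb_of' (spinLeaf H) (kerEx H)
  ut := (in5 H).ut
  up := by
    obtain ⟨LamP, hP⟩ := plIn_of H.plLd
    exact UPlx641.UPb_of ((in5 H).spPl hP) Pl4x654.exCovPl (kerPl H) (Pl4x654.j2Pl torPl) (in5 H).ut
  u2 := (in5 H).u2c
  uc := UJ4x420.UCb_of' (spinLeaf H) (kerEx H) (kerCv H)

end Crest.Agent.R165.UFreex641
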