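import Crest.Agent.R165.PlMacH_811
import Crest.Agent.R165.PlMacDiff_654
import Crest.Agent.R165.UFree_641

/-!
# Row 165 (S0250), block U, the plane: `resPl` and `KerPl` from `LocComp`, `Glue` (helper811)

* `resConv` : the convergence of the lattice resolvents of the plane (for 817's `PlLd`)
* `resPl`   : the leaf `resPl` of 641
* `kerPl`   : the leaf `KerPl` of 641
-/

set_option autoImplicit false

noncomputable section

open Set Filter Topology

namespace Crest.Agent.R165.ResPlx811

open Crest.Agent.R165.PlHx811

/-- convergence of the lattice resolvents of the plane -/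
theorem resConv (hL : LocComp) (hG : Glue) {n : ℕ} (hn : Even n) {x : Fin n → ℂ}
    (hx : Function.Injective x) :
    MacIx622.ResConv (Mac0x622.Om Set.univ x) x (PlOutx304.PlSeq x) (fun _ _ => True) :=
  PlDx654.resConv_of_comp hx (pcomp hL hG hn)

/-- the leaf `resPl` -/
theorem resPl (hL : LocComp) (hG : Glue) :
    ∀ n : ℕ, Even n → ∀ x : Fin n → ℂ, Function.Injective x →
      ∃ Q, MacIx622.ResConv (Mac0x622.Om Set.univ x) x (PlOutx304.PlSeq x) Q :=
  fun _ hn _ hx => ⟨_, resConv hL hG hn hx⟩

/-- the leaf `KerPl` -/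
theorem kerPl (hL : LocComp) (hG : Glue) : UPlx641.KerPl :=
  PlOut2x304.kerPl_of_res Pl4x654.exCovPl (resPl hL hG)

end Crest.Agent.R165.ResPlx811
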