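import Crest.Agent.R165.SRdom_900
import Crest.Agent.R165.ConstB_67
import Crest.Agent.R165.Comp7_889
import Crest.Agent.R165.J4K0Sym_126

/-!
# Row 165 (S0250): the leaf `SpDL` from the U-leaf `SpinLeaf` (helper67)

* `symL` : `SymL J R V` under `VHyp R V`
* `domBd` : `DomBd J R V`
* `spd` : field `spd` of `PTop3_386.Leaves3`
-/

set_option autoImplicit false

noncomputable section

open Filter Topology
open scoped ENNReal
open Crest.Agent.R165.Topx683 Crest.Agent.R165.PTopx386 Crest.Agent.R165.SRdomx900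

namespace Crest.Agent.R165.SpPLx67

/-- the symmetry of the initial activities of the plane -/
theorem symL {J : ℝ} {R : ℕ} {V : Finset (ℤ × ℤ) → ℝ} (hV : VHyp R V) : Compx889.SymL J R V :=
  fun _ _ _ l k0 =>
    J4K0Symx126.K0_plSym (fun A z => hV.trans A z) (fun A h => hV.range A h)
      (fun S => hV.rot S) (fun S => hV.refl S) l k0

/-- **the bounds of the domain flows** -/
theorem domBd {J : ℝ} {R : ℕ} {V : Finset (ℤ × ℤ) → ℝ} (hV : VHyp R V) : DomBd J R V := by
  refine PTopx386.ForP.imp (Compx889.dom_forP (symL hV)) ?_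
  intro c lam β z h D hD b n hR x hx hinj
  obtain ⟨C', d1, hd1, h⟩ := h D hD b n hR x hx hinj
  exact ⟨C', d1, hd1, fun δ h0 h1 => (h δ h0 h1).mono fun a ha => ha⟩

/-- **the leaf `SpDL`** (field `spd` of `Leaves3`) from the U-leaf `SpinLeaf` -/
theorem spd (hS : UFinx420.SpinLeaf) (J : ℝ) (hJ : 0 < J) (R : ℕ) (V : Finset (ℤ × ℤ) → ℝ)
    (hV : VHyp R V) : SpDL J R V := spDL_of hS hJ hV (domBd hV) (constB J R V)

end Crest.Agent.R165.SpPLx67
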