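import Crest.Agent.R165.Fin5_315
import Crest.Agent.R165.SpinDom2_432
import Crest.Agent.R165.PTop_386
import Crest.Agent.R165.GeoScale_420

/-!
# Row 165 (S0250): the leaf `SpDL` from the bounds of P8 (helper315)

* `DBd c P M D b x δ` : the bounds of the flow of the domain `D` with the spins `x` up to the last
  scale `lastK (δ / a)`
* `spinData_C2` : `SpinData` for the spin ratio, from `DBd` (with and without spins) and the bounds of
  the planes with / without branch point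
* `DomP8 J R V` : the bounds in the quantifier order of `ForP`
* `spDL_of : SpinOut … → DomP8 J R V → SpDL J R V`
-/

set_option autoImplicit false
set_option linter.unusedSectionVars false

noncomputable section

namespace Crest.Agent.R165.SpDWirex315

open scoped ENNReal
open Filter Topology
open Crest.ProbabilityR.IsingModel
open Crest.Agent.R165.Gr0x606 Crest.Agent.R165.Gr1x606 Crest.Agent.R165.GeOpsx337
open Crest.Agent.R165.Latx683 Crest.Agent.R165.GDefx387 Crest.Agent.R165.GSysx387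
open Crest.Agent.R165.KFlowx337 Crest.Agent.R165.Telx337 Crest.Agent.R165.FRDPolyx439
  Crest.Agent.R165.FRDLatx439
open Crest.Agent.R165.BgIsox432 Crest.Agent.R165.NSumx915 Crest.Agent.R165.Bridgex915
open Crest.Agent.R165.Bkgx683 Crest.Agent.R165.PEndx683 Crest.Agent.R165.Outx683
open Crest.Agent.R165.UKerx420 (Cof Sof Sof_spec Sof_skew wD)
open Crest.Agent.R165.JRunx445 Crest.Agent.R165.Fin2x315 Crest.Agent.R165.Fin3x315
  Crest.Agent.R165.Fin4x315 Crest.Agent.R165.Fin5x315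
open Crest.Agent.R165.U5Px422 (TT mem_TT SpinOut Conf lapp_meshIndex)
open Crest.Agent.R165.Redx541 Crest.Agent.R165.Red2x541 Crest.Agent.R165.Centx541
  Crest.Agent.R165.Symx541 Crest.Agent.R165.SRx541 Crest.Agent.R165.Topx683
open Crest.Agent.R165.Scalex900 Crest.Agent.R165.SDatax900 Crest.Agent.R165.SpinSysx892
  Crest.Agent.R165.DiscDatax892 Crest.Agent.R165.SpinDomx432 Crest.Agent.R165.PTopx386

/-! ### numbers -/

/-- the numerical conditions on the constants -/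
structure Num (c : Cst) : Prop where
  p : 1 ≤ c.p
  h5 : 5 ≤ c.p * (c.k0 + 1)
  G4 : 4 ≤ c.Γ
  A0 : 0 < c.A0
  d : 0 < c.δ

theorem ev_num : EvC Num := by
  filter_upwards [eventually_ge_atTop 1] with p hp
  filter_upwards [eventually_ge_atTop 4] with Γ hΓ
  filter_upwards [eventually_ge_atTop 4] with k0 hk
  filter_upwards [eventually_gt_atTop 0] with A0 hA
  filter_upwards [self_mem_nhdsWithin] with δ hδ
  refine ⟨hp, ?_, hΓ, hA, hδ⟩
  show 5 ≤ p * (k0 + 1)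
  nlinarith

theorem forP_z (J : ℝ) (PF : ℝ → Cst → ℝ → ℝ → ℝ → Prop) :
    ForP J PF fun _ _ _ z => 0 < 1 + z := by
  refine EvC.of_forall fun c C => ⟨1 / (|C| + 1), by positivity, fun lam β z hl hn _ => ?_⟩
  unfold NearP at hn
  have h1 : |z| ≤ C * |lam| := by linarith [abs_nonneg (β - criticalBeta J)]
  have h2 : C * |lam| ≤ |C| * |lam| := mul_le_mul_of_nonneg_right (le_abs_self C) (abs_nonneg _)
  have h3 : |C| * |lam| < 1 := by
    have h4 : (|C| + 1) * |lam| < 1 := by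
      have := mul_lt_mul_of_pos_left hl (by positivity : 0 < |C| + 1)
      rwa [mul_one_div_cancel (by positivity)] at this
    nlinarith [abs_nonneg lam]
  have h5 := neg_abs_le z
  linarith

/-! ### the bounds -/

/-- bounds of the flow of the domain `D` with the spins `x`, up to the last scale -/
def DBd (c : Cst) (P : MPar) (M : ℝ) (D : Set ℂ) (b : BoundaryCondition) {n : ℕ} (x : Fin n → ℂ)
    (δ : ℝ) : Prop :=
  ∀ᶠ a in 𝓝[>] (0 : ℝ),
    Bd (domF c P (TT D a) b (fun i => meshIndex a (x i))) fd (fun k => rr c.p c.k0 (k + 1))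
      (nearR c.p c.k0) (ENNReal.ofReal c.Γ) (fun k => M * (1 / 2) ^ k) (lastK c.p c.k0 (δ / a)) ∧
    NK (Bg.dom (TT D a) b (fun i => meshIndex a (x i))).w (amp c (lastK c.p c.k0 (δ / a)))
      (rr c.p c.k0 (lastK c.p c.k0 (δ / a))) (ENNReal.ofReal c.Γ) (fun _ => True)
      (fun U => ((domF c P (TT D a) b (fun i => meshIndex a (x i))).K
        (lastK c.p c.k0 (δ / a)) U : Gr (Fld ℤ))) ≤
      ENNReal.ofReal (M * (1 / 2) ^ (lastK c.p c.k0 (δ / a)))

theorem ev_div (δ : ℝ) (hδ : 0 < δ) (B : ℝ) : ∀ᶠ a in 𝓝[>] (0 : ℝ), B ≤ δ / a :=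
  (tendsto_div_mesh hδ).eventually_ge_atTop B

theorem lastK_top {p k0 : ℕ} (hp : 1 ≤ p) {δ : ℝ} (hδ : 0 < δ) :
    Tendsto (fun a : ℝ => lastK p k0 (δ / a)) (𝓝[>] 0) atTop := by
  have h2 : (0 : ℝ) < δ / 2 ^ p := by positivity
  exact N_tendsto (p := p) (k0 := k0) (tendsto_div_mesh h2)
    (lastK_lower (p := p) (k0 := k0) hp (Eventually.of_forall fun _ => rfl))

theorem fin_of_dbd (hP : SpinOut .plus 1) (hF : ∀ n, Even n → SpinOut .free n) {c : Cst}
    (hc : Num c) {P : MPar} {M : ℝ} {D : Set ℂ} (hD : IsC2JordanDomain D)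
    {b : BoundaryCondition} {n : ℕ} (hb : Rel b n) {x : Fin n → ℂ} (hx : ∀ i, x i ∈ D)
    (hi : Function.Injective x) {δ : ℝ} (hδ : 0 < δ) (h : DBd c P M D b x δ) {B : ℝ}
    (hB : 0 ≤ B) :
    Tendsto (fun a => Zf (domF c P (TT D a) b (fun i => meshIndex a (x i))) (volA B a P.R)
      (lastK c.p c.k0 (δ / a))
      (SfT c (Bg.dom (TT D a) b (fun i => meshIndex a (x i))).w (lastK c.p c.k0 (δ / a))))
      (𝓝[>] 0) (𝓝 1) := by
  have hK := lastK_top (k0 := c.k0) hc.p hδ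
  refine fin_C2 hP hF (κ := δ / 2 ^ c.p) (by positivity) (by linarith [hc.G4]) hb hD hB hx hi
    (N := fun a => lastK c.p c.k0 (δ / a))
    (lastK_lower hc.p (Eventually.of_forall fun _ => rfl))
    (A := fun a => amp c (lastK c.p c.k0 (δ / a))) (amp_tendsto hc.A0 hc.d hK) P ?_
  have h1 : Tendsto (fun a : ℝ => ENNReal.ofReal (M * (1 / 2) ^ (lastK c.p c.k0 (δ / a))))
      (𝓝[>] 0) (𝓝 0) := by
    have h2 : Tendsto (fun k : ℕ => M * (1 / 2 : ℝ) ^ k) atTop (𝓝 (M * 0)) :=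
      (tendsto_pow_atTop_nhds_zero_of_lt_one (by norm_num) (by norm_num)).const_mul M
    rw [mul_zero] at h2
    have h3 := (ENNReal.continuous_ofReal.tendsto 0).comp (h2.comp hK)
    rw [ENNReal.ofReal_zero] at h3
    exact h3
  refine tendsto_of_tendsto_of_tendsto_of_le_of_le' tendsto_const_nhds h1
    (Eventually.of_forall fun _ => zero_le) ?_
  filter_upwards [h] with a ha using ha.2

/-- **the spin data of a domain** -/
theorem spinData_C2 (hP : SpinOut .plus 1) (hF : ∀ n, Even n → SpinOut .free n) {J : ℝ}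
    (hJ : J ≠ 0) {R : ℕ} {V : Finset (ℤ × ℤ) → ℝ} (hV : VHyp R V) {c : Cst} (hc : Num c)
    {lam β z : ℝ} (hz : 0 < 1 + z) {M : ℝ} (hM : 0 ≤ M)
    (hBR : ∀ (y : ℤ × ℤ) (N : ℕ), Bd (brF c (mpar J lam R V β z) y) fd
      (fun k => rr c.p c.k0 (k + 1)) (nearR c.p c.k0) (ENNReal.ofReal c.Γ)
      (fun k => M * (1 / 2) ^ k) N)
    (hPL : ∀ N : ℕ, Bd (plF c (mpar J lam R V β z)) fd (fun k => rr c.p c.k0 (k + 1))
      (nearR c.p c.k0) (ENNReal.ofReal c.Γ) (fun k => M * (1 / 2) ^ k) N)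
    {D : Set ℂ} (hD : IsC2JordanDomain D) {b : BoundaryCondition} {n : ℕ} (hb : Rel b n)
    {x : Fin n → ℂ} (hx : ∀ i, x i ∈ D) (hi : Function.Injective x)
    (h1 : ∃ d > 0, ∀ δ, 0 < δ → δ ≤ d → DBd c (mpar J lam R V β z) M D b x δ)
    (h0 : ∃ d > 0, ∀ δ, 0 < δ → δ ≤ d →
      DBd c (mpar J lam R V β z) M D b (fun i : Fin 0 => (i.elim0 : ℂ)) δ) :
    ∃ G : ScaleData (fd : ℤ × ℤ → ℤ × ℤ → ℕ), Nonempty (SpinData G (𝓝[>] (0 : ℝ)) n
      (fun a => spm D a b J lam R V β x / spm0 D a b x) (zetaK c (mpar J lam R V β z))) := by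
  obtain ⟨δ₀, hδ₀, hsd⟩ := spinData_dom (isOpen_of_C2 hD) hx hi
  obtain ⟨d1, hd1, h1⟩ := h1
  obtain ⟨d0, hd0, h0⟩ := h0
  obtain ⟨B, hB0, hB⟩ : ∃ B : ℝ, 0 ≤ B ∧ ∀ z ∈ D, ‖z‖ ≤ B := by
    obtain ⟨B, hB⟩ := (bounded_of_C2 hD).exists_norm_le
    exact ⟨max B 0, le_max_right _ _, fun z hz => (hB z hz).trans (le_max_left _ _)⟩
  have hbm : b ≠ BoundaryCondition.minus := by
    rcases hb with rfl | ⟨rfl, -⟩ <;> decide
  have hb0 : Rel b 0 := by
    rcases hb with rfl | ⟨rfl, -⟩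
    · exact Or.inl rfl
    · exact Or.inr ⟨rfl, Even.zero⟩
  set δ := min δ₀ (min d1 d0) with hδdef
  have hδ : 0 < δ := lt_min hδ₀ (lt_min hd1 hd0)
  have hδ1 : δ ≤ d1 := (min_le_right _ _).trans (min_le_left _ _)
  have hδ2 : δ ≤ d0 := (min_le_right _ _).trans (min_le_right _ _)
  have hδ3 : δ ≤ δ₀ := min_le_left _ _
  have hA := h1 δ hδ hδ1
  have hE := h0 δ hδ hδ2
  set P := mpar J lam R V β z with hPd
  set E : ℕ → ℝ := fun k => M * (1 / 2) ^ k with hEd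
  have hE0 : ∀ k, 0 ≤ E k := fun k => by positivity
  have hEs : Summable E :=
    (summable_geometric_of_lt_one (by norm_num) (by norm_num)).mul_left M
  have hΓ4 : (4 : ℝ≥0∞) ≤ ENNReal.ofReal c.Γ := by
    have := ENNReal.ofReal_le_ofReal hc.G4
    simpa using this
  have hΓt : ENNReal.ofReal c.Γ ≠ ∞ := ENNReal.ofReal_ne_top
  have hlk : ∀ᶠ a in 𝓝[>] (0 : ℝ), Links D a b (fun i => meshIndex a (x i)) :=
    links_C2 b n hb hD x hx
  have hlk0 : ∀ᶠ a in 𝓝[>] (0 : ℝ), Links D a b (fun i : Fin 0 => i.elim0) :=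
    links_C2_zero b hbm hD
  have hX0 : ∀ a : ℝ, (fun i : Fin 0 => meshIndex a ((fun j : Fin 0 => (j.elim0 : ℂ)) i)) =
      (fun i : Fin 0 => (i.elim0 : ℤ × ℤ)) := fun a => funext fun i => i.elim0
  have hpos : ∀ᶠ a in 𝓝[>] (0 : ℝ), spm0 D a b x ≠ 0 := by
    filter_upwards [JDomAx606.ev_C2 b hb hD x hx (fun k : Fin 0 => k.elim0) (fun k => k.elim0)
      (fun k => k.elim0)] with a h3
    exact h3.2.2.2.1.ne'
  refine ⟨gScale (G := ℤ) c.p c.k0 128 hΓ4 hΓt hE0 hEs, ?_⟩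
  refine hsd hΓ4 hΓt hE0 hEs P hc.h5 hc.p b (l := 𝓝[>] (0 : ℝ)) (a := fun a => a) tendsto_id
    (fun a => TT D a) ?_ (fun _ => fun i : Fin 0 => i.elim0)
    (fun a => lastK c.p c.k0 (δ / a)) (lastK_top hc.p hδ) ?_
    (fun a => volA B a P.R) (fun a => volA B a P.R)
    (fun a => Cof (Bg.dom (TT D a) b (fun i => meshIndex a (x i))).w)
    (fun a => SfT c (Bg.dom (TT D a) b (fun i => meshIndex a (x i))).w
      (lastK c.p c.k0 (δ / a)))
    (fun a => Cof (Bg.dom (TT D a) b (fun i : Fin 0 => i.elim0)).w)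
    (fun a => SfT c (Bg.dom (TT D a) b (fun i : Fin 0 => i.elim0)).w (lastK c.p c.k0 (δ / a)))
    ?_ ?_ ?_ ?_ (Eventually.of_forall fun a j => hBR _ _) (Eventually.of_forall fun a => hPL _)
    ?_ ?_ ?_
  · filter_upwards [self_mem_nhdsWithin] with a ha
    exact TT_coe (domainSites_finite (bounded_of_C2 hD) ha)
  · filter_upwards [ev_div δ hδ ((2 : ℝ) ^ (c.p * c.k0)), self_mem_nhdsWithin] with a ha ha'
    refine (GeoScx420.rr_le_of_le_KK ha le_rfl).trans ?_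
    have : (0 : ℝ) < a := ha'
    gcongr
  · filter_upwards [hlk, self_mem_nhdsWithin] with a h ha
    exact links_fl h c P hc.h5 (volA_vol hB ha b P.R) _
  · filter_upwards [hlk0, self_mem_nhdsWithin] with a h ha
    exact links_fl h c P hc.h5 (volA_vol hB ha b P.R) _
  · filter_upwards [hA] with a h using h.1
  · filter_upwards [hE] with a h
    have h2 := h.1
    rw [hX0 a] at h2
    exact h2
  · exact fin_of_dbd hP hF hc hD hb hx hi hδ hA hB0
  · have h3 := fin_of_dbd hP hF hc hD hb0 (x := fun i : Fin 0 => (i.elim0 : ℂ))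
      (fun i => i.elim0) (fun i => i.elim0) hδ hE hB0
    refine h3.congr fun a => ?_
    rw [hX0 a]
  · filter_upwards [hlk, hlk0, hpos, self_mem_nhdsWithin] with a h2 h3 h4 ha
    exact links_ratio h2 h3 hbm h4 hJ hV c hc.h5 lam β z hz (volA_vol hB ha b P.R)

/-- **the bounds of P8 for domains** in the quantifier order of `ForP` -/
def DomP8 (J : ℝ) (R : ℕ) (V : Finset (ℤ × ℤ) → ℝ) : Prop :=
  ForP J (PF J R V) fun c lam β z => ∃ M : ℝ, 0 ≤ M ∧
    (∀ (y : ℤ × ℤ) (N : ℕ), Bd (brF c (mpar J lam R V β z) y) fd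
      (fun k => rr c.p c.k0 (k + 1)) (nearR c.p c.k0) (ENNReal.ofReal c.Γ)
      (fun k => M * (1 / 2) ^ k) N) ∧
    (∀ N : ℕ, Bd (plF c (mpar J lam R V β z)) fd (fun k => rr c.p c.k0 (k + 1))
      (nearR c.p c.k0) (ENNReal.ofReal c.Γ) (fun k => M * (1 / 2) ^ k) N) ∧
    ∀ D : Set ℂ, IsC2JordanDomain D → ∀ (b : BoundaryCondition) (n : ℕ), Rel b n →
      ∀ x : Fin n → ℂ, (∀ i, x i ∈ D) → Function.Injective x →
        ∃ d > 0, ∀ δ, 0 < δ → δ ≤ d → DBd c (mpar J lam R V β z) M D b x δ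

/-- **the leaf `SpDL`** -/
theorem spDL_of (hP : SpinOut .plus 1) (hF : ∀ n, Even n → SpinOut .free n) {J : ℝ} (hJ : 0 < J)
    {R : ℕ} {V : Finset (ℤ × ℤ) → ℝ} (hV : VHyp R V) (h : DomP8 J R V) : SpDL J R V := by
  have hnum : ForP J (PF J R V) fun c _ _ _ => Num c :=
    ev_num.mono fun c hc C => ⟨1, one_pos, fun _ _ _ _ _ _ => hc⟩
  refine ForP.imp (ForP.and (ForP.and h hnum) (forP_z J (PF J R V))) ?_
  rintro c lam β z ⟨⟨⟨M, hM, hBR, hPL, hD8⟩, hc⟩, hz⟩ D hD b n _ hb x hx hi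
  have hb0 : Rel b 0 := by
    rcases hb with rfl | ⟨rfl, -⟩
    · exact Or.inl rfl
    · exact Or.inr ⟨rfl, Even.zero⟩
  exact spinData_C2 hP hF hJ.ne' hV hc hz hM hBR hPL hD hb hx hi (hD8 D hD b n hb x hx hi)
    (hD8 D hD b 0 hb0 _ (fun i => i.elim0) (fun i => i.elim0))

end Crest.Agent.R165.SpDWirex315
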