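import Crest.Agent.R165.UB3_641
import Crest.Agent.R165.Kw9_871
import Crest.Agent.R165.StarApp_583
import Crest.Agent.R165.Nm7_422

/-!
# Row 165 (S0250), block U (helper422): free spin correlations, ratio to plus on the starred set

* `wIn T` : half-edge background of the free model in `T` (`xc` on the duals of the bonds inside `T`)
* `exists_isCov_in` : covariance of `wX (wIn T) X`
* `bgFam_in` : `BgFam D (fun a => wIn (TT D a))`
* `RR D a u = GB .free (TT D a) u / GB .plus (starT (TT D a)) u`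
* `rr_sq_eq` : `RR² = det Mt`
* `rr_sq_tendsto` : limit of `RR²` under `BrLeaf`
-/

set_option autoImplicit false
set_option linter.unusedSimpArgs false
set_option linter.unusedSectionVars false

noncomputable section

open Filter Topology
open Crest.ProbabilityR.IsingModel

namespace Crest.Agent.R165.SpFr1x422

open U5Px422
open Latx683 (IsCov wX wDom BW ray HE)
open Kw8x871 (Mt tot free_det mem_in plus_ne)
open Kw5x871 (starT)
open J4Defx653 (EE)
open UB3x641
open USpinx641 (LatApp latApp_TT)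

/-- half-edge background of the free model in `T` -/
def wIn (T : Finset (ℤ × ℤ)) : BW ℤ := fun z j => by
  classical exact
  if ((z, j) : J1ax606.EG ℤ) ∈ (EE T .free).image Kw5x871.dE then Latx683.xc else 0

theorem wIn_eq (T : Finset (ℤ × ℤ)) (e : J1ax606.EG ℤ) :
    wIn T e.1 e.2 = if e ∈ (EE T .free).image Kw5x871.dE then KwHix408.xc else 0 := by
  obtain ⟨z, j⟩ := e
  unfold wIn
  by_cases h : ((z, j) : J1ax606.EG ℤ) ∈ (EE T .free).image Kw5x871.dE
  · rw [if_pos h, if_pos h]; rfl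
  · rw [if_neg h, if_neg h]

/-- the covariance of the free background exists -/
theorem exists_isCov_in (T : Finset (ℤ × ℤ)) {n : ℕ} (X : Fin n → ℤ × ℤ) :
    ∃ S, IsCov (wX (wIn T) X) S := by
  refine (Covx359.existsUnique_isCov_of_lt (wX (wIn T) X) ((EE T .free).image Kw5x871.dE)
    (fun e he => ?_) (fun e _ => ?_)).exists
  · rw [Covx359.un_wX]
    simp only
    rw [Covx359.un, wIn_eq, if_neg he, zero_mul]
  · rw [Covx359.un_wX]
    simp only
    rw [abs_mul, Covx359.abs_cut, mul_one, Covx359.un, wIn_eq]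
    split_ifs
    have h1 : |Latx683.xc| < 1 := by
      rw [abs_of_pos Covx359.xc_pos]; exact Covx359.xc_lt_one
    exact h1

theorem mem_in' {T : Finset (ℤ × ℤ)} (z : ℤ × ℤ) (j : Fin 2) :
    ((z, j) : J1ax606.EG ℤ) ∈ (EE T .free).image Kw5x871.dE ↔
      z - (if j = 0 then (0, 1) else (1, 0)) ∈ T ∧ z ∈ T := by
  have h := mem_in (T' := T) z
  fin_cases j
  · simpa using h.1
  · simpa using h.2

/-- the free backgrounds form a family for `D` -/
theorem bgFam_in {D : Set ℂ} {T : ℝ → Finset (ℤ × ℤ)} (hO : IsOpen D) (h : LatApp D T) :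
    BgFam D fun a => wIn (T a) where
  val := Eventually.of_forall fun a z j => by
    have := wIn_eq (T a) (z, j)
    simp only at this
    rw [this]
    split_ifs
    · exact Or.inr rfl
    · exact Or.inl rfl
  inn K hK hKD := by
    obtain ⟨δ, hδ, hKδ⟩ := hK.exists_cthickening_subset_open hO hKD
    have h1 := h.inn _ hK.cthickening hKδ
    have h2 : ∀ᶠ a in 𝓝[>] (0 : ℝ), a ≤ δ :=
      mem_nhdsWithin_of_mem_nhds (Iic_mem_nhds hδ)
    filter_upwards [h1, h2, self_mem_nhdsWithin] with a ha had ha0 z j hz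
    have ha0' : (0 : ℝ) < a := ha0
    have e := wIn_eq (T a) (z, j)
    simp only at e
    rw [e, if_pos]
    · rfl
    rw [mem_in']
    refine ⟨ha _ (Metric.mem_cthickening_of_dist_le _ _ _ _ hz ?_),
      ha _ (Metric.self_subset_cthickening _ hz)⟩
    have h3 := mesh_unit_dist ha0' (z - (if j = 0 then (0, 1) else (1, 0))) (1 - j)
    have h4 : z - (if j = 0 then ((0, 1) : ℤ × ℤ) else (1, 0)) + unitVec (1 - j) = z := by
      fin_cases j <;> ext <;> simp [unitVec]
    rw [h4, dist_comm] at h3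
    exact h3.trans had
  out K hK hKD := by
    filter_upwards [h.out K hK hKD] with a ha z j hz
    have e := wIn_eq (T a) (z, j)
    simp only at e
    rw [e, if_neg]
    rw [mem_in']
    rintro ⟨-, h2⟩
    exact ha z hz h2

/-! ### the ratio -/

/-- free in `T` over plus in the starred set -/
def RR (D : Set ℂ) (a : ℝ) {n : ℕ} (u : Fin n → ℤ × ℤ) : ℝ :=
  GB .free (TT D a) u / GB .plus (starT (TT D a)) u

theorem RR_nonneg (D : Set ℂ) (a : ℝ) {n : ℕ} (u : Fin n → ℤ × ℤ) : 0 ≤ RR D a u :=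
  div_nonneg (GB_nonneg (by decide) _ _) (GB_nonneg (by decide) _ _)

/-- plus correlations are positive -/
theorem plus_pos {T : Finset (ℤ × ℤ)} (hT : J1cx606.NoHole T) {n : ℕ} (X : Fin n → ℤ × ℤ) :
    0 < GB .plus T X := by
  obtain ⟨S, hS, -⟩ := Covx359.exists_isCov_plus T X
  exact lt_of_le_of_ne (GB_nonneg (by decide) _ _) (plus_ne hT hS).symm

theorem inj_of_lapp {n : ℕ} {u : ℝ → Fin n → ℤ × ℤ} {x : Fin n → ℂ} (h : LApp u x)
    (hx : Function.Injective x) : ∀ᶠ a in 𝓝[>] (0 : ℝ), Function.Injective (u a) := by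
  have h1 : ∀ i j : Fin n, i ≠ j → ∀ᶠ a in 𝓝[>] (0 : ℝ), u a i ≠ u a j := by
    intro i j hij
    have hne : x i ≠ x j := fun e => hij (hx e)
    obtain ⟨U, V, hU, hV, h0, h1, hd⟩ := t2_separation hne
    filter_upwards [(h i).eventually (hU.mem_nhds h0), (h j).eventually (hV.mem_nhds h1)]
      with a h2 h3 h4
    rw [← h4] at h3
    exact Set.disjoint_left.1 hd h2 h3
  have h2 : ∀ᶠ a in 𝓝[>] (0 : ℝ), ∀ p : Fin n × Fin n, p.1 ≠ p.2 → u a p.1 ≠ u a p.2 :=
    eventually_all.2 fun p => by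
      by_cases hp : p.1 = p.2
      · exact Eventually.of_forall fun a h => absurd hp h
      · filter_upwards [h1 p.1 p.2 hp] with a ha _ using ha
  filter_upwards [h2] with a ha i j hij
  by_contra hne
  exact ha (i, j) hne hij

/-- **the square of the ratio is a determinant** -/
theorem rr_sq_eq {D : Set ℂ} (hD : IsC2JordanDomain D) {n : ℕ} {x : Fin n → ℂ}
    (hx : x ∈ Conf D n) {u : ℝ → Fin n → ℤ × ℤ} (hu : LApp u x) {S : ℝ → HE ℤ → HE ℤ → ℝ}
    (hS : ∀ᶠ a in 𝓝[>] (0 : ℝ), IsCov (wX (wIn (TT D a)) (u a)) (S a)) :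
    ∀ᶠ a in 𝓝[>] (0 : ℝ), (RR D a (u a)) ^ 2 = (Mt (S a) (u a)).det := by
  filter_upwards [hS, Kw9x871.noHole_TT hD, StarAppx583.eventually_noHole_starT hD,
    inj_of_lapp hu hx.2, hu.mem (Redx541.bounded_of_C2 hD) (Red2x541.isOpen_of_C2 hD) hx.1]
    with a h1 h2 h3 h4 h5
  have h6 := free_det h2 h4 h5 (wIn_eq (TT D a)) h1
  have h7 := (plus_pos h3 (u a)).ne'
  unfold RR
  rw [div_pow, h6, mul_div_assoc, div_self (pow_ne_zero 2 h7), mul_one]

/-- limit matrix -/
def Bm {n : ℕ} (c2 : ℝ) (x : Fin n → ℂ) (g : Fin n → ℂ → ℂ) : Matrix (Fin n) (Fin n) ℝ :=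
  Matrix.of fun j i => if j = i then 0 else c2 * (g i (x j) / (Complex.I * gsrc x j)).re

theorem det_signs {n : ℕ} (M : Matrix (Fin n) (Fin n) ℝ) (k : Fin n → ℝ) (hk : ∀ i, k i * k i = 1) :
    (Matrix.of fun j i => k j * k i * M j i).det = M.det := by
  have h : (Matrix.of fun j i => k j * k i * M j i) =
      Matrix.diagonal k * M * Matrix.diagonal k := by
    ext j i
    rw [Matrix.mul_diagonal, Matrix.diagonal_mul, Matrix.of_apply]
    ring
  rw [h, Matrix.det_mul, Matrix.det_mul, Matrix.det_diagonal]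
  have h2 : (∏ i, k i) * (∏ i, k i) = 1 := by
    rw [← Finset.prod_mul_distrib]
    exact Finset.prod_eq_one fun i _ => hk i
  linear_combination M.det * h2

theorem tot_self {S : HE ℤ → HE ℤ → ℝ} (hS : ∀ h h', S h h' = -S h' h) (f : ℤ × ℤ) :
    tot S f f = 0 := by
  have h : tot S f f = - tot S f f := by
    unfold tot
    conv_lhs => rw [Finset.sum_comm]
    rw [← Finset.sum_neg_distrib]
    refine Finset.sum_congr rfl fun i _ => ?_
    rw [← Finset.sum_neg_distrib]
    exact Finset.sum_congr rfl fun j _ => hS _ _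
  linarith

/-- **limit of the determinants** -/
theorem det_tendsto {c1 c2 : ℝ} {D : Set ℂ} {n : ℕ} {x : Fin n → ℂ} {w : ℝ → BW ℤ}
    {X : ℝ → Fin n → ℤ × ℤ} {g : Fin n → ℂ → ℂ} (h : BrF c1 c2 D x w X g)
    {S : ℝ → HE ℤ → HE ℤ → ℝ} (hS : ∀ᶠ a in 𝓝[>] (0 : ℝ), IsCov (wX (w a) (X a)) (S a)) :
    Tendsto (fun a => (Mt (S a) (X a)).det) (𝓝[>] 0) (𝓝 (Bm c2 x g).det) := by
  have h1 : Tendsto (fun a => Matrix.of fun j i => kapX x (X a) j * kapX x (X a) i *
      Mt (S a) (X a) j i) (𝓝[>] (0 : ℝ)) (𝓝 (Bm c2 x g)) := by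
    refine tendsto_pi_nhds.2 fun j => tendsto_pi_nhds.2 fun i => ?_
    by_cases hij : j = i
    · subst hij
      have e : Bm c2 x g j j = 0 := by simp [Bm]
      rw [e]
      refine tendsto_const_nhds.congr' ?_
      filter_upwards [hS] with a ha
      show (0 : ℝ) = kapX x (X a) j * kapX x (X a) j * tot (S a) (X a j) (X a j)
      rw [tot_self ha.skew, mul_zero]
    · have e : Bm c2 x g j i = c2 * (g i (x j) / (Complex.I * gsrc x j)).re := by
        simp [Bm, hij]
      rw [e]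
      exact h.cor S hS i j (Ne.symm hij)
  have h2 := (Continuous.matrix_det (continuous_id (X := Matrix (Fin n) (Fin n) ℝ))).tendsto
    (Bm c2 x g)
  refine (h2.comp h1).congr fun a => ?_
  simp only [Function.comp, id]
  exact det_signs (Mt (S a) (X a)) (fun i => kapX x (X a) i) fun i => by
    unfold kapX; exact UKerx420.kap_sq _ _ _ _

/-- **limit of the squared ratio** -/
theorem rr_sq_tendsto {c1 c2 : ℝ} {D : Set ℂ} (hD : IsC2JordanDomain D) {n : ℕ} {x : Fin n → ℂ}
    (hx : x ∈ Conf D n) {g : Fin n → ℂ → ℂ}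
    (h : ∀ (w : ℝ → BW ℤ) (X : ℝ → Fin n → ℤ × ℤ), BgFam D w → LApp X x → BrF c1 c2 D x w X g)
    {u : ℝ → Fin n → ℤ × ℤ} (hu : LApp u x) :
    Tendsto (fun a => (RR D a (u a)) ^ 2) (𝓝[>] 0) (𝓝 (Bm c2 x g).det) := by
  have hex : ∀ a : ℝ, ∃ S : HE ℤ → HE ℤ → ℝ, IsCov (wX (wIn (TT D a)) (u a)) S :=
    fun a => exists_isCov_in _ _
  choose S hS using hex
  have hS' : ∀ᶠ a in 𝓝[>] (0 : ℝ), IsCov (wX (wIn (TT D a)) (u a)) (S a) :=
    Eventually.of_forall hS
  have h1 := det_tendsto (h _ u (bgFam_in (Red2x541.isOpen_of_C2 hD) (latApp_TT hD)) hu) hS'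
  exact h1.congr' ((rr_sq_eq hD hx hu hS').mono fun a ha => ha.symm)

/-- **limit of the ratio** -/
theorem rr_tendsto {c1 c2 : ℝ} {D : Set ℂ} (hD : IsC2JordanDomain D) {n : ℕ} {x : Fin n → ℂ}
    (hx : x ∈ Conf D n) {g : Fin n → ℂ → ℂ}
    (h : ∀ (w : ℝ → BW ℤ) (X : ℝ → Fin n → ℤ × ℤ), BgFam D w → LApp X x → BrF c1 c2 D x w X g)
    {u : ℝ → Fin n → ℤ × ℤ} (hu : LApp u x) :
    Tendsto (fun a => RR D a (u a)) (𝓝[>] 0) (𝓝 (Real.sqrt (Bm c2 x g).det)) := by
  have h1 := (Real.continuous_sqrt.tendsto _).comp (rr_sq_tendsto hD hx h hu)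
  refine h1.congr fun a => ?_
  simp only [Function.comp]
  exact Real.sqrt_sq (RR_nonneg _ _ _)

end Crest.Agent.R165.SpFr1x422
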