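import Crest.Agent.R165.SpFr1_422
import Crest.Agent.R165.U3Cov3_67
import Crest.Agent.R165.GeoK_65
import Crest.Agent.R165.GeoP6_67

/-!
# Row 165 (S0250), block U (helper422): covariance of the sources at the insertions

* `biL_of_C2` : conformal bijections of `C²` Jordan domains are bi-Lipschitz
* `BrCov` : covariance of `g_i(x_j) / gsrc x j` up to signs; `brCov : Uniq → BrCov`
* `aiCov : Uniq → AiCov`
* `det_cov` : the determinant of the limit matrix is invariant
-/

set_option autoImplicit false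

noncomputable section

open Filter Topology Set Complex
open Crest.ProbabilityR.IsingModel

namespace Crest.Agent.R165.SpFr2x422

open Crest.Agent.R165.Geo (CD)
open Crest.Agent.R165.Tp416 (BiL)
open U3x719 U3Covx67 UB3x641
open SpFr1x422

/-- conformal bijections of `C²` Jordan domains are bi-Lipschitz -/
theorem biL_of_C2 {D E : Set ℂ} (hD : IsC2JordanDomain D) (hE : IsC2JordanDomain E)
    (hne : D.Nonempty) {φ : ℂ → ℂ} (hφ : DifferentiableOn ℂ φ D) (hbij : BijOn φ D E) :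
    BiL D E φ := by
  have hO : IsOpen D := Red2x541.isOpen_of_C2 hD
  have hOE : IsOpen E := Red2x541.isOpen_of_C2 hE
  have hneE : E.Nonempty := by
    obtain ⟨z, hz⟩ := hne
    exact ⟨_, hbij.mapsTo hz⟩
  obtain ⟨r, M, h⟩ := GeoCx65.exists_CD hD hne
  obtain ⟨r', M', h'⟩ := GeoCx65.exists_CD hE hneE
  obtain ⟨z₀, hz₀⟩ := id hne
  obtain ⟨ψ, f, R, -⟩ := GeoPx67.CD.exists_RMap h hz₀
  obtain ⟨g, hg1, -, hg2, hg3, hg4⟩ :=
    Crest.Agent.Lib.exists_holomorphic_inverse hO hφ hbij.injOn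
  rw [hbij.image_eq] at hg1 hg2 hg4
  have hm : MapsTo g E D := by
    intro z hz
    rw [← hg2]; exact mem_image_of_mem g hz
  obtain ⟨F, G, hFG, e1, e2⟩ := GeoKx65.conf_biLip h h' R
    (f := φ) (g := g) ⟨hφ, hg1, hbij.mapsTo, hm, hg3, hg4⟩
  obtain ⟨C, hC⟩ := hFG.lipF
  obtain ⟨C', hC'⟩ := hFG.lipG
  refine ⟨hO, hOE, Redx541.bounded_of_C2 hE, hneE, hφ, hbij, ⟨C, fun w hw w' hw' => ?_⟩,
    ⟨C', fun w hw w' hw' => ?_⟩⟩
  · have := hC.dist_le_mul w w'
    rw [dist_eq_norm, dist_eq_norm, e1 hw, e1 hw'] at this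
    exact this
  · have := hC'.dist_le_mul (φ w) (φ w')
    rw [dist_eq_norm, dist_eq_norm, e2 (hbij.mapsTo hw), e2 (hbij.mapsTo hw'), hg3 w hw,
      hg3 w' hw'] at this
    exact this

/-- covariance of the sources at the insertions, up to signs -/
def BrCov : Prop :=
  ∀ D D' : Set ℂ, IsC2JordanDomain D → IsC2JordanDomain D' → ∀ φ : ℂ → ℂ,
    DifferentiableOn ℂ φ D → Set.BijOn φ D D' → ∀ (n : ℕ) (x : Fin n → ℂ),
    (∀ i, x i ∈ D) → Function.Injective x → ∀ g g' : Fin n → ℂ → ℂ,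
    (∀ i, IsBrN D x i (g i)) → (∀ i, IsBrN D' (fun k => φ (x k)) i (g' i)) →
    ∃ e : Fin n → ℝ, (∀ i, e i * e i = 1) ∧ ∀ i j, i ≠ j →
      g i (x j) / (I * gsrc x j) =
        (e i * e j : ℝ) * (g' i (φ (x j)) / (I * gsrc (fun k => φ (x k)) j))

theorem e8_ne : e8 ≠ 0 := by
  unfold e8; exact Complex.exp_ne_zero _

theorem gsrc_ne {n : ℕ} {x : Fin n → ℂ} (hx : Function.Injective x) (i : Fin n) :
    gsrc x i ≠ 0 := by
  intro h
  have h1 := gsrc_sq x i
  rw [h] at h1
  have h2 : U3x719.wX x i ≠ 0 := wX_ne hx i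
  have h3 : (Complex.I * U3x719.wX x i) ≠ 0 := mul_ne_zero Complex.I_ne_zero h2
  apply h3
  rw [← h1]; ring

theorem brCov (hU : Uniq) : BrCov := by
  intro D D' hD hD' φ hφ hbij n x hxD hx g g' hg hg'
  rcases D.eq_empty_or_nonempty with rfl | hne
  · rcases isEmpty_or_nonempty (Fin n) with he | ⟨⟨i⟩⟩
    · exact ⟨fun _ => 1, fun i => (he.false i).elim, fun i => (he.false i).elim⟩
    · exact absurd (hxD i) (Set.notMem_empty _)
  obtain ⟨r, M, h⟩ := GeoCx65.exists_CD hD hne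
  have B := biL_of_C2 hD hD' hne hφ hbij
  obtain ⟨q, hq⟩ := exists_q h hφ hbij.injOn x hxD
  have hx' : Function.Injective fun k => φ (x k) := fun i j hij =>
    hx (hbij.injOn (hxD i) (hxD j) hij)
  -- sign of `q` at the insertions
  have hqs : ∀ j, ∃ e : ℝ, e * e = 1 ∧ q (x j) * gsrc (fun k => φ (x k)) j = e * gsrc x j := by
    intro j
    have h1 := hq.at_x h.isOpen hφ hbij.injOn hxD j
    have h2 := gsrc_sq x j
    have h3 := gsrc_sq (fun k => φ (x k)) j
    have h4 : (q (x j) * gsrc (fun k => φ (x k)) j) ^ 2 = (gsrc x j) ^ 2 := by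
      rw [mul_pow, h3, h2, ← h1]; ring
    rcases sq_eq_sq_iff_eq_or_eq_neg.1 h4 with h5 | h5
    · exact ⟨1, by norm_num, by rw [h5]; simp⟩
    · exact ⟨-1, by norm_num, by rw [h5]; simp⟩
  choose e he1 he2 using hqs
  refine ⟨e, he1, fun i j _ => ?_⟩
  have hpull := br_pull B hxD hq (hg' i).br
  -- `g_i = s q g'_i∘φ`
  have hs : ∃ s : ℝ, s * s = 1 ∧ EqOn (g i) (fun z => s * (q z * g' i (φ z))) D := by
    rcases IsBr.unique hU h hx hxD (hg i).br hpull with h1 | h1
    · exact ⟨1, by norm_num, fun z hz => by rw [h1 hz]; simp⟩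
    · exact ⟨-1, by norm_num, fun z hz => by rw [h1 hz]; simp⟩
  obtain ⟨s, hs1, hs2⟩ := hs
  -- `s = e i`
  have h1 : gsrc x i = (s * e i : ℝ) * gsrc x i := by
    have h2 := hs2 (hxD i)
    simp only at h2
    rw [(hg i).nrm, (hg' i).nrm, he2] at h2
    push_cast
    linear_combination h2
  have hse : (s * e i : ℝ) = 1 := by
    have h3 : ((s * e i : ℝ) : ℂ) = 1 := by
      have := gsrc_ne hx i
      have h4 : (((s * e i : ℝ) : ℂ) - 1) * gsrc x i = 0 := by linear_combination -h1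
      rcases mul_eq_zero.1 h4 with h5 | h5
      · linear_combination h5
      · exact absurd h5 this
    exact_mod_cast h3
  have hse' : s = e i := by
    have : s * (e i * e i) = e i := by linear_combination (e i) * hse
    rw [he1, mul_one] at this
    exact this
  have h5 : g i (x j) = e i * (q (x j) * g' i (φ (x j))) := by
    have := hs2 (hxD j)
    simp only at this
    rw [this, hse']
  rw [h5]
  have h6 := gsrc_ne hx j
  have h7 := gsrc_ne hx' j
  have h8 : q (x j) = e j * gsrc x j / gsrc (fun k => φ (x k)) j := by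
    rw [eq_div_iff h7]; exact he2 j
  rw [h8]
  push_cast
  field_simp

/-- **covariance of the logarithmic derivatives** -/
theorem aiCov (hU : Uniq) : AiCov := by
  intro D D' hD hD' φ hφ hbij n x hx i g g' hg hg'
  have hne : D.Nonempty := ⟨x i, hx.1 i⟩
  obtain ⟨r, M, h⟩ := GeoCx65.exists_CD hD hne
  have B := biL_of_C2 hD hD' hne hφ hbij
  rw [Ai_cov hU h B hx.2 hx.1 hg hg']
  have h1 : deriv φ (x i) ≠ 0 := USpinx641.deriv_ne hD hφ hbij.injOn (hx.1 i)
  congr 1
  push_cast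
  field_simp

/-- **invariance of the determinant** -/
theorem det_cov {n : ℕ} {c2 : ℝ} {x x' : Fin n → ℂ} {g g' : Fin n → ℂ → ℂ}
    (h : ∃ e : Fin n → ℝ, (∀ i, e i * e i = 1) ∧ ∀ i j, i ≠ j →
      g i (x j) / (I * gsrc x j) = (e i * e j : ℝ) * (g' i (x' j) / (I * gsrc x' j))) :
    (Bm c2 x g).det = (Bm c2 x' g').det := by
  obtain ⟨e, he, h⟩ := h
  rw [← det_signs (Bm c2 x' g') e he]
  congr 1
  ext j i
  simp only [Bm, Matrix.of_apply]
  by_cases hji : j = i
  · simp [hji]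
  · rw [if_neg hji, if_neg hji, h i j (Ne.symm hji), Complex.re_ofReal_mul]
    ring

end Crest.Agent.R165.SpFr2x422
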