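import Crest.Agent.R165.SpFr2_422

/-!
# Row 165 (S0250), block U (helper422): `SpinInB .free`

* `RL n D x` : limit of the ratio free / plus on the starred set
* `rl_tendsto`, `rl_cov`, `rl_disc`, `rl_two_pos`, `rl_pos`
* `spinInB_plus'` : `LdLeaf → BrLeaf → Uniq → SpinInB .plus Lam`
* `spinInB_free` : `LdLeaf → BrLeaf → Uniq → BrLim kapB → SpinOut .plus 1 → SpinInB .free LamF`
-/

set_option autoImplicit false

noncomputable section

open Filter Topology
open Crest.ProbabilityR.IsingModel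

namespace Crest.Agent.R165.SpFr3x422

open U5Px422
open Latx683 (IsCov wX wDom BW ray HE)
open Kw8x871 (Mt tot)
open Kw5x871 (starT)
open Kw9x871 (BrLim kapB)
open UB3x641 SpFr1x422 SpFr2x422
open USpinx641 (LatApp latApp_TT SpinInB LDF Lam)
open Nm5x422 (GB_le_prod prod_le_GB)

/-- limit of the ratio -/
def RL (n : ℕ) (D : Set ℂ) (x : Fin n → ℂ) : ℝ :=
  limUnder (𝓝[>] (0 : ℝ)) fun a => RR D a fun i => meshIndex a (x i)

theorem rl_eq {c1 c2 : ℝ} {D : Set ℂ} (hD : IsC2JordanDomain D) {n : ℕ} {x : Fin n → ℂ}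
    (hx : x ∈ Conf D n) {g : Fin n → ℂ → ℂ}
    (h : ∀ (w : ℝ → BW ℤ) (X : ℝ → Fin n → ℤ × ℤ), BgFam D w → LApp X x → BrF c1 c2 D x w X g) :
    RL n D x = Real.sqrt (Bm c2 x g).det :=
  (rr_tendsto hD hx h (lapp_meshIndex x)).limUnder_eq

/-- **the ratio converges** -/
theorem rl_tendsto (hB : BrLeaf) {D : Set ℂ} (hD : IsC2JordanDomain D) {n : ℕ} {x : Fin n → ℂ}
    (hx : x ∈ Conf D n) {u : ℝ → Fin n → ℤ × ℤ} (hu : LApp u x) :
    Tendsto (fun a => RR D a (u a)) (𝓝[>] 0) (𝓝 (RL n D x)) := by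
  obtain ⟨c1, c2, -, -, h⟩ := hB
  obtain ⟨g, -, hg⟩ := h D hD n x hx
  rw [rl_eq hD hx hg]
  exact rr_tendsto hD hx hg hu

theorem conf_comp {D D' : Set ℂ} {φ : ℂ → ℂ} (hbij : Set.BijOn φ D D') {n : ℕ} {x : Fin n → ℂ}
    (hx : x ∈ Conf D n) : (fun i => φ (x i)) ∈ Conf D' n :=
  ⟨fun i => hbij.mapsTo (hx.1 i), fun i j hij => hx.2 (hbij.injOn (hx.1 i) (hx.1 j) hij)⟩

/-- **conformal invariance of the ratio** -/
theorem rl_cov (hB : BrLeaf) (hU : U3x719.Uniq) {D D' : Set ℂ} (hD : IsC2JordanDomain D)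
    (hD' : IsC2JordanDomain D') {φ : ℂ → ℂ} (hφ : DifferentiableOn ℂ φ D)
    (hbij : Set.BijOn φ D D') {n : ℕ} {x : Fin n → ℂ} (hx : x ∈ Conf D n) :
    RL n D' (fun i => φ (x i)) = RL n D x := by
  obtain ⟨c1, c2, -, -, h⟩ := hB
  obtain ⟨g, hgN, hg⟩ := h D hD n x hx
  obtain ⟨g', hgN', hg'⟩ := h D' hD' n _ (conf_comp hbij hx)
  rw [rl_eq hD hx hg, rl_eq hD' (conf_comp hbij hx) hg',
    det_cov (brCov hU D D' hD hD' φ hφ hbij n x hx.1 hx.2 g g' hgN hgN')]

/-! ### two points -/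

theorem kapB_pos {x y : ℂ} (hx : x ∈ Metric.ball (0 : ℂ) 1) (hy : y ∈ Metric.ball (0 : ℂ) 1) :
    0 < kapB x y := by
  unfold kapB
  refine Real.sqrt_pos.2 ?_
  exact U3Ex576.kap2_pos (by simpa using hx) (by simpa using hy)

/-- the ratio in the unit disc, two points -/
theorem rl_disc (hB : BrLeaf) (hK : BrLim kapB) {x : Fin 2 → ℂ}
    (hx : x ∈ Conf (Metric.ball (0 : ℂ) 1) 2) :
    RL 2 (Metric.ball (0 : ℂ) 1) x = kapB (x 0) (x 1) := by
  have hD := Nm1x422.isC2_ball (0 : ℂ) one_pos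
  obtain ⟨c1, c2, -, -, h⟩ := hB
  obtain ⟨g, -, hg⟩ := h _ hD 2 x hx
  rw [rl_eq hD hx hg]
  -- the covariances of the plus background
  have hu := lapp_meshIndex x
  have hbd : Bornology.IsBounded (Metric.ball (0 : ℂ) 1) := Metric.isBounded_ball
  have hex : ∀ a : ℝ, ∃ S : HE ℤ → HE ℤ → ℝ,
      IsCov (wX (wDom ((TT (Metric.ball (0 : ℂ) 1) a : Finset (ℤ × ℤ)) : Set (ℤ × ℤ)) false)
        (fun i => meshIndex a (x i))) S := by
    intro a
    obtain ⟨S, hS, -⟩ := Covx359.exists_isCov_plus (TT (Metric.ball (0 : ℂ) 1) a)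
      (fun i => meshIndex a (x i))
    exact ⟨S, hS⟩
  choose S hS using hex
  have hcov : ∀ᶠ a in 𝓝[>] (0 : ℝ),
      IsCov (wX (wDom (domainSites (Metric.ball (0 : ℂ) 1) a) false)
        (fun i => meshIndex a (x i))) (S a) := by
    filter_upwards [self_mem_nhdsWithin] with a ha
    rw [← Kw9x871.coe_TT hbd ha]
    exact hS a
  have F := hg _ (fun a i => meshIndex a (x i)) (bgFam_dom hD) hu
  have h1 := det_tendsto F hcov
  have h2 := hK x hx _ hu S hcov
  have h3 : Tendsto (fun a => (Mt (S a) (fun i => meshIndex a (x i))).det) (𝓝[>] (0 : ℝ))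
      (𝓝 ((kapB (x 0) (x 1)) ^ 2)) := by
    refine (h2.pow 2).congr' ?_
    filter_upwards [hcov] with a ha
    rw [sq_abs, Matrix.det_fin_two]
    show tot (S a) (meshIndex a (x 0)) (meshIndex a (x 1)) ^ 2 =
      tot (S a) (meshIndex a (x 0)) (meshIndex a (x 0)) *
        tot (S a) (meshIndex a (x 1)) (meshIndex a (x 1)) -
        tot (S a) (meshIndex a (x 0)) (meshIndex a (x 1)) *
        tot (S a) (meshIndex a (x 1)) (meshIndex a (x 0))
    have e : ∀ f f' : ℤ × ℤ, tot (S a) f f' = - tot (S a) f' f := by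
      intro f f'
      unfold tot
      conv_lhs => rw [Finset.sum_comm]
      rw [← Finset.sum_neg_distrib]
      refine Finset.sum_congr rfl fun i _ => ?_
      rw [← Finset.sum_neg_distrib]
      exact Finset.sum_congr rfl fun j _ => ha.skew _ _
    rw [tot_self ha.skew, tot_self ha.skew, e (meshIndex a (x 1)) (meshIndex a (x 0))]
    ring
  rw [tendsto_nhds_unique h1 h3, Real.sqrt_sq (show 0 ≤ kapB (x 0) (x 1) from Real.sqrt_nonneg _)]

/-- the ratio of two points is positive -/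
theorem rl_two_pos (hB : BrLeaf) (hU : U3x719.Uniq) (hK : BrLim kapB) {D : Set ℂ}
    (hD : IsC2JordanDomain D) {x : Fin 2 → ℂ} (hx : x ∈ Conf D 2) : 0 < RL 2 D x := by
  obtain ⟨f, R⟩ := Nm7x422.hasRMap D hD ⟨x 0, hx.1 0⟩
  have hdisc := Nm1x422.isC2_ball (0 : ℂ) one_pos
  have h1 := rl_cov hB hU hD hdisc R.diff R.bij hx
  rw [← h1, rl_disc hB hK (conf_comp R.bij hx)]
  exact kapB_pos (R.bij.mapsTo (hx.1 0)) (R.bij.mapsTo (hx.1 1))

/-! ### many points -/

theorem rl_zero_pos (hB : BrLeaf) {D : Set ℂ} (hD : IsC2JordanDomain D) {x : Fin 0 → ℂ}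
    (hx : x ∈ Conf D 0) : 0 < RL 0 D x := by
  have h1 := rl_tendsto hB hD hx (lapp_meshIndex x)
  have h2 : ∀ a : ℝ, RR D a (fun i : Fin 0 => meshIndex a (x i)) = 1 := by
    intro a
    unfold RR
    rw [Nm5x422.GB_plus_zero, div_one]
    show Gk1x422.Gf Kc _ _ = 1
    unfold Gk1x422.Gf Gk0x422.EX
    have : (Gk1x422.sp (fun i : Fin 0 => meshIndex a (x i)) : (ℤ × ℤ → Bool) → ℝ) = fun _ => 1 := by
      funext s; simp [Gk1x422.sp]
    rw [this]
    exact div_self Gk0x422.ZZ_one_pos.ne'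
  have h3 : Tendsto (fun _ : ℝ => (1 : ℝ)) (𝓝[>] (0 : ℝ)) (𝓝 (RL 0 D x)) := by
    refine h1.congr fun a => h2 a
  rw [← tendsto_nhds_unique tendsto_const_nhds h3]
  exact one_pos

/-- separated small discs around the points -/
theorem exists_discs {D : Set ℂ} (hO : IsOpen D) {n : ℕ} {x : Fin n → ℂ} (hx : x ∈ Conf D n) :
    ∃ ρ > (0 : ℝ), (∀ i, Metric.closedBall (x i) ρ ⊆ D) ∧ ∀ i j, i ≠ j → 3 * ρ ≤ ‖x i - x j‖ := by
  have h1 : ∀ i, ∀ᶠ ρ in 𝓝[>] (0 : ℝ), Metric.closedBall (x i) ρ ⊆ D := by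
    intro i
    obtain ⟨ε, hε, hb⟩ := Metric.isOpen_iff.1 hO _ (hx.1 i)
    have : ∀ᶠ ρ in 𝓝[>] (0 : ℝ), ρ < ε := mem_nhdsWithin_of_mem_nhds (Iio_mem_nhds hε)
    filter_upwards [this] with ρ hρ
    exact (Metric.closedBall_subset_ball hρ).trans hb
  have h2 : ∀ p : Fin n × Fin n, ∀ᶠ ρ in 𝓝[>] (0 : ℝ), p.1 ≠ p.2 → 3 * ρ ≤ ‖x p.1 - x p.2‖ := by
    intro p
    by_cases hp : p.1 = p.2
    · exact Eventually.of_forall fun ρ h => absurd hp h
    · have h3 : 0 < ‖x p.1 - x p.2‖ / 3 := by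
        have : x p.1 - x p.2 ≠ 0 := sub_ne_zero.2 fun e => hp (hx.2 e)
        have := norm_pos_iff.2 this
        linarith
      have : ∀ᶠ ρ in 𝓝[>] (0 : ℝ), ρ < ‖x p.1 - x p.2‖ / 3 :=
        mem_nhdsWithin_of_mem_nhds (Iio_mem_nhds h3)
      filter_upwards [this] with ρ hρ _
      linarith
  obtain ⟨ρ, ⟨h3, h4⟩, h5⟩ := (((eventually_all.2 h1).and (eventually_all.2 h2)).and
    self_mem_nhdsWithin).exists
  exact ⟨ρ, h5, h3, fun i j hij => h4 (i, j) hij⟩

theorem append_last_two {n : ℕ} {α : Type*} (x : Fin (n + 2) → α) :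
    Fin.append (fun i : Fin n => x (Fin.castAdd 2 i)) (fun i : Fin 2 => x (Fin.natAdd n i)) = x := by
  funext i
  refine Fin.addCases (fun j => ?_) (fun j => ?_) i
  · rw [Fin.append_left]
  · rw [Fin.append_right]

/-- **inductive step** -/
theorem rl_step (hB : BrLeaf) (hS : SpinOut .plus 1) {D : Set ℂ} (hD : IsC2JordanDomain D) {n : ℕ}
    {x : Fin (n + 2) → ℂ} (hx : x ∈ Conf D (n + 2))
    (h1 : 0 < RL n D (fun i : Fin n => x (Fin.castAdd 2 i)))
    (h2 : 0 < RL 2 D (fun i : Fin 2 => x (Fin.natAdd n i))) : 0 < RL (n + 2) D x := by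
  have hO := Red2x541.isOpen_of_C2 hD
  have hbd := Redx541.bounded_of_C2 hD
  obtain ⟨F, hF, -⟩ := hS
  obtain ⟨ρ, hρ, hin, hsep⟩ := exists_discs hO hx
  have hx1 : (fun i : Fin n => x (Fin.castAdd 2 i)) ∈ Conf D n :=
    ⟨fun i => hx.1 _, fun i j hij => Fin.castAdd_injective n 2 (hx.2 hij)⟩
  have hx2 : (fun i : Fin 2 => x (Fin.natAdd n i)) ∈ Conf D 2 :=
    ⟨fun i => hx.1 _, fun i j hij => Fin.natAdd_injective 2 n (hx.2 hij)⟩
  set u : ℝ → Fin (n + 2) → ℤ × ℤ := fun a i => meshIndex a (x i) with hu_def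
  have hu : LApp u x := lapp_meshIndex x
  -- limits
  have t0 := rl_tendsto hB hD hx hu
  have t1 := rl_tendsto hB hD hx1 (u := fun a i => u a (Fin.castAdd 2 i)) fun i => hu _
  have t2 := rl_tendsto hB hD hx2 (u := fun a i => u a (Fin.natAdd n i)) fun i => hu _
  have hc : ∀ (E : Set ℂ) (i : Fin (n + 2)), x i ∈ E → (fun _ : Fin 1 => x i) ∈ Conf E 1 :=
    fun E i hi => ⟨fun _ => hi, fun a b _ => Subsingleton.elim a b⟩
  have t3 : ∀ i : Fin (n + 2), Tendsto (fun a : ℝ => GB .plus (TT D a) (fun _ : Fin 1 => u a i) /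
      GB .plus (TT (Metric.ball (x i) ρ) a) (fun _ : Fin 1 => u a i)) (𝓝[>] 0)
      (𝓝 (F D (fun _ => x i) / F (Metric.ball (x i) ρ) fun _ => x i)) := by
    intro i
    have e1 := (hF D hD _ (hc D i (hx.1 i))).2 (fun a _ => u a i) (fun _ => hu i)
    have e2 := hF _ (Nm1x422.isC2_ball (x i) hρ) _ (hc _ i (Metric.mem_ball_self hρ))
    have e3 := e2.2 (fun a _ => u a i) (fun _ => hu i)
    refine (e1.div e3 e2.1.ne').congr' ?_
    filter_upwards [self_mem_nhdsWithin] with a ha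
    exact mul_div_mul_left _ _ (Real.rpow_pos_of_pos ha _).ne'
  have t4 := tendsto_finsetProd (Finset.univ : Finset (Fin (n + 2))) fun i _ => t3 i
  have t5 := (t1.mul t2).mul t4
  have hpos : 0 < RL n D (fun i : Fin n => x (Fin.castAdd 2 i)) *
      RL 2 D (fun i : Fin 2 => x (Fin.natAdd n i)) *
      ∏ i, F D (fun _ => x i) / F (Metric.ball (x i) ρ) fun _ => x i := by
    refine mul_pos (mul_pos h1 h2) (Finset.prod_pos fun i _ => div_pos ?_ ?_)
    · exact (hF D hD _ (hc D i (hx.1 i))).1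
    · exact (hF _ (Nm1x422.isC2_ball (x i) hρ) _ (hc _ i (Metric.mem_ball_self hρ))).1
  refine hpos.trans_le (le_of_tendsto_of_tendsto t5 t0 ?_)
  -- the inequality on the lattice
  set U : Set ℂ := ⋃ i, Metric.ball (x i) ρ with hU
  have hUb : Bornology.IsBounded U :=
    hbd.subset (Set.iUnion_subset fun i => Metric.ball_subset_closedBall.trans (hin i))
  have hK : IsCompact (⋃ i, Metric.closedBall (x i) ρ) :=
    isCompact_iUnion fun i => isCompact_closedBall _ _
  have hKD : (⋃ i, Metric.closedBall (x i) ρ) ⊆ D := Set.iUnion_subset hin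
  have hstar := (StarAppx583.latApp_starT hD).inn _ hK hKD
  have hmem : ∀ᶠ a in 𝓝[>] (0 : ℝ), ∀ i, meshPoint a (u a i) ∈ Metric.ball (x i) ρ :=
    eventually_all.2 fun i => (hu i).eventually_mem (Metric.ball_mem_nhds _ hρ)
  have hsmall : ∀ᶠ a in 𝓝[>] (0 : ℝ), a < ρ := mem_nhdsWithin_of_mem_nhds (Iio_mem_nhds hρ)
  filter_upwards [hstar, hmem, hsmall, self_mem_nhdsWithin,
    StarAppx583.eventually_noHole_starT hD, Kw9x871.noHole_TT hD] with a h3 h4 h5 h6 h7 h8
  have ha : (0 : ℝ) < a := h6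
  have huB : ∀ i, u a i ∈ TT (Metric.ball (x i) ρ) a := fun i =>
    (mem_TT Metric.isBounded_ball ha).2 (h4 i)
  -- names
  have g1 : GB .plus (starT (TT D a)) (u a) ≤
      ∏ i, GB .plus (TT (Metric.ball (x i) ρ) a) (fun _ : Fin 1 => u a i) := by
    have hsub : TT U a ⊆ starT (TT D a) := by
      intro z hz
      have hz' := (mem_TT hUb ha).1 hz
      refine h3 z ?_
      obtain ⟨i, hi⟩ := Set.mem_iUnion.1 hz'
      exact Set.mem_iUnion.2 ⟨i, Metric.ball_subset_closedBall hi⟩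
    refine (GB_plus_anti hsub (u a)).trans ?_
    refine GB_le_prod (d := ρ) ha h5 hUb (fun i => Metric.ball (x i) ρ)
      (fun i => Set.subset_iUnion (fun i => Metric.ball (x i) ρ) i) ?_ (u a) huB
    intro i j hij z hz w hw
    have e1 := hsep i j hij
    rw [Metric.mem_ball, dist_eq_norm] at hz hw
    have e2 : ‖x i - x j‖ ≤ ‖x i - z‖ + ‖z - w‖ + ‖w - x j‖ := by
      calc ‖x i - x j‖ = ‖(x i - z) + (z - w) + (w - x j)‖ := by congr 1; ring
        _ ≤ _ := norm_add₃_le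
    rw [norm_sub_rev (x i) z] at e2
    linarith
  have g2 : GB .free (TT D a) (fun i : Fin n => u a (Fin.castAdd 2 i)) *
      GB .free (TT D a) (fun i : Fin 2 => u a (Fin.natAdd n i)) ≤ GB .free (TT D a) (u a) := by
    have := GB_free_mul_le (TT D a) (fun i : Fin n => u a (Fin.castAdd 2 i))
      (fun i : Fin 2 => u a (Fin.natAdd n i))
    rwa [append_last_two (u a)] at this
  have g3 : ∏ i, GB .plus (TT D a) (fun _ : Fin 1 => u a i) ≤
      GB .plus (starT (TT D a)) (fun i : Fin n => u a (Fin.castAdd 2 i)) *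
        GB .plus (starT (TT D a)) (fun i : Fin 2 => u a (Fin.natAdd n i)) := by
    have hsub : starT (TT D a) ⊆ TT D a := by
      rw [StarAppx583.starT_eq]; exact StarAppx583.starS_subset _ _
    have e1 : ∏ i, GB .plus (TT D a) (fun _ : Fin 1 => u a i) ≤
        ∏ i, GB .plus (starT (TT D a)) (fun _ : Fin 1 => u a i) :=
      Finset.prod_le_prod (fun i _ => GB_nonneg (by decide) _ _)
        fun i _ => GB_plus_anti hsub _
    refine e1.trans ?_
    rw [Fin.prod_univ_add]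
    exact mul_le_mul (prod_le_GB (starT (TT D a)) fun i : Fin n => u a (Fin.castAdd 2 i))
      (prod_le_GB (starT (TT D a)) fun i : Fin 2 => u a (Fin.natAdd n i))
      (Finset.prod_nonneg fun i _ => GB_nonneg (by decide) _ _) (GB_nonneg (by decide) _ _)
  have p1 : 0 < GB .plus (starT (TT D a)) (u a) := plus_pos h7 _
  have p2 : 0 < ∏ i, GB .plus (TT D a) (fun _ : Fin 1 => u a i) :=
    Finset.prod_pos fun i _ => plus_pos h8 _
  have p3 := p1.trans_le g1
  have p4 := p2.trans_le g3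
  have p5 : 0 ≤ GB .free (TT D a) (fun i : Fin n => u a (Fin.castAdd 2 i)) *
      GB .free (TT D a) (fun i : Fin 2 => u a (Fin.natAdd n i)) :=
    mul_nonneg (GB_nonneg (by decide) _ _) (GB_nonneg (by decide) _ _)
  unfold RR
  rw [Finset.prod_div_distrib, div_mul_div_comm, div_mul_div_comm]
  rw [div_le_div_iff₀ (mul_pos p4 p3) p1]
  calc GB .free (TT D a) (fun i : Fin n => u a (Fin.castAdd 2 i)) *
        GB .free (TT D a) (fun i : Fin 2 => u a (Fin.natAdd n i)) *
        (∏ i, GB .plus (TT D a) (fun _ : Fin 1 => u a i)) * GB .plus (starT (TT D a)) (u a)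
      ≤ GB .free (TT D a) (u a) *
        (GB .plus (starT (TT D a)) (fun i : Fin n => u a (Fin.castAdd 2 i)) *
          GB .plus (starT (TT D a)) (fun i : Fin 2 => u a (Fin.natAdd n i))) *
        ∏ i, GB .plus (TT (Metric.ball (x i) ρ) a) (fun _ : Fin 1 => u a i) := by
        refine mul_le_mul (mul_le_mul g2 g3 p2.le (p5.trans g2)) g1 p1.le ?_
        exact mul_nonneg (p5.trans g2) p4.le
    _ = _ := by ring

/-- **the ratio is positive for an even number of points** -/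
theorem rl_pos (hB : BrLeaf) (hU : U3x719.Uniq) (hK : BrLim kapB) (hS : SpinOut .plus 1) {D : Set ℂ}
    (hD : IsC2JordanDomain D) (m : ℕ) : ∀ x ∈ Conf D (2 * m), 0 < RL (2 * m) D x := by
  induction m with
  | zero => intro x hx; exact rl_zero_pos hB hD hx
  | succ m ih =>
    intro x hx
    exact rl_step (n := 2 * m) hB hS hD hx
      (ih _ ⟨fun i => hx.1 _, fun i j hij => Fin.castAdd_injective (2 * m) 2 (hx.2 hij)⟩)
      (rl_two_pos hB hU hK hD ⟨fun i => hx.1 _, fun i j hij =>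
        Fin.natAdd_injective 2 (2 * m) (hx.2 hij)⟩)

/-! ### output -/

/-- one-step expansions of the domains -/
theorem ldf_TT (hL : LdLeaf) {D : Set ℂ} (hD : IsC2JordanDomain D) : LDF AAf D (TT D) :=
  hL D hD (TT D) (latApp_TT hD) (Kw9x871.noHole_TT hD)

/-- one-step expansions of the starred domains -/
theorem ldf_star (hL : LdLeaf) {D : Set ℂ} (hD : IsC2JordanDomain D) :
    LDF AAf D (fun a => starT (TT D a)) :=
  hL D hD _ (StarAppx583.latApp_starT hD) (StarAppx583.eventually_noHole_starT hD)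

/-- **`SpinInB .plus`** from the leaves -/
theorem spinInB_plus' (hL : LdLeaf) (hB : BrLeaf) (hU : U3x719.Uniq) : SpinInB .plus Lam :=
  USpinx641.spinInB_plus (fun _ hD => ldf_TT hL hD) (covA_of (aiCov hU) hB)

/-- normalised scaling limit, free boundary conditions -/
def LamF (n : ℕ) (D : Set ℂ) (x : Fin n → ℂ) : ℝ := RL n D x * Lam n D x

/-- **`SpinInB .free`** from the leaves -/
theorem spinInB_free (hL : LdLeaf) (hB : BrLeaf) (hU : U3x719.Uniq) (hK : BrLim kapB)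
    (hS : SpinOut .plus 1) : SpinInB .free LamF where
  pos n D hb hD x hx := by
    rcases hb with hb | ⟨-, hn⟩
    · exact absurd hb (by decide)
    obtain ⟨m, hm⟩ := hn
    have hm2 : n = 2 * m := by omega
    subst hm2
    exact mul_pos (rl_pos hB hU hK hS hD m x hx) (USpinx641.lam_pos (ldf_TT hL hD) hx)
  ratio n D hb hD x hx x' hx' u u' hu hu' := by
    rcases hb with hb | ⟨-, hn⟩
    · exact absurd hb (by decide)
    obtain ⟨m, hm⟩ := hn
    have hm2 : n = 2 * m := by omega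
    subst hm2
    have p1 := rl_pos hB hU hK hS hD m x' hx'
    have t1 := (rl_tendsto hB hD hx hu).div (rl_tendsto hB hD hx' hu') p1.ne'
    have t2 := USpinx641.LDF.ratio (ldf_TT hL hD) (ldf_star hL hD) hx hx' hu hu'
    have t3 := t1.mul t2
    unfold LamF
    rw [mul_div_mul_comm]
    refine t3.congr' ?_
    filter_upwards [StarAppx583.eventually_noHole_starT hD] with a ha
    have q1 := (plus_pos ha (u a)).ne'
    have q2 := (plus_pos ha (u' a)).ne'
    simp only [Pi.div_apply]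
    unfold RR
    rw [div_div_div_eq, div_mul_div_comm]
    have e1 : GB .free (TT D a) (u a) * GB .plus (starT (TT D a)) (u' a) *
        GB .plus (starT (TT D a)) (u a) = GB .free (TT D a) (u a) *
        (GB .plus (starT (TT D a)) (u a) * GB .plus (starT (TT D a)) (u' a)) := by ring
    have e2 : GB .plus (starT (TT D a)) (u a) * GB .free (TT D a) (u' a) *
        GB .plus (starT (TT D a)) (u' a) = GB .free (TT D a) (u' a) *
        (GB .plus (starT (TT D a)) (u a) * GB .plus (starT (TT D a)) (u' a)) := by ring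
    rw [e1, e2]
    exact mul_div_mul_right _ _ (mul_ne_zero q1 q2)
  cov n D D' _ hD hD' φ hφ hbij := by
    obtain ⟨k, hk, h⟩ := (spinInB_plus' hL hB hU).cov n D D' (Or.inl rfl) hD hD' φ hφ hbij
    refine ⟨k, hk, fun x hx => ?_⟩
    unfold LamF
    rw [rl_cov hB hU hD hD' hφ hbij hx, mul_assoc, h x hx]
    ring

end Crest.Agent.R165.SpFr3x422
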