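import Crest.Agent.R165.SpinDisc_67
import Crest.Agent.R165.DiscComp_722
import Crest.Agent.R165.ZetaL_387

/-!
# Row 165 (S0250): the leaf `SpPL`, spin data of large plus discs (helper67)

* `flc_ev` : bounds of the constants for one branch point (every position) and for the plane
* `spPL : PlB J R V → SpPL J R V`
-/

set_option autoImplicit false
set_option linter.unusedSectionVars false

noncomputable section

open Filter Topology
open scoped ENNReal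
open Crest.ProbabilityR.IsingModel
open Crest.Agent.R165.Gr0x606 Crest.Agent.R165.Gr1x606 Crest.Agent.R165.GeOpsx337
open Crest.Agent.R165.Latx683 Crest.Agent.R165.GDefx387 Crest.Agent.R165.GSysx387
open Crest.Agent.R165.KFlowx337 Crest.Agent.R165.BgIsox432
open Crest.Agent.R165.DefRecx915 Crest.Agent.R165.XBdx915 Crest.Agent.R165.Bridgex915
open Crest.Agent.R165.Bkgx683 Crest.Agent.R165.PEndx683 Crest.Agent.R165.Outx683
open Crest.Agent.R165.Compx889 Crest.Agent.R165.Constx891 Crest.Agent.R165.StepOKx838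
open Crest.Agent.R165.DeepBgx898 Crest.Agent.R165.FlNx387 Crest.Agent.R165.PTopx386
open Crest.Agent.R165.DiscKx892 Crest.Agent.R165.DiscCompx722 Crest.Agent.R165.SpinDiscx67
open Crest.Agent.R165.Topx683 Crest.Agent.R165.Centx541 Crest.Agent.R165.Zetax930
open Crest.Agent.R165.U5Px422 (TT mem_TT)
open Crest.Agent.R165.TorNorm2x583 (PlB)

namespace Crest.Agent.R165.SpPLx67

/-- **the bounds of the constants for one branch point, at every position, and for the plane** -/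
theorem flc_ev (J : ℝ) (R : ℕ) (V : Finset (ℤ × ℤ) → ℝ) :
    EvC fun c => (1 ≤ c.p ∧ 5 ≤ c.p * (c.k0 + 1) ∧ 2 * max R 1 + 1 ≤ nearR c.p c.k0 0 ∧
      4 ≤ c.Γ ∧ Std c) ∧
      ∀ C : ℝ, ∃ ε > 0, ∃ M : ℝ, 0 < M ∧ ∀ lam β z : ℝ, |lam| < ε → NearP J C lam β z →
        PF J R V C c lam β z →
        (∀ y k, NC (brF c (mpar J lam R V β z) y) (rr c.p c.k0) (ENNReal.ofReal c.Γ) k ≤
          ENNReal.ofReal (M * |lam| * (1 / 2) ^ k)) ∧
        ∀ k, NC (plF c (mpar J lam R V β z)) (rr c.p c.k0) (ENNReal.ofReal c.Γ) k ≤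
          ENNReal.ofReal (M * |lam| * (1 / 2) ^ k) := by
  refine (((stepOK_ev.and (ev_nearR (2 * max R 1 + 1))).and ((ev_Γ_ge 4).and ev_std)).and
    ((ev_rr_ge fun _ _ => 4 * (2 * max R 1 + 1) + 2).and (ev_k0_ge fun _ _ => 1))).mono
    fun c hc => ?_
  obtain ⟨⟨⟨⟨CF, hCF, C1, H⟩, hR⟩, hΓ, hs⟩, hr, hk⟩ := hc
  have hp4 := hs.p_pos
  have hp1 : 1 ≤ c.p := by omega
  have h5 : 5 ≤ c.p * (c.k0 + 1) := by nlinarith
  refine ⟨⟨hp1, h5, hR, hΓ, hs⟩, fun C => ?_⟩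
  obtain ⟨ε, hε, M, hM, h⟩ := nc_of_ctl J R V hCF h5 (by linarith) H.A0.le (hr 0) C
  refine ⟨ε, hε, M, hM, fun lam β z hl hn hp => ⟨fun y k => ?_, fun k => ?_⟩⟩
  · exact (h lam β z hl hn hp (Bg.br y) (plOK_br y) (abs_wX_pl ![y]) (k + 1)
      (ctl_br H h5 hp1 (by linarith) hR y (k + 1))).2 k (Nat.lt_succ_self k)
  · exact (h lam β z hl hn hp Bg.pl plOK_pl J4K0Nx126.wPl_le (k + 1)
      (ctl_pl H h5 hp1 (by linarith) hR (k + 1))).2 k (Nat.lt_succ_self k)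

/-- `0 < 1 + z` for small `lam` -/
theorem one_add_pos {J C lam β z : ℝ} (hl : |lam| < 1 / (|C| + 1)) (hn : NearP J C lam β z) :
    0 < 1 + z := by
  have hC := abs_nonneg C
  have h0 : |z| ≤ |C| * |lam| := by
    have h1 : |β - criticalBeta J| + |z| ≤ C * |lam| := hn
    have h2 : C * |lam| ≤ |C| * |lam| :=
      mul_le_mul_of_nonneg_right (le_abs_self C) (abs_nonneg lam)
    linarith [abs_nonneg (β - criticalBeta J)]
  have h1 : |lam| * (|C| + 1) < 1 := by rwa [lt_div_iff₀ (by linarith)] at hl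
  have h2 : |z| < 1 := by nlinarith [abs_nonneg lam]
  linarith [(abs_lt.1 h2).1]

/-- **the leaf `SpPL`** -/
theorem spPL {J : ℝ} (hJ : 0 < J) {R : ℕ} {V : Finset (ℤ × ℤ) → ℝ} (hV : VHyp R V)
    (hpl : PlB J R V) : SpPL J R V := by
  unfold SpPL ForP
  refine ((ev_disc3 hpl).and (flc_ev J R V)).mono fun c hc C => ?_
  obtain ⟨⟨C1, -, c1, hc1, h3⟩, ⟨hp, h5, hR, hΓ, hs⟩, hf⟩ := hc
  obtain ⟨ε1, hε1, M0, hM0, h3⟩ := h3 C
  obtain ⟨ε2, hε2, Mf, hMf, hf⟩ := hf C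
  have hC1 : (0 : ℝ) < 1 / (|C| + 1) := by positivity
  refine ⟨min (min ε1 ε2) (1 / (|C| + 1)), lt_min (lt_min hε1 hε2) hC1, ?_⟩
  intro lam β z hl hn hPF n _ hev x hinj
  obtain ⟨⟨hl1, hl2⟩, hl3⟩ : (|lam| < ε1 ∧ |lam| < ε2) ∧ |lam| < 1 / (|C| + 1) := by
    rwa [lt_min_iff, lt_min_iff] at hl
  obtain ⟨u0, v0, hu0, huv, h3⟩ := h3 n hev x hinj
  obtain ⟨u1, hu1, hsd⟩ := spinData_disc hJ hV hp h5 hR hΓ hinj
  have hu : 0 < min u0 u1 := lt_min hu0 hu1
  obtain ⟨M, hM, h3⟩ := h3 (min u0 u1) v0 c1 hu (min_le_left _ _) le_rfl hc1 le_rfl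
  have hfl := hf lam β z hl2 hn hPF
  have hab := abs_nonneg lam
  have hMM : ∀ M' : ℝ, M' ≤ max M Mf → ∀ k : ℕ,
      ENNReal.ofReal (M' * |lam| * (1 / 2) ^ k) ≤
        ENNReal.ofReal (max M Mf * |lam| * (1 / 2) ^ k) := fun M' h k =>
    ENNReal.ofReal_le_ofReal (by gcongr)
  have h2p : (0 : ℝ) < 2 ^ c.p := by positivity
  refine hsd (min u0 u1) hu (min_le_right _ _) lam β z (one_add_pos hl3 hn) (kf c.p c.k0 c1)
    (fun P => aC c (k1 c.p c.k0 (min u0 u1) P.1) (k2 c.p c.k0 v0 P.1) (kf c.p c.k0 c1 P))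
    (max M Mf * |lam|) (c1 / 2 ^ c.p) ?_ (by positivity) ?_ (k1_le_kf hp c.k0 hc1 _) ?_ ?_ ?_ ?_ ?_
  · exact mul_nonneg (hMf.le.trans (le_max_right _ _)) hab
  · exact aD_tendsto hp c.k0 ((min_le_left _ _).trans huv) hc1 (zero_lt_one.trans_le hs.A0_ge)
      hs.δ_pos (one_pos.trans_le (one_le_qD c))
  · filter_upwards [ev_pos] with P hP
    have h6 := lt_rr_kf hp (k0 := c.k0) c1 P
    have h7 : (rr c.p c.k0 (kf c.p c.k0 c1 P + 1) : ℝ) =
        2 ^ c.p * rr c.p c.k0 (kf c.p c.k0 c1 P) := by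
      rw [rr_cast, rr_cast, ← pow_add]
      congr 1
      ring
    rw [h7] at h6
    rw [div_mul_eq_mul_div, div_le_iff₀ h2p]
    rw [mul_div_assoc] at h6
    linarith
  · filter_upwards [h3, ev_pos] with P h4 hP
    have h6 := (h4.2.2.2 lam β z hl1 hn hPF (TD P) (SRdomAx900.TT_coe Metric.isBounded_ball hP)
      .plus).1
    exact ⟨fun k hk => (h6.nc k hk).trans (hMM _ (le_max_left _ _) k),
      (h6.nk _ le_rfl).trans (hMM _ (le_max_left _ _) _)⟩
  · filter_upwards [h3, ev_pos] with P h4 hP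
    have h6 := (h4.2.2.2 lam β z hl1 hn hPF (TD P) (SRdomAx900.TT_coe Metric.isBounded_ball hP)
      .plus).2 fun i : Fin 0 => i.elim0
    exact ⟨fun k hk => (h6.nc k hk).trans (hMM _ (hM.trans (le_max_left _ _)) k),
      (h6.nk _ le_rfl).trans (hMM _ (hM.trans (le_max_left _ _)) _)⟩
  · exact fun y k => (hfl.1 y k).trans (hMM _ (le_max_right _ _) k)
  · exact fun k => (hfl.2 k).trans (hMM _ (le_max_right _ _) k)

end Crest.Agent.R165.SpPLx67
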