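import Crest.Agent.R165.JRunE_445
import Crest.Agent.R165.SRdomA_900
import Crest.Agent.R165.SpinDom2_432
import Crest.Agent.R165.Fin4_315
import Crest.Agent.R165.Comp2_889
import Crest.Agent.R165.XBd_915
import Crest.Agent.R165.DiscK_892

/-!
# Row 165 (S0250), discs: the spin data of large plus discs (helper67)

* `K_conn`, `bd_of_NC` : the structure `Bd` from the bounds `NC` of `Comp2_889`
* `mesh_disc` : geometry of the insertions in discs `ball 0 B`, along `dl`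
* `BdDom` : the bounds of one domain flow which are used
* `fin_disc` : the final factor of the disc flows tends to one
* `spinData_disc` : **`SpinData` for large plus discs**; the only hypotheses are bounds
-/

set_option autoImplicit false
set_option linter.unusedSectionVars false

noncomputable section

open Finset Filter Topology
open scoped ENNReal
open Crest.ProbabilityR.IsingModel

namespace Crest.Agent.R165.SpinDiscx67

open Crest.Agent.R165.Gr0x606 Crest.Agent.R165.Gr1x606 Crest.Agent.R165.GeOpsx337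
  Crest.Agent.R165.KStepx892 Crest.Agent.R165.KFlowx337 Crest.Agent.R165.Telx337
  Crest.Agent.R165.KInitx892 Crest.Agent.R165.Compx889 Crest.Agent.R165.XBdx915
open Crest.Agent.R165.Latx683 (BW wDom ray wX wPl IsCov covS Fld HE xc)
open Crest.Agent.R165.GDefx387 Crest.Agent.R165.GSysx387 Crest.Agent.R165.BgIsox432
  Crest.Agent.R165.CmpBgx432
open Crest.Agent.R165.Bkgx683 Crest.Agent.R165.PEndx683 Crest.Agent.R165.Outx683
open Crest.Agent.R165.Spinx930 Crest.Agent.R165.SpinSysx892 Crest.Agent.R165.DiscDatax892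
  Crest.Agent.R165.SDatax900 Crest.Agent.R165.DomGeox900 Crest.Agent.R165.Scalex900
  Crest.Agent.R165.SpinDomx432 Crest.Agent.R165.DiscKx892 Crest.Agent.R165.SRdomAx900
open Crest.Agent.R165.Topx683 Crest.Agent.R165.Centx541 Crest.Agent.R165.SRx541
open Crest.Agent.R165.UKerx420 (wD Cof Sof Sof_spec Sof_skew)
open Crest.Agent.R165.Fin2x315 Crest.Agent.R165.JVolx950
open Crest.Agent.R165.JRunx445 (Links links_disc)
open Crest.Agent.R165.U5Px422 (TT mem_TT)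
open Crest.Agent.R165.NSumx915 Crest.Agent.R165.PNormx417 Crest.Agent.R165.Bridgex915

/-! ### bounds -/

section bd

variable {G : Type} [CommRing G] [CN G] [CNZ G] [DecidableEq G]

/-- the polymers of a flow are connected at the range of the scale -/
theorem K_conn {c : Cst} {P : MPar} (B : Bg G) (hR : 2 * P.R + 1 ≤ nearR c.p c.k0 0) (k : ℕ)
    (U : Finset (G × G)) (hU : (fl c P B).K k U ≠ 0) :
    U.Nonempty ∧ Packx915.Conn fd (nearR c.p c.k0 k) U := by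
  have h0 : ∀ U, B.K0 P LinearMap.id (noSrc G (Ge (Fld G))) c.p c.k0 U ≠ 0 →
      acS fd (nearR c.p c.k0 0) (Set.univ : Set (G × G)) U := by
    intro U hU
    refine ⟨?_, JVolx950.K0_conn B P LinearMap.id _ hR (fun k => k.elim0) hU,
      Set.subset_univ _⟩
    by_contra hne
    rw [Finset.not_nonempty_iff_eq_empty] at hne
    exact hU (by rw [hne]; exact JVolx950.K0_empty B P _ _ _ _)
  obtain ⟨h1, h2, -⟩ := ac_sys DD (w := B.w) (mk := ∅) h0 k U hU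
  exact ⟨h1, h2⟩

/-- **`Bd` from the bounds of the constants** -/
theorem bd_of_NC {c : Cst} {P : MPar} (B : Bg G) (hR : 2 * P.R + 1 ≤ nearR c.p c.k0 0) {Γ : ℝ≥0∞}
    {E : ℕ → ℝ} {N : ℕ}
    (h : ∀ k < N, NC (fl c P B) (rr c.p c.k0) Γ k ≤ ENNReal.ofReal (E k)) :
    Bd (fl c P B) fd (fun k => rr c.p c.k0 (k + 1)) (nearR c.p c.k0) Γ E N := by
  refine ⟨fun k hk => h k hk, fun k _ U hU => ?_⟩
  refine K_conn B hR k U fun h0 => hU ?_
  rw [cc, Sys.H, h0, map_zero, map_zero]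

end bd

/-! ### geometry of discs -/

/-- separation of the insertions and interior neighbourhoods -/
theorem geo_disc {n : ℕ} {x : Fin n → ℂ} (hinj : Function.Injective x) :
    ∃ c > 0, ∀ᶠ a : ℝ in 𝓝[>] 0, ∀ᶠ B : ℝ in atTop,
      (∀ i j, i ≠ j → c / a ≤ (fd (meshIndex a (x i)) (meshIndex a (x j)) : ℝ)) ∧
      ∀ i (f : ℤ × ℤ), (fd (meshIndex a (x i)) f : ℝ) ≤ c / a →
        cornersIn (domainSites (Metric.ball (0 : ℂ) B) a) f := by
  obtain ⟨B0, hB0⟩ : ∃ B0 : ℝ, ∀ i, x i ∈ Metric.ball (0 : ℂ) B0 := by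
    refine ⟨∑ i, ‖x i‖ + 1, fun i => ?_⟩
    rw [Metric.mem_ball, dist_zero_right]
    have := Finset.single_le_sum (f := fun i => ‖x i‖) (fun i _ => norm_nonneg _)
      (Finset.mem_univ i)
    linarith
  obtain ⟨c, hc, h⟩ := geo_all Metric.isOpen_ball hB0 hinj
  refine ⟨c, hc, ?_⟩
  filter_upwards [h] with a ha
  filter_upwards [eventually_ge_atTop B0] with B hB
  have hsub : domainSites (Metric.ball (0 : ℂ) B0) a ⊆ domainSites (Metric.ball (0 : ℂ) B) a :=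
    fun _ hz => Metric.ball_subset_ball hB hz
  refine ⟨ha.1, fun i f hf => ?_⟩
  have h1 := ha.2 i f hf
  exact ⟨hsub h1.1, hsub h1.2.1, hsub h1.2.2.1, hsub h1.2.2.2⟩

/-- the sites of the disc -/
abbrev TD (P : ℝ × ℝ) : Finset (ℤ × ℤ) := TT (Metric.ball (0 : ℂ) P.2) P.1

/-- the geometric hypotheses hold for large discs -/
theorem mesh_disc {n : ℕ} {x : Fin n → ℂ} (hinj : Function.Injective x) :
    ∃ c₀ > 0, ∀ᶠ P in dl, Mesh (TD P) (fun j => meshIndex P.1 (x j)) (rad c₀ 8 P.1) := by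
  obtain ⟨c₀, hc₀, h⟩ := geo_disc hinj
  refine ⟨c₀, hc₀, ?_⟩
  have h' : ∀ᶠ P : ℝ × ℝ in dl,
      (∀ i j, i ≠ j → c₀ / P.1 ≤ (fd (meshIndex P.1 (x i)) (meshIndex P.1 (x j)) : ℝ)) ∧
      ∀ i (f : ℤ × ℤ), (fd (meshIndex P.1 (x i)) f : ℝ) ≤ c₀ / P.1 →
        cornersIn (domainSites (Metric.ball (0 : ℂ) P.2) P.1) f := eventually_curry_iff.2 h
  filter_upwards [h', ev_pos] with P h1 h3
  have h4 : ((8 * rad c₀ 8 P.1 : ℕ) : ℝ) ≤ c₀ / P.1 := rad_le hc₀ (by norm_num) h3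
  have h5 : (0 : ℝ) < c₀ / P.1 := div_pos hc₀ h3
  constructor
  · intro j k hjk
    have h6 := h1.1 j k hjk
    have h7 : 8 * rad c₀ 8 P.1 ≤ fd (meshIndex P.1 (x j)) (meshIndex P.1 (x k)) := by
      exact_mod_cast h4.trans h6
    have h8 : 0 < fd (meshIndex P.1 (x j)) (meshIndex P.1 (x k)) := by
      exact_mod_cast h5.trans_le h6
    omega
  · intro j f hf
    rw [TT_coe Metric.isBounded_ball h3]
    refine h1.2 j f (le_trans ?_ h4)
    exact_mod_cast (by omega : fd (meshIndex P.1 (x j)) f ≤ 8 * rad c₀ 8 P.1)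

/-- everything about the covariances, eventually -/
theorem links_dl : ∀ᶠ P in dl, ∀ (n : ℕ) (X : Fin n → ℤ × ℤ),
    Links (Metric.ball (0 : ℂ) P.2) P.1 BoundaryCondition.plus X :=
  ev_aB fun _ ha => links_disc ha

theorem ball_norm_le {B : ℝ} : ∀ z ∈ Metric.ball (0 : ℂ) B, ‖z‖ ≤ B := fun z hz => by
  rw [Metric.mem_ball, dist_zero_right] at hz
  exact hz.le

/-- the volume -/
abbrev LD (R : ℕ) (P : ℝ × ℝ) : Finset (ℤ × ℤ) := Lam P.2 (max R 1) P.1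

theorem volD {R : ℕ} {P : ℝ × ℝ} (ha : 0 < P.1) {κ : Type} (Ys : κ → Finset (ℤ × ℤ))
    (hY : ∀ k, Ys k = ∅) : Vol (TD P) BoundaryCondition.plus (max R 1) Ys (LD R P) :=
  vol_Lam ball_norm_le Metric.isBounded_ball ha _ _ Ys hY

/-- radius of the volume -/
theorem fd_LD {R : ℕ} {P : ℝ × ℝ} (_ : 0 < P.1) (hR : 1 ≤ P.2 / P.1) {f : ℤ × ℤ}
    (hf : f ∈ LD R P) : (fd ((0, 0) : ℤ × ℤ) f : ℝ) ≤ (1 + (max R 1 : ℕ) + 3) * (P.2 / P.1) := by
  have h1 := J4Defx653.mem_bx.1 hf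
  have h2 : fd ((0, 0) : ℤ × ℤ) f ≤ ⌈P.2 / P.1⌉₊ + max R 1 + 2 := by
    have e : fd ((0, 0) : ℤ × ℤ) f = max ((0 : ℤ) - f.1).natAbs ((0 : ℤ) - f.2).natAbs := rfl
    rw [e]
    rw [Int.abs_eq_natAbs, Int.abs_eq_natAbs] at h1
    omega
  have h3 : (fd ((0, 0) : ℤ × ℤ) f : ℝ) ≤ (⌈P.2 / P.1⌉₊ : ℝ) + (max R 1 : ℕ) + 2 := by
    exact_mod_cast h2
  have h4 : (⌈P.2 / P.1⌉₊ : ℝ) ≤ P.2 / P.1 + 1 := (Nat.ceil_lt_add_one (by linarith)).le
  have h5 : (0 : ℝ) ≤ ((max R 1 : ℕ) : ℝ) := Nat.cast_nonneg _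
  nlinarith

/-! ### the last scale -/

/-- **the final factor of the disc flows tends to one** -/
theorem fin_disc {c : Cst} {Γ : ℝ≥0∞} (hΓ : 1 ≤ Γ) (Q : MPar) {R m : ℕ}
    (X : ℝ × ℝ → Fin m → ℤ × ℤ) {Kf : ℝ × ℝ → ℕ} {A : ℝ × ℝ → ℝ} (hA : Tendsto A dl atTop) {κ : ℝ}
    (hκ : 0 < κ) (hr : ∀ᶠ P in dl, κ * (P.2 / P.1) ≤ rr c.p c.k0 (Kf P))
    (hK : Tendsto (fun P => NK (Bg.dom (TD P) .plus (X P)).w (A P) (rr c.p c.k0 (Kf P)) Γ
      (fun _ => True) (fun U => ((domF c Q (TD P) .plus (X P)).K (Kf P) U : Gr (Fld ℤ)))) dl (𝓝 0)) :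
    Tendsto (fun P => Zf (domF c Q (TD P) .plus (X P)) (LD R P) (Kf P)
      (rem c (Bg.dom (TD P) .plus (X P)).w (Kf P))) dl (𝓝 1) := by
  have hRt : Tendsto (fun P : ℝ × ℝ => P.2 / P.1) dl atTop := by
    refine tendsto_aB fun a ha => ?_
    simp only
    exact tendsto_id.atTop_div_const ha
  have hR1 : ∀ᶠ P : ℝ × ℝ in dl, 1 ≤ P.2 / P.1 := hRt.eventually_ge_atTop 1
  refine Fin4x315.zf_tendsto DD (by unfold MM; norm_num) hκ Fin3x315.CPl_pos
    (Cv := 1 + ((max R 1 : ℕ) : ℝ) + 3) (by positivity) hΓ hRt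
    (w := fun P => (Bg.dom (TD P) .plus (X P)).w)
    (Eventually.of_forall fun P => Fin3x315.abs_wX_le _ _ _) ?_ hA hr ?_
    (x := fun _ => (0, 0)) ?_ hK
  · filter_upwards [hR1, ev_pos] with P h1 h2 f
    refine Fin3x315.gap_plus (X P) (c := (0, 0)) h1 (fun z hz => ?_) f
    have hz' : meshPoint P.1 z ∈ Metric.ball (0 : ℂ) P.2 := (mem_TT Metric.isBounded_ball h2).1 hz
    exact GapFinx40.sites_le ball_norm_le h2 z hz'
  · filter_upwards [links_dl] with P h1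
    have h2 := (h1 m (X P)).invB
    exact ⟨_, h2, (last_eq h2 c (Kf P)).symm⟩
  · filter_upwards [hR1, ev_pos] with P h1 h2 f hf
    exact fd_LD h2 h1 hf

/-! ### the spin data -/

/-- the bounds of one disc flow which are used: constants at the scales `k < N`, norm at the last
scale `N` with amplitude `A` -/
structure BdDom (c : Cst) (Q : MPar) (T : Finset (ℤ × ℤ)) {m : ℕ} (X : Fin m → ℤ × ℤ) (M A : ℝ)
    (N : ℕ) : Prop where
  nc : ∀ k < N, NC (domF c Q T .plus X) (rr c.p c.k0) (ENNReal.ofReal c.Γ) k ≤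
    ENNReal.ofReal (M * (1 / 2) ^ k)
  last : NK (Bg.dom T .plus X).w A (rr c.p c.k0 N) (ENNReal.ofReal c.Γ) (fun _ => True)
    (fun U => ((domF c Q T .plus X).K N U : Gr (Fld ℤ))) ≤ ENNReal.ofReal (M * (1 / 2) ^ N)

theorem kf_tendsto_of_lower {c : Cst} {Kf : ℝ × ℝ → ℕ} {κ : ℝ}
    (hκ : 0 < κ) (hr : ∀ᶠ P in dl, κ * (P.2 / P.1) ≤ rr c.p c.k0 (Kf P)) : Tendsto Kf dl atTop := by
  have hRt : Tendsto (fun P : ℝ × ℝ => κ * (P.2 / P.1)) dl atTop := by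
    refine tendsto_aB fun a ha => ?_
    simp only
    exact (tendsto_id.atTop_div_const ha).const_mul_atTop hκ
  rw [tendsto_atTop]
  intro N
  filter_upwards [hr, hRt.eventually_ge_atTop ((rr c.p c.k0 N : ℝ) + 1)] with P h1 h2
  by_contra hcon
  rw [not_le] at hcon
  have h3 : rr c.p c.k0 (Kf P) ≤ rr c.p c.k0 N := rr_mono c.p c.k0 hcon.le
  have h4 : (rr c.p c.k0 (Kf P) : ℝ) ≤ rr c.p c.k0 N := by exact_mod_cast h3
  linarith

theorem tendsto_last {M : ℝ} {Kf : ℝ × ℝ → ℕ} (hKf : Tendsto Kf dl atTop) {N : ℝ × ℝ → ℝ≥0∞}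
    (h : ∀ᶠ P in dl, N P ≤ ENNReal.ofReal (M * (1 / 2) ^ Kf P)) : Tendsto N dl (𝓝 0) := by
  have h1 : Tendsto (fun k : ℕ => ENNReal.ofReal (M * (1 / 2) ^ k)) atTop (𝓝 0) := by
    have h2 : Tendsto (fun k : ℕ => M * (1 / 2 : ℝ) ^ k) atTop (𝓝 (M * 0)) :=
      (tendsto_pow_atTop_nhds_zero_of_lt_one (by norm_num) (by norm_num)).const_mul M
    rw [mul_zero] at h2
    have h3 := ENNReal.tendsto_ofReal h2
    rwa [ENNReal.ofReal_zero] at h3
  exact tendsto_of_tendsto_of_tendsto_of_le_of_le' tendsto_const_nhds (h1.comp hKf)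
    (Eventually.of_forall fun _ => zero_le) h

/-- **`SpinData` for large plus discs** -/
theorem spinData_disc {J : ℝ} (hJ : 0 < J) {R : ℕ} {V : Finset (ℤ × ℤ) → ℝ} (hV : VHyp R V)
    {c : Cst} (hp : 1 ≤ c.p) (h5 : 5 ≤ c.p * (c.k0 + 1))
    (hR : 2 * max R 1 + 1 ≤ nearR c.p c.k0 0) (hΓ : 4 ≤ c.Γ) {n : ℕ} {x : Fin n → ℂ}
    (hinj : Function.Injective x) :
    ∃ u0 > 0, ∀ u, 0 < u → u ≤ u0 → ∀ (lam β z : ℝ), 0 < 1 + z → ∀ (Kf : ℝ × ℝ → ℕ)
      (A : ℝ × ℝ → ℝ) (M κ : ℝ), 0 ≤ M → 0 < κ → Tendsto A dl atTop →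
      (∀ᶠ P in dl, k1 c.p c.k0 u P.1 ≤ Kf P) →
      (∀ᶠ P in dl, κ * (P.2 / P.1) ≤ rr c.p c.k0 (Kf P)) →
      (∀ᶠ P in dl, BdDom c (mpar J lam R V β z) (TD P) (fun i => meshIndex P.1 (x i)) M (A P)
        (Kf P)) →
      (∀ᶠ P in dl, BdDom c (mpar J lam R V β z) (TD P) (fun i : Fin 0 => i.elim0) M (A P)
        (Kf P)) →
      (∀ y k, NC (brF c (mpar J lam R V β z) y) (rr c.p c.k0) (ENNReal.ofReal c.Γ) k ≤
        ENNReal.ofReal (M * (1 / 2) ^ k)) →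
      (∀ k, NC (plF c (mpar J lam R V β z)) (rr c.p c.k0) (ENNReal.ofReal c.Γ) k ≤
        ENNReal.ofReal (M * (1 / 2) ^ k)) →
      ∃ G : ScaleData (fd : ℤ × ℤ → ℤ × ℤ → ℕ),
        Nonempty (SpinData G ((𝓝[>] (0 : ℝ)).curry (atTop : Filter ℝ)) n
          (fun p => spm (Metric.ball 0 p.2) p.1 .plus J lam R V β x /
            spm0 (Metric.ball 0 p.2) p.1 .plus x) (zetaK c (mpar J lam R V β z))) := by
  obtain ⟨c₀, hc₀, hmesh⟩ := mesh_disc hinj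
  refine ⟨c₀ / (8 * ((128 : ℕ) + 1)), by positivity, ?_⟩
  intro u hu hu0 lam β z hz Kf A M κ hM hκ hA hk1 hr hb1 hb2 hbB hbP
  set Q := mpar J lam R V β z with hQ
  have hΓ4 : (4 : ℝ≥0∞) ≤ ENNReal.ofReal c.Γ := by
    rw [← ENNReal.ofReal_ofNat]
    exact ENNReal.ofReal_le_ofReal (by simpa using hΓ)
  have hΓ1 : (1 : ℝ≥0∞) ≤ ENNReal.ofReal c.Γ := le_trans (by norm_num) hΓ4
  have hE0 : ∀ k, 0 ≤ (fun k : ℕ => M * (1 / 2 : ℝ) ^ k) k := fun k => by positivity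
  have hE : Summable (fun k : ℕ => M * (1 / 2 : ℝ) ^ k) :=
    (summable_geometric_of_lt_one (by norm_num) (by norm_num)).mul_left M
  have hKft : Tendsto Kf dl atTop := kf_tendsto_of_lower hκ hr
  have hRQ : 2 * Q.R + 1 ≤ nearR c.p c.k0 0 := hR
  refine ⟨gScale (G := ℤ) c.p c.k0 128 hΓ4 ENNReal.ofReal_ne_top hE0 hE, ⟨?_⟩⟩
  refine (spinSys hΓ4 ENNReal.ofReal_ne_top hE0 hE Q h5 hp (SpinDomx432.rhoH_le c.p c.k0)
    (l := dl) TD .plus (fun P i => meshIndex P.1 (x i)) (fun _ i => i.elim0)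
    (fun P => k1 c.p c.k0 u P.1) Kf (fun P => rad c₀ 8 P.1) (LD R) (LD R)
    (fun P => Cof (Bg.dom (TD P) .plus (fun i => meshIndex P.1 (x i))).w)
    (fun P => rem c (Bg.dom (TD P) .plus (fun i => meshIndex P.1 (x i))).w (Kf P))
    (fun P => Cof (Bg.dom (TD P) .plus (fun i : Fin 0 => i.elim0)).w)
    (fun P => rem c (Bg.dom (TD P) .plus (fun i : Fin 0 => i.elim0)).w (Kf P))
    (k1_tendsto_dl hp c.k0 hu) (tendsto_a (rad_tendsto hc₀ (by norm_num))) hk1 hmesh ?_ ?_ ?_ ?_ ?_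
    ?_ ?_ ?_ ?_).spinData ?_
  · -- scales
    have h1 : ∀ᶠ P : ℝ × ℝ in dl, (2 : ℝ) ^ (c.p * c.k0) ≤ u / P.1 := ev_a (ev_div hu)
    filter_upwards [h1, ev_pos] with P h2 h3
    refine mesh_scale hc₀ h3 ((rr_le_k1 h2 le_rfl).trans ?_)
    gcongr
  · filter_upwards [ev_pos] with P hP
    exact fl_Fl h5 Q (volD hP _ fun k => k.elim0) (Kf P)
  · filter_upwards [ev_pos] with P hP
    exact fl_Fl h5 Q (volD hP _ fun k => k.elim0) (Kf P)
  · filter_upwards [hb1] with P h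
    exact bd_of_NC _ hRQ h.nc
  · filter_upwards [hb2] with P h
    exact bd_of_NC _ hRQ h.nc
  · exact Eventually.of_forall fun P i => bd_of_NC _ hRQ fun k _ => hbB _ k
  · exact Eventually.of_forall fun P => bd_of_NC _ hRQ fun k _ => hbP k
  · exact fin_disc hΓ1 Q _ hA hκ hr (tendsto_last hKft (hb1.mono fun P h => h.last))
  · exact fin_disc hΓ1 Q _ hA hκ hr (tendsto_last hKft (hb2.mono fun P h => h.last))
  · have h1 : ∀ᶠ P : ℝ × ℝ in dl, 0 < spm0 (Metric.ball (0 : ℂ) P.2) P.1 .plus x :=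
      ev_aB fun a ha => (JDomAx606.ev_disc ha).mono fun B h => (h.2 n x).2.2
    filter_upwards [links_dl, h1, ev_pos] with P h2 h3 h4
    exact spm_eq h5 hJ.ne' hV.trans hV.range hV.even hz ball_norm_le Metric.isBounded_ball
      (by decide) x h4 (h2 n _).lk (h2 0 _).lk h3.ne'

end Crest.Agent.R165.SpinDiscx67
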