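import Crest.Agent.R165.SrcCstE_484
import Crest.Agent.R165.SrcTailB_999
import Crest.Agent.R165.SrcIns_991
import Crest.Agent.R165.JVol_950

/-!
# Row 165 (S0250), leaf P11 item 4: the run of 991's `sysP`, `flowP` (helper484)

* `LEAD_eq_LD` : 991's leading part is `LD`
* `sysP_SLA` (S-1) : `coP I ((sysP ..).K n U) ≠ 0 → sf i ⊆ U` for `i ∈ I`, source extraction on
* `sysP_conn` : activities live on nonempty connected sets
* `run_sysP` : the structure `Run` from the total norm of the remainders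
* `sysP_H_ne`, `sysP_hbig` : supports of the constants, sizes of the sets with two sources
* `flowP_conn`, `flowP_SLA`, `run_flowP`, `flowP_H_ne`, `flowP_hbig` : the same for the flow with bond
  sources
-/

set_option autoImplicit false
set_option linter.unusedSectionVars false
set_option linter.unusedVariables false

noncomputable section

namespace Crest.Agent.R165.SrcCstx484

open Finset
open scoped ENNReal
open Crest.Agent.R165.FinBx900 Crest.Agent.R165.KStepx892
open Crest.Agent.R165.Gr0x606 Crest.Agent.R165.Gr1x606 Crest.Agent.R165.GeOpsx337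
  Crest.Agent.R165.ExpGx337 Crest.Agent.R165.PNormx417 Crest.Agent.R165.KFlowx337
  Crest.Agent.R165.SrcDefx991 Crest.Agent.R165.SrcFinx441 Crest.Agent.R165.GrLocx337
open Crest.Agent.R165.SrcFinBx441 (Nw)
open Crest.Agent.R165.Packx915 (PD Conn)
open Crest.Agent.R165.Latx683 Crest.Agent.R165.GDefx387 Crest.Agent.R165.GSysx387
  Crest.Agent.R165.BgIsox432 Crest.Agent.R165.CmpBgx432
open Crest.Agent.R165.SrcSysx991
open Crest.Agent.R165.SrcTailx999 (SLA mem_SLA SLA_mono inG_mem_SLA cvG_mem_SLA vacH_mem_SLA)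

section sysP

variable {V : Type} [AddCommGroup V] [Module ℝ V] {m : ℕ}
variable {G : Type} [CommRing G] [CN G] [DecidableEq G]
variable {B : Sys (G × G) V} {R : SData G V m} {rs : ℕ → ℕ} {dp : ℕ → Fin m → Prop}
  {fs : Finset (G × G) → Submodule ℝ (VS V m)} {K0 : Finset (G × G) → Ge (VS V m)}

theorem LEAD_eq_LD (R : SData G V m) (z : Fin m → ℝ) (U : Finset (G × G)) :
    LEAD R z U = LD R.sf z R.β U := by
  classical
  unfold LEAD LD lead
  rw [sum_filter]
  refine sum_congr rfl fun i _ => ?_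
  by_cases h : R.sf i = U
  · rw [if_pos h, if_pos h.symm, map_smul, mul_smul_comm]
  · rw [if_neg h, if_neg fun h' => h h'.symm]

/-! ### S-1 : the sources of a coefficient lie inside the polymer -/

theorem tau_inG_mem_SLA {sf : Fin m → Finset (G × G)} {U : Finset (G × G)} {i : Fin m}
    (h : sf i ⊆ U) (a : Ge V) : (tau i * inG m a : Ge (VS V m)) ∈ SLA sf U := by
  refine mem_SLA.2 ⟨Subalgebra.mul_mem _ (tau_mem i) (inG_mem _), fun I hI j hj => ?_⟩
  rw [coP_tau_inG] at hI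
  split_ifs at hI with h1
  · rw [h1, mem_singleton] at hj
    rw [hj]; exact h
  · exact absurd rfl hI

/-- **(S-1)** -/
theorem sysP_SLA (h0 : ∀ U, K0 U ∈ SLA R.sf U) (n : ℕ) (U : Finset (G × G)) :
    (sysP B R rs dp fs K0).K n U ∈ SLA R.sf U := by
  classical
  induction n generalizing U with
  | zero => exact h0 U
  | succ n ih =>
    have hH : ∀ U, (sysP B R rs dp fs K0).H n U ∈ SLA R.sf U := fun U => cvG_mem_SLA _ (ih U)
    have hA : ∀ U, (sysP B R rs dp fs K0).A n U ∈ SLA R.sf U := by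
      intro U
      rw [sysP_A, srcE_gain, srcE_lost]
      refine Subalgebra.sub_mem _ (Subalgebra.sub_mem _ (Subalgebra.add_mem _ (inG_mem_SLA _ _ _) ?_)
        (Subalgebra.add_mem _ (inG_mem_SLA _ _ _) ?_)) (vacH_mem_SLA (hH U))
      · refine Subalgebra.sum_mem _ fun i hi => Subalgebra.sum_mem _ fun W _ => ?_
        rw [mem_filter] at hi
        rw [seX_apply]
        exact tau_inG_mem_SLA (by rw [hi.2.2]) _
      · split_ifs
        · refine Subalgebra.sum_mem _ fun i hi => ?_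
          rw [mem_filter] at hi
          rw [seX_apply]
          exact tau_inG_mem_SLA hi.2.2 _
        · exact Subalgebra.zero_mem _
    rw [Sys.K_succ]
    refine Sys.KK_mem (fun U => SLA R.sf U) (fun U W hUW => SLA_mono R.sf hUW) _ _ U
      (fun W _ => hH W) (fun W _ => ?_)
    rw [Sys.B_eq]
    exact Subalgebra.sub_mem _ (SrcDefx991.gexp_mem_sub _ (hA W)) (Subalgebra.one_mem _)

theorem sysP_sub (h0 : ∀ U, K0 U ∈ SLA R.sf U) (n : ℕ) (U : Finset (G × G))
    (I : Finset (Fin m)) (hI : coP I ((sysP B R rs dp fs K0).K n U) ≠ 0) :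
    ∀ i ∈ I, R.sf i ⊆ U := (mem_SLA.1 (sysP_SLA h0 n U)).2 I hI

/-- **connected supports** -/
theorem sysP_conn {Rr : ℕ → ℕ} (hR : Monotone Rr)
    (hnear : ∀ k, B.near k = fun x y => fd x y ≤ Rr k)
    (h0 : ∀ U, K0 U ≠ 0 → U.Nonempty ∧ Conn fd (Rr 0) U)
    (hT : ∀ k U, ∀ T ∈ (B.e k).out U, Conn fd (Rr (k + 1)) T)
    (hsf : ∀ i k, Conn fd (Rr k) (R.sf i)) (n : ℕ) (U : Finset (G × G))
    (hU : (sysP B R rs dp fs K0).K n U ≠ 0) : U.Nonempty ∧ Conn fd (Rr n) U := by
  refine K_conn (sysP B R rs dp fs K0) hR hnear h0 (fun k U T hT' => ?_) n U hU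
  rcases Finset.mem_union.1 (show T ∈ (liftE m (B.e k)).out U ∪
      (srcE (rs k) R.sf R.ne (dp k) R.mu R.β).out U from hT') with h | h
  · exact hT k U T h
  · obtain ⟨-, i, -, -, rfl⟩ := (mem_seOut (rs k) R.sf (dp k)).1 h
    exact hsf i (k + 1)

/-- **the run of `sysP`** -/
theorem run_sysP (h : SOK B K0) (hinj : Function.Injective R.sf) {P : ℕ → Prop}
    {z0 : Fin m → ℝ} {g : ℕ → V → ℝ≥0∞} {wt : ℕ → Finset (G × G) → V → ℝ≥0∞} {v : ℕ → ℝ} {Γ : ℝ}
    {e : ℕ → ℝ} {sz : ℕ → Finset (G × G) → ℕ}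
    (gram : ∀ k, P k → Gram (B.S k) (g k)) (gwt : ∀ k, P k → ∀ U x, g k x ≤ wt k U x)
    (v0 : ∀ k, P k → 0 < v k) (Γ1 : 1 ≤ Γ) (e0 : ∀ k, P k → 0 ≤ e k)
    (tot : ∀ k, P k → ∑' U, ENNReal.ofReal (Γ ^ sz k U) *
      Nw (wt k U) (fun _ => v k) (PP B R rs dp fs K0 z0 k U) ≤ ENNReal.ofReal (e k)) :
    Run (sysP B R rs dp fs K0) P B.S g wt v Γ e sz R.sf (zeta B R rs dp fs K0 z0) R.β
      (PP B R rs dp fs K0 z0) where
  vac := rfl
  S_eq k := rfl
  inj := hinj
  step k hk :=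
    { gram := gram k hk
      gwt := gwt k hk
      v0 := v0 k hk
      Γ1 := Γ1
      e0 := e0 k hk
      dec := fun U => by rw [pNoS_K h, ← LEAD_eq_LD]; exact K_eq_PP z0 k U
      tot := tot k hk }

/-- where the constants come from -/
theorem sysP_H_ne (h : SOK B K0) (n : ℕ) (U : Finset (G × G)) (I : Finset (Fin m))
    (hI : co I ((sysP B R rs dp fs K0).H n U) ≠ 0) :
    coP I ((sysP B R rs dp fs K0).K n U) ≠ 0 := by
  intro h0
  apply hI
  rw [co_apply, coP_H h, h0, map_zero, map_zero]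

end sysP

/-! ### the concrete ranges -/

section near

variable {m : ℕ} {G : Type} [CommRing G] [CN G] [CNZ G] [DecidableEq G] {V : Type}
  [AddCommGroup V] [Module ℝ V]
variable {B : Sys (G × G) V} {R : SData G V m} {rs : ℕ → ℕ} {dp : ℕ → Fin m → Prop}
  {fs : Finset (G × G) → Submodule ℝ (VS V m)} {K0 : Finset (G × G) → Ge (VS V m)} {l k0 : ℕ}

/-- sizes of the sets with two sources -/
theorem sysP_hbig (hl : 4 ≤ l)
    (hconn : ∀ n U, (sysP B R rs dp fs K0).K n U ≠ 0 → U.Nonempty ∧ Conn fd (nearR l k0 n) U)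
    (hsub : ∀ n U I, coP I ((sysP B R rs dp fs K0).K n U) ≠ 0 → ∀ i ∈ I, R.sf i ⊆ U)
    {x : Fin m → G × G} (hx : ∀ i, x i ∈ R.sf i) {N : ℕ}
    (hfar : ∀ i j, i ≠ j → m * rr l k0 N ≤ fd (x i) (x j)) {I : Finset (Fin m)}
    (hI : 2 ≤ I.card) : ∀ k < N, ∀ U, coP I ((sysP B R rs dp fs K0).K k U) ≠ 0 →
      (m + 1) * (N - k) ≤ size (rr l k0 k) U := by
  intro k hk U hU
  have hm : 1 ≤ m := by
    rcases Nat.eq_zero_or_pos m with rfl | h
    · have := card_le_univ I
      rw [Fintype.card_fin] at this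
      omega
    · exact h
  obtain ⟨i, hi, j, hj, hij⟩ := Finset.one_lt_card.1 (by omega : 1 < I.card)
  have h1 := hsub k U I hU
  have hK : (sysP B R rs dp fs K0).K k U ≠ 0 := fun h0 => hU (by rw [h0, map_zero])
  exact size_far hl hk (hconn k U hK).2 (h1 i hi (hx i)) (h1 j hj (hx j)) hm (hfar i j hij)

end near

end Crest.Agent.R165.SrcCstx484
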