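import Crest.Agent.R165.CmpSrc_432
import Crest.Agent.R165.SrcIns_991
import Crest.Agent.R165.K0IsoB_900
import Crest.Agent.R165.SpinDom2_432

/-!
# Row 165 (S0250): the flow with bond sources under isomorphisms of backgrounds (helper432)

* `coP_pS` : the coefficient of the selected source
* `exC_srcE` : `ExC` for the extraction `srcE` of `SrcSys_991`
* `beB_nat`, `cS_nat`, `muB_nat` : the leading forms and their coefficients are natural
* `K0_bond` : the initial activities with bond sources correspond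
* `K0P_mem` : they are local
* `flowP_K_eq`, `flowP_H_eq`, `flowP_vac_eq` : **the flows with bond sources correspond**
* `BondC`, `bondC_dom`, `flowP_dom_H`, `flowP_dom_K` : domain with `m` sources and insertions /
  plane with the source `(0, j)`
-/

set_option autoImplicit false
set_option linter.unusedSectionVars false

noncomputable section

open scoped ENNReal
open Crest.ProbabilityR.IsingModel
open Crest.Agent.R165.Gr0x606 Crest.Agent.R165.Gr1x606 Crest.Agent.R165.Latx683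
open Crest.Agent.R165.GDefx387 Crest.Agent.R165.GeOpsx337 Crest.Agent.R165.KFlowx337
open Crest.Agent.R165.KEqx337 Crest.Agent.R165.KMapx892 Crest.Agent.R165.GrLocx337
open Crest.Agent.R165.FRDPolyx439 Crest.Agent.R165.FRDLatx439 Crest.Agent.R165.BgIsox432
open Crest.Agent.R165.PStepx417 Crest.Agent.R165.GSysx387 Crest.Agent.R165.SrcDefx991
open Crest.Agent.R165.SrcSysx991 Crest.Agent.R165.SrcInsx991 Crest.Agent.R165.KInitx892
open Crest.Agent.R165.Bkgx683 Crest.Agent.R165.J4K0Mapx126 Crest.Agent.R165.J4Geox126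
open Crest.Agent.R165.J4K0x126 Crest.Agent.R165.K0Isox900 Crest.Agent.R165.DomGeox900
open Crest.Agent.R165.J4Defx653 (Can tr BB)
open Crest.Agent.R165.J4RRx653 (RR ep em em_ep)
open Crest.Agent.R165.J4Lnkx653 (frV)
open Crest.Agent.R165.J1ax606 (pe qe pe_zero pe_one qe_zero qe_one)
open Crest.Agent.R165.Locx901 (form formL formL_apply form_mp form_smul_left form_smul_right)
open Crest.Agent.R165.Scalex900 (fd_int)
open Crest.Agent.R165.PlaneLocx901 (cMass)
open Crest.Agent.R165.PlaneModesx901 (tauV Fc)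

namespace Crest.Agent.R165.CmpBgx432

section ex

variable {G G' : Type} [CommRing G] [CN G] [CNZ G] [DecidableEq G] [CommRing G'] [CN G'] [CNZ G']
  [DecidableEq G'] {w : BW G} {w' : BW G'} {Z : Set (G × G)} {m m' : ℕ}

/-- the coefficient of a selected source -/
theorem coP_pS (b : BgIso w w' Z) (σ : Fin m' → Fin m) (j : Fin m') (a : Ge (VS (Fld G) m)) :
    coP {j} (mpG (pS b σ) a) = mpG b.push (coP {σ j} a) := by
  rw [coP_single, coP_single, cpair_pS, noS_pS]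

theorem dd_mem_gr {V : Type*} [AddCommGroup V] [Module ℝ V] {W : Submodule ℝ V}
    (l : Module.Dual ℝ V) {a : Gr V} (ha : a ∈ gr W) : dd l a ∈ gr W := by
  obtain ⟨a', rfl⟩ := exists_of_mem_gr ha
  rw [← mp_dd]
  exact mp_mem_gr W _

/-- the coefficients of local elements are local -/
theorem coP_mem_fldU {sf : Fin m → Finset (G × G)} {i : Fin m} {U : Finset (G × G)}
    {a : Ge (VS (Fld G) m)} (ha : a ∈ grG (fldUS sf U)) : coP {i} a ∈ grG (fldU U) := by
  rw [coP_single]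
  refine noS_mem_fldU sf ?_
  rw [mem_grG, coe_cpair]
  exact dd_mem_gr _ (dd_mem_gr _ (mem_grG.1 ha))

/-- **correspondence of the sources**: `σ` selects the sources which are visible in `Z` -/
structure SrcC (b : BgIso w w' Z) (σ : Fin m' → Fin m) (sf : Fin m → Finset (G × G))
    (sf' : Fin m' → Finset (G' × G')) : Prop where
  inj : Function.Injective σ
  sub : ∀ j, ∀ f ∈ sf (σ j), f ∈ Z
  vis : ∀ i, (∀ f ∈ sf i, f ∈ Z) → ∃ j, σ j = i
  sf_eq : ∀ j, sf' j = (sf (σ j)).image b.τ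

/-- **the extraction of the source terms corresponds** -/
theorem exC_srcE (b : BgIso w w' Z) {σ : Fin m' → Fin m} {sf : Fin m → Finset (G × G)}
    {sf' : Fin m' → Finset (G' × G')} (h : SrcC b σ sf sf') (hsf : ∀ i, (sf i).Nonempty)
    (hsf' : ∀ j, (sf' j).Nonempty) {dp : Fin m → Prop} {dp' : Fin m' → Prop}
    {mu : Fin m → Ge (Fld G) →ₗ[ℝ] ℝ} {β : Fin m → Ge (Fld G)}
    {mu' : Fin m' → Ge (Fld G') →ₗ[ℝ] ℝ} {β' : Fin m' → Ge (Fld G')} {l k0 n r : ℕ} (hl : 1 ≤ l)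
    (hr : r ≤ rr l k0 n) {W : Finset (G × G)} (hW : nbhd (rhoK l k0 (n + 1)) W ⊆ Z)
    (hdp : ∀ j, sf (σ j) ⊆ W → (dp' j ↔ dp (σ j)))
    (hmu : ∀ j, sf (σ j) ⊆ W → dp (σ j) → ∀ U, sf (σ j) ⊆ U → size r U ≤ 1 →
      ∀ c ∈ grG (fldU U), mu (σ j) c • mpG b.push (β (σ j)) = mu' j (mpG b.push c) • β' j) :
    ExC (srcE r sf hsf dp mu β) (srcE r sf' hsf' dp' mu' β') b.τ (pS b σ) (fldUS sf)
      (visH Z l k0 n) W := by
  have hWZ : ∀ f ∈ W, f ∈ Z := fun f hf => hW (subset_nbhd W _ hf)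
  have hball : ∀ f ∈ W, ball f r ⊆ Z := fun f hf => by
    refine ((ball_subset_nbhd hf).trans (nbhd_mono ?_)).trans hW
    have := rhoH_add_le (k0 := k0) (n := n) hl
    omega
  have hvis : ∀ T ⊆ W, T.Nonempty → ∀ U : Finset (G × G), T ⊆ U → size r U ≤ 1 →
      visH Z l k0 n U := by
    intro T hT hTne U hTU hU
    obtain ⟨t, ht⟩ := hTne
    refine ⟨⟨t, hTU ht⟩, ?_⟩
    rintro f ⟨u, hu, hf⟩
    refine hW ⟨t, hT ht, ?_⟩
    have h1 := size_le_one_iff.1 hU t (hTU ht) u hu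
    have h2 := fd_triangle t u f
    have h3 := rhoH_add_le (k0 := k0) (n := n) hl
    omega
  have hback : ∀ j (U : Finset (G × G)), (∀ f ∈ U, f ∈ Z) → sf' j ⊆ U.image b.τ →
      sf (σ j) ⊆ U := by
    intro j U hUZ h3 f hf
    have h6 : b.τ f ∈ U.image b.τ := h3 (by rw [h.sf_eq j]; exact Finset.mem_image_of_mem _ hf)
    obtain ⟨g, hg, hg'⟩ := Finset.mem_image.1 h6
    rwa [← b.injOn (hUZ g hg) (h.sub j f hf) hg']
  have hback' : ∀ j (T : Finset (G × G)), (∀ f ∈ T, f ∈ Z) → sf' j = T.image b.τ →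
      sf (σ j) = T := by
    intro j T hT h4
    refine image_inj b (h.sub j) hT ?_
    rw [← h.sf_eq j, h4]
  refine ⟨?_, ?_, ?_, ?_⟩
  · intro T hT hTne U hU
    rw [mem_srcE_inn] at hU
    obtain ⟨h1, i, h2, h3, rfl⟩ := hU
    exact hvis _ hT hTne U h3 h1
  · intro T hT hTne
    ext U'
    rw [mem_srcE_inn, Finset.mem_image]
    constructor
    · rintro ⟨h1, j, h2, h3, h4⟩
      have h5 : sf (σ j) = T := hback' j T (fun f hf => hWZ f (hT hf)) h4
      obtain ⟨t, ht⟩ := hTne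
      have ht' : b.τ t ∈ U' := h3 (by rw [h4]; exact Finset.mem_image_of_mem _ ht)
      obtain ⟨U, hU, rfl⟩ := exists_image b (hball t (hT ht)) (U' := U') fun x hx => by
        rw [b.image_ball (hball t (hT ht)), mem_ball]
        exact size_le_one_iff.1 h1 _ ht' x hx
      have hUZ : ∀ f ∈ U, f ∈ Z := fun f hf => hball t (hT ht) (hU f hf)
      refine ⟨U, ?_, rfl⟩
      rw [mem_srcE_inn]
      exact ⟨by rwa [size_im b r hUZ] at h1, σ j, (hdp j (by rw [h5]; exact hT)).1 h2,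
        hback j U hUZ h3, h5⟩
    · rintro ⟨U, hU, rfl⟩
      rw [mem_srcE_inn] at hU
      obtain ⟨h1, i, h2, h3, rfl⟩ := hU
      obtain ⟨j, rfl⟩ := h.vis i fun f hf => hWZ f (hT hf)
      have hv := hvis _ hT hTne U h3 h1
      have hUZ : ∀ f ∈ U, f ∈ Z := fun f hf => hv.2 (subset_nbhd U _ hf)
      refine ⟨by rwa [size_im b r hUZ], j, (hdp j hT).2 h2, ?_, h.sf_eq j⟩
      rw [h.sf_eq j]
      exact Finset.image_subset_image h3
  · intro U hU hUne
    have hUZ : ∀ f ∈ U, f ∈ Z := fun f hf => hWZ f (hU hf)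
    ext T'
    show T' ∈ seOut r sf' dp' (U.image b.τ) ↔ T' ∈ (seOut r sf dp U).image (Finset.image b.τ)
    rw [mem_seOut, Finset.mem_image]
    constructor
    · rintro ⟨h1, j, h2, h3, rfl⟩
      have h4 := hback j U hUZ h3
      refine ⟨sf (σ j), ?_, (h.sf_eq j).symm⟩
      rw [mem_seOut]
      exact ⟨by rwa [size_im b r hUZ] at h1, σ j, (hdp j (h4.trans hU)).1 h2, h4, rfl⟩
    · rintro ⟨T, hT, rfl⟩
      rw [mem_seOut] at hT
      obtain ⟨h1, i, h2, h3, rfl⟩ := hT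
      obtain ⟨j, rfl⟩ := h.vis i fun f hf => hUZ f (h3 hf)
      refine ⟨by rwa [size_im b r hUZ], j, (hdp j (h3.trans hU)).2 h2, ?_, h.sf_eq j⟩
      rw [h.sf_eq j]
      exact Finset.image_subset_image h3
  · classical
    intro T hT hTne U hU a ha
    have hTZ : ∀ f ∈ T, f ∈ Z := fun f hf => hWZ f (hT hf)
    rw [mem_srcE_inn] at hU
    obtain ⟨hsz, i0, -, hTU, rfl⟩ := hU
    rw [srcE_X, srcE_X, map_sum]
    symm
    refine Finset.sum_bij (fun j _ => σ j) ?_ ?_ ?_ ?_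
    · intro j hj
      rw [Finset.mem_filter] at hj ⊢
      have h5 := hback' j _ hTZ hj.2.2
      exact ⟨Finset.mem_univ _, (hdp j (by rw [h5]; exact hT)).1 hj.2.1, h5⟩
    · intro j _ j' _ hjj
      exact h.inj hjj
    · intro i hi
      rw [Finset.mem_filter] at hi
      obtain ⟨j, rfl⟩ := h.vis i fun f hf => hTZ f (by rw [← hi.2.2]; exact hf)
      refine ⟨j, ?_, rfl⟩
      rw [Finset.mem_filter]
      refine ⟨Finset.mem_univ _, (hdp j (by rw [hi.2.2]; exact hT)).2 hi.2.1, ?_⟩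
      rw [h.sf_eq j, hi.2.2]
    · intro j hj
      rw [Finset.mem_filter] at hj
      have h5 := hback' j _ hTZ hj.2.2
      have hjW : sf (σ j) ⊆ W := by rw [h5]; exact hT
      have e := hmu j hjW ((hdp j hjW).1 hj.2.1) U (by rw [h5]; exact hTU) hsz
        (coP {σ j} a) (coP_mem_fldU ha)
      rw [seX_apply, seX_apply, map_mul, pS_tau b h.inj, pS_inG, coP_pS, ← e,
        map_smul (mpG b.push)]

end ex

/-! ### the leading forms and their coefficients -/

section forms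

variable {w w' : BW ℤ} {Z : Set (ℤ × ℤ)}

theorem faE_ebm {G G' : Type} [CommRing G] [CN G] [DecidableEq G] [CommRing G'] [CN G']
    [DecidableEq G'] {w : BW G} {w' : BW G'} {Z : Set (G × G)} (b : BgIso w w' Z) {e : Bkgx683.EG G}
    (he : ∀ f ∈ faE e, f ∈ Z) : faE (ebm b.τ e) = (faE e).image b.τ := by
  obtain ⟨z, j⟩ := e
  rcases fin2 j with rfl | rfl
  · rw [faE_zero] at he
    have h1 : z - (0, 1) ∈ Z := he _ (by simp)
    have h2 : z ∈ Z := he _ (by simp)
    have h0 : ((z - (0, 1)).1, (z - (0, 1)).2 + 1) = z := by ext <;> simp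
    have h3 := b.e2 (z - (0, 1)) h1 (by rw [h0]; exact h2)
    rw [h0] at h3
    show faE ((b.τ z, 0) : Bkgx683.EG G') = _
    rw [faE_zero, faE_zero, Finset.image_insert, Finset.image_singleton, h3]
    congr 2
    ext <;> simp
  · rw [faE_one] at he
    have h1 : z - (1, 0) ∈ Z := he _ (by simp)
    have h2 : z ∈ Z := he _ (by simp)
    have h0 : ((z - (1, 0)).1 + 1, (z - (1, 0)).2) = z := by ext <;> simp
    have h3 := b.e1 (z - (1, 0)) h1 (by rw [h0]; exact h2)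
    rw [h0] at h3
    show faE ((b.τ z, 1) : Bkgx683.EG G') = _
    rw [faE_one, faE_one, Finset.image_insert, Finset.image_singleton, h3]
    congr 1
    ext <;> simp

/-- **the coefficient of the light modes is natural** -/
theorem cS_nat (b : BgIso w w' Z) {Z₁ : Set (ℤ × ℤ)} (b₁ : BgIso w (wPl ℤ) Z₁) {f : ℤ × ℤ} {R : ℕ}
    (h : ball f R ⊆ Z) (h1 : ball f R ⊆ Z₁) {a : Ge (Fld ℤ)} (ha : a ∈ grG (fldS (ball f R))) :
    cS w' (b.τ f) (mpG b.push a) = cS w f a := by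
  set c₁ : BgIso w (wPl ℤ) (ball f R) := canIso b₁ h1 with hc₁
  have hi : ∀ g ∈ ball (b.τ f) R, (b.symmBall h (by norm_num)).τ g ∈ ball f R := by
    intro g hg
    rw [← b.image_ball h] at hg
    obtain ⟨g, hg, rfl⟩ := hg
    show b.inv (b.τ g) ∈ ball f R
    rw [b.inv_tau (h hg)]
    exact hg
  set c₂ : BgIso w' (wPl ℤ) (ball (b.τ f) R) :=
    canIso ((b.symmBall h (by norm_num)).trans c₁ hi) le_rfl with hc₂
  have hτ : ∀ g ∈ ball f R, (b.mono h).τ g ∈ ball (b.τ f) R := by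
    intro g hg
    rw [← b.image_ball h]
    exact ⟨g, hg, rfl⟩
  set b' : BgIso w (wPl ℤ) (ball f R) := (b.mono h).trans c₂ hτ with hb'
  have hp : ∀ l, b'.push l = c₂.push (b.push l) := fun l => by
    have e := push_trans (b.mono h) c₂ hτ
    exact congrArg (fun T : Fld ℤ →ₗ[ℝ] Fld ℤ => T l) e
  set c : ℝ := c₁.s f * b'.s f with hc
  have hcc : c * c = 1 := sgn_sq c₁ b' f
  have ht : b'.τ f - c₁.τ f = 0 := by
    show tauC (b.τ f) (b.τ f) - tauC f f = 0
    rw [tauC_self, tauC_self, sub_self]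
  have e1 : ∀ B : BgIso w (wPl ℤ) (ball f R), B.τ = tauC f → B.s = gp w f → B.push = chP w f := by
    intro B h1 h2
    refine Finsupp.lhom_ext fun k c => ?_
    rw [BgIso.push_single, chP_single, h1, h2, Finsupp.smul_single, Finsupp.smul_single,
      smul_eq_mul, smul_eq_mul, mul_one]
  have e2 : ∀ B : BgIso w' (wPl ℤ) (ball (b.τ f) R), B.τ = tauC (b.τ f) → B.s = gp w' (b.τ f) →
      B.push = chP w' (b.τ f) := by
    intro B h1 h2
    refine Finsupp.lhom_ext fun k c => ?_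
    rw [BgIso.push_single, chP_single, h1, h2, Finsupp.smul_single, Finsupp.smul_single,
      smul_eq_mul, smul_eq_mul, mul_one]
  have hpt : ∀ l ∈ fldS (ball f R), chP w' (b.τ f) (b.push l) = (c • chP w f) l := by
    intro l hl
    rw [← e2 c₂ rfl rfl, ← e1 c₁ rfl rfl, ← hp, push_eq_tauV c₁ b' le_rfl le_rfl hl, ht]
    have h0 : tauV (0 : Fc) = LinearMap.id := by
      refine Finsupp.lhom_ext fun k c => ?_
      rw [tauV_single, add_zero]
      rfl
    rw [h0]
    rfl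
  rw [cS_apply, cS_apply, coe_mpG, mp_mp]
  have e3 : mp (chP w' (b.τ f) ∘ₗ b.push) (a : Gr (Fld ℤ)) = mp (c • chP w f) (a : Gr (Fld ℤ)) :=
    mp_congr (W := fldS (ball f R)) (fun l hl => hpt l hl) (mem_grG.1 ha)
  rw [e3, cMass, formL_apply, formL_apply, form_mp, form_mp]
  have e4 : ∀ l : Module.Dual ℝ (Fld ℤ), l ∘ₗ (c • chP w f) = c • (l ∘ₗ chP w f) := fun l => by
    ext x
    simp
  rw [e4, e4, form_smul_left, form_smul_right, ← mul_assoc, hcc, one_mul]

/-- **the leading form is natural** -/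
theorem beB_nat (b : BgIso w w' Z) {e : Bkgx683.EG ℤ} (he : ∀ f ∈ faE e, ball f 1 ⊆ Z) :
    mpG b.push (beB w e) = beB w' (ebm b.τ e) := by
  have hy := y_of b he (e := e) (Finset.Subset.refl _)
  have hb := hb_V b he e (Finset.Subset.refl _)
  have e1 : (frV ℤ).b e = bE e := rfl
  have e2 : (frV ℤ).b (ebm b.τ e) = bE (ebm b.τ e) := rfl
  rw [e1, e2] at hb
  have hsq : (b.s (pe e).1 * b.s (qe e).1) * (b.s (pe e).1 * b.s (qe e).1) = 1 := by
    have h1 := b.sq (pe e).1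
    have h2 := b.sq (qe e).1
    calc _ = (b.s (pe e).1 * b.s (pe e).1) * (b.s (qe e).1 * b.s (qe e).1) := by ring
      _ = 1 := by rw [h1, h2, one_mul]
  rw [beB, beB, map_smul, hb, smul_smul]
  congr 1
  rw [uB, uB, ← hy]
  ring

/-- **the coefficient of the leading form is natural** -/
theorem muB_nat (b : BgIso w w' Z) {Z₁ : Set (ℤ × ℤ)} (b₁ : BgIso w (wPl ℤ) Z₁) {e : Bkgx683.EG ℤ}
    {R : ℕ} (h : ball e.1 R ⊆ Z) (h1 : ball e.1 R ⊆ Z₁) (hR : 2 ≤ R) {a : Ge (Fld ℤ)}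
    (ha : a ∈ grG (fldS (ball e.1 R))) : muB w' (ebm b.τ e) (mpG b.push a) = muB w e a := by
  have hfa : ∀ f ∈ faE e, ball f 1 ⊆ ball e.1 R := by
    intro f hf
    refine ball_subset_ball (r' := 1) ?_
    have : fd e.1 f ≤ 1 := by
      obtain ⟨z, j⟩ := e
      rcases fin2 j with rfl | rfl
      · rw [faE_zero] at hf
        simp only [Finset.mem_insert, Finset.mem_singleton] at hf
        rcases hf with rfl | rfl
        · simp
        · rw [fd_int]; simp
      · rw [faE_one] at hf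
        simp only [Finset.mem_insert, Finset.mem_singleton] at hf
        rcases hf with rfl | rfl
        · rw [fd_int]; simp
        · simp
    omega
  have hbe : beB w e ∈ grG (fldS (ball e.1 R)) := by
    refine grG_mono (fldS_mono ?_) (beB_mem w e)
    rintro g ⟨f, hf, hg⟩
    exact hfa f hf hg
  have e0 : (ebm b.τ e).1 = b.τ e.1 := rfl
  rw [muB_apply, muB_apply, ← beB_nat b (fun f hf => (hfa f hf).trans h), e0,
    cS_nat b b₁ h h1 hbe, cS_nat b b₁ h h1 ha]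

end forms

/-! ### the initial activities with bond sources -/

section k0

variable {G G' : Type} [CommRing G] [CN G] [CNZ G] [DecidableEq G] [CommRing G'] [CN G'] [CNZ G']
  [DecidableEq G'] {w : BW G} {w' : BW G'} {Z : Set (G × G)} {m m' : ℕ}

theorem frG_inl_b (m : ℕ) (e : Bkgx683.EG G) :
    (frG (LinearMap.inl ℝ (Fld G) (Src m))).b e = inG m ((frV G).b e) := by
  rw [frG_b]
  unfold inG
  show _ = mpG _ (bi (Finsupp.single (pe e) 1) (Finsupp.single (qe e) 1))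
  rw [mpG_bi]

theorem frG_inl_I4 (m : ℕ) (f : G × G) :
    (frG (LinearMap.inl ℝ (Fld G) (Src m))).I4 f = inG m ((frV G).I4 f) := by
  rw [frG_I4]
  unfold inG
  show _ = mpG _ (∑ p ∈ (Finset.univ : Finset (Fin 4 × Fin 4)).filter (fun p => p.1 < p.2),
    bi (Finsupp.single (f, p.1) 1) (Finsupp.single (f, p.2) 1))
  rw [map_sum]
  exact Finset.sum_congr rfl fun p _ => by rw [mpG_bi]

/-- reclustering, with sources -/
theorem K1_isoS (b : BgIso w w' Z) (σ : Fin m' → Fin m) (l k0 : ℕ) {W : Finset (G × G)}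
    (hW : ∀ f ∈ W, f ∈ Z) {K0 : Finset (G × G) → Ge (VS (Fld G) m)}
    {K0' : Finset (G' × G') → Ge (VS (Fld G') m')}
    (hK : ∀ U ⊆ W, U.Nonempty → mpG (pS b σ) (K0 U) = K0' (U.image b.τ)) :
    mpG (pS b σ) (K1 (GSysx387.near l k0 0) K0 W) =
      K1 (GSysx387.near l k0 0) K0' (W.image b.τ) := by
  have hp : PIso (fun a c : G × G => a = c) (GSysx387.near l k0 0)
      (fun a c : G' × G' => a = c) (GSysx387.near l k0 0) W b.τ b.inv := by
    refine ⟨fun a ha => b.inv_tau (hW a ha), fun a ha c hc => ?_, fun a ha c hc => ?_⟩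
    · exact ⟨fun h => by rw [h], fun h => b.injOn (hW a ha) (hW c hc) h⟩
    · unfold GSysx387.near
      rw [b.iso a (hW a ha) c (hW c hc)]
  exact K1_map hp (mpG (pS b σ)).toRingHom hK

/-- **the initial activities with bond sources correspond** -/
theorem K0_bond {B : Bg G} {B' : Bg G'} (b : BgIso B.w B'.w Z) (P : MPar) (l k0 : ℕ)
    {σ : Fin m' → Fin m} (hσ : Function.Injective σ) {e : Fin m → Bkgx683.EG G}
    {e' : Fin m' → Bkgx683.EG G'} (he : ∀ j, e' j = ebm b.τ (e (σ j)))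
    (hin : ∀ j, ∀ f ∈ faE (e (σ j)), f ∈ Z)
    (hvis : ∀ i, (∀ f ∈ faE (e i), f ∈ Z) → ∃ j, σ j = i)
    (htch : ∀ f ∈ Z, (B.tch f ↔ B'.tch (b.τ f)))
    (hok : ∀ u ∈ Z, ∀ S ∈ Can P.R, Even S.card → (∀ f ∈ (Yf S).image (fz u), f ∈ Z) →
      (B.ok P.R u S ↔ B'.ok P.R (b.τ u) S)) {U : Finset (G × G)} (hU : ∀ f ∈ U, ball f 1 ⊆ Z) :
    mpG (pS b σ) (B.K0 P (LinearMap.inl ℝ (Fld G) (Src m)) (bondSrc (Fld G) e) l k0 U) =
      B'.K0 P (LinearMap.inl ℝ (Fld G') (Src m')) (bondSrc (Fld G') e') l k0 (U.image b.τ) := by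
  have hUZ : ∀ f ∈ U, f ∈ Z := fun f hf => hU f hf (mem_ball_self f 1)
  refine K1_isoS b σ l k0 hUZ fun U₁ hU₁ _ => ?_
  have hUZ₁ : ∀ f ∈ U₁, f ∈ Z := fun f hf => hUZ f (hU₁ hf)
  have hfe : ∀ j, faE (e' j) = (faE (e (σ j))).image b.τ := fun j => by
    rw [he j]; exact faE_ebm b (hin j)
  refine K0_chart (chart0_of (B := B.bk P (bondSrc (Fld G) e))
    (B' := B'.bk P (bondSrc (Fld G') e')) (τ := mpG (pS b σ)) (sm := Function.partialInv σ) b
    (fun f hf => hU f (hU₁ hf)) ?_ ?_ (fun _ => rfl) (fun _ => rfl) ?_ rfl (fun _ _ _ => rfl) ?_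
    ?_ ?_ ?_)
  · intro e heU
    rw [frG_inl_b, frG_inl_b, pS_inG, hb_V b (fun f hf => hU f (hU₁ hf)) e heU, map_smul]
  · intro f hf
    rw [frG_inl_I4, frG_inl_I4, pS_inG, hI_V]
  · intro f hf
    show B.sc P f = B'.sc P (b.τ f)
    unfold Bg.sc
    have := htch f (hUZ₁ f hf)
    by_cases h : B.tch f
    · rw [if_pos h, if_pos (this.1 h)]
    · rw [if_neg h, if_neg fun h' => h (this.2 h')]
  · intro u hu S hS hev hYf
    exact hok u (hUZ₁ u hu) S hS hev fun f hf => hUZ₁ f (hYf hf)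
  · intro k _ hk
    obtain ⟨j, rfl⟩ := hvis k fun f hf => hUZ₁ f (hk hf)
    refine ⟨j, Function.partialInv_left hσ j, hfe j, pS_tau b hσ j, ?_⟩
    show ep (Finsupp.single (e' j) 1) - 1 = em (ebm b.τ) (ep (Finsupp.single (e (σ j)) 1) - 1)
    rw [map_sub, map_one, em_ep, Finsupp.mapDomain_single, he j]
  · intro k _ hk k₂ _ hk₂ h
    obtain ⟨j, rfl⟩ := hvis k fun f hf => hUZ₁ f (hk hf)
    obtain ⟨j₂, rfl⟩ := hvis k₂ fun f hf => hUZ₁ f (hk₂ hf)
    rw [Function.partialInv_left hσ, Function.partialInv_left hσ, Option.some.injEq] at h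
    rw [h]
  · intro j _ hj
    refine ⟨σ j, faE_nonempty _, ?_, Function.partialInv_left hσ j⟩
    intro f hf
    have h6 : b.τ f ∈ U₁.image b.τ := hj (by
      show b.τ f ∈ faE (e' j)
      rw [hfe j]; exact Finset.mem_image_of_mem _ hf)
    obtain ⟨g, hg, hg'⟩ := Finset.mem_image.1 h6
    rwa [← b.injOn (hUZ₁ g hg) (hin j f hf) hg']

/-- **the initial activities with bond sources are local** -/
theorem K0_bond_mem (B : Bg G) (P : MPar) (l k0 : ℕ) (e : Fin m → Bkgx683.EG G)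
    (U : Finset (G × G)) :
    B.K0 P (LinearMap.inl ℝ (Fld G) (Src m)) (bondSrc (Fld G) e) l k0 U ∈
      grG (fldUS (fun i => faE (e i)) U) := by
  unfold Bg.K0
  have hmono : ∀ U W : Finset (G × G), U ⊆ W → grG (fldUS (fun i => faE (e i)) U) ≤
      grG (fldUS (fun i => faE (e i)) W) := fun U W h => grG_mono fun x hx =>
    ⟨GSysOKx439.fldU_mono h hx.1, fun i hi => by
      obtain ⟨f, hf, hfU⟩ := hx.2 i hi
      exact ⟨f, hf, h hfU⟩⟩
  refine K1_mem (fun U => grG (fldUS (fun i => faE (e i)) U)) hmono _ U fun U' _ => ?_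
  unfold Bg.K00
  have hs : ∀ (U : Finset (G × G)) (h : HE G), h.1 ∈ U →
      (Finsupp.single h (1 : ℝ) : Fld G) ∈ (fldU U : Submodule ℝ (Fld G)) := fun U h hh =>
    single_mem_fldS (subset_nbhd U 1 hh) 1
  refine J4K0Lx126.K0_mem (fun U => grG (fldUS (fun i => faE (e i)) U)) ?_ ?_ ?_ U'
  · intro U c hc
    rw [frG_inl_b]
    refine inG_mem_fldUS _ ?_
    exact SpinDomx432.bi_mem_grG (hs U _ (hc (Finset.mem_insert_self _ _)))
      (hs U _ (hc (Finset.mem_insert_of_mem (Finset.mem_singleton_self _))))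
  · intro U f hf
    rw [frG_inl_I4]
    refine inG_mem_fldUS _ ?_
    exact Subalgebra.sum_mem _ fun p _ => SpinDomx432.bi_mem_grG (hs U _ hf) (hs U _ hf)
  · intro U k hk
    exact tau_mem_fldUS _ ⟨(pe (e k)).1, Finset.mem_insert_self _ _,
      hk (Finset.mem_insert_self _ _)⟩

end k0

/-! ### the flows with bond sources correspond -/

section flow

variable {Z : Set (ℤ × ℤ)} {m m' : ℕ}

theorem fd_faE {e : Bkgx683.EG ℤ} {f : ℤ × ℤ} (hf : f ∈ faE e) : fd e.1 f ≤ 1 := by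
  obtain ⟨z, j⟩ := e
  rcases fin2 j with rfl | rfl
  · rw [faE_zero] at hf
    simp only [Finset.mem_insert, Finset.mem_singleton] at hf
    rcases hf with rfl | rfl
    · simp
    · rw [fd_int]; simp
  · rw [faE_one] at hf
    simp only [Finset.mem_insert, Finset.mem_singleton] at hf
    rcases hf with rfl | rfl
    · rw [fd_int]; simp
    · simp

theorem fst_mem_faE (e : Bkgx683.EG ℤ) : e.1 ∈ faE e := by
  obtain ⟨z, j⟩ := e
  rcases fin2 j with rfl | rfl
  · rw [faE_zero]; simp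
  · rw [faE_one]; simp

/-- the correspondence of two families of bond sources -/
structure BondC {B B' : Bg ℤ} (b : BgIso B.w B'.w Z) (P : MPar) (mk mk' : Finset (ℤ × ℤ))
    (σ : Fin m' → Fin m) (e : Fin m → Bkgx683.EG ℤ) (e' : Fin m' → Bkgx683.EG ℤ) : Prop where
  inj : Function.Injective σ
  e_eq : ∀ j, e' j = ebm b.τ (e (σ j))
  inn : ∀ j, ∀ f ∈ faE (e (σ j)), f ∈ Z
  vis : ∀ i, (∀ f ∈ faE (e i), f ∈ Z) → ∃ j, σ j = i
  mk_iff : ∀ f ∈ Z, (f ∈ mk ↔ b.τ f ∈ mk')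
  tch : ∀ f ∈ Z, (B.tch f ↔ B'.tch (b.τ f))
  ok : ∀ u ∈ Z, ∀ S ∈ Can P.R, Even S.card → (∀ f ∈ (Yf S).image (fz u), f ∈ Z) →
      (B.ok P.R u S ↔ B'.ok P.R (b.τ u) S)

variable {B B' : Bg ℤ} {b : BgIso B.w B'.w Z} {P : MPar} {mk mk' : Finset (ℤ × ℤ)}
  {σ : Fin m' → Fin m} {e : Fin m → Bkgx683.EG ℤ} {e' : Fin m' → Bkgx683.EG ℤ}

theorem BondC.srcC (h : BondC b P mk mk' σ e e') :
    SrcC b σ (fun i => faE (e i)) (fun j => faE (e' j)) where
  inj := h.inj
  sub := h.inn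
  vis := h.vis
  sf_eq j := by
    show faE (e' j) = _
    rw [h.e_eq j]; exact faE_ebm b (h.inn j)

/-- the extractions of the source terms correspond -/
theorem BondC.exC (h : BondC b P mk mk' σ e e') (he : ∀ i, B.w (e i).1 (e i).2 ≠ 0)
    (he' : ∀ i, B'.w (e' i).1 (e' i).2 ≠ 0) {l k0 : ℕ} (hl : 1 ≤ l) (n : ℕ)
    (W : Finset (ℤ × ℤ)) (_ : W.Nonempty) (hW : nbhd (rhoK l k0 (n + 1)) W ⊆ Z) :
    ExC (srcX B.w mk l k0 e he n) (srcX B'.w mk' l k0 e' he' n) b.τ (pS b σ)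
      (fldUS fun i => faE (e i)) (visH Z l k0 n) W := by
  have e2 : s2 = 128 := rfl
  have h0 := rr_pos l k0 n
  have h1 := rhoH_add_le (k0 := k0) (n := n) hl
  have h2 : rhoK l k0 n ≤ rhoH l k0 n := rhoK_le_rhoH l k0 n
  have h3 : rhoK l k0 n = 128 * rr l k0 n := by rw [← e2]; rfl
  refine exC_srcE b h.srcC _ _ hl le_rfl hW ?_ ?_
  · intro j hj
    constructor
    · intro hd f hf
      have h4 := hd (b.τ f) (by
        show b.τ f ∈ faE (e' j)
        rw [h.srcC.sf_eq j]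
        exact Finset.mem_image_of_mem _ hf)
      exact (deep_iff b h.mk_iff (by norm_num) ((ball_subset_nbhd (hj hf)).trans hW)).2 h4
    · intro hd f' hf'
      have hf'' : f' ∈ (faE (e (σ j))).image b.τ := by
        rw [← h.srcC.sf_eq j]; exact hf'
      obtain ⟨f, hf, rfl⟩ := Finset.mem_image.1 hf''
      exact (deep_iff b h.mk_iff (by norm_num) ((ball_subset_nbhd (hj hf)).trans hW)).1 (hd f hf)
  · intro j hj hd U hU hsz c hc
    have h5 : (e (σ j)).1 ∈ faE (e (σ j)) := fst_mem_faE _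
    obtain ⟨p⟩ := (hd _ h5).1
    have hball : ball (e (σ j)).1 (rr l k0 n + 1) ⊆ Z := by
      refine ((ball_subset_nbhd (hj h5)).trans (nbhd_mono ?_)).trans hW
      omega
    have hball' : ball (e (σ j)).1 (rr l k0 n + 1) ⊆ nbhd (s2 * rr l k0 (n + 1)) {(e (σ j)).1} := by
      rw [nbhd_single]
      refine ball_mono _ ?_
      have h6 : rhoK l k0 (n + 1) = s2 * rr l k0 (n + 1) := rfl
      omega
    have hcm : c ∈ grG (fldS (ball (e (σ j)).1 (rr l k0 n + 1))) := by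
      refine grG_mono (fldS_mono ?_) hc
      rintro g ⟨u, hu, hg⟩
      rw [mem_ball]
      have h7 := size_le_one_iff.1 hsz _ (hU h5) u hu
      have h8 := fd_triangle (e (σ j)).1 u g
      omega
    have hmu : muB B'.w (e' j) (mpG b.push c) = muB B.w (e (σ j)) c := by
      rw [h.e_eq j]
      exact muB_nat b (ofPlane p) hball hball' (by omega) hcm
    have hbe : mpG b.push (beB B.w (e (σ j))) = beB B'.w (e' j) := by
      rw [h.e_eq j]
      refine beB_nat b fun f hf => ?_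
      refine Set.Subset.trans ?_ hball
      refine ball_subset_ball ?_
      have := fd_faE hf
      omega
    show muB B.w (e (σ j)) c • mpG b.push (beB B.w (e (σ j))) =
      muB B'.w (e' j) (mpG b.push c) • beB B'.w (e' j)
    rw [hmu, hbe]

variable {M K : ℕ} (D : FRD 16 M K) (h : BondC b P mk mk' σ e e')
  (he : ∀ i, B.w (e i).1 (e i).2 ≠ 0) (he' : ∀ i, B'.w (e' i).1 (e' i).2 ≠ 0) {l k0 : ℕ}
  (hl : 1 ≤ l) (h5 : 5 ≤ l * (k0 + 1)) (hK : 16 ≤ K)

include h

theorem BondC.hK0 (U : Finset (ℤ × ℤ)) (_ : U.Nonempty) (hU : nbhd (rhoK l k0 0) U ⊆ Z) :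
    mpG (pS b σ) (B.K0 P (LinearMap.inl ℝ (Fld ℤ) (Src m)) (bondSrc (Fld ℤ) e) l k0 U) =
      B'.K0 P (LinearMap.inl ℝ (Fld ℤ) (Src m')) (bondSrc (Fld ℤ) e') l k0 (U.image b.τ) := by
  refine K0_bond b P l k0 h.inj h.e_eq h.inn h.vis h.tch h.ok fun f hf => ?_
  exact K0IsoBx900.ball_of_nbhd hU hf

include hl h5 hK

/-- **the activities correspond** -/
theorem flowP_K_eq (n : ℕ) {U : Finset (ℤ × ℤ)} (hne : U.Nonempty)
    (hU : nbhd (s2 * rr l k0 n) U ⊆ Z) :
    mpG (pS b σ) ((flowP B P D mk e he l k0).K n U) =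
      (flowP B' P D mk' e' he' l k0).K n (U.image b.τ) :=
  KS_eq D b σ h.mk_iff (by norm_num) hl (by omega) (h.exC he he' hl) h.hK0
    (flowP_OK (B := B) (P := P) (D := D) (mk := mk) (e := e) (he := he) hK h5
      (K0_bond_mem B P l k0 e)) n hne hU

/-- **the convolved activities correspond** -/
theorem flowP_H_eq (n : ℕ) {U : Finset (ℤ × ℤ)} (hne : U.Nonempty)
    (hU : nbhd (rhoH l k0 n) U ⊆ Z) :
    mpG (pS b σ) ((flowP B P D mk e he l k0).H n U) =
      (flowP B' P D mk' e' he' l k0).H n (U.image b.τ) :=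
  HS_eq D b σ h.mk_iff (by norm_num) hl (by omega) (h.exC he he' hl) h.hK0
    (flowP_OK (B := B) (P := P) (D := D) (mk := mk) (e := e) (he := he) hK h5
      (K0_bond_mem B P l k0 e)) n hne hU

/-- **the vacuum parts correspond** -/
theorem flowP_vac_eq (n : ℕ) {U : Finset (ℤ × ℤ)} (hne : U.Nonempty)
    (hU : nbhd (rhoH l k0 n) U ⊆ Z) :
    mpG (pS b σ) (vacS ((flowP B P D mk e he l k0).H n U)) =
      vacS ((flowP B' P D mk' e' he' l k0).H n (U.image b.τ)) :=
  vacS_eq D b σ h.mk_iff (by norm_num) hl (by omega) (h.exC he he' hl) h.hK0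
    (flowP_OK (B := B) (P := P) (D := D) (mk := mk) (e := e) (he := he) hK h5
      (K0_bond_mem B P l k0 e)) n hne hU

/-- **the coefficient of one source corresponds** -/
theorem flowP_coP_eq (n : ℕ) {U : Finset (ℤ × ℤ)} (hne : U.Nonempty)
    (hU : nbhd (rhoH l k0 n) U ⊆ Z) (j : Fin m') :
    mpG b.push (coP {σ j} ((flowP B P D mk e he l k0).H n U)) =
      coP {j} ((flowP B' P D mk' e' he' l k0).H n (U.image b.τ)) := by
  rw [← flowP_H_eq D h he he' hl h5 hK n hne hU, coP_pS]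

end flow

/-! ### domain with `m` sources and insertions / plane with one source at the origin -/

section dompl

open Crest.Agent.R165.SpinDomx432

/-- the chart of the domain at `x` into the plane, `x` is moved to the origin -/
def isoDomPl0 {T : Set (ℤ × ℤ)} (fr : Bool) {n : ℕ} (X : Fin n → ℤ × ℤ) (x : ℤ × ℤ) (r : ℕ)
    (h : ∀ j, r < fd x (X j)) (hZ : ∀ f ∈ ball x r, cornersIn T f) :
    BgIso (wX (wDom T fr) X) (wPl ℤ) (ball x r) :=
  (isoDomPl fr X x r h hZ).trans (plTrans x Set.univ) fun _ _ => trivial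

theorem isoDomPl0_τ {T : Set (ℤ × ℤ)} (fr : Bool) {n : ℕ} (X : Fin n → ℤ × ℤ) (x : ℤ × ℤ) (r : ℕ)
    (h : ∀ j, r < fd x (X j)) (hZ : ∀ f ∈ ball x r, cornersIn T f) (f : ℤ × ℤ) :
    (isoDomPl0 fr X x r h hZ).τ f = (f.1 - x.1, f.2 - x.2) := rfl

variable {T : Finset (ℤ × ℤ)} {bc : BoundaryCondition} {n m : ℕ} {X : Fin n → ℤ × ℤ}
  {e : Fin m → Bkgx683.EG ℤ} {i : Fin m} {r : ℕ} (hr : 1 ≤ r) (hX : ∀ j, r < fd (e i).1 (X j))
  (hZ : ∀ f ∈ ball (e i).1 r, cornersIn (T : Set (ℤ × ℤ)) f)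
  (hsep : ∀ i', i' ≠ i → r < fd (e i).1 (e i').1) (P : MPar) {mk : Finset (ℤ × ℤ)}
  (hmk : ∀ f ∈ mk, r < fd (e i).1 f)

include hr hX hZ hsep hmk

/-- **domain with `m` sources and insertions / plane with the source `(0, j)`** -/
theorem bondC_dom : BondC (B := Bg.dom T bc X) (B' := Bg.pl)
    (isoDomPl0 (isF bc) X (e i).1 r hX hZ) P mk ∅ (fun _ : Fin 1 => i) e
    ![((0, 0), (e i).2)] where
  inj := fun a b _ => Subsingleton.elim a b
  e_eq j := by
    obtain rfl : j = 0 := Subsingleton.elim _ _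
    show (((0, 0), (e i).2) : Bkgx683.EG ℤ) = (((e i).1.1 - (e i).1.1, (e i).1.2 - (e i).1.2), _)
    rw [sub_self, sub_self]
  inn _ f hf := by
    rw [mem_ball]
    exact (fd_faE hf).trans hr
  vis i' h := by
    by_contra hne
    have h1 : i' ≠ i := fun h' => hne ⟨0, h'.symm⟩
    have h2 := h _ (fst_mem_faE _)
    rw [mem_ball] at h2
    have := hsep i' h1
    omega
  mk_iff f hf := by
    rw [mem_ball] at hf
    refine ⟨fun h => ?_, fun h => absurd h (Finset.notMem_empty _)⟩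
    have := hmk f h
    omega
  tch f hf := ⟨fun _ => trivial, fun _ => cor_of_cornersIn (hZ f hf)⟩
  ok u _ S hS _ hYf := ⟨fun _ => trivial, fun _ => ok_of_in hS hYf hZ⟩

variable {M K : ℕ} (D : FRD 16 M K) (he : ∀ i, (Bg.dom T bc X).w (e i).1 (e i).2 ≠ 0)
  (he' : ∀ j, (Bg.pl).w ((![((0, 0), (e i).2)] : Fin 1 → Bkgx683.EG ℤ) j).1
    ((![((0, 0), (e i).2)] : Fin 1 → Bkgx683.EG ℤ) j).2 ≠ 0) {l k0 : ℕ}
  (hl : 1 ≤ l) (h5 : 5 ≤ l * (k0 + 1)) (hK : 16 ≤ K)

include hl h5 hK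

/-- **the convolved activities near the source `i`** -/
theorem flowP_dom_H (k : ℕ) {U : Finset (ℤ × ℤ)} (hne : U.Nonempty)
    (hU : nbhd (rhoH l k0 k) U ⊆ ball (e i).1 r) :
    mpG (pS (isoDomPl0 (isF bc) X (e i).1 r hX hZ) (fun _ : Fin 1 => i))
        ((flowP (Bg.dom T bc X) P D mk e he l k0).H k U) =
      (flowP Bg.pl P D ∅ ![((0, 0), (e i).2)] he' l k0).H k
        (U.image (isoDomPl0 (isF bc) X (e i).1 r hX hZ).τ) :=
  flowP_H_eq D (bondC_dom hr hX hZ hsep P hmk) he he' hl h5 hK k hne hU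

/-- **the activities near the source `i`** -/
theorem flowP_dom_K (k : ℕ) {U : Finset (ℤ × ℤ)} (hne : U.Nonempty)
    (hU : nbhd (s2 * rr l k0 k) U ⊆ ball (e i).1 r) :
    mpG (pS (isoDomPl0 (isF bc) X (e i).1 r hX hZ) (fun _ : Fin 1 => i))
        ((flowP (Bg.dom T bc X) P D mk e he l k0).K k U) =
      (flowP Bg.pl P D ∅ ![((0, 0), (e i).2)] he' l k0).K k
        (U.image (isoDomPl0 (isF bc) X (e i).1 r hX hZ).τ) :=
  flowP_K_eq D (bondC_dom hr hX hZ hsep P hmk) he he' hl h5 hK k hne hU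

end dompl

end Crest.Agent.R165.CmpBgx432
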