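import Crest.Agent.R165.SrcCstF_484
import Crest.Agent.R165.SrcIso_432
import Crest.Agent.R165.SrcK0_991

/-!
# Row 165 (S0250), leaf P11 item 4: the flow with bond sources (helper484)

* `flowP_SLA`, `flowP_sub`, `flowP_conn`, `flowP_hbig`, `flowP_supp` : supports
* `run_flowP` : the structure `Run` for `flowP`
* `cmpH_bond`, `zeP_bond` : comparison of two backgrounds at one source (`BondC` of 432):
  `CmpH` and equality of the running coefficients
* `cmpH_dom`, `zeP_dom` : domain with `m` sources / plane with one source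
-/

set_option autoImplicit false
set_option linter.unusedSectionVars false
set_option linter.unusedVariables false

noncomputable section

namespace Crest.Agent.R165.SrcCstx484

open Finset
open scoped ENNReal
open Crest.ProbabilityR.IsingModel
open Crest.Agent.R165.FinBx900 Crest.Agent.R165.KStepx892
open Crest.Agent.R165.Gr0x606 Crest.Agent.R165.Gr1x606 Crest.Agent.R165.GeOpsx337
  Crest.Agent.R165.ExpGx337 Crest.Agent.R165.PNormx417 Crest.Agent.R165.KFlowx337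
  Crest.Agent.R165.SrcDefx991 Crest.Agent.R165.SrcFinx441 Crest.Agent.R165.GrLocx337
open Crest.Agent.R165.SrcFinBx441 (Nw)
open Crest.Agent.R165.Packx915 (PD Conn)
open Crest.Agent.R165.Latx683 Crest.Agent.R165.GDefx387 Crest.Agent.R165.GSysx387
  Crest.Agent.R165.BgIsox432 Crest.Agent.R165.CmpBgx432 Crest.Agent.R165.FRDPolyx439
open Crest.Agent.R165.SrcSysx991 Crest.Agent.R165.SrcInsx991 Crest.Agent.R165.Bkgx683
  Crest.Agent.R165.J4Geox126
open Crest.Agent.R165.SrcTailx999 (SLA mem_SLA SLA_mono inG_mem_SLA cvG_mem_SLA vacH_mem_SLA)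

variable {m : ℕ} {B : Bg ℤ} {P : MPar} {M K : ℕ} {D : FRD 16 M K} {mk : Finset (ℤ × ℤ)}
  {e : Fin m → Bkgx683.EG ℤ} {he : ∀ i, B.w (e i).1 (e i).2 ≠ 0} {l k0 : ℕ}

/-! ### supports -/

theorem K0P_SLA (U : Finset (ℤ × ℤ)) : K0P B P e l k0 U ∈ SLA (fun i => faE (e i)) U :=
  mem_SLA.2 (K0_mem_supA B P e l k0 U)

theorem flowP_SLA (n : ℕ) (U : Finset (ℤ × ℤ)) :
    (flowP B P D mk e he l k0).K n U ∈ SLA (fun i => faE (e i)) U :=
  sysP_SLA (B := flow0 B P D mk l k0) (R := srcD B.w e he) (fun U => K0P_SLA U) n U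

/-- **(S-1)** for the flow with bond sources -/
theorem flowP_sub (n : ℕ) (U : Finset (ℤ × ℤ)) (I : Finset (Fin m))
    (hI : coP I ((flowP B P D mk e he l k0).K n U) ≠ 0) : ∀ i ∈ I, faE (e i) ⊆ U :=
  (mem_SLA.1 (flowP_SLA n U)).2 I hI

theorem flowP_GS (n : ℕ) (U : Finset (ℤ × ℤ)) :
    (flowP B P D mk e he l k0).H n U ∈ GS (Fld ℤ) m :=
  GS_cvG _ (mem_SLA.1 (flowP_SLA n U)).1

theorem nearR_pos {l k0 : ℕ} (hl : 4 ≤ l) (n : ℕ) : 1 ≤ nearR l k0 n := by
  have h1 : 16 ≤ 2 ^ l := by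
    calc 16 = 2 ^ 4 := by norm_num
      _ ≤ 2 ^ l := Nat.pow_le_pow_right (by norm_num) hl
  have h2 : 16 * rr l k0 n ≤ rr l k0 (n + 1) := by
    rw [rr_succ]; exact Nat.mul_le_mul_right _ h1
  have h3 := rr_pos l k0 n
  unfold nearR
  omega

/-- **connected supports** -/
theorem flowP_conn (hl : 4 ≤ l) (hR : 2 * P.R + 1 ≤ nearR l k0 0) (n : ℕ) (U : Finset (ℤ × ℤ))
    (hU : (flowP B P D mk e he l k0).K n U ≠ 0) : U.Nonempty ∧ Conn fd (nearR l k0 n) U := by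
  refine sysP_conn (B := flow0 B P D mk l k0) (R := srcD B.w e he)
    (fun _ _ h => nearR_mono l k0 h) (fun k => rfl) (fun U hU => ⟨?_, ?_⟩) (fun k U T hT => ?_)
    (fun i k => ?_) n U hU
  · rw [Finset.nonempty_iff_ne_empty]
    rintro rfl
    exact hU (JVolx950.K0_empty B P _ _ l k0)
  · exact JVolx950.K0_conn B P _ _ hR (fun i => JVolx950.bondSrc_conn e (by omega) i) hU
  · obtain ⟨-, f, -, -, rfl⟩ := mem_bulk_out.1 hT
    exact Packx915.conn_singleton f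
  · refine Packx915.conn_of_diam fun x hx y hy => ?_
    exact (JVolx950.faE_diam (e i) x hx y hy).trans (nearR_pos hl k)

/-- **where the constants come from** -/
theorem flowP_H_ne (hl : 4 ≤ l) (hR : 2 * P.R + 1 ≤ nearR l k0 0) (n : ℕ) (U : Finset (ℤ × ℤ))
    (i : Fin m) (hU : co {i} ((flowP B P D mk e he l k0).H n U) ≠ 0) :
    Conn fd (nearR l k0 n) U ∧ faE (e i) ⊆ U := by
  have h1 := sysP_H_ne (SOK_flowP B P D mk e l k0) (R := srcD B.w e he) (rs := rr l k0)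
    (dp := dpS B.w mk l k0 e) (fs := fldUS fun i => faE (e i)) n U {i} hU
  have h2 : (flowP B P D mk e he l k0).K n U ≠ 0 := fun h0 => h1 (by
    rw [show (sysP (flow0 B P D mk l k0) (srcD B.w e he) (rr l k0) (dpS B.w mk l k0 e)
      (fldUS fun i => faE (e i)) (K0P B P e l k0)).K n U = 0 from h0, map_zero])
  exact ⟨(flowP_conn hl hR n U h2).2, flowP_sub n U {i} h1 i (mem_singleton_self i)⟩

/-- **sizes of the sets with two sources**, the hypothesis `hbig` of `Run.high` -/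
theorem flowP_hbig (hl : 4 ≤ l) (hR : 2 * P.R + 1 ≤ nearR l k0 0) {N : ℕ}
    (hfar : ∀ i j, i ≠ j → m * rr l k0 N ≤ fd (e i).1 (e j).1) {I : Finset (Fin m)}
    (hI : 2 ≤ I.card) : ∀ k < N, ∀ U, coP I ((flowP B P D mk e he l k0).K k U) ≠ 0 →
      (m + 1) * (N - k) ≤ size (rr l k0 k) U :=
  sysP_hbig (B := flow0 B P D mk l k0) (R := srcD B.w e he) hl
    (fun n U h => flowP_conn hl hR n U h) (fun n U I h => flowP_sub n U I h)
    (x := fun i => (e i).1) (fun i => fst_mem_faE (e i)) hfar hI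

/-- finite volume, the hypothesis `hs` of `Run.constants`, `Run.high` -/
theorem flowP_supp (hl : 4 ≤ l) (hR : 2 * P.R + 1 ≤ nearR l k0 0) {Λ : Finset (ℤ × ℤ)}
    (h0 : ∀ U, ¬ U ⊆ Λ → K0P B P e l k0 U = 0) (n : ℕ) (U : Finset (ℤ × ℤ)) (hU : U ∉ nes Λ) :
    (flowP B P D mk e he l k0).H n U = 0 := by
  by_contra hne
  have hK : (flowP B P D mk e he l k0).K n U ≠ 0 := fun h => hne (by rw [Sys.H, h, map_zero])
  refine hU (mem_nes.2 ⟨?_, (flowP_conn hl hR n U hK).1⟩)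
  by_contra hs
  exact hK ((flowP B P D mk e he l k0).K_supp h0 n hs)

/-! ### the run -/

/-- **the run of the flow with bond sources** -/
theorem run_flowP (hinj : Function.Injective fun i => faE (e i)) {Pk : ℕ → Prop}
    {g : ℕ → Fld ℤ → ℝ≥0∞} {wt : ℕ → Finset (ℤ × ℤ) → Fld ℤ → ℝ≥0∞} {v : ℕ → ℝ} {Γ : ℝ}
    {ε : ℕ → ℝ} {sz : ℕ → Finset (ℤ × ℤ) → ℕ}
    (gram : ∀ k, Pk k → Gram (slC D B.w l k0 k) (g k))
    (gwt : ∀ k, Pk k → ∀ U x, g k x ≤ wt k U x)
    (v0 : ∀ k, Pk k → 0 < v k) (Γ1 : 1 ≤ Γ) (e0 : ∀ k, Pk k → 0 ≤ ε k)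
    (tot : ∀ k, Pk k → ∑' U, ENNReal.ofReal (Γ ^ sz k U) *
      Nw (wt k U) (fun _ => v k) (ppP B P D mk e he l k0 k U) ≤ ENNReal.ofReal (ε k)) :
    Run (flowP B P D mk e he l k0) Pk (slC D B.w l k0) g wt v Γ ε sz (fun i => faE (e i))
      (zeP B P D mk e he l k0) (fun i => beB B.w (e i)) (ppP B P D mk e he l k0) :=
  run_sysP (SOK_flowP B P D mk e l k0) (R := srcD B.w e he) hinj gram gwt v0 Γ1 e0 tot

/-! ### comparison of two backgrounds at one source -/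

section bond

variable {B' : Bg ℤ} {x : ℤ × ℤ} {Dd : ℕ} {b : BgIso B.w B'.w (ball x Dd)} {mk' : Finset (ℤ × ℤ)}
  {m' : ℕ} {σ : Fin m' → Fin m} {e' : Fin m' → Bkgx683.EG ℤ}
  {he' : ∀ i, B'.w (e' i).1 (e' i).2 ≠ 0}

/-- **comparison of the activities at the source `σ j`** -/
theorem cmpH_bond (h : BondC b P mk mk' σ e e') (hl : 4 ≤ l) (hK : 16 ≤ K)
    (h5 : 5 ≤ l * (k0 + 1)) (hR : 2 * P.R + 1 ≤ nearR l k0 0) (j : Fin m')
    (hx : (e (σ j)).1 = x) {N : ℕ} (hD : (s2 + 2) * rr l k0 N ≤ Dd) : ∀ n < N,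
      CmpH ((flowP B P D mk e he l k0).H n) ((flowP B' P D mk' e' he' l k0).H n) (σ j) j
        (fun i => faE (e i)) (fun i => faE (e' i)) (size (rr l k0 n)) (size (rr l k0 n))
        (N - n) := by
  intro n hn
  subst hx
  refine cmpH_of b j hl hn (fun U hne hU => ?_) hD (fst_mem_faE _) (fun f hf => ?_)
    (h.srcC.sf_eq j) (fun U hU => flowP_H_ne hl hR n U (σ j) hU)
    (fun U hU => flowP_H_ne hl hR n U j hU)
  · exact flowP_H_eq D h he he' (by omega) h5 hK n hne hU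
  · exact (fd_faE hf).trans (rr_pos l k0 N)

/-- **equality of the running coefficients** -/
theorem zeP_bond (h : BondC b P mk mk' σ e e') (hl : 4 ≤ l) (hK : 16 ≤ K)
    (h5 : 5 ≤ l * (k0 + 1)) (j : Fin m') (hx : (e (σ j)).1 = x) (n : ℕ)
    (hD : (s2 + 1) * rr l k0 n ≤ Dd) :
    zeP B P D mk e he l k0 n (σ j) = zeP B' P D mk' e' he' l k0 n j := by
  subst hx
  cases n with
  | zero => rfl
  | succ n =>
    have hs2 : s2 = 128 := rfl
    have hr0 := rr_pos l k0 n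
    have hr1 := rr_pos l k0 (n + 1)
    have hrm : rr l k0 n ≤ rr l k0 (n + 1) := rr_mono l k0 (Nat.le_succ n)
    have hD' : s2 * rr l k0 (n + 1) + rr l k0 (n + 1) ≤ Dd := by
      rw [add_mul, one_mul] at hD; exact hD
    have hD2 : rr l k0 n + 1 ≤ s2 * rr l k0 (n + 1) := by
      rw [hs2]; omega
    have hD3 : rr l k0 n + 1 ≤ Dd := by omega
    set T := faE (e (σ j)) with hT
    have hW : nbhd (rhoK l k0 (n + 1)) T ⊆ ball (e (σ j)).1 Dd := by
      rintro g ⟨f, hf, hg⟩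
      rw [mem_ball]
      have h1 := fd_triangle (e (σ j)).1 f g
      have h2 := fd_faE hf
      have h3 : rhoK l k0 (n + 1) = s2 * rr l k0 (n + 1) := rfl
      omega
    have hne : T.Nonempty := ⟨_, fst_mem_faE _⟩
    have C := h.exC he he' (l := l) (k0 := k0) (by omega) n T hne hW
    have hTe : T.image b.τ = faE (e' j) := (h.srcC.sf_eq j).symm
    show ∑ U ∈ (srcX B.w mk l k0 e he n).inn T,
        muB B.w (e (σ j)) (coP {σ j} ((flowP B P D mk e he l k0).H n U)) =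
      ∑ U ∈ (srcX B'.w mk' l k0 e' he' n).inn (faE (e' j)),
        muB B'.w (e' j) (coP {j} ((flowP B' P D mk' e' he' l k0).H n U))
    rw [← hTe, C.inn_eq T le_rfl hne, sum_image]
    · refine sum_congr rfl fun U hU => ?_
      have hv := C.inn T le_rfl hne U hU
      obtain ⟨hsz, i', hdp, hiU, hiT⟩ := (mem_srcE_inn (r := rr l k0 n) (sf := (srcD B.w e he).sf)
        (hsf := (srcD B.w e he).ne) (dp := dpS B.w mk l k0 e n) (mu := (srcD B.w e he).mu)
        (β := (srcD B.w e he).β)).1 hU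
      have hd : deep B.w mk l k0 n (e (σ j)).1 := hdp _ (by
        show (e (σ j)).1 ∈ (srcD B.w e he).sf i'
        rw [hiT]; exact fst_mem_faE _)
      obtain ⟨p⟩ := hd.1
      have hTU : T ⊆ U := hiT ▸ hiU
      have h6 : (e (σ j)).1 ∈ U := hTU (fst_mem_faE _)
      have hball : ball (e (σ j)).1 (rr l k0 n + 1) ⊆ ball (e (σ j)).1 Dd := ball_mono _ hD3
      have hball' : ball (e (σ j)).1 (rr l k0 n + 1) ⊆
          nbhd (s2 * rr l k0 (n + 1)) {(e (σ j)).1} := by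
        rw [nbhd_single]
        exact ball_mono _ hD2
      have hHm : (flowP B P D mk e he l k0).H n U ∈ grG (fldUS (fun i => faE (e i)) U) :=
        (flowP B P D mk e he l k0).H_mem (flowP_OK (B := B) (P := P) (D := D) (mk := mk) (e := e)
          (he := he) hK h5 (K0_bond_mem B P l k0 e)) n U
      have hcm : coP {σ j} ((flowP B P D mk e he l k0).H n U) ∈
          grG (fldS (ball (e (σ j)).1 (rr l k0 n + 1))) := by
        refine grG_mono (fldS_mono ?_) (coP_mem_fldU hHm)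
        rintro g ⟨u, hu, hg⟩
        rw [mem_ball]
        have h7 := PStepx417.size_le_one_iff.1 hsz _ h6 u hu
        have h8 := fd_triangle (e (σ j)).1 u g
        omega
      rw [← flowP_coP_eq D h he he' (by omega) h5 hK n hv.1 hv.2 j, h.e_eq j]
      exact (muB_nat b (ofPlane p) hball hball' (by omega) hcm).symm
    · intro U hU U' hU' heq
      exact visH_inj b l k0 n U U' (C.inn T le_rfl hne U hU) (C.inn T le_rfl hne U' hU') heq

end bond

/-! ### domain / plane -/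

section dompl

variable {T : Finset (ℤ × ℤ)} {bc : BoundaryCondition} {n : ℕ} {X : Fin n → ℤ × ℤ}
  {i : Fin m} {r : ℕ}
  {heD : ∀ i, (Bg.dom T bc X).w (e i).1 (e i).2 ≠ 0}
  {heP : ∀ j, (Bg.pl).w ((![((0, 0), (e i).2)] : Fin 1 → Bkgx683.EG ℤ) j).1
    ((![((0, 0), (e i).2)] : Fin 1 → Bkgx683.EG ℤ) j).2 ≠ 0}

/-- **domain with `m` sources / plane with the source `((0,0), (e i).2)`** : `CmpH` -/
theorem cmpH_dom (hr : 1 ≤ r) (hX : ∀ j, r < fd (e i).1 (X j))
    (hZ : ∀ f ∈ ball (e i).1 r, cornersIn (T : Set (ℤ × ℤ)) f)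
    (hsep : ∀ i', i' ≠ i → r < fd (e i).1 (e i').1) (hmk : ∀ f ∈ mk, r < fd (e i).1 f)
    (hl : 4 ≤ l) (hK : 16 ≤ K) (h5 : 5 ≤ l * (k0 + 1)) (hR : 2 * P.R + 1 ≤ nearR l k0 0) {N : ℕ}
    (hD : (s2 + 2) * rr l k0 N ≤ r) : ∀ k < N,
      CmpH ((flowP (Bg.dom T bc X) P D mk e heD l k0).H k)
        ((flowP Bg.pl P D ∅ ![((0, 0), (e i).2)] heP l k0).H k) i 0 (fun i => faE (e i))
        (fun j => faE ((![((0, 0), (e i).2)] : Fin 1 → Bkgx683.EG ℤ) j))
        (size (rr l k0 k)) (size (rr l k0 k)) (N - k) :=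
  cmpH_bond (he := heD) (he' := heP) (bondC_dom hr hX hZ hsep P hmk) hl hK h5 hR 0 rfl hD

/-- **domain / plane** : the running coefficients agree -/
theorem zeP_dom (hr : 1 ≤ r) (hX : ∀ j, r < fd (e i).1 (X j))
    (hZ : ∀ f ∈ ball (e i).1 r, cornersIn (T : Set (ℤ × ℤ)) f)
    (hsep : ∀ i', i' ≠ i → r < fd (e i).1 (e i').1) (hmk : ∀ f ∈ mk, r < fd (e i).1 f)
    (hl : 4 ≤ l) (hK : 16 ≤ K) (h5 : 5 ≤ l * (k0 + 1)) (k : ℕ)
    (hD : (s2 + 1) * rr l k0 k ≤ r) :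
    zeP (Bg.dom T bc X) P D mk e heD l k0 k i =
      zeP Bg.pl P D ∅ ![((0, 0), (e i).2)] heP l k0 k 0 :=
  zeP_bond (he := heD) (he' := heP) (bondC_dom hr hX hZ hsep P hmk) hl hK h5 0 rfl k hD

end dompl

end Crest.Agent.R165.SrcCstx484
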