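import Crest.Agent.R165.SrcGen_359
import Crest.Agent.R165.DiscComp2_722
import Crest.Agent.R165.PlB_117

/-!
# Row 165 (S0250): the flow with bond sources in large discs, fine phase (helper359)

* `genH_disc` : the structure `GenH` of `SrcGen_359` for large discs up to `k1`
* `sA_disc` : **the total norm of the remainders** in large discs, all scales `k ≤ k1`
-/

set_option autoImplicit false
set_option linter.unusedSectionVars false
set_option linter.unusedVariables false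

noncomputable section

open Filter Topology
open scoped ENNReal
open Crest.ProbabilityR.IsingModel
open Crest.Agent.R165.Geo (LatReg bdS)
open Crest.Agent.R165.Gr0x606 Crest.Agent.R165.Gr1x606 Crest.Agent.R165.GeOpsx337
open Crest.Agent.R165.KFlowx337
open Crest.Agent.R165.Latx683 (BW wDom wX wPl Fld)
open Crest.Agent.R165.GDefx387 Crest.Agent.R165.GSysx387 Crest.Agent.R165.FRDPolyx439
open Crest.Agent.R165.PNormx417
open Crest.Agent.R165.SrcDefx991 Crest.Agent.R165.SrcSysx991 Crest.Agent.R165.SrcInsx991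
open Crest.Agent.R165.Bkgx683 (Bg MPar mpar)
open Crest.Agent.R165.J4Geox126 (faE)
open Crest.Agent.R165.JRunSx408 (eb xb)
open Crest.Agent.R165.SrcChx485 Crest.Agent.R165.SrcGeox485
open Crest.Agent.R165.PEndx683 Crest.Agent.R165.Outx683 Crest.Agent.R165.Constx891
open Crest.Agent.R165.SrcFlowx54 Crest.Agent.R165.SrcStepHypx943
open Crest.Agent.R165.ZeEbx922 (zE)
open Crest.Agent.R165.DiscKx892 (dl k1 k2 kf)
open Crest.Agent.R165.DiscPhx892 (Ph aD_fine)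
open Crest.Agent.R165.GeoScx420 (DiscG disc_good0)
open Crest.Agent.R165.DiscCompx722
open Crest.Agent.R165.Topx683 (VHyp)

namespace Crest.Agent.R165.SrcGenx359

/-- the amplitudes of the fine phase -/
theorem aC_fine {c : Cst} {K1 K2 : ℕ} (h12 : K1 ≤ K2) {k : ℕ} (hk : k ≤ K1) :
    aC c K1 K2 k = Outx683.amp c k := by
  unfold aC
  rw [aD_fine h12 hk]
  rfl

/-- **the structure `GenH` for large discs**, up to `k1` -/
theorem genH_disc {c : Cst} {C1 q Jn : ℕ} {u v cc : ℝ} {n m : ℕ} {x : Fin n → ℂ}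
    {y : Fin m → ℂ} {j : Fin m → Fin 2} {Q : ℝ × ℝ} {cc' v' : ℝ}
    (hG : DiscG c.p c.k0 C1 u v' cc' x (Fin.elim0 : Fin 0 → ℂ) Q)
    (hch : ∀ k ≤ k1 c.p c.k0 u Q.1, SrcCh (domainSites (Metric.ball (0 : ℂ) Q.2) Q.1)
      (xb Q.1 x) (eb Q.1 y j) (C2c c * rr c.p c.k0 k))
    {T : Finset (ℤ × ℤ)} (hT : (T : Set (ℤ × ℤ)) = domainSites (Metric.ball (0 : ℂ) Q.2) Q.1)
    {b : BoundaryCondition} {P : MPar} {CF : ℝ≥0∞} {M0 M t : ℝ}
    (h1f : k1 c.p c.k0 u Q.1 ≤ kf c.p c.k0 cc Q)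
    (h12 : k1 c.p c.k0 u Q.1 ≤ k2 c.p c.k0 v Q.1) (hMt : 0 ≤ M0 * t)
    (hrun : Run3 c CF Jn q (domF c P T b fun i => meshIndex Q.1 (x i))
      (Bg.dom T b fun i => meshIndex Q.1 (x i)).w T (k1 c.p c.k0 u Q.1) (k2 c.p c.k0 v Q.1)
      (kf c.p c.k0 cc Q) M0 M t) :
    GenH c C1 P T b (xb Q.1 x) (eb Q.1 y j) CF (ENNReal.ofReal (M0 * t))
      (k1 c.p c.k0 u Q.1) := by
  have hbulk : ∀ k < k1 c.p c.k0 u Q.1,
      NSumx915.NN fd (rr c.p c.k0 (k + 1)) (3 * ENNReal.ofReal c.Γ)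
        (fun U => pG (wU (Bg.dom T b (xb Q.1 x)).w (Outx683.amp c (k + 1))
          (rr c.p c.k0 (k + 1)) U) ((flow0 (Bg.dom T b (xb Q.1 x)) P DD ∅ c.p c.k0).H k U)) ≤
          CF * (ENNReal.ofReal (M0 * t) * (1 / 2) ^ k) ∧
      NSumx915.NN fd (rr c.p c.k0 (k + 1)) (3 * ENNReal.ofReal c.Γ)
        (fun U => pG (wU (Bg.dom T b (xb Q.1 x)).w (Outx683.amp c (k + 1))
          (rr c.p c.k0 (k + 1)) U) ((flow0 (Bg.dom T b (xb Q.1 x)) P DD ∅ c.p c.k0).A k U)) ≤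
          CF * (ENNReal.ofReal (M0 * t) * (1 / 2) ^ k) := by
    intro k hk
    have hk' : k < kf c.p c.k0 cc Q := hk.trans_le h1f
    have hstep := hrun.ctl.step k hk' (Or.inl hk)
    have hnp := hrun.out.npf k hk'.le hk.le
    rw [geo_half hMt] at hnp
    exact bulk_str hrun.ctl.str hk' hstep hnp (aC_fine h12 hk)
  refine ⟨?_, fun k hk => ?_, fun k hk => ?_, fun k hk => (hbulk k hk).1,
    fun k hk => (hbulk k hk).2⟩
  · obtain ⟨ρ, κ, h1, h2, h3⟩ := hG.reg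
    refine ⟨ρ, κ, ?_, h2, fun k hk => h3 k (hk.trans_le hG.k1_le)⟩
    rw [hT]; exact h1
  · exact ⟨((∅ : Finset (ℤ × ℤ)) : Set (ℤ × ℤ)), by rw [hT]; exact hG.fine0 hk⟩
  · rw [hT]; exact hch k hk

set_option maxHeartbeats 2000000 in
/-- **the total norm of the remainders in large discs**, fine phase: all `k ≤ k1 c.p c.k0 u a` -/
theorem sA_disc {J : ℝ} {R : ℕ} {V : Finset (ℤ × ℤ) → ℝ} (hV : VHyp R V) :
    EvC fun c => Std c ∧ ∃ T1 > 0, ∀ C : ℝ, ∃ ε > 0, ∃ M > 0,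
      ∀ n m : ℕ, Even n → 1 ≤ m → ∀ (x : Fin n → ℂ) (y : Fin m → ℂ) (j : Fin m → Fin 2),
      Function.Injective (Fin.append x y) → ∃ u1 > 0, ∀ u : ℝ, 0 < u → u ≤ u1 →
      ∀ᶠ Q in dl, ∀ lam β z : ℝ, |lam| < ε → NearP J C lam β z → PF J R V C c lam β z →
      (∀ k, |zE J R V c lam β z 0 k| ≤ 2) →
      ∀ T : Finset (ℤ × ℤ), (T : Set (ℤ × ℤ)) = domainSites (Metric.ball (0 : ℂ) Q.2) Q.1 →
      ∀ (b : BoundaryCondition)
        (he : ∀ i, (Bg.dom T b (xb Q.1 x)).w (eb Q.1 y j i).1 (eb Q.1 y j i).2 ≠ 0) (t : ℝ),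
        0 < t → m * t ≤ T1 → ∀ k ≤ k1 c.p c.k0 u Q.1,
        totP c (Bg.dom T b (xb Q.1 x)) (mpar J lam R V β z) (eb Q.1 y j) he t k ≤
          ENNReal.ofReal (M * |lam| * (m * t) * (1 / 2) ^ k) := by
  obtain ⟨Cb, A, hgen⟩ := sA_gen (J := J) hV
  refine (hgen.and (ev_disc3c (PlBx117.plB (J := J) hV))).mono ?_
  rintro c ⟨⟨hs, h5, hnear, C1, hG, T1, hT1, hgen⟩, -, -, -, CF, hCF, C1', -, c1, hc1, hdisc⟩
  refine ⟨hs, T1, hT1, fun C => ?_⟩
  obtain ⟨ε1, hε1, M0, hM0, hdisc⟩ := hdisc C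
  obtain ⟨ε2, hε2, M, hM, hgen⟩ := hgen C CF hCF M0 hM0.le
  refine ⟨min ε1 ε2, lt_min hε1 hε2, M, hM, ?_⟩
  intro n m hn hm x y j hinj
  obtain ⟨u0, v0, hu0, huv0, hdisc⟩ := hdisc n hn x (inj_left hinj)
  obtain ⟨c1', hc1', hgood⟩ := disc_good0 C1
  obtain ⟨u0', v0', hu0', hv0', hgood⟩ := hgood n x (inj_left hinj)
  obtain ⟨u1, hu1, hch⟩ := srcCh_dl hinj j (C2c c)
  have hp : 1 ≤ c.p := by have := hs.p_pos; omega
  refine ⟨min u1 (min u0 u0'), by positivity, fun u hu huu => ?_⟩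
  have hl1 : u ≤ u1 := huu.trans (min_le_left _ _)
  have hl2 : u ≤ u0 := huu.trans ((min_le_right _ _).trans (min_le_left _ _))
  have hl3 : u ≤ u0' := huu.trans ((min_le_right _ _).trans (min_le_right _ _))
  obtain ⟨Jn, M', hMM', hdisc⟩ := hdisc u v0 c1 hu hl2 le_rfl hc1 le_rfl
  filter_upwards [hdisc, hgood u v0' c1' hu hl3 le_rfl hc1' le_rfl c.p c.k0 hp,
    hch u hu hl1 c.p c.k0] with Q h1 h2 h3
  obtain ⟨hDG, h12, -, -, hrun⟩ := h1
  intro lam β z hlam hnr hPF hz T hT b he t ht hmt k hk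
  obtain ⟨hr3, -⟩ := hrun lam β z (hlam.trans_le (min_le_left _ _)) hnr hPF T hT b
  have hH := genH_disc (b := b) h2 h3 hT hDG.k1_le h12 (mul_nonneg hM0.le (abs_nonneg _)) hr3
  exact hgen lam β z (hlam.trans_le (min_le_right _ _)) hnr hz T b n m (xb Q.1 x) (eb Q.1 y j)
    (k1 c.p c.k0 u Q.1) hm hH he t ht hmt k hk

end Crest.Agent.R165.SrcGenx359
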