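import Crest.Agent.R165.SrcDomB_697
import Crest.Agent.R165.SrcInv_336

/-!
# Row 165 (S0250), leaf P11: sources in domains, the last good scale of the flow (helper697)

* `LEAD_LD` : the leading part of `SrcSys_991` is `LD` of `SrcCstB_484`
* `act_last` : the field `act` of `FinL` for `flowP` from the bulk norm and the total norm of the
  remainder
-/

set_option autoImplicit false
set_option linter.unusedSectionVars false
set_option linter.unusedVariables false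

noncomputable section

namespace Crest.Agent.R165.SrcDomx697

open Finset Filter Topology
open scoped ENNReal
open Crest.ProbabilityR.IsingModel
open Crest.Agent.R165.KStepx892 Crest.Agent.R165.PNormx417 Crest.Agent.R165.FinBx900
open Crest.Agent.R165.Gr0x606 Crest.Agent.R165.Gr1x606 Crest.Agent.R165.GeOpsx337
  Crest.Agent.R165.ExpGx337 Crest.Agent.R165.KFlowx337 Crest.Agent.R165.GrLocx337
open Crest.Agent.R165.SrcDefx991
open Crest.Agent.R165.SrcSysx991
open Crest.Agent.R165.SrcFinx441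
open Crest.Agent.R165.SrcCmpx441
open Crest.Agent.R165.SrcFinBx441 (Nw ra_Nw)
open Crest.Agent.R165.Latx683 (BW wDom wX IsCov covS Fld HE)
open Crest.Agent.R165.GDefx387 Crest.Agent.R165.GSysx387 Crest.Agent.R165.FRDPolyx439
  Crest.Agent.R165.BgIsox432 Crest.Agent.R165.PStepx417
open Crest.Agent.R165.Bkgx683 (MPar mpar Bg cor bondSrc)
open Crest.Agent.R165.Outx683 (DD)
open Crest.Agent.R165.J4Geox126 (faE)
open Crest.Agent.R165.Fin0x315 Crest.Agent.R165.Fin2x315 Crest.Agent.R165.Fin4x315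
open Crest.Agent.R165.SrcInsx991
open Crest.Agent.R165.SrcInvx336 (tot)
open Crest.Agent.R165.SrcCstx484 (LD)

section

variable {G V : Type} [AddCommGroup V] [Module ℝ V] [DecidableEq G] {m : ℕ}

/-- the leading part of 991 is that of 484 -/
theorem LEAD_LD [CommRing G] [CN G] (R : SData G V m) (z : Fin m → ℝ) (U : Finset (G × G)) :
    LEAD R z U = LD R.sf z R.β U := by
  unfold LEAD LD lead
  rw [sum_filter]
  refine sum_congr rfl fun i _ => ?_
  by_cases h : R.sf i = U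
  · rw [if_pos h, if_pos h.symm, map_smul, mul_smul_comm]
  · rw [if_neg h, if_neg (Ne.symm h)]

end

/-- the total norm bounds the sum over the subsets of a volume -/
theorem sum_nes_le_tot {G : Type} [CommRing G] [CN G] [DecidableEq G] {Γ : ℝ≥0∞} (hΓ : 1 ≤ Γ)
    (r : ℕ) (Λ : Finset (G × G)) (nm : Finset (G × G) → ℝ≥0∞) :
    ∑ U ∈ nes Λ, nm U ≤ tot Γ r nm := by
  refine le_trans ?_ (ENNReal.sum_le_tsum (nes Λ))
  refine sum_le_sum fun U hU => ?_
  have hne : U.Nonempty := (mem_nes.1 hU).2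
  rw [Set.indicator_of_mem (show U ∈ {U : Finset (G × G) | U.Nonempty} from hne)]
  exact le_mul_of_one_le_left zero_le (one_le_pow₀ hΓ)

/-- **the activities at the last scale**: bulk norm and total norm of the remainder -/
theorem act_last {m M K : ℕ} (B : Bg ℤ) (P : MPar) (Dd : FRD 16 M K) (mk : Finset (ℤ × ℤ))
    (e : Fin m → Bkgx683.EG ℤ) (he : ∀ i, B.w (e i).1 (e i).2 ≠ 0) (l k0 N : ℕ)
    {κ R Cg Cv : ℝ} (hM : MM ≤ M) (hw : ∀ z j, |B.w z j| ≤ 1) (hN : 1 ≤ N) (hκ : 0 < κ)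
    (hR : 0 < R) (hCg : 0 < Cg) (hCv : 0 ≤ Cv) (hr : κ * R ≤ rr l k0 N) {A : ℝ}
    (hA : ampK Dd.C κ Cg ≤ A) {Γ : ℝ≥0∞} (hΓ : 1 ≤ Γ) (x : ℤ × ℤ) (Λ : Finset (ℤ × ℤ))
    (hV : ∀ f ∈ Λ, (fd x f : ℝ) ≤ Cv * R) {v ε₁ ε₂ : ℝ} (hε₁ : 0 ≤ ε₁) (hε₂ : 0 ≤ ε₂)
    (h1 : (cntK κ Cv : ℝ≥0∞) * NK B.w A (rr l k0 N) Γ (fun _ => True)
      (fun U => (((flow0 B P Dd mk l k0).K N U : Ge (Fld ℤ)) : Gr (Fld ℤ))) ≤ ENNReal.ofReal ε₁)
    (h2 : tot Γ (rr l k0 N) (fun U => pG (wS (wU B.w A (rr l k0 N) U)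
      (fun _ => ENNReal.ofReal v)) (ppP B P Dd mk e he l k0 N U)) ≤ ENNReal.ofReal ε₂) :
    ∑ W ∈ nes Λ, Nw (FRDRestx439.gr Dd B.w (Cg * R)⁻¹ (lo l k0 N)) (fun _ => v)
        ((flowP B P Dd mk e he l k0).K N W -
          LD (fun i => faE (e i)) (zeP B P Dd mk e he l k0 N) (fun i => beB B.w (e i)) W) ≤
      ENNReal.ofReal (ε₁ + ε₂) := by
  set g := FRDRestx439.gr Dd B.w (Cg * R)⁻¹ (lo l k0 N) with hg
  have hgw : ∀ (U : Finset (ℤ × ℤ)) (x : Fld ℤ), g x ≤ wU B.w A (rr l k0 N) U x := fun U x =>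
    gr_lower Dd hM hw hN hκ hR hCg hr hA U x
  have hrest : ∀ W, (flowP B P Dd mk e he l k0).K N W -
      LD (fun i => faE (e i)) (zeP B P Dd mk e he l k0 N) (fun i => beB B.w (e i)) W =
      inG m ((flow0 B P Dd mk l k0).K N W) + ppP B P Dd mk e he l k0 N W := by
    intro W
    rw [flowP_K, LEAD_LD]
    show inG m _ + LD (fun i => faE (e i)) _ (fun i => beB B.w (e i)) W + _ - _ = _
    abel
  simp only [hrest]
  have h3 : ∑ W ∈ nes Λ, pG g ((flow0 B P Dd mk l k0).K N W) ≤ ENNReal.ofReal ε₁ := by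
    obtain ⟨net, hc, hnt⟩ := net_lower hκ hR hCv hr x
    refine le_trans ?_ h1
    refine (Finset.sum_le_sum fun U _ => ?_).trans
      ((sum_nes_le_NK hΓ B.w A _ (fun U => (((flow0 B P Dd mk l k0).K N U : Ge (Fld ℤ)) :
        Gr (Fld ℤ))) Λ net (hnt Λ hV)).trans ?_)
    · exact pnorm_le_pnorm (fun l => hgw U l) _
    · gcongr
  have h4 : ∑ W ∈ nes Λ, Nw g (fun _ => v) (ppP B P Dd mk e he l k0 N W) ≤
      ENNReal.ofReal ε₂ := by
    refine le_trans ?_ h2
    refine le_trans ?_ (sum_nes_le_tot hΓ (rr l k0 N) Λ _)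
    refine sum_le_sum fun U _ => ?_
    exact pnorm_le_pnorm (Fin1x315.wS_mono (fun x => hgw U x) fun _ => le_rfl) _
  calc ∑ W ∈ nes Λ, Nw g (fun _ => v) (inG m ((flow0 B P Dd mk l k0).K N W) +
        ppP B P Dd mk e he l k0 N W)
      ≤ ∑ W ∈ nes Λ, (pG g ((flow0 B P Dd mk l k0).K N W) +
        Nw g (fun _ => v) (ppP B P Dd mk e he l k0 N W)) :=
        sum_le_sum fun W _ => (pG_add_le _ _ _).trans (add_le_add (pG_inG_le _) le_rfl)
    _ ≤ ENNReal.ofReal ε₁ + ENNReal.ofReal ε₂ := by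
        rw [sum_add_distrib]
        exact add_le_add h3 h4
    _ = _ := (ENNReal.ofReal_add hε₁ hε₂).symm

end Crest.Agent.R165.SrcDomx697
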