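import Crest.Agent.R165.SrcDomC_697

/-!
# Row 165 (S0250), leaf P11: the data at the last good scale from two runs (helper697)

* `finL_of` : `FinL` for a run `D` with sources (steps `k < N`) from its plane comparison runs
  (one plane run for every source), the comparison of the activities and the bounds at scale `N`
-/

set_option autoImplicit false
set_option linter.unusedSectionVars false
set_option linter.unusedVariables false

noncomputable section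

namespace Crest.Agent.R165.SrcDomx697

open Finset Filter Topology
open scoped ENNReal
open Crest.Agent.R165.FinBx900 Crest.Agent.R165.KStepx892
open Crest.Agent.R165.Gr0x606 Crest.Agent.R165.Gr1x606 Crest.Agent.R165.GeOpsx337
  Crest.Agent.R165.ExpGx337 Crest.Agent.R165.PNormx417 Crest.Agent.R165.KFlowx337
  Crest.Agent.R165.SrcFinx441 Crest.Agent.R165.GrLocx337
open Crest.Agent.R165.SrcDefx991
open Crest.Agent.R165.SrcFinBx441 (bd_tau bd_inG Nw ra_Nw ra_pG ctG_tau)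
open Crest.Agent.R165.SrcCmpx441
open Crest.Agent.R165.SrcCstx484

section tail

/-- sums of a sequence bounded by `Cs / v²` -/
theorem tail_bd {v : ℕ → ℝ} {s : ℕ → ℝ} {Cs : ℝ} (hv : ∀ k, 0 < v k)
    (hv1 : ∀ k, 2 * v k ^ 2 ≤ v (k + 1) ^ 2) (hs : ∀ k, v k ^ 2 * |s k| ≤ Cs) (N : ℕ) :
    Summable (fun k => s (k + N)) ∧ v N ^ 2 * |∑' k, s (k + N)| ≤ 2 * Cs := by
  have hCs : 0 ≤ Cs := (by have := hv 0; positivity : 0 ≤ v 0 ^ 2 * |s 0|).trans (hs 0)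
  have hg : ∀ k, 2 ^ k * v N ^ 2 ≤ v (k + N) ^ 2 := by
    intro k
    induction k with
    | zero => simp
    | succ k ih =>
      have h1 := hv1 (k + N)
      have e : k + 1 + N = k + N + 1 := by ring
      rw [e, pow_succ]
      nlinarith
  have hN : 0 < v N ^ 2 := by have := hv N; positivity
  have hb : ∀ k, |s (k + N)| ≤ Cs / v N ^ 2 * (1 / 2) ^ k := by
    intro k
    have h1 := hs (k + N)
    have h2 := hg k
    have h3 : 0 < (2 : ℝ) ^ k := by positivity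
    have e : Cs / v N ^ 2 * (1 / 2) ^ k = Cs / (2 ^ k * v N ^ 2) := by
      rw [one_div, inv_pow]
      field_simp
    rw [e, le_div_iff₀ (by positivity)]
    calc |s (k + N)| * (2 ^ k * v N ^ 2) ≤ |s (k + N)| * v (k + N) ^ 2 :=
          mul_le_mul_of_nonneg_left h2 (abs_nonneg _)
      _ = v (k + N) ^ 2 * |s (k + N)| := mul_comm _ _
      _ ≤ Cs := h1
  have hgeo : Summable fun k : ℕ => Cs / v N ^ 2 * (1 / 2 : ℝ) ^ k :=
    (summable_geometric_of_lt_one (by norm_num) (by norm_num)).mul_left _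
  refine ⟨Summable.of_norm_bounded hgeo hb, ?_⟩
  have h1 : |∑' k, s (k + N)| ≤ Cs / v N ^ 2 * 2 := by
    have h2 := tsum_of_norm_bounded (f := fun k => s (k + N)) (hgeo.hasSum) hb
    rwa [tsum_mul_left, tsum_geometric_two, Real.norm_eq_abs] at h2
  calc v N ^ 2 * |∑' k, s (k + N)| ≤ v N ^ 2 * (Cs / v N ^ 2 * 2) :=
        mul_le_mul_of_nonneg_left h1 hN.le
    _ = 2 * Cs := by
        rw [← mul_assoc, mul_div_cancel₀ _ hN.ne', mul_comm]

end tail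

section abstract

variable {V V' : Type*} [AddCommGroup V] [Module ℝ V] [AddCommGroup V'] [Module ℝ V']
  {m : ℕ} {F F' : Type*} [DecidableEq F] [DecidableEq F']

/-- **the data at the last good scale from two runs** -/
theorem finL_of {D : Sys F (VS V m)} {near : F → F → Prop} {Λ : Finset F} {N : ℕ}
    {S : ℕ → Cov V} {g : ℕ → V → ℝ≥0∞} {wt : ℕ → Finset F → V → ℝ≥0∞} {v : ℕ → ℝ} {Γ : ℝ}
    {e : ℕ → ℝ} {sz : ℕ → Finset F → ℕ} {sf : Fin m → Finset F} {ζ : ℕ → Fin m → ℝ}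
    {β : Fin m → Ge V} {PP : ℕ → Finset F → Ge (VS V m)}
    (h : Run D (fun k => k < N) S g wt v Γ e sz sf ζ β PP)
    (hGS : ∀ k U, D.H k U ∈ GS V m) (hs : ∀ k U, U ∉ nes Λ → D.H k U = 0)
    -- the plane runs
    {D' : Fin m → Sys F' (VS V' 1)} {S' : ℕ → Cov V'} {g' : ℕ → V' → ℝ≥0∞}
    {wt' : ℕ → Finset F' → V' → ℝ≥0∞} {e' : Fin m → ℕ → ℝ} {sz' : ℕ → Finset F' → ℕ}
    {sf' : Fin m → Fin 1 → Finset F'} {ζ' : Fin m → ℕ → Fin 1 → ℝ} {β' : Fin m → Fin 1 → Ge V'}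
    {PP' : Fin m → ℕ → Finset F' → Ge (VS V' 1)}
    (h' : ∀ i, Run (D' i) (fun _ => True) S' g' wt' v Γ (e' i) sz' (sf' i) (ζ' i) (β' i) (PP' i))
    -- comparison
    (hcmp : ∀ i, ∀ k < N, CmpH (D.H k) ((D' i).H k) i 0 sf (sf' i) (sz k) (sz' k) (N - k))
    (hzN : ∀ i, ζ N i = ζ' i N 0)
    (hbig : ∀ I : Finset (Fin m), 2 ≤ I.card → ∀ k < N, ∀ U, coP I (D.K k U) ≠ 0 →
      (m + 1) * (N - k) ≤ sz k U)
    -- numbers
    {L σ Ze Ce Cz Cs : ℝ} (hv : ∀ k, 0 < v k) (hL : 1 ≤ L)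
    (hv1 : ∀ k, 2 * v k ^ 2 ≤ v (k + 1) ^ 2) (hv2 : ∀ k, v (k + 1) ^ 2 ≤ L * v k ^ 2)
    (hσ : 0 < σ) (hσ1 : σ ≤ 1) (hΓ1 : 1 ≤ Γ) (hΓ : 2 * L ≤ Γ * σ) (hCe : 0 ≤ Ce) (hCz : 0 ≤ Cz) (hCs0 : 0 ≤ Cs)
    (hz : ∀ i k, |ζ' i k 0 - Ze| ≤ Cz * σ ^ k)
    (hsl : ∀ i k, v k ^ 2 * |EEG (S' k) (β' i 0)| ≤ Cs)
    (he' : ∀ i k, e' i k ≤ Ce * σ ^ k) (he : ∀ k < N, e k ≤ Ce * σ ^ k) (hZe : |Ze| ≤ 2)
    -- the last scale
    {Sf : Cov V} {gL : V → ℝ≥0∞} {M ea : ℝ} (hgram : Gram Sf gL) (hg0 : gL 0 = 0)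
    (hM : 2 * Cs ≤ M) (hea : 0 ≤ ea)
    (ne : ∀ i, (sf i).Nonempty) (sub : ∀ i, sf i ⊆ Λ)
    (sep : ∀ i j, i ≠ j → ¬ touch near (sf i) (sf j))
    (act : ∑ W ∈ nes Λ, Nw gL (fun _ => v N) (D.K N W - LD sf (ζ N) β W) ≤ ENNReal.ofReal ea)
    (hβ : ∀ i, Bd (fun a : Ge V => pG gL a) (β i) (M / v N ^ 2)) :
    FinL D near Λ N sf (ζ N) (fun i => 1 - (1 + ∑' k, incS (D' i) 0 k))
      (fun i => -∑' k, EEG (S' (k + N)) (β' i 0)) β Sf gL (v N)
      (ea + (4 * (Ce + Cz * Cs) + Cz + Ce) * σ ^ N) M Ze := by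
  have hσN : 0 < σ ^ N := by positivity
  have hε1 : ea ≤ ea + (4 * (Ce + Cz * Cs) + Cz + Ce) * σ ^ N :=
    le_add_of_nonneg_right (by positivity)
  refine ⟨hgram, hg0, hv N, by positivity, by linarith, h.inj, ne, sub, sep, h.vac, hGS,
    act.trans (ENNReal.ofReal_le_ofReal hε1), hβ, ?_, hZe, ?_, ?_, ?_⟩
  · intro i
    rw [hzN]
    refine (hz i N).trans ?_
    have : 0 ≤ (4 * (Ce + Cz * Cs) + Ce) * σ ^ N := by positivity
    nlinarith
  · intro i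
    obtain ⟨_, h2⟩ := h.constants (h' i) (fun _ => trivial) hGS hs i 0 (fun k hk => hk) (hcmp i)
      hv hL hv1 hv2 hσ hσ1 hΓ hCe hCz hCs0 (hz i) (hsl i) (he' i) he
    refine h2.trans ?_
    have : 0 ≤ (Cz + Ce) * σ ^ N := by positivity
    nlinarith
  · intro I hI
    have h1 := h.high hGS hs hI (fun k hk => hk) (hbig I hI) hv hL hv2 hσ hΓ1 ?_ hCe he
    · refine h1.trans ?_
      have : 0 ≤ (4 * (Ce + Cz * Cs) + Cz) * σ ^ N := by positivity
      nlinarith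
    · have h2 : (2 * L) ^ (m + 1) ≤ (Γ * σ) ^ (m + 1) := pow_le_pow_left₀ (by linarith) hΓ _
      have h3 : 2 * L ^ m ≤ (2 * L) ^ (m + 1) := by
        rw [mul_pow]
        have h4 : (2 : ℝ) ≤ 2 ^ (m + 1) := by
          calc (2 : ℝ) = 2 ^ 1 := (pow_one _).symm
            _ ≤ _ := pow_le_pow_right₀ (by norm_num) (by omega)
        have h5 : L ^ m ≤ L ^ (m + 1) := pow_le_pow_right₀ hL (by omega)
        have h6 : 0 ≤ L ^ m := by positivity
        nlinarith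
      have h7 : (Γ * σ) ^ (m + 1) ≤ Γ ^ (m + 1) * σ := by
        rw [mul_pow]
        refine mul_le_mul_of_nonneg_left ?_ (by positivity)
        calc σ ^ (m + 1) ≤ σ ^ 1 := pow_le_pow_of_le_one hσ.le hσ1 (by omega)
          _ = σ := pow_one _
      linarith
  · intro i
    rw [abs_neg]
    exact (tail_bd hv hv1 (hsl i) N).2.trans hM

end abstract

end Crest.Agent.R165.SrcDomx697
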