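import Crest.Agent.R165.SrcDomF_697
import Crest.Agent.R165.SRdomA_900
import Crest.Agent.R165.SrcCh_485
import Crest.Agent.R165.EnEv_359

/-!
# Row 165 (S0250), leaf P11: energies in domains, the eventual side (helper697)

* `DomEv` : the geometric and analytic data of a domain with sources at one mesh
* `domEv_ev` : they hold for `C²` domains and small mesh
-/

set_option autoImplicit false
set_option linter.unusedSectionVars false
set_option linter.unusedVariables false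

noncomputable section

namespace Crest.Agent.R165.SrcDomx697

open Finset Filter Topology
open scoped ENNReal
open Crest.ProbabilityR.IsingModel
open Crest.Agent.R165.Latx683 (BW wDom wX IsCov covS Fld HE)
open Crest.Agent.R165.GDefx387 Crest.Agent.R165.GSysx387
open Crest.Agent.R165.Bkgx683 (MPar mpar Bg cor bondSrc)
open Crest.Agent.R165.Outx683 (DD amp PF)
open Crest.Agent.R165.PEndx683 (Cst ForP NearP)
open Crest.Agent.R165.J4Geox126 (faE)
open Crest.Agent.R165.JRunSx408 (SrcOK eb xb q_run q0_run VolS srcOK_C2)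
open Crest.Agent.R165.JRunx445 (Links dom_w links_C2)
open Crest.Agent.R165.JVolx950 (Vol)
open Crest.Agent.R165.GeoScx420 (KK KK_tendsto)
open Crest.Agent.R165.SRdomAx900 (GoodBg goodBg_ev goodBg_ev0 Lam vol_Lam fd_Lam TT_sub_bx)
open Crest.Agent.R165.SrcChx485 (SrcCh srcCh_dom)
open Crest.Agent.R165.U5Px422 (TT mem_TT)
open Crest.Agent.R165.Centx541 Crest.Agent.R165.Redx541 Crest.Agent.R165.Symx541
  Crest.Agent.R165.Red2x541 Crest.Agent.R165.Topx683 Crest.Agent.R165.SRx541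

/-- **the data of a domain with sources at one mesh**: radius `B0` of the domain, constant `Cg` of
the gap, all scales `k ≤ N`, distances `C1 * rr k` -/
structure DomEv (R : ℕ) (D : Set ℂ) (b : BoundaryCondition) {n m : ℕ} (x : Fin n → ℂ)
    (y : Fin m → ℂ) (j : Fin m → Fin 2) (B0 Cg : ℝ) (p k0 C1 N : ℕ) (a : ℝ) : Prop where
  apos : 0 < a
  a1 : a ≤ 1
  ok : SrcOK D a b x y j
  lk : Links D a b (xb a x)
  tt : TT D a = ok.fin.toFinset
  good : GoodBg (Bg.dom ok.fin.toFinset b (xb a x)).w (Cg * a⁻¹)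
  vol : Vol ok.fin.toFinset b (max R 1) (fun k => faE (eb a y j k)) (Lam B0 (max R 1) a)
  ch : ∀ k ≤ N, SrcCh (domainSites D a) (xb a x) (eb a y j) (C1 * rr p k0 k)
  N1 : 1 ≤ N

theorem goodBg_all (hS : UFinx420.SpinLeaf) {D : Set ℂ} (hD : IsC2JordanDomain D)
    (b : BoundaryCondition) {n : ℕ} (hR : Rel b n) {x : Fin n → ℂ} (hx : ∀ i, x i ∈ D)
    (hinj : Function.Injective x) : ∃ C : ℝ, 0 < C ∧ ∀ᶠ a in 𝓝[>] (0 : ℝ),
      GoodBg (Bg.dom (TT D a) b (fun i => meshIndex a (x i))).w (C * a⁻¹) := by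
  rcases Nat.eq_zero_or_pos n with h0 | h0
  · subst h0
    obtain ⟨C, hC, h⟩ := goodBg_ev0 hD b (UFinx420.rel_ne_minus hR)
    refine ⟨C, hC, h.mono fun a ha => ?_⟩
    have e : (fun i : Fin 0 => meshIndex a (x i)) = fun i : Fin 0 => i.elim0 :=
      funext fun i => i.elim0
    rw [e]
    exact ha
  · exact goodBg_ev hS hD b h0 hR ⟨hx, hinj⟩

/-- **the data of a domain hold for small mesh** -/
theorem domEv_ev (hS : UFinx420.SpinLeaf) (C1 : ℕ) {D : Set ℂ} (hD : IsC2JordanDomain D)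
    {b : BoundaryCondition} {n m : ℕ} (hR : Rel b n) {x : Fin n → ℂ} {y : Fin m → ℂ}
    (j : Fin m → Fin 2) (hx : ∀ i, x i ∈ D) (hy : ∀ k, y k ∈ D)
    (hinj : Function.Injective (Fin.append x y)) :
    ∃ B0 : ℝ, 0 ≤ B0 ∧ ∃ Cg : ℝ, 0 < Cg ∧ ∃ d1 > 0, ∀ d : ℝ, 0 < d → d ≤ d1 →
      ∀ (p k0 R : ℕ), 1 ≤ p → ∀ᶠ a : ℝ in 𝓝[>] 0,
        DomEv R D b x y j B0 Cg p k0 C1 (KK p k0 d a) a := by
  have hbd : Bornology.IsBounded D := bounded_of_C2 hD
  have hxi : Function.Injective x := fun i i' h => by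
    have := @hinj (Fin.castAdd m i) (Fin.castAdd m i') (by simpa using h)
    exact Fin.castAdd_injective n m this
  have hyi : Function.Injective y := fun i i' h => by
    have := @hinj (Fin.natAdd n i) (Fin.natAdd n i') (by simpa using h)
    exact Fin.natAdd_injective m n this
  obtain ⟨Bd0, hBd0⟩ := hbd.exists_norm_le
  have hBD : ∀ w ∈ D, ‖w‖ ≤ |Bd0| := fun w hw => (hBd0 w hw).trans (le_abs_self _)
  obtain ⟨Cg, hCg, hg⟩ := goodBg_all hS hD b hR hx hxi
  obtain ⟨d1, hd1, hch⟩ := srcCh_dom hD hx hy hinj j C1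
  refine ⟨|Bd0|, abs_nonneg _, Cg, hCg, d1, hd1, fun d hd hdd p k0 R hp => ?_⟩
  have ha1 : ∀ᶠ a in 𝓝[>] (0 : ℝ), a ≤ 1 :=
    mem_of_superset (Ioo_mem_nhdsGT one_pos) fun a ha => ha.2.le
  filter_upwards [self_mem_nhdsWithin, ha1, srcOK_C2 hR hD x hx y j hy hyi,
    links_C2 b n hR hD x hx, hg, hch d hd hdd p k0,
    (KK_tendsto (k0 := k0) hp hd).eventually_ge_atTop 1] with a ha0 ha1 hok hlk hgood hch hN
  have ha : (0 : ℝ) < a := ha0
  have hlk' : Links D a b (xb a x) := hlk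
  have htt : TT D a = hok.fin.toFinset := hlk'.tt
  refine ⟨ha, ha1, hok, hlk', htt, ?_, ?_, hch, hN⟩
  · rw [← htt]
    exact hgood
  · rw [← htt]
    have v := vol_Lam hBD hbd ha b (max R 1) (κ := Fin 0) (fun _ => ∅) fun _ => rfl
    refine ⟨v.W, v.nb, v.BB, fun i f hf => ?_⟩
    have h1 := EnWx359.faE_fd _ hf
    have h2 : (eb a y j i).1 ∈ domainSites D a := (hch 0 (Nat.zero_le _)).mem i
    have h3 := TT_sub_bx hBD hbd ha ((mem_TT hbd ha).2 h2)
    have h4 := J4Defx653.mem_bx.1 h3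
    show f ∈ J4Defx653.bx _
    rw [J4Defx653.mem_bx]
    simp only [abs_le] at h1 h4 ⊢
    omega

end Crest.Agent.R165.SrcDomx697
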