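import Crest.Agent.R165.SrcDomE_697

/-!
# Row 165 (S0250), leaf P11: energies in domains, the limit of the mesh (helper697)

* `LastOK` : the data `FinL` at the last good scale `N` of one mesh
* `erd_of_last` : **`ERD` from `LastOK`** with error `C σ ^ N`, `N = KK c.p c.k0 d a`
-/

set_option autoImplicit false
set_option linter.unusedSectionVars false
set_option linter.unusedVariables false

noncomputable section

namespace Crest.Agent.R165.SrcDomx697

open Finset Filter Topology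
open scoped ENNReal
open Crest.ProbabilityR.IsingModel
open Crest.Agent.R165.KStepx892
open Crest.Agent.R165.Gr0x606 Crest.Agent.R165.Gr1x606 Crest.Agent.R165.GeOpsx337
  Crest.Agent.R165.ExpGx337 Crest.Agent.R165.KFlowx337
open Crest.Agent.R165.SrcDefx991 (VS Src tau ext0 inG coP)
open Crest.Agent.R165.SrcCmpx441
open Crest.Agent.R165.Latx683 (BW wDom wX IsCov covS Fld HE)
open Crest.Agent.R165.GDefx387 Crest.Agent.R165.GSysx387 Crest.Agent.R165.FRDPolyx439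
  Crest.Agent.R165.BgIsox432 Crest.Agent.R165.PStepx417
open Crest.Agent.R165.Bkgx683 (MPar mpar Bg cor bondSrc)
open Crest.Agent.R165.Outx683 (DD amp PF)
open Crest.Agent.R165.PEndx683 (Cst ForP NearP)
open Crest.Agent.R165.J4Geox126 (faE)
open Crest.Agent.R165.J1ax606 (pe qe)
open Crest.Agent.R165.JRunSx408 (SrcOK eb xb q_run q0_run VolS)
open Crest.Agent.R165.JRunx445 (Links dom_w)
open Crest.Agent.R165.JVolx950 (Vol)
open Crest.Agent.R165.Fin2x315
open Crest.Agent.R165.SrcInsx991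
open Crest.Agent.R165.SrcLimx697
open Crest.Agent.R165.GeoScx420 (KK KK_tendsto)
open Crest.Agent.R165.UKerx420 (wD Cof Sof Sof_spec Sof_skew)
open Crest.Agent.R165.UFinx420 (isF)
open Crest.Agent.R165.Centx541 Crest.Agent.R165.Redx541 Crest.Agent.R165.Symx541
  Crest.Agent.R165.Red2x541 Crest.Agent.R165.Topx683 Crest.Agent.R165.SRx541

/-- **the data at the last good scale** `N` of the domain `D` at mesh `a`, with source weight
`vS c t N` -/
def LastOK (c : Cst) (J lam : ℝ) (R : ℕ) (V : Finset (ℤ × ℤ) → ℝ) (β z : ℝ) (D : Set ℂ)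
    (b : BoundaryCondition) {n m : ℕ} (x : Fin n → ℂ) (y : Fin m → ℂ) (j : Fin m → Fin 2)
    (Ze : ℝ) (em : Fin 2 → ℝ) (t ε M a : ℝ) (N : ℕ) : Prop :=
  ∃ (H : SrcOK D a b x y j) (_ : Links D a b (xb a x)) (Λ : Finset (ℤ × ℤ))
    (_ : Vol H.fin.toFinset b (max R 1) (fun k => faE (eb a y j k)) Λ)
    (he : ∀ i, (Bg.dom H.fin.toFinset b (xb a x)).w (eb a y j i).1 (eb a y j i).2 ≠ 0)
    (hinv : Inv (Bg.dom H.fin.toFinset b (xb a x)).w
      (Sof (Bg.dom H.fin.toFinset b (xb a x)).w))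
    (_ : ∀ i i', i ≠ i' → nearR c.p c.k0 (N - 1) < fd (eb a y j i).1 (eb a y j i').1)
    (ζ : Fin m → ℝ) (g : Fld ℤ → ℝ≥0∞),
    FinL (flowP (Bg.dom H.fin.toFinset b (xb a x)) (mpar J lam R V β z) DD ∅ (eb a y j) he
        c.p c.k0) (near c.p c.k0 N) Λ N (fun i => faE (eb a y j i)) ζ (fun i => 1 - em (j i))
      (fun i => c0D DD (Bg.dom H.fin.toFinset b (xb a x)).w c.p c.k0 N (eb a y j i))
      (fun i => beB (Bg.dom H.fin.toFinset b (xb a x)).w (eb a y j i))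
      (hinv.last DD c.p c.k0 N) g (vS c t N) ε M Ze

/-- **`ERD` from the data at the last good scale** -/
theorem erd_of_last {c : Cst} {J lam : ℝ} {R : ℕ} {V : Finset (ℤ × ℤ) → ℝ} {β z : ℝ}
    {Ze : ℝ} {em : Fin 2 → ℝ} (hJ : J ≠ 0) (hV : VHyp R V) (hz : 0 < 1 + z)
    (h5 : 5 ≤ c.p * (c.k0 + 1)) (hp : 1 ≤ c.p) (hA0 : 1 ≤ c.A0) (hδ : 0 ≤ c.δ)
    (h : ∀ D : Set ℂ, IsC2JordanDomain D → ∀ (b : BoundaryCondition) (n m : ℕ), 1 ≤ m → Rel b n →
      ∀ (x : Fin n → ℂ) (y : Fin m → ℂ) (j : Fin m → Fin 2),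
        (∀ i, x i ∈ D) → (∀ k, y k ∈ D) → Function.Injective (Fin.append x y) →
        ∃ t d σ Cc M : ℝ, 0 < t ∧ 0 < d ∧ 0 ≤ σ ∧ σ < 1 ∧ ∀ᶠ a : ℝ in 𝓝[>] 0,
          LastOK c J lam R V β z D b x y j Ze em t (Cc * σ ^ KK c.p c.k0 d a) M a
            (KK c.p c.k0 d a)) :
    ERD J lam R V β Ze em := by
  have h0 : 0 < c.A0 := by linarith
  refine ERD_of_run fun D hD b n m hm hR x y j hx hy hinj => ?_
  obtain ⟨t, d, σ, Cc, M, ht, hd, hσ0, hσ1, hev⟩ := h D hD b n m hm hR x y j hx hy hinj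
  refine ⟨2 * (m * M), t * (d / 2 ^ c.p), fun a => amp c (KK c.p c.k0 d a),
    fun a => (1 + m * M + m + 2 ^ m) * (Cc * σ ^ KK c.p c.k0 d a), by positivity,
    Eventually.of_forall fun a => amp_one hA0 hδ _, ?_, ?_⟩
  · have h1 := amp_pow_comp (KK_tendsto (k0 := c.k0) hp hd) c hσ0 hσ1 (2 * m)
      ((1 + m * M + m + 2 ^ m) * Cc)
    refine h1.congr fun a => ?_
    ring
  · filter_upwards [hev, self_mem_nhdsWithin] with a ha ha0
    obtain ⟨H, hX, Λ, hΛ, he, hinv, hsep, ζ, g, hL⟩ := ha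
    exact runPack_dom H hX rfl hJ hV hz (fun i => em (j i)) hΛ he h5 _ hinv hsep hL
      (vS_last ht h0 hδ hp ha0 rfl)

end Crest.Agent.R165.SrcDomx697
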