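import Crest.Agent.R165.SrcDomF_697
import Crest.Agent.R165.SrcGeo_485
import Crest.Agent.R165.EnFine_811
import Crest.Agent.R165.SrcCstG_484

/-!
# Row 165 (S0250), leaf P11: the data at the last scale of a domain (helper697)

* `lastOK_of` : `LastOK` from `DomEv` (485), `FineAt` (811) at the last scale and the bulk norm
-/

set_option autoImplicit false
set_option linter.unusedSectionVars false
set_option linter.unusedVariables false

noncomputable section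

namespace Crest.Agent.R165.SrcDomx697

open Finset Filter Topology
open scoped ENNReal
open Crest.ProbabilityR.IsingModel
open Crest.Agent.R165.KStepx892 Crest.Agent.R165.PNormx417 Crest.Agent.R165.FinBx900
open Crest.Agent.R165.Gr0x606 Crest.Agent.R165.Gr1x606 Crest.Agent.R165.GeOpsx337
  Crest.Agent.R165.ExpGx337 Crest.Agent.R165.KFlowx337
open Crest.Agent.R165.SrcDefx991 (VS Src tau ext0 inG coP wS vacS GS)
open Crest.Agent.R165.SrcCmpx441
open Crest.Agent.R165.SrcFinx441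
open Crest.Agent.R165.Latx683 (BW wDom wX IsCov covS Fld HE Aop)
open Crest.Agent.R165.GDefx387 Crest.Agent.R165.GSysx387 Crest.Agent.R165.FRDPolyx439
  Crest.Agent.R165.BgIsox432 Crest.Agent.R165.PStepx417
open Crest.Agent.R165.Bkgx683 (MPar mpar Bg cor bondSrc)
open Crest.Agent.R165.Outx683 (DD amp PF)
open Crest.Agent.R165.PEndx683 (Cst ForP NearP)
open Crest.Agent.R165.J4Geox126 (faE)
open Crest.Agent.R165.JRunSx408 (SrcOK eb xb q_run q0_run VolS)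
open Crest.Agent.R165.JRunx445 (Links dom_w)
open Crest.Agent.R165.JVolx950 (Vol)
open Crest.Agent.R165.Fin2x315 Crest.Agent.R165.Fin4x315
open Crest.Agent.R165.SrcInsx991
open Crest.Agent.R165.SrcLimx697
open Crest.Agent.R165.GeoScx420 (KK KK_tendsto)
open Crest.Agent.R165.SrcGeox485 (DomEv)
open Crest.Agent.R165.EnFinex811 (FineAt)
open Crest.Agent.R165.SRdomAx900 (Lam)
open Crest.Agent.R165.SrcCstx484 (co flowP_GS)
open Crest.Agent.R165.U5Px422 (TT)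
open Crest.Agent.R165.UKerx420 (wD Cof Sof Sof_spec Sof_skew)
open Crest.Agent.R165.Centx541 Crest.Agent.R165.Redx541 Crest.Agent.R165.Symx541
  Crest.Agent.R165.Red2x541 Crest.Agent.R165.Topx683 Crest.Agent.R165.SRx541

theorem gr_zero {M K : ℕ} (Dd : FRD 16 M K) (w : BW ℤ) (m : ℝ) (J : ℕ) :
    FRDRestx439.gr Dd w m J 0 = 0 := by
  unfold FRDRestx439.gr
  rw [map_zero, Real.sqrt_zero, ENNReal.ofReal_zero]

section

variable {c : Cst} {R C1 : ℕ} {D : Set ℂ} {b : BoundaryCondition} {n m : ℕ} {x : Fin n → ℂ}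
  {y : Fin m → ℂ} {j : Fin m → Fin 2} {Cg Cv d a : ℝ}

/-- one mesh, any finite domain `T` of sites equal to the sites of `D` -/
theorem lastOK_aux {J lam β z : ℝ} {V : Finset (ℤ × ℤ) → ℝ} {Ze : ℝ} {em : Fin 2 → ℝ}
    (H : SrcOK D a b x y j) {T : Finset (ℤ × ℤ)} (hT : T = H.fin.toFinset)
    (hX : Links D a b (xb a x)) {Λ : Finset (ℤ × ℤ)}
    (hΛ : Vol T b (max R 1) (fun k => faE (eb a y j k)) Λ)
    (he : ∀ i, (Bg.dom T b (xb a x)).w (eb a y j i).1 (eb a y j i).2 ≠ 0)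
    (hinv : Inv (Bg.dom T b (xb a x)).w (Sof (Bg.dom T b (xb a x)).w))
    (hw : ∀ z k, |(Bg.dom T b (xb a x)).w z k| ≤ 1)
    {κ Rr : ℝ} (hκ : 0 < κ) (hRr : 0 < Rr) (hCg : 0 < Cg) (hCv : 0 ≤ Cv)
    (hgap : ∀ f : Fld ℤ, l2 (f : HE ℤ → ℝ) ≤
      Cg * Rr * l2 (Aop (Bg.dom T b (xb a x)).w (f : HE ℤ → ℝ)))
    {N : ℕ} (hN : 1 ≤ N) (hr : κ * Rr ≤ rr c.p c.k0 N)
    (hsep : ∀ i i', i ≠ i' → nearR c.p c.k0 (N - 1) < fd (eb a y j i).1 (eb a y j i').1)
    (htch : ∀ i i', i ≠ i' → ¬ touch (near c.p c.k0 N) (faE (eb a y j i)) (faE (eb a y j i')))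
    (hΓ : 1 ≤ c.Γ) (hA : ampK DD.C κ Cg ≤ amp c N)
    (hV : ∀ f ∈ Λ, (fd ((0, 0) : ℤ × ℤ) f : ℝ) ≤ Cv * Rr) {t ε M b1 : ℝ} (hb1 : 0 ≤ b1)
    (hF : FineAt c (Bg.dom T b (xb a x)) (mpar J lam R V β z) (eb a y j) he Λ N (amp c N)
      (vS c t N) ε M Ze (fun i => em (j i)))
    (hbulk : NK (Bg.dom T b (xb a x)).w (amp c N)
      (rr c.p c.k0 N) (ENNReal.ofReal c.Γ) (fun _ => True)
      (fun U => (((flow0 (Bg.dom T b (xb a x)) (mpar J lam R V β z) DD ∅ c.p c.k0).K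
        N U : Ge (Fld ℤ)) : Gr (Fld ℤ))) ≤ ENNReal.ofReal b1) :
    LastOK c J lam R V β z D b x y j Ze em t (cntK κ Cv * b1 + ε) M a N := by
  subst hT
  have hg : ∀ (U : Finset (ℤ × ℤ)) (l : Fld ℤ),
      FRDRestx439.gr DD (Bg.dom H.fin.toFinset b (xb a x)).w (Cg * Rr)⁻¹ (lo c.p c.k0 N) l ≤
        wU (Bg.dom H.fin.toFinset b (xb a x)).w (amp c N) (rr c.p c.k0 N) U l := fun U l =>
    gr_lower DD (by decide) hw hN hκ hRr hCg hr hA U l
  have hΓ' : (1 : ℝ≥0∞) ≤ ENNReal.ofReal c.Γ := by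
    rw [← ENNReal.ofReal_one]
    exact ENNReal.ofReal_le_ofReal hΓ
  have hact := act_last (Bg.dom H.fin.toFinset b (xb a x)) (mpar J lam R V β z) DD ∅ (eb a y j)
    he c.p c.k0 N (by decide) hw hN hκ hRr hCg hCv hr hA hΓ' (0, 0) Λ hV
    (ε₁ := cntK κ Cv * b1) (ε₂ := ε) (v := vS c t N) (by positivity) hF.ε0
    (by
      rw [ENNReal.ofReal_mul (by positivity), ENNReal.ofReal_natCast]
      exact mul_le_mul' le_rfl hbulk) hF.pp
  have hle : ε ≤ cntK κ Cv * b1 + ε := le_add_of_nonneg_left (by positivity)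
  refine ⟨H, hX, Λ, hΛ, he, hinv, hsep,
    zeP (Bg.dom H.fin.toFinset b (xb a x)) (mpar J lam R V β z) DD ∅ (eb a y j) he c.p c.k0 N,
    FRDRestx439.gr DD (Bg.dom H.fin.toFinset b (xb a x)).w (Cg * Rr)⁻¹ (lo c.p c.k0 N), ?_⟩
  exact
    { gram := hinv.last_gram DD hw (by positivity) hgap c.p c.k0 N
      g0 := gr_zero DD _ _ _
      v0 := hF.v0
      ε0 := hF.ε0.trans hle
      M0 := hF.M0
      inj := hF.inj
      ne := fun i => ⟨_, faE_fst_mem (eb a y j i)⟩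
      sub := fun i => hΛ.src i
      sep := htch
      vac := rfl
      hGS := fun k U => flowP_GS k U
      act := hact
      hβ := fun i => (pnorm_le_pnorm (fun l => hg _ l) _).trans (hF.hβ i)
      hζ := fun i => (hF.ze i).trans hle
      hZe := hF.hZe
      cst := fun i => (hF.cst i).trans hle
      high := fun I hI => (hF.high I hI).trans hle
      hc0 := hF.hc0 }

/-- **the data at the last scale** -/
theorem lastOK_of {J lam β z : ℝ} {V : Finset (ℤ × ℤ) → ℝ} {Ze : ℝ} {em : Fin 2 → ℝ}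
    (h : DomEv c (max R 1) C1 D b x y j Cg Cv d a) (hCg : 0 < Cg) (hCv : 0 < Cv) (hd : 0 < d)
    (hp : 1 ≤ c.p) (hΓ : 1 ≤ c.Γ) (hC1 : 2 ^ c.p + 4 ≤ C1)
    (hA : ampK DD.C (d / 2 ^ c.p) Cg ≤ amp c (KK c.p c.k0 d a))
    {t ε M b1 : ℝ} (hb1 : 0 ≤ b1)
    (hF : FineAt c (Bg.dom (TT D a) b (xb a x)) (mpar J lam R V β z) (eb a y j) h.he
      (Lam (Cv - (max R 1 : ℕ) - 3) (max R 1) a) (KK c.p c.k0 d a) (amp c (KK c.p c.k0 d a))
      (vS c t (KK c.p c.k0 d a)) ε M Ze (fun i => em (j i)))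
    (hbulk : NK (Bg.dom (TT D a) b (xb a x)).w (amp c (KK c.p c.k0 d a))
      (rr c.p c.k0 (KK c.p c.k0 d a)) (ENNReal.ofReal c.Γ) (fun _ => True)
      (fun U => (((flow0 (Bg.dom (TT D a) b (xb a x)) (mpar J lam R V β z) DD ∅ c.p c.k0).K
        (KK c.p c.k0 d a) U : Ge (Fld ℤ)) : Gr (Fld ℤ))) ≤ ENNReal.ofReal b1) :
    LastOK c J lam R V β z D b x y j Ze em t (cntK (d / 2 ^ c.p) Cv * b1 + ε) M a
      (KK c.p c.k0 d a) := by
  have ha := h.ha
  have hch := h.ch (KK c.p c.k0 d a) le_rfl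
  set N := KK c.p c.k0 d a with hN
  have hN1 : 1 ≤ N := h.N1
  have hr : d / 2 ^ c.p * a⁻¹ ≤ rr c.p c.k0 N := by
    have h3 := GeoScx420.lt_rr_KK (k0 := c.k0) hp d a
    rw [← hN] at h3
    rw [div_mul_eq_mul_div, div_le_iff₀ (by positivity), ← div_eq_mul_inv]
    linarith
  have hrp := rr_pos c.p c.k0 N
  have hCr : (2 ^ c.p + 4) * rr c.p c.k0 N ≤ C1 * rr c.p c.k0 N := Nat.mul_le_mul_right _ hC1
  have e1 : rr c.p c.k0 (N + 1) = 2 ^ c.p * rr c.p c.k0 N := rr_succ c.p c.k0 N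
  have e2 : (2 ^ c.p + 4) * rr c.p c.k0 N = 2 ^ c.p * rr c.p c.k0 N + 4 * rr c.p c.k0 N := by ring
  have e3 : 0 < 2 ^ c.p * rr c.p c.k0 N := by positivity
  refine lastOK_aux h.src h.tt h.links h.vol h.he h.inv h.hw (by positivity) (inv_pos.2 ha) hCg
    hCv.le h.gap hN1 hr (fun i i' hii => ?_) (fun i i' hii => ?_) hΓ hA h.volc hb1 hF hbulk
  · have h1 := hch.sep i i' hii
    unfold nearR
    rw [Nat.sub_add_cancel hN1]
    omega
  · rintro ⟨f, hf, g, hg, hfg⟩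
    have h1 := hch.faces hii hf hg
    have h2 : fd f g ≤ nearR c.p c.k0 N := hfg
    unfold nearR at h2
    omega

end

end Crest.Agent.R165.SrcDomx697
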