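import Crest.Agent.R165.SrcK0_991
import Crest.Agent.R165.SrcRec_54
import Crest.Agent.R165.C0S_950

/-!
# Row 165 (S0250), P11: the norm of the initial remainder with bond sources (helper991)

* `K00_zero` : at the critical parameters (`t = 0`, `z = 0`) the activities of 126 with bond sources
  are the sources `τ_i β_i`
* `K0P_zero` : the same after the reclustering
* `ppP_zero_eq` : the initial remainder is the source part of the difference of two parameters
* `e0_bound`, `e0_ev` : the total norm of the initial remainder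
-/

set_option autoImplicit false
set_option linter.unusedSectionVars false

noncomputable section

namespace Crest.Agent.R165.SrcInsx991

open scoped ENNReal
open Finset Filter Topology
open Crest.Agent.R165.Gr0x606 Crest.Agent.R165.Gr1x606 Crest.Agent.R165.GeOpsx337
open Crest.Agent.R165.SrcDefx991 Crest.Agent.R165.SrcSysx991
open Crest.Agent.R165.GDefx387 Crest.Agent.R165.KStepx892 Crest.Agent.R165.KInitx892
open Crest.Agent.R165.FRDPolyx439 Crest.Agent.R165.Bkgx683
open Crest.Agent.R165.J4K0x126 Crest.Agent.R165.J4Geox126 Crest.Agent.R165.J4K0Bx126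
open Crest.Agent.R165.J4Datx126 Crest.Agent.R165.J4Actx126
open Crest.Agent.R165.J4Defx653 Crest.Agent.R165.J4RRx653
open Crest.Agent.R165.Latx683 (HE Fld BW)
open Crest.Agent.R165.J1ax606 (pe qe)
open Crest.Agent.R165.SrcStepx54 Crest.Agent.R165.SrcRecx54 Crest.Agent.R165.C0x950
open Crest.Agent.R165.C0ax950 Crest.Agent.R165.PEndx683 Crest.Agent.R165.Outx683
open Crest.Agent.R165.J4K0Nx126 (PLe PSub same_bk sc_sub_le bhyp_bk)
open Crest.Agent.R165.InitNx682 (init_NN_lip nhyp_src normFam_src one_le_cB SS)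
open Crest.Agent.R165.NSumx915 (NN bs bs_le_NN)
open Crest.Agent.R165.PNormx417 Crest.Agent.R165.GSysx387

/-- the critical parameters of range `R` -/
def P0 (R : ℕ) : MPar := ⟨fun _ => 0, R, 0⟩

section zero

variable {m : ℕ} (B : Bg ℤ) (R : ℕ) (e : Fin m → Bkgx683.EG ℤ)

theorem sc_P0 (f : ℤ × ℤ) : B.sc (P0 R) f = 1 := by
  unfold Bg.sc
  split_ifs
  · simp [P0]
  · rfl

theorem kB_zero (S : Finset (ℤ × ℤ)) : J4Pathx653.kB 0 S = 0 := by
  unfold J4Pathx653.kB
  rw [Real.cosh_zero, Real.sinh_zero, sub_self, zero_smul, zero_smul, add_zero]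

/-- **the activities at the critical parameters** -/
theorem K00_zero (hd : ∀ i j, i ≠ j → Disjoint (faE (e i)) (faE (e j))) (U : Finset (ℤ × ℤ)) :
    B.K00 (P0 R) (LinearMap.inl ℝ (Fld ℤ) (Src m)) (bondSrc (Fld ℤ) e) U =
      ∑ i ∈ univ.filter (fun i => faE (e i) = U), tau i * inG m (beB B.w (e i)) := by
  classical
  set Bk := B.bk (P0 R) (bondSrc (Fld ℤ) e) with hBk
  set fr := frG (LinearMap.inl ℝ (Fld ℤ) (Src m)) with hfr
  change (Bk.datU fr U).items.act U = _
  have hs : ∀ f, Bk.s f = 1 := fun f => sc_P0 B R f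
  -- the value of a source
  have hval : ∀ k, tau k * TH (Bk.g fr) (ep (Finsupp.single (e k) 1) - 1) =
      tau k * inG m (beB B.w (e k)) := by
    intro k
    congr 1
    rw [map_sub, TH_ep, TH_one, Finsupp.support_single _ one_ne_zero, Finset.prod_singleton]
    unfold J4K0x126.Bk.g
    rw [hs, hs, mul_one, mul_one, hfr, frG_inl_b, frG_b, beB, map_smul, uB, neg_smul]
    change _ = -((2 * Bk.y (e k)) • inG m (bE (e k)))
    rw [sub_sub_cancel_left]
    rfl
  -- vanishing items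
  have h0 : ∀ i : {i // i ∈ Bk.ixs U}, (¬ ∃ k, i.1 = .inr (.inr (.inr k))) →
      (Bk.datU fr U).a i = 0 ∨ (Bk.datU fr U).Fe i = 0 := by
    rintro ⟨i, hi⟩ hn
    rcases i with p | f | e' | k
    · right
      change em (ez p.1) (J4Pathx653.kB 0 p.2) = 0
      rw [kB_zero, map_zero]
    · left
      change Bk.cI f • fr.I4 f + (Bk.cI f ^ 2 / 2) • (fr.I4 f * fr.I4 f) = 0
      have : Bk.cI f = 0 := by unfold J4K0x126.Bk.cI; rw [hs]; norm_num
      rw [this]; simp
    · left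
      change (Bk.y e' * (Bk.s (pe e').1 * Bk.s (qe e').1 - 1)) • fr.b e' = 0
      rw [hs, hs]; simp
    · exact absurd ⟨k, rfl⟩ hn
  have hw0 : ∀ T : Finset {i // i ∈ Bk.ixs U}, (∃ i ∈ T, ¬ ∃ k, i.1 = .inr (.inr (.inr k))) →
      (Bk.datU fr U).items.w T = 0 := by
    rintro T ⟨i, hi, hn⟩
    rw [Dat.w_eq]
    rcases h0 i hn with h | h
    · rw [Finset.prod_eq_zero hi h, zero_mul]
    · rw [Finset.prod_eq_zero (f := fun i => (Bk.datU fr U).Fe i) hi h, map_zero, mul_zero]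
  unfold Items.act
  -- the label of a source
  have hlab : ∀ i, faE (e i) = U → (.inr (.inr (.inr i)) : Ix ℤ (Fin m)) ∈ Bk.ixs U := by
    intro i hi
    rw [Bk.mem_ixs]
    exact ⟨faE_nonempty (e i), hi.subset⟩
  have hwk : ∀ i (hi : faE (e i) = U),
      (Bk.datU fr U).items.w {⟨.inr (.inr (.inr i)), hlab i hi⟩} =
        tau i * inG m (beB B.w (e i)) := by
    intro i hi
    rw [Dat.w_eq, Finset.prod_singleton, Finset.prod_singleton, ← hval i]
    rfl
  symm
  refine Finset.sum_of_injOn (fun i : Fin m =>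
    if h : (.inr (.inr (.inr i)) : Ix ℤ (Fin m)) ∈ Bk.ixs U then
      ({⟨.inr (.inr (.inr i)), h⟩} : Finset {i // i ∈ Bk.ixs U}) else ∅) ?_ ?_ ?_ ?_
  · intro i hi j hj hij
    rw [Finset.mem_coe, Finset.mem_filter] at hi hj
    simp only [dif_pos (hlab i hi.2), dif_pos (hlab j hj.2), Finset.singleton_inj,
      Subtype.mk.injEq, Sum.inr.injEq] at hij
    exact hij
  · intro i hi
    rw [Finset.mem_coe, Finset.mem_filter] at hi ⊢
    simp only [dif_pos (hlab i hi.2)]
    refine ⟨Finset.mem_univ _, ⟨⟨_, Finset.mem_singleton_self _⟩, ?_⟩, ?_⟩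
    · intro J hJ hne _
      rcases Finset.subset_singleton_iff.1 hJ with h | h
      · exact absurd hne (by rw [h]; exact Finset.not_nonempty_empty)
      · exact h
    · unfold J4Actx126.supp
      rw [Finset.singleton_biUnion]
      exact hi.2
  · intro T hT hn
    rw [Finset.mem_filter] at hT
    obtain ⟨-, hc, hsU⟩ := hT
    by_contra hne
    have hall : ∀ i ∈ T, ∃ k, i.1 = .inr (.inr (.inr k)) := by
      by_contra hcon
      push Not at hcon
      obtain ⟨i, hi, hk⟩ := hcon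
      exact hne (hw0 T ⟨i, hi, fun ⟨k, hk'⟩ => hk k hk'⟩)
    obtain ⟨i0, hi0⟩ := hc.1
    obtain ⟨k0, hk0⟩ := hall i0 hi0
    have hT1 : {i0} = T := by
      refine hc.2 {i0} (Finset.singleton_subset_iff.2 hi0) (Finset.singleton_nonempty _) ?_
      intro a ha b hb hab
      rw [Finset.mem_singleton] at ha
      rw [Finset.mem_sdiff, Finset.mem_singleton] at hb
      subst ha
      obtain ⟨k, hk⟩ := hall b hb.1
      have hkk : k0 ≠ k := by
        rintro rfl
        exact hb.2 (Subtype.ext (hk.trans hk0.symm))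
      refine hab ?_
      change Disjoint (Bk.YI a.1) (Bk.YI b.1)
      rw [hk0, hk]
      exact hd k0 k hkk
    have hU : faE (e k0) = U := by
      rw [← hsU, ← hT1]
      unfold J4Actx126.supp
      rw [Finset.singleton_biUnion]
      change _ = Bk.YI i0.1
      rw [hk0]
      rfl
    apply hn
    refine ⟨k0, ?_, ?_⟩
    · rw [Finset.mem_coe, Finset.mem_filter]
      exact ⟨Finset.mem_univ _, hU⟩
    · simp only [dif_pos (hlab k0 hU)]
      rw [← hT1]
      congr 1
      exact Subtype.ext hk0.symm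
  · intro i hi
    rw [Finset.mem_filter] at hi
    simp only [dif_pos (hlab i hi.2)]
    exact (hwk i hi.2).symm

variable {R e} in
/-- far sources are disjoint -/
theorem disj_of_far {l k0 : ℕ} (hfar : ∀ i j, i ≠ j → ¬ KStepx892.touch (near l k0 0)
    (faE (e i)) (faE (e j))) (i j : Fin m) (hij : i ≠ j) : Disjoint (faE (e i)) (faE (e j)) := by
  rw [Finset.disjoint_left]
  intro a ha hb
  refine hfar i j hij ⟨a, ha, a, hb, ?_⟩
  show fd a a ≤ _
  rw [fd_self]
  exact Nat.zero_le _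

variable {R e} in
theorem inj_of_far {l k0 : ℕ} (hfar : ∀ i j, i ≠ j → ¬ KStepx892.touch (near l k0 0)
    (faE (e i)) (faE (e j))) : Function.Injective fun i => faE (e i) := by
  intro i j hij
  by_contra hne
  have h := disj_of_far hfar i j hne
  obtain ⟨a, ha⟩ := faE_nonempty (e i)
  have hb : a ∈ faE (e j) := by
    have h2 : faE (e i) = faE (e j) := hij
    rw [← h2]; exact ha
  exact Finset.disjoint_left.1 h ha hb

/-- **the initial activities at the critical parameters** -/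
theorem K0P_zero {l k0 : ℕ} (he : ∀ i, B.w (e i).1 (e i).2 ≠ 0)
    (hfar : ∀ i j, i ≠ j → ¬ KStepx892.touch (near l k0 0) (faE (e i)) (faE (e j)))
    {U : Finset (ℤ × ℤ)} (hU : U.Nonempty) :
    K0P B (P0 R) e l k0 U = LEAD (srcD B.w e he) (fun _ => 1) U := by
  classical
  have hinj := inj_of_far hfar
  have hd := disj_of_far hfar
  have h1 : K0P B (P0 R) e l k0 U =
      K1 (near l k0 0) (B.K00 (P0 R) (LinearMap.inl ℝ (Fld ℤ) (Src m)) (bondSrc (Fld ℤ) e)) U :=
    rfl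
  have hlead : IsLead (fun i => faE (e i)) (fun i => (tau i : Ge (VS (Fld ℤ) m)))
      (B.K00 (P0 R) (LinearMap.inl ℝ (Fld ℤ) (Src m)) (bondSrc (Fld ℤ) e)) := by
    intro W hW
    rw [K00_zero B R e hd] at hW ⊢
    obtain ⟨i, hi, -⟩ := Finset.exists_ne_zero_of_sum_ne_zero hW
    rw [Finset.mem_filter] at hi
    refine ⟨i, hi.2.symm, inG m (beB B.w (e i)), ?_⟩
    have h3 : univ.filter (fun j => faE (e j) = W) = {i} := by
      ext j
      rw [Finset.mem_filter, Finset.mem_singleton]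
      exact ⟨fun h => hinj (h.2.trans hi.2.symm), fun h => ⟨Finset.mem_univ _, h ▸ hi.2⟩⟩
    rw [h3, Finset.sum_singleton]
  have hz : IsLead (fun i => faE (e i)) (fun i => (tau i : Ge (VS (Fld ℤ) m)))
      (fun _ : Finset (ℤ × ℤ) => (0 : Ge (VS (Fld ℤ) m))) := IsLead.zero
  rw [h1, K1_eq _ hU, QQ_lead hinj hfar tau_sq hlead hz, add_zero, K00_zero B R e hd, LEAD]
  refine Finset.sum_congr rfl fun i _ => ?_
  rw [one_smul]
  rfl

variable {P : MPar} {l k0 : ℕ}

/-- the difference of the initial activities and of the initial activities at the critical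
parameters -/
def dK0 (P : MPar) (l k0 : ℕ) (U : Finset (ℤ × ℤ)) : Ge (VS (Fld ℤ) m) :=
  K0P B P e l k0 U - K0P B (P0 P.R) e l k0 U

/-- **the initial remainder** -/
theorem ppP_zero_eq {M K : ℕ} (D : FRD 16 M K) (mk : Finset (ℤ × ℤ))
    (he : ∀ i, B.w (e i).1 (e i).2 ≠ 0)
    (hfar : ∀ i j, i ≠ j → ¬ KStepx892.touch (near l k0 0) (faE (e i)) (faE (e j)))
    {U : Finset (ℤ × ℤ)} (hU : U.Nonempty) :
    ppP B P D mk e he l k0 0 U = dK0 B e P l k0 U - inG m (noS (dK0 B e P l k0 U)) := by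
  have h1 : noS (dK0 B e P l k0 U) = B.K0 P LinearMap.id (noSrc ℤ (Ge (Fld ℤ))) l k0 U := by
    rw [dK0, map_sub, K0P_zero B P.R e he hfar hU, noS_LEAD, sub_zero]
    exact noS_K0 B P e l k0 U
  rw [h1, dK0, K0P_zero B P.R e he hfar hU]
  change K0P B P e l k0 U - inG m (B.K0 P LinearMap.id (noSrc ℤ (Ge (Fld ℤ))) l k0 U) -
    LEAD (srcD B.w e he) (fun _ => 1) U = _
  abel

theorem dK0_GS (U : Finset (ℤ × ℤ)) : dK0 B e P l k0 U ∈ GS (Fld ℤ) m :=
  Subalgebra.sub_mem _ (K0_mem_supA B P e l k0 U).1 (K0_mem_supA B (P0 P.R) e l k0 U).1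

/-- the initial remainder lives near the sources -/
theorem ppP_zero_near {M K : ℕ} (D : FRD 16 M K) (mk : Finset (ℤ × ℤ))
    (he : ∀ i, B.w (e i).1 (e i).2 ≠ 0)
    (hfar : ∀ i j, i ≠ j → ¬ KStepx892.touch (near l k0 0) (faE (e i)) (faE (e j)))
    {U : Finset (ℤ × ℤ)} (hU : U.Nonempty) (h : ppP B P D mk e he l k0 0 U ≠ 0) :
    ∃ i, faE (e i) ⊆ U := by
  have hs : dK0 B e P l k0 U ∈ supA (Fld ℤ) (fun i => faE (e i)) U :=
    Subalgebra.sub_mem _ (K0_mem_supA B P e l k0 U) (K0_mem_supA B (P0 P.R) e l k0 U)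
  by_contra hcon
  push Not at hcon
  apply h
  rw [ppP_zero_eq B e D mk he hfar hU]
  have h2 : ∀ I : Finset (Fin m), I ≠ ∅ → coP I (dK0 B e P l k0 U) = 0 := by
    intro I hI
    by_contra hne
    obtain ⟨i, hi⟩ := Finset.nonempty_iff_ne_empty.2 hI
    exact hcon i (hs.2 I hne i hi)
  rw [sub_eq_zero]
  conv_lhs => rw [GS_eq hs.1]
  rw [Finset.sum_eq_single (∅ : Finset (Fin m))]
  · rw [coP_empty]
    simp [tauP]
  · intro I _ hI
    rw [h2 I hI, map_zero, mul_zero]
  · intro h; exact absurd (Finset.mem_univ _) h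

end zero

/-! ### the norm -/

/-- the square of the large weight of the sources -/
def u0c (R : ℕ) (c : Cst) : ℝ := 1 / (8 * (c.Γ ^ 2 * (1 + wc (cc0 c)) * (1 + D0c R c)))

/-- the large weight of the sources -/
def v0c (R : ℕ) (c : Cst) : ℝ := Real.sqrt (u0c R c)

/-- the size of the parameters -/
def th0c (R : ℕ) (c : Cst) : ℝ := 1 / (2 * ((1 + D0c R c) * (1 + KA R c)))

/-- the constant of the initial remainder -/
def CE0 (R : ℕ) (c : Cst) : ℝ := 42 * nI (r0 c) / (th0c R c * u0c R c)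

section consts

variable {R : ℕ} {c : Cst}

theorem wc1 (c : Cst) : 1 ≤ wc (cc0 c) := wc_one (one_le_cB _ _)

theorem u0c_pos (hc : COK c) : 0 < u0c R c := by
  have h1 := wc1 c
  have h2 := D0c_nonneg R c
  have h3 := hc.Γ
  unfold u0c
  positivity

theorem v0c_nonneg : 0 ≤ v0c R c := Real.sqrt_nonneg _

theorem v0c_sq (hc : COK c) : v0c R c ^ 2 = u0c R c := Real.sq_sqrt (u0c_pos hc).le

theorem th0c_pos (hc : COK c) : 0 < th0c R c := by
  have h1 := KA_nonneg R hc
  have h2 := D0c_nonneg R c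
  unfold th0c
  positivity

theorem th0c_le (hc : COK c) : th0c R c ≤ 1 / 2 := by
  have h1 := KA_nonneg R hc
  have h2 := D0c_nonneg R c
  unfold th0c
  rw [div_le_div_iff₀ (by positivity) (by norm_num)]
  nlinarith [mul_nonneg h1 h2]

theorem CE0_nonneg (hc : COK c) : 0 ≤ CE0 R c := by
  have h1 := u0c_pos (R := R) hc
  have h2 := th0c_pos (R := R) hc
  unfold CE0
  positivity

theorem sm0 (hc : COK c) : D0c R c * (KA R c * th0c R c + eS (cc0 c) c.Γ (v0c R c)) ≤ 1 := by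
  have h1 := KA_nonneg R hc
  have h2 := D0c_nonneg R c
  have h3 := wc1 c
  have h4 := hc.Γ
  have e1 : D0c R c * (KA R c * th0c R c) ≤ 1 / 2 := by
    unfold th0c
    rw [mul_one_div, ← mul_div_assoc, div_le_div_iff₀ (by positivity) (by norm_num)]
    nlinarith [mul_nonneg h1 h2]
  have e2 : D0c R c * eS (cc0 c) c.Γ (v0c R c) ≤ 1 / 2 := by
    unfold eS
    rw [v0c_sq hc]
    unfold u0c
    have h5 : 0 < c.Γ ^ 2 * (1 + wc (cc0 c)) := by positivity
    have h6 : D0c R c * (4 * (c.Γ ^ 2 * (1 / (8 * (c.Γ ^ 2 * (1 + wc (cc0 c)) * (1 + D0c R c))) *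
        (1 + wc (cc0 c))))) = D0c R c / (2 * (1 + D0c R c)) := by
      have : 0 < 1 + D0c R c := by linarith
      field_simp
      ring
    rw [h6, div_le_div_iff₀ (by positivity) (by norm_num)]
    linarith
  rw [mul_add]
  linarith

/-- `SS ≤ 1` -/
theorem SS0_le (hc : COK c) : SS R c.Γ (cc0 c) (th0c R c) (eS (cc0 c) c.Γ (v0c R c)) ≤ 1 := by
  have h1 := sm0 (R := R) hc
  have h2 : 1 ≤ D0c R c := by
    unfold D0c
    have h3 : (4 : ℝ) ≤ m0 R := by exact_mod_cast two_le_m0 R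
    have h4 : (0 : ℝ) ≤ mI (r0 c) (nearR c.p c.k0 0) * (24 * nI (r0 c)) := by positivity
    linarith
  have h5 : 0 ≤ KA R c * th0c R c + eS (cc0 c) c.Γ (v0c R c) := by
    have := KA_nonneg R hc
    have := th0c_pos (R := R) hc
    have := eS_nonneg (c := cc0 c) (Γ := c.Γ) (v0 := v0c R c) (one_le_cB _ _)
    positivity
  unfold SS
  change KA R c * th0c R c + eS (cc0 c) c.Γ (v0c R c) ≤ 1
  calc KA R c * th0c R c + eS (cc0 c) c.Γ (v0c R c) =
        1 * (KA R c * th0c R c + eS (cc0 c) c.Γ (v0c R c)) := (one_mul _).symm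
    _ ≤ D0c R c * (KA R c * th0c R c + eS (cc0 c) c.Γ (v0c R c)) :=
        mul_le_mul_of_nonneg_right h2 h5
    _ ≤ 1 := h1

end consts

section bound

variable {m : ℕ} {B : Bg ℤ} {P : MPar} {e : Fin m → Bkgx683.EG ℤ} {c : Cst} {θ : ℝ}

theorem ple_P0 {R : ℕ} {x : ℝ} (h0 : 0 ≤ x) (h1 : x ≤ 1 / 2) : PLe (P0 R) x :=
  ⟨h0, h1, by change |(0 : ℝ)| ≤ x; rwa [abs_zero],
    fun _ _ _ => by change |(0 : ℝ)| ≤ x; rwa [abs_zero]⟩

theorem ple_mono {P : MPar} {x y : ℝ} (h : PLe P x) (hxy : x ≤ y) (hy : y ≤ 1 / 2) : PLe P y :=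
  ⟨h.θ0.trans hxy, hy, h.z.trans hxy, fun S hS hev => (h.t S hS hev).trans hxy⟩

/-- **the difference of the sourced initial activities in the norm with the large source weight** -/
theorem dK0_NN (hc : COK c) (hw : W1 B.w) (w : BW ℤ) (he : Function.Injective e)
    (hP : PLe P θ) (hθ : θ ≤ th0c P.R c) :
    NN fd (r0 c) (ENNReal.ofReal c.Γ)
      (fun U => pG (wS (wU w c.A0 (r0 c) U) (fun _ => ENNReal.ofReal (v0c P.R c)))
        (dK0 B e P c.p c.k0 U)) ≤
      ENNReal.ofReal (42 * nI (r0 c) * (θ / th0c P.R c)) := by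
  have h1 := th0c_pos (R := P.R) hc
  have h2 := th0c_le (R := P.R) hc
  have hP1 : PLe P (th0c P.R c) := ple_mono hP hθ h2
  have hP0 : PLe (P0 P.R) (th0c P.R c) := ple_P0 h1.le h2
  have hsub : PSub P (P0 P.R) θ := by
    refine ⟨rfl, ?_, fun S hS hev => ?_⟩
    · change |P.z - 0| ≤ θ; rw [sub_zero]; exact hP.z
    · change |P.t S - 0| ≤ θ; rw [sub_zero]; exact hP.t S hS hev
  have key := init_NN_lip (B := B.bk P (bondSrc (Fld ℤ) e))
    (B' := B.bk (P0 P.R) (bondSrc (Fld ℤ) e)) (R' := nearR c.p c.k0 0)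
    (nhyp_src w hc.A (r0 c) m fun _ => ENNReal.ofReal (v0c P.R c))
    (normFam_src w c.A0 (r0 c) m fun _ => ENNReal.ofReal (v0c P.R c))
    (bhyp_bk B hw hP1 _) (bhyp_bk B hw hP0 _)
    (shyp_bond B P he (fun U hU => wU_zero w c.A0 (r0 c) hU) (fun _ => le_rfl) v0c_nonneg
      (one_le_cB _ _) (by linarith [hc.Γ]))
    (R₀ := 1) (fun k => J4K0Lx126.conn_faE (e k))
    (num (R := P.R) hc h1.le (eS_nonneg (one_le_cB _ _)) (sm0 hc))
    (same_bk B (P := P) (P' := P0 P.R) rfl _) (sc_sub_le B hP1 hP0 hsub) hsub.t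
    (η := θ / th0c P.R c) (by rw [div_mul_cancel₀ _ h1.ne']) (by have := hP.θ0; positivity)
  refine le_trans key (ENNReal.ofReal_le_ofReal ?_)
  have h3 : 0 ≤ 42 * (nI (r0 c) : ℝ) * (θ / th0c P.R c) := by have := hP.θ0; positivity
  calc _ ≤ 42 * (nI (r0 c) : ℝ) * (θ / th0c P.R c) * 1 :=
        mul_le_mul_of_nonneg_left (SS0_le hc) h3
    _ = _ := mul_one _

/-- **THE TOTAL NORM OF THE INITIAL REMAINDER** -/
theorem e0_bound {M K : ℕ} (D : FRD 16 M K) (mk : Finset (ℤ × ℤ)) (hc : COK c) (hw : W1 B.w)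
    (w : BW ℤ) (he : ∀ i, B.w (e i).1 (e i).2 ≠ 0)
    (hfar : ∀ i j, i ≠ j → ¬ KStepx892.touch (near c.p c.k0 0) (faE (e i)) (faE (e j)))
    (hP : PLe P θ) (hθ : θ ≤ th0c P.R c) {v : Fin m → ℝ≥0∞} {t : ℝ≥0∞} (hv0 : ∀ i, v i ≠ 0)
    (hv : ∀ i, v i ^ 2 ≤ t) (ht : t ≤ ENNReal.ofReal (u0c P.R c)) :
    Tot (wU w c.A0 (r0 c)) v (ENNReal.ofReal c.Γ) (r0 c) (ppP B P D mk e he c.p c.k0 0) ≤
      m * (ENNReal.ofReal (CE0 P.R c * θ) * t) := by
  classical
  have hu := u0c_pos (R := P.R) hc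
  have hθ0 := hP.θ0
  have hth := th0c_pos (R := P.R) hc
  have hu0 : ENNReal.ofReal (u0c P.R c) ≠ 0 := by
    rw [Ne, ENNReal.ofReal_eq_zero, not_le]; exact hu
  have hinj : Function.Injective e := fun i j h => inj_of_far hfar (by
    change faE (e i) = faE (e j)
    rw [h])
  have hvt : ∀ i, v i ≠ ∞ := by
    intro i h
    have := (hv i).trans ht
    rw [h] at this
    simp at this
  set s : ℝ≥0∞ := t / ENNReal.ofReal (u0c P.R c) with hs
  have hs1 : s ≤ 1 := ENNReal.div_le_of_le_mul (by rwa [one_mul])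
  have hv0' : (0 : ℝ) < v0c P.R c := Real.sqrt_pos.2 hu
  have hvs : ∀ i, v i ^ 2 ≤ s * ENNReal.ofReal (v0c P.R c) ^ 2 := by
    intro i
    rw [← ENNReal.ofReal_pow v0c_nonneg, v0c_sq hc, hs,
      ENNReal.div_mul_cancel hu0 ENNReal.ofReal_ne_top]
    exact hv i
  set x : Finset (ℤ × ℤ) → ℝ≥0∞ := fun U =>
    pG (wS (wU w c.A0 (r0 c) U) (fun _ => ENNReal.ofReal (v0c P.R c))) (dK0 B e P c.p c.k0 U)
    with hx
  have hN : NN fd (r0 c) (ENNReal.ofReal c.Γ) x ≤
      ENNReal.ofReal (42 * nI (r0 c) * (θ / th0c P.R c)) := dK0_NN hc hw w hinj hP hθ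
  have hpt : ∀ U : Finset (ℤ × ℤ), Set.indicator {U : Finset (ℤ × ℤ) | U.Nonempty}
      (fun U => ENNReal.ofReal c.Γ ^ size (r0 c) U *
        pG (wS (wU w c.A0 (r0 c) U) v) (ppP B P D mk e he c.p c.k0 0 U)) U ≤
      ∑ i, s * Set.indicator {U | NSumx915.near fd (r0 c) (e i).1 U}
        (fun U => ENNReal.ofReal c.Γ ^ Packx915.pack fd (r0 c) U * x U) U := by
    intro U
    by_cases hU : U.Nonempty
    · rw [Set.indicator_of_mem (by exact hU)]
      by_cases hne : ppP B P D mk e he c.p c.k0 0 U = 0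
      · rw [hne, pG_zero, mul_zero]; exact zero_le
      · obtain ⟨i, hi⟩ := ppP_zero_near B e D mk he hfar hU hne
        have hmem : (e i).1 ∈ U := hi (faE_fst_mem (e i))
        refine le_trans ?_ (Finset.single_le_sum (f := fun i => s *
          Set.indicator {U | NSumx915.near fd (r0 c) (e i).1 U}
            (fun U => ENNReal.ofReal c.Γ ^ Packx915.pack fd (r0 c) U * x U) U)
          (fun _ _ => zero_le) (Finset.mem_univ i))
        rw [Set.indicator_of_mem (by exact NSumx915.near_of_mem Bridgex915.pd_fd hmem),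
          Bridgex915.size_eq_pack, ← mul_assoc, mul_comm s, mul_assoc]
        refine mul_le_mul_right ?_ _
        rw [ppP_zero_eq B e D mk he hfar hU]
        exact pG_scale (wU_zero w c.A0 (r0 c) hU) hvt hv0 (fun _ => ENNReal.ofReal_ne_top)
          (fun _ => by rw [Ne, ENNReal.ofReal_eq_zero, not_le]; exact hv0') hs1 hvs
          (dK0_GS B e U)
    · rw [Set.indicator_of_notMem (by exact hU)]
      exact zero_le
  have h1 : Tot (wU w c.A0 (r0 c)) v (ENNReal.ofReal c.Γ) (r0 c)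
      (ppP B P D mk e he c.p c.k0 0) ≤
      ∑ i, s * bs fd (r0 c) (ENNReal.ofReal c.Γ) x (e i).1 := by
    refine (ENNReal.tsum_le_tsum hpt).trans (le_of_eq ?_)
    rw [Summable.tsum_finsetSum fun _ _ => ENNReal.summable]
    refine Finset.sum_congr rfl fun i _ => ?_
    rw [ENNReal.tsum_mul_left]
    rfl
  refine h1.trans ?_
  have h2 : ∀ i ∈ (univ : Finset (Fin m)), s * bs fd (r0 c) (ENNReal.ofReal c.Γ) x (e i).1 ≤
      ENNReal.ofReal (CE0 P.R c * θ) * t := by
    intro i _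
    refine (mul_le_mul_right ((bs_le_NN x (e i).1).trans hN) s).trans (le_of_eq ?_)
    rw [hs, div_eq_mul_inv, ← ENNReal.ofReal_inv_of_pos hu, mul_assoc,
      ← ENNReal.ofReal_mul (by positivity), mul_comm]
    congr 2
    unfold CE0
    field_simp
  refine (Finset.sum_le_sum h2).trans (le_of_eq ?_)
  rw [Finset.sum_const, Finset.card_univ, Fintype.card_fin, nsmul_eq_mul]

end bound

/-- **the initial remainder in the form of `ForP`** -/
theorem e0_ev (J : ℝ) (R : ℕ) (V : Finset (ℤ × ℤ) → ℝ) : EvC fun c => 0 < u0c (max R 1) c ∧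
    ∀ C : ℝ, ∃ ε > 0, ∃ C' ≥ 0, ∀ lam β z : ℝ, |lam| < ε → NearP J C lam β z →
      ∀ B : Bg ℤ, W1 B.w → ∀ (w : BW ℤ) {M K : ℕ} (D : FRD 16 M K) (mk : Finset (ℤ × ℤ)) (m : ℕ)
        (e : Fin m → Bkgx683.EG ℤ) (he : ∀ i, B.w (e i).1 (e i).2 ≠ 0),
        (∀ i j, i ≠ j → ¬ KStepx892.touch (near c.p c.k0 0) (faE (e i)) (faE (e j))) →
        ∀ (v : Fin m → ℝ≥0∞) (t : ℝ≥0∞), (∀ i, v i ≠ 0) → (∀ i, v i ^ 2 ≤ t) →
          t ≤ ENNReal.ofReal (u0c (max R 1) c) →
          Tot (wU w c.A0 (rr c.p c.k0 0)) v (ENNReal.ofReal c.Γ) (rr c.p c.k0 0)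
            (ppP B (mpar J lam R V β z) D mk e he c.p c.k0 0) ≤
            m * (ENNReal.ofReal (C' * |lam|) * t) := by
  refine evC_COK.mono fun c hc => ⟨u0c_pos hc, fun C => ?_⟩
  have h1 : 0 < 1 + |C| := by positivity
  have h2 := e0c_pos J R V hc
  have h3 := one_le_CT J R V
  have h4 := th0c_pos (R := max R 1) hc
  have h5 := CE0_nonneg (R := max R 1) hc
  refine ⟨min (e0c J R V c / (1 + |C|)) (th0c (max R 1) c / (CT J R V * (1 + |C|))),
    by positivity, CE0 (max R 1) c * (CT J R V * (1 + |C|)), by positivity, ?_⟩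
  intro lam β z hl hn B hw w M K D mk m e he hfar v t hv0 hv ht
  have h6 := tht_le_of_near hn
  have hl1 : |lam| ≤ e0c J R V c / (1 + |C|) := hl.le.trans (min_le_left _ _)
  have hl2 : |lam| ≤ th0c (max R 1) c / (CT J R V * (1 + |C|)) := hl.le.trans (min_le_right _ _)
  have h7 : tht J lam β z ≤ e0c J R V c := by
    refine h6.trans ?_
    calc (1 + |C|) * |lam| ≤ (1 + |C|) * (e0c J R V c / (1 + |C|)) := by gcongr
      _ = e0c J R V c := by field_simp
  have hP := ple (sm_of (V := V) hc h7)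
  have h8 : CT J R V * tht J lam β z ≤ CT J R V * (1 + |C|) * |lam| := by
    rw [mul_assoc]
    exact mul_le_mul_of_nonneg_left h6 (by linarith)
  have h9 : CT J R V * (1 + |C|) * |lam| ≤ th0c (max R 1) c := by
    have h10 : 0 < CT J R V * (1 + |C|) := by positivity
    calc CT J R V * (1 + |C|) * |lam| ≤
          CT J R V * (1 + |C|) * (th0c (max R 1) c / (CT J R V * (1 + |C|))) := by gcongr
      _ = _ := by field_simp
  refine (e0_bound (P := mpar J lam R V β z) D mk hc hw w he hfar hP (h8.trans h9) hv0 hv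
    ht).trans ?_
  refine mul_le_mul_right (mul_le_mul_left (ENNReal.ofReal_le_ofReal ?_) _) _
  change CE0 (max R 1) c * _ ≤ _
  rw [mul_assoc]
  exact mul_le_mul_of_nonneg_left h8 h5

end Crest.Agent.R165.SrcInsx991
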