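import Crest.Agent.R165.SrcOne_54
import Crest.Agent.R165.SrcInv2_336

/-!
# Row 165 (S0250), P11: the numerical constants of one step with sources (helper943)

* `qL_le` : the factor of the linear part is at most `1 / 8`
* `cone_le` : the constant of `one_step` is at most `10 Λ`
* `nn3_le` : the counting constant of the step
-/

set_option autoImplicit false
set_option linter.unusedSectionVars false

noncomputable section

open scoped ENNReal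
open Crest.Agent.R165.Gr0x606 Crest.Agent.R165.Gr1x606 Crest.Agent.R165.GeOpsx337
  Crest.Agent.R165.GSysx387 Crest.Agent.R165.GDefx387 Crest.Agent.R165.PStepx417
  Crest.Agent.R165.PNormx417 Crest.Agent.R165.Latx683 Crest.Agent.R165.SrcInvx336
  Crest.Agent.R165.DefRecx915 Crest.Agent.R165.SrcRecx54
open Crest.Agent.R165.Bridgex915 (GoodG)
open Crest.Agent.R165.J4Geox126 (faE)

namespace Crest.Agent.R165.SrcNumx943

section one

variable {G : Type} [CommRing G] [CN G] [GoodG G] [DecidableEq G]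
variable {w : BW G} {C a a' : ℝ} {r r' : ℕ} {S : Cov (Fld G)} {g : Fld G → ℝ≥0∞}
  {ε A Γ Λ : ℝ≥0∞} {Rc : ℕ}

/-- first part of the linear factor -/
theorem lin_part (H : StepHyp w C a a' r r' S g ε A Γ 3 Λ Rc) (hΛ : Λ * (r : ℝ≥0∞) ≤ r')
    (hL : 128 * (340000 * C + 1) ^ 2 * r ≤ r') :
    Λ * ENNReal.ofReal (16 * (340000 * C + 1) ^ 2 * ((r : ℝ) / r') ^ 2) ≤ 1 / 8 := by
  have hr : (0 : ℝ) < r := by exact_mod_cast H.hr
  have hr' : (0 : ℝ) < r' := by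
    have h1 := H.hr'
    have h2 := H.hr
    exact_mod_cast (by omega : 0 < r')
  have h1 : Λ ≤ ENNReal.ofReal ((r' : ℝ) / r) := by
    rw [ENNReal.ofReal_div_of_pos hr, ENNReal.ofReal_natCast, ENNReal.ofReal_natCast,
      ENNReal.le_div_iff_mul_le (Or.inl (by exact_mod_cast hr.ne'))
        (Or.inl (ENNReal.natCast_ne_top r))]
    exact hΛ
  have h4 : (1 / 8 : ℝ≥0∞) = ENNReal.ofReal (1 / 8) := by
    rw [ENNReal.ofReal_div_of_pos (by norm_num)]; simp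
  refine (mul_le_mul' h1 le_rfl).trans ?_
  rw [← ENNReal.ofReal_mul (by positivity), h4]
  refine ENNReal.ofReal_le_ofReal ?_
  have e : (r' : ℝ) / r * (16 * (340000 * C + 1) ^ 2 * ((r : ℝ) / r') ^ 2) =
      16 * (340000 * C + 1) ^ 2 * r / r' := by
    field_simp
  rw [e, div_le_iff₀ hr']
  linarith

/-- second part of the factors -/
theorem gam_part (H : StepHyp w C a a' r r' S g ε A Γ 3 Λ Rc) :
    (3 * Λ * A) ^ 2 * Γ⁻¹ ≤ 1 := by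
  have h0 : Γ ≠ 0 := (lt_of_lt_of_le one_pos H.hΓ1).ne'
  rw [← div_eq_mul_inv, ENNReal.div_le_iff h0 H.hΓt, one_mul]
  exact H.hΓ

theorem gam_part1 (H : StepHyp w C a a' r r' S g ε A Γ 3 Λ Rc) :
    (1 * Λ * A) ^ 2 * Γ⁻¹ ≤ 1 / 8 := by
  have h1 := gam_part H
  have e : (3 * Λ * A) ^ 2 * Γ⁻¹ = 9 * ((1 * Λ * A) ^ 2 * Γ⁻¹) := by ring
  rw [e] at h1
  rw [ENNReal.le_div_iff_mul_le (Or.inl (by norm_num)) (Or.inl (by norm_num))]
  refine le_trans ?_ h1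
  rw [mul_comm]
  exact mul_le_mul' (by norm_num) le_rfl

/-- **the factor of the linear part** -/
theorem qL_le (H : StepHyp w C a a' r r' S g ε A Γ 3 Λ Rc) (hΛ : Λ * (r : ℝ≥0∞) ≤ r')
    (hL : 128 * (340000 * C + 1) ^ 2 * r ≤ r') :
    qL 1 Λ A Γ C r r' ≤ 1 / 8 := by
  unfold qL
  refine max_le ?_ (gam_part1 H)
  rw [one_mul]
  exact lin_part H hΛ hL

theorem qL3_le (H : StepHyp w C a a' r r' S g ε A Γ 3 Λ Rc) (hΛ : Λ * (r : ℝ≥0∞) ≤ r')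
    (hL : 128 * (340000 * C + 1) ^ 2 * r ≤ r') :
    qL 3 Λ A Γ C r r' ≤ 1 := by
  unfold qL
  refine max_le ?_ (gam_part H)
  refine (mul_le_mul' le_rfl (lin_part H hΛ hL)).trans ?_
  rw [← mul_div_assoc, mul_one]
  exact ENNReal.div_le_of_le_mul (by norm_num)

theorem qH3_le (H : StepHyp w C a a' r r' S g ε A Γ 3 Λ Rc) : qH 3 Λ A Γ ≤ 3 * Λ := by
  unfold qH
  refine max_le le_rfl ((gam_part H).trans ?_)
  exact one_le_mul_of_one_le_of_one_le (by norm_num) H.hΛ1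

/-- **the constant of `one_step`** -/
theorem cone_le (H : StepHyp w C a a' r r' S g ε A Γ 3 Λ Rc) (hΛ : Λ * (r : ℝ≥0∞) ≤ r')
    (hL : 128 * (340000 * C + 1) ^ 2 * r ≤ r') :
    cone 3 Λ A Γ C r r' ≤ 10 * Λ := by
  unfold cone
  calc 3 * Λ + qL 3 Λ A Γ C r r' + 2 * qH 3 Λ A Γ
      ≤ 3 * Λ + Λ + 2 * (3 * Λ) := by
        gcongr
        · exact (qL3_le H hΛ hL).trans H.hΛ1
        · exact qH3_le H
    _ = 10 * Λ := by ring

end one

/-- the counting constant -/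
def N3 (p : ℕ) : ℕ := (2 * (1 + 2 ^ p) + 3) ^ 2

theorem nn3_le (p k0 n : ℕ) : nn3 (rr p k0 (n + 1)) (nearR p k0 (n + 1)) ≤ N3 p := by
  unfold nn3 N3
  have h1 : (rr p k0 (n + 1) + nearR p k0 (n + 1)) / rr p k0 (n + 1) ≤ 1 + 2 ^ p := by
    refine Nat.div_le_of_le_mul ?_
    have h2 : nearR p k0 (n + 1) ≤ 2 ^ p * rr p k0 (n + 1) := by
      unfold nearR
      rw [rr_succ p k0 (n + 1)]
      exact Nat.div_le_self _ _
    calc rr p k0 (n + 1) + nearR p k0 (n + 1)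
        ≤ rr p k0 (n + 1) + 2 ^ p * rr p k0 (n + 1) := by omega
      _ = rr p k0 (n + 1) * (1 + 2 ^ p) := by ring
  exact Nat.pow_le_pow_left (by omega) 2

theorem cC1_mono {n3 n3' c c' : ℝ≥0∞} (h : n3 ≤ n3') (hc : c ≤ c') : cC1 n3 c ≤ cC1 n3' c' := by
  unfold cC1
  gcongr

/-- **the constant of the recursion**, independent of the scale -/
def KC1 (p : ℕ) : ℝ≥0∞ := cC1 (N3 p) (10 * ((2 ^ p : ℕ) : ℝ≥0∞))

theorem KC1_ne_top (p : ℕ) : KC1 p ≠ ∞ := by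
  unfold KC1 cC1
  have h1 : ((N3 p : ℕ) : ℝ≥0∞) ≠ ∞ := ENNReal.natCast_ne_top _
  have h2 : ((2 ^ p : ℕ) : ℝ≥0∞) ≠ ∞ := ENNReal.natCast_ne_top _
  finiteness

section scale

variable {w : BW ℤ} {C a a' : ℝ} {g : Fld ℤ → ℝ≥0∞} {ε A Γ : ℝ≥0∞} {Rc : ℕ} {S : Cov (Fld ℤ)}

theorem lam_rr (p k0 n : ℕ) :
    ((2 ^ p : ℕ) : ℝ≥0∞) * (rr p k0 n : ℝ≥0∞) ≤ (rr p k0 (n + 1) : ℕ) := by
  rw [rr_succ, Nat.cast_mul]

/-- **the one-step constants with ratio `2 ^ p`** -/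
theorem step_consts {p k0 n : ℕ}
    (H : StepHyp w C a a' (rr p k0 n) (rr p k0 (n + 1)) S g ε A Γ 3 ((2 ^ p : ℕ) : ℝ≥0∞) Rc)
    (hL : 128 * (340000 * C + 1) ^ 2 ≤ (2 : ℝ) ^ p) :
    qL 1 ((2 ^ p : ℕ) : ℝ≥0∞) A Γ C (rr p k0 n) (rr p k0 (n + 1)) ≤ 1 / 8 ∧
      cone 3 ((2 ^ p : ℕ) : ℝ≥0∞) A Γ C (rr p k0 n) (rr p k0 (n + 1)) ≤
        10 * ((2 ^ p : ℕ) : ℝ≥0∞) ∧
      cC1 (nn3 (rr p k0 (n + 1)) (nearR p k0 (n + 1)))
        (cone 3 ((2 ^ p : ℕ) : ℝ≥0∞) A Γ C (rr p k0 n) (rr p k0 (n + 1))) ≤ KC1 p := by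
  have hL' : 128 * (340000 * C + 1) ^ 2 * ((rr p k0 n : ℕ) : ℝ) ≤ ((rr p k0 (n + 1) : ℕ) : ℝ) := by
    rw [rr_succ]
    push_cast
    exact mul_le_mul_of_nonneg_right hL (Nat.cast_nonneg _)
  have h1 := cone_le H (lam_rr p k0 n) hL'
  refine ⟨qL_le H (lam_rr p k0 n) hL', h1, cC1_mono ?_ h1⟩
  exact_mod_cast nn3_le p k0 n

end scale

/-! ### the norm of a bond form -/

section bond

open Crest.Agent.R165.W2x812 Crest.Agent.R165.SrcLinx336 Crest.Agent.R165.SrcInsx991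
open Crest.Agent.R165.Latx683 (bb xc)

variable {G : Type} [CommRing G] [CN G] [GoodG G] [DecidableEq G]

/-- the norm of the leading form of a source -/
theorem beta_le {w : BW G} {C a' : ℝ} {r' : ℕ} {z : G × G} {j : Fin 2} {u : ℝ}
    {mu : Ge (Fld G) →ₗ[ℝ] ℝ} {b : Ge (Fld G)} {T : Finset (G × G)}
    (hd : SrcDat w (s1 * r' + MM + 1) z j u mu b) (hu2 : |u| ≤ 2) (h : BkReg C) (ha' : 0 < a')
    (hr' : 16 ≤ r') (hzT : z ∈ T) :
    pG (wU w a' r' T) b ≤ ENNReal.ofReal (22 * C ^ 2 * a' ^ 2 / r') := by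
  obtain ⟨Z, τ, s, τ', s', c, hz, hmu⟩ := hd.ex
  have h2 := bb_small_chart h c ha' hr' hzT hz j
  have hu := hd.u_ne
  have e2 : pG (wU w a' r' T) b = ‖u‖ₑ * pnorm (wU w a' r' T) (bb z j) := by
    rw [pG_def, hd.b_eq, pnorm_smul]
    exact hu
  have hu3 : ‖u‖ₑ ≤ ENNReal.ofReal 2 := by
    rw [Real.enorm_eq_ofReal_abs]
    exact ENNReal.ofReal_le_ofReal hu2
  rw [e2]
  refine (mul_le_mul' hu3 h2).trans (le_of_eq ?_)
  rw [← ENNReal.ofReal_mul (by norm_num)]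
  congr 1
  ring

/-- **the norm of a bond source at scale `n + 1`**, from the depth at step `n` -/
theorem bond_le {m : ℕ} {w : BW ℤ} {mk : Finset (ℤ × ℤ)} {l k0 n : ℕ}
    {e : Fin m → Bkgx683.EG ℤ} {i : Fin m} (hdp : dpS w mk l k0 e n i) {C a' : ℝ} (h : BkReg C)
    (ha' : 0 < a') (hrr : 16 * rr l k0 n ≤ rr l k0 (n + 1)) {T : Finset (ℤ × ℤ)}
    (hT : (e i).1 ∈ T) :
    pG (wU w a' (rr l k0 (n + 1)) T) (beB w (e i)) ≤
      ENNReal.ofReal (22 * C ^ 2 * a' ^ 2 / (rr l k0 (n + 1) : ℕ)) := by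
  have hr := rr_pos l k0 n
  have hr' : 16 ≤ rr l k0 (n + 1) := by omega
  have h1 := s1_le_s2 hr hrr
  refine beta_le ((srcDat_of_dp hdp).mono (by omega)) ?_ h ha' hr' hT
  obtain ⟨⟨p⟩, _⟩ := hdp _ (faE_fst_mem (e i))
  have h3 := abs_w_of_plane (Nat.mul_pos (by decide) (rr_pos l k0 (n + 1))) p (e i).2
  have h4 := xc_bounds.2
  show |-(2 * w (e i).1 (e i).2)| ≤ 2
  rw [abs_neg, abs_mul, h3, abs_two]
  linarith

/-- **the input `hT` of `one_step`** : the norm of the leading part with `v' ^ 2 = T r' / a' ^ 2` -/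
theorem lead_le {m : ℕ} {w : BW ℤ} {mk : Finset (ℤ × ℤ)} {l k0 n : ℕ}
    {e : Fin m → Bkgx683.EG ℤ} (he : ∀ i, w (e i).1 (e i).2 ≠ 0)
    (hdp : ∀ i, dpS w mk l k0 e n i) {C a' T : ℝ} (h : BkReg C)
    (ha' : 0 < a') (hrr : 16 * rr l k0 n ≤ rr l k0 (n + 1)) (hT : 0 ≤ T)
    {v' : Fin m → ℝ≥0∞}
    (hv : ∀ i, v' i ^ 2 ≤ ENNReal.ofReal (T * (rr l k0 (n + 1) : ℕ) / a' ^ 2)) {Γ : ℝ≥0∞}
    {z : Fin m → ℝ} (hz : ∀ i, ‖z i‖ₑ ≤ 2) :
    ∑ i, 9 * Γ * (v' i ^ 2 * (‖z i‖ₑ *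
      pG (wU w a' (rr l k0 (n + 1)) ((srcD w e he).sf i)) ((srcD w e he).β i))) ≤
      9 * Γ * (m * ENNReal.ofReal (44 * C ^ 2 * T)) := by
  have hr : (0 : ℝ) < (rr l k0 (n + 1) : ℕ) := by exact_mod_cast rr_pos l k0 (n + 1)
  have h1 : ∀ i, 9 * Γ * (v' i ^ 2 * (‖z i‖ₑ *
      pG (wU w a' (rr l k0 (n + 1)) ((srcD w e he).sf i)) ((srcD w e he).β i))) ≤
      9 * Γ * ENNReal.ofReal (44 * C ^ 2 * T) := by
    intro i
    refine mul_le_mul' le_rfl ?_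
    have h2 := bond_le (hdp i) h ha' hrr (T := faE (e i)) (faE_fst_mem (e i))
    refine (mul_le_mul' (hv i) (mul_le_mul' (hz i) h2)).trans (le_of_eq ?_)
    have e2 : (2 : ℝ≥0∞) = ENNReal.ofReal 2 := by simp
    rw [e2, ← ENNReal.ofReal_mul (by norm_num), ← ENNReal.ofReal_mul (by positivity)]
    congr 1
    field_simp
    ring
  refine (Finset.sum_le_sum fun i _ => h1 i).trans (le_of_eq ?_)
  rw [Finset.sum_const, Finset.card_univ, Fintype.card_fin, nsmul_eq_mul]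
  ring

end bond

end Crest.Agent.R165.SrcNumx943
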