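import Crest.Agent.R165.StepOK_838
import Crest.Agent.R165.SrcInv2_336

/-!
# Row 165 (S0250), P11: the hypotheses `StepHyp` of `SrcInv_336` on the frozen backgrounds (helper943)

* `any_of_geo` : bound of the convolution for every polymer of a composite background
* `stepHyp_gen` : `StepHyp` from `Geo`
* `stepHyp_dom`, `stepHyp_pl`, `stepHyp_clu` : the classes of `StepOK_838`
* `GoodS c`, `goodS_ev` : all classes, `EvC` form
-/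

set_option autoImplicit false
set_option linter.unusedSectionVars false

noncomputable section

open scoped ENNReal
open Filter Topology
open Crest.ProbabilityR.IsingModel
open Crest.Agent.R165.Geo (LatReg bdS)
open Crest.Agent.R165.Gr0x606 Crest.Agent.R165.Gr1x606 Crest.Agent.R165.GeOpsx337
open Crest.Agent.R165.Latx683 (BW wDom wX wPl Fld)
open Crest.Agent.R165.GDefx387 Crest.Agent.R165.GSysx387 Crest.Agent.R165.FRDPolyx439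
open Crest.Agent.R165.Packx915 (Conn)
open Crest.Agent.R165.NSumx915 (DCount)
open Crest.Agent.R165.DefRecx915 Crest.Agent.R165.Compx889 Crest.Agent.R165.WPackx893
open Crest.Agent.R165.RegGx893 Crest.Agent.R165.RegIx893 Crest.Agent.R165.Wtx898
open Crest.Agent.R165.KFlowx337 Crest.Agent.R165.BgIsox432 Crest.Agent.R165.Bridgex915
open Crest.Agent.R165.PEndx683 Crest.Agent.R165.Constx891 Crest.Agent.R165.Outx683
open Crest.Agent.R165.GeoIx838 (Sep SepP wX_zero)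
open Crest.Agent.R165.GeoCox838 Crest.Agent.R165.StepOKx838
open Crest.Agent.R165.PNormx417 Crest.Agent.R165.SrcInvx336

namespace Crest.Agent.R165.SrcStepHypx943

section any

variable {G : Type} [CommRing G] [CN G] [GoodG G] {ι : Type*} [Fintype ι]
variable {w : BW G} {C : ℝ} {Λ r0 R0 D : ℕ} {loc : ι → G × G} {B Z Ac : Set (G × G)}
  {a a' : ℝ} {r r' : ℕ}

/-- **every polymer** of a composite background: the convolution -/
theorem any_of_geo (H : Geo w C Λ r0 R0 loc B Z Ac) {S : Cov (Fld G)}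
    {g : Fld G → ℝ≥0∞} (hg : Gram S g)
    (hr0 : r0 ≤ r) (h10 : 10 * r ≤ r') (hD : (D + 64) * r ≤ 4 * r') (hΛ : r' ≤ Λ * r)
    (hR : 32 * r' ≤ R0) (hr : 0 < r) (ha : 0 < a) (ha' : 0 ≤ a') (ha2 : a' ≤ 2 * a)
    (hs8 : EE C D * Real.sqrt ((r : ℝ) / r') ≤ 1 / 8)
    (hfar : 2 * (K2 C * (Real.sqrt ((r : ℝ) / r') + Real.sqrt (1 / (D + 1)))) ≤ 1 / 2)
    (hsep : ∀ i j, i ≠ j → 2 * (r' + D * r) < fd (loc i) (loc j))
    {U : Finset (G × G)} (hU : ∀ x ∈ U, x ∈ Ac) (hW0 : GLinx336.W0 w g a' r' 1 U) :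
    ∃ b : ℕ, b ≤ size r U ∧ ∀ K : Ge (Fld G),
      pG (wU w a' r' U) (cvG S K) ≤ ENNReal.ofReal (1 + 4 * EE C D) ^ b * pG (wU w a r U) K := by
  classical
  have hC := H.one_le
  have hE := EE_pos hC D
  set E := EE C D with hEdef
  set s := Real.sqrt ((r : ℝ) / r') with hs
  have hrr : r ≤ r' := by omega
  have hs1 : s ≤ 1 := sqrt_ratio_le_one hrr
  have hs0 : 0 ≤ s := Real.sqrt_nonneg _
  have h1E : (1 : ℝ≥0∞) ≤ ENNReal.ofReal (1 + 4 * E) := by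
    rw [← ENNReal.ofReal_one]; exact ENNReal.ofReal_le_ofReal (by linarith)
  have hfar' : ∀ x ∈ Ac, (∀ i, D * r < fd (loc i) x) →
      WLe w a a' r r' x x LinearMap.id (ENNReal.ofReal (1 / 2)) := by
    intro x hx hi
    refine WLe.mono (H.far hr0 h10 hΛ hR hr ha ha' hx hi) (ENNReal.ofReal_le_ofReal ?_)
    refine ratio_le ha ha2 ?_ hfar
    unfold K2; positivity
  choose P hP1 hP2 hP3 using fun i => H.branch hr0 hD hΛ hR hr ha ha' ha2 i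
  have hsep1 : ∀ i j, i ≠ j → 2 * (D * r) + r < fd (loc i) (loc j) := fun i j hij => by
    have := hsep i j hij
    omega
  refine ⟨(Finset.univ.filter fun i => ∃ x ∈ U, tyx loc (D * r) x = some i).card, ?_, ?_⟩
  · rw [Bridgex915.size_eq_pack]
    refine GLinx336.card_le_pack_of_near Bridgex915.pd_fd _ loc (ρ := D * r) (r := r) (U := U)
      (fun i hi => ?_) (fun i _ j _ hij => hsep1 i j hij)
    obtain ⟨x, hx, hty⟩ := (Finset.mem_filter.1 hi).2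
    exact ⟨x, hx, by rw [fd_comm]; exact tyx_some hty⟩
  · intro K
    by_cases hK : pG (wU w a r U) K = ∞
    · rw [hK, ENNReal.mul_top]
      · exact le_top
      · exact pow_ne_zero _ (lt_of_lt_of_le one_pos h1E).ne'
    · have key := GLinx336.any_large (w := w) (a := a) (a' := a') (r := r) (r' := r') (U := U)
        (S := S) (g := g) hg
        (Finset.univ.filter fun i => ∃ x ∈ U, tyx loc (D * r) x = some i) (tyx loc (D * r))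
        P hP1 hP2 (ε := 1)
        (p := ENNReal.ofReal E) (q := ENNReal.ofReal (E * s)) (p0 := ENNReal.ofReal (1 / 2))
        ha hr hW0 one_ne_zero ENNReal.one_ne_top ENNReal.ofReal_ne_top
        (two_mul_le hs8) (ENNReal.ofReal_le_ofReal (by nlinarith)) (two_mul_le_one le_rfl)
        (fun x hx i hty => Finset.mem_filter.2 ⟨Finset.mem_univ _, x, hx, hty⟩)
        (fun x hx hi => ⟨x, hx, hfar' x (hU x hx) (tyx_none hi)⟩)
        (fun x hx i hi => ⟨x, hx, (hP3 i x (tyx_some hi)).1⟩)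
        (fun x hx i hi => ⟨x, hx, (hP3 i x (tyx_some hi)).2⟩) (K := (K : Gr (Fld G))) hK
      rw [one_add_eq hE.le] at key
      exact key

end any

/-! ### the constants -/

/-- growth factor of a polymer -/
def AS (Dn : ℕ) : ℝ≥0∞ := ENNReal.ofReal (1 + 4 * EE KA Dn)

theorem one_le_AS (Dn : ℕ) : 1 ≤ AS Dn := by
  have hE := EE_pos one_le_KA Dn
  unfold AS
  rw [← ENNReal.ofReal_one]; exact ENNReal.ofReal_le_ofReal (by linarith)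

/-- **the conditions on the constants** of a step with sources -/
structure CstS (Dn : ℕ) (Cb : ℝ) (c : Cst) : Prop extends CstOK Dn c where
  p4 : 4 ≤ c.p
  L128 : 128 * (340000 * Cb + 1) ^ 2 ≤ (2 : ℝ) ^ c.p

theorem gam_le {Dn L : ℕ} {Γ : ℝ≥0∞} (h : GamOK KA Dn L Γ) :
    (3 * (L : ℝ≥0∞) * AS Dn) ^ 2 ≤ Γ := by
  refine le_trans ?_ h.2
  have h1 : ((L : ℝ≥0∞)) ^ 2 ≤ (((2 * L + 3) ^ 2 : ℕ) : ℝ≥0∞) := by
    have : L ^ 2 ≤ (2 * L + 3) ^ 2 := Nat.pow_le_pow_left (by omega) 2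
    exact_mod_cast this
  calc (3 * (L : ℝ≥0∞) * AS Dn) ^ 2 = 1 * ((3 * AS Dn) ^ 2 * (L : ℝ≥0∞) ^ 2) := by ring
    _ ≤ 8 * ((3 * AS Dn) ^ 2 * (((2 * L + 3) ^ 2 : ℕ) : ℝ≥0∞)) :=
        mul_le_mul' (by norm_num) (mul_le_mul' le_rfl h1)

section gen

variable {G : Type} [CommRing G] [CN G] [CNZ G] [DecidableEq G] [GoodG G] {ι : Type*} [Fintype ι]

theorem rc_le {Dn : ℕ} {c : Cst} (hc : CstOK Dn c) (n : ℕ) :
    4 * nearR c.p c.k0 n + 3 * rr c.p c.k0 n + 2 ≤ rr c.p c.k0 (n + 1) := by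
  have h1 : 10 * rr c.p c.k0 n ≤ rr c.p c.k0 (n + 1) := by
    rw [rr_succ]
    exact Nat.mul_le_mul_right _ hc.big.ten
  have h3 := hc.six n
  unfold nearR
  omega

/-- **`StepHyp` from `Geo`** -/
theorem stepHyp_gen {Dn : ℕ} {Cb : ℝ} {c : Cst} (hc : CstS Dn Cb c) (hb : W2x812.BkReg Cb)
    {w : BW G} (hw : ∀ z j, |w z j| ≤ 1) {n r0' R0 : ℕ} {loc : ι → G × G} {B Z : Set (G × G)}
    (H : Geo w KA (2 ^ c.p) r0' R0 loc B Z Set.univ) (hr0 : r0' ≤ rr c.p c.k0 n)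
    (hR : 32 * rr c.p c.k0 (n + 1) ≤ R0) {a a' : ℝ}
    (ha : c.A0 ≤ a) (ha' : c.A0 ≤ a') (h2 : a' ≤ 2 * a)
    (hsep : ∀ i j, i ≠ j → 10 * rr c.p c.k0 (n + 1) < fd (loc i) (loc j)) :
    StepHyp w Cb a a' (rr c.p c.k0 n) (rr c.p c.k0 (n + 1)) (slC DD w c.p c.k0 n)
      (W0Sx897.gwS DD w c.p c.k0 n) 1 (AS Dn) (ENNReal.ofReal c.Γ) 3 ((2 ^ c.p : ℕ) : ℝ≥0∞)
      (nearR c.p c.k0 n) where
  bk := hb
  gram := W0Sx897.gramS DD w hw c.p c.k0 n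
  ha := lt_of_lt_of_le hc.A0 ha
  ha' := lt_of_lt_of_le hc.A0 ha'
  haa := h2
  hr := rr_pos c.p c.k0 n
  hr' := by
    rw [rr_succ]
    refine Nat.mul_le_mul_right _ ?_
    calc 16 = 2 ^ 4 := by norm_num
      _ ≤ 2 ^ c.p := Nat.pow_le_pow_right (by norm_num) hc.p4
  hL := by
    rw [rr_succ]
    push_cast
    refine mul_le_mul_of_nonneg_right (le_trans ?_ hc.L128) (Nat.cast_nonneg _)
    have := sq_nonneg (340000 * Cb + 1)
    linarith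
  w0 U := W0Sx897.w0S DD (by decide) w hw c.p c.k0 n ((hc.cw n).trans ha') U
  hε := one_ne_zero
  hε1 := le_rfl
  hRc := rc_le hc.toCstOK n
  hA1 := one_le_AS Dn
  hc := by norm_num
  hΛ1 := by exact_mod_cast Nat.one_le_two_pow
  hΓ1 := by
    refine le_trans ?_ (gam_le hc.gam)
    refine one_le_pow₀ ?_
    refine one_le_mul_of_one_le_of_one_le (one_le_mul_of_one_le_of_one_le (by norm_num) ?_)
      (one_le_AS Dn)
    exact_mod_cast Nat.one_le_two_pow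
  hΓt := ENNReal.ofReal_ne_top
  hΓ := gam_le hc.gam
  large U _ _ := by
    have hr : 0 < rr c.p c.k0 n := rr_pos c.p c.k0 n
    have hra : ((rr c.p c.k0 n : ℕ) : ℝ) / ((rr c.p c.k0 (n + 1) : ℕ) : ℝ) =
        1 / ((2 ^ c.p : ℕ) : ℝ) := by
      rw [rr_succ]
      exact ratio_L hr
    have hDL : Dn * rr c.p c.k0 n ≤ 4 * rr c.p c.k0 (n + 1) := by
      rw [rr_succ, ← mul_assoc]
      refine Nat.mul_le_mul_right _ ?_
      have := hc.big.hD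
      omega
    obtain ⟨b, hb1, hb2⟩ := any_of_geo (D := Dn) (a := a) (a' := a') (r := rr c.p c.k0 n)
      (r' := rr c.p c.k0 (n + 1)) H (W0Sx897.gramS DD w hw c.p c.k0 n) hr0
      (by rw [rr_succ]; exact Nat.mul_le_mul_right _ hc.big.ten)
      (by rw [rr_succ, ← mul_assoc]; exact Nat.mul_le_mul_right _ hc.big.hD)
      (by rw [rr_succ]) hR hr (lt_of_lt_of_le hc.A0 ha) (lt_of_lt_of_le hc.A0 ha').le h2
      (by rw [hra]; exact hc.big.s8) (by rw [hra]; exact hc.big.far)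
      (fun i j hij => lt_of_le_of_lt (by omega) (hsep i j hij)) (U := U)
      (fun x _ => Set.mem_univ x)
      (W0Sx897.w0S DD (by decide) w hw c.p c.k0 n ((hc.cw n).trans ha') U)
    exact ⟨b, hb1, hb2⟩

end gen

/-! ### the classes of backgrounds -/

section inst

variable {Dn : ℕ} {c : Cst} {Cb : ℝ}

/-- domains, discs in the fine phase -/
theorem stepHyp_dom (hc : CstS Dn Cb c) (hb : W2x812.BkReg Cb) {T : Set (ℤ × ℤ)} {ρ κ : ℝ}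
    (hT : LatReg T ρ κ) (hκ : κ * ρ ≤ 1) {m : ℕ} {X : Fin m → ℤ × ℤ} {Z : Set (ℤ × ℤ)} {b : Bool}
    {n : ℕ} {a a' : ℝ} (hρ : ((32 * C0v c.p : ℕ) : ℝ) * rr c.p c.k0 (n + 1) ≤ ρ)
    (hS : Sep T X Z (32 * rr c.p c.k0 (n + 1)))
    (ha : c.A0 ≤ a) (ha' : c.A0 ≤ a') (h2 : a' ≤ 2 * a) :
    StepHyp (wX (wDom T b) X) Cb a a' (rr c.p c.k0 n) (rr c.p c.k0 (n + 1))
      (slC DD (wX (wDom T b) X) c.p c.k0 n) (W0Sx897.gwS DD (wX (wDom T b) X) c.p c.k0 n) 1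
      (AS Dn) (ENNReal.ofReal c.Γ) 3 ((2 ^ c.p : ℕ) : ℝ≥0∞) (nearR c.p c.k0 n) := by
  obtain ⟨-, hC1, H, -, -⟩ := geo_v c.p
  have hG := H T ρ κ hT hκ m X Z b (32 * rr c.p c.k0 (n + 1)) (by
    refine le_trans (le_of_eq ?_) hρ
    push_cast; ring) hS
  refine stepHyp_gen hc hb (abs_wX_dom T b X) hG (hc.r0 n) le_rfl ha ha' h2 fun i j hij => ?_
  have h1 := hS.sep i j hij
  omega

/-- the plane with insertions -/
theorem stepHyp_pl (hc : CstS Dn Cb c) (hb : W2x812.BkReg Cb) {m : ℕ} {X : Fin m → ℤ × ℤ}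
    {Z : Set (ℤ × ℤ)} {n : ℕ} {a a' : ℝ} (hS : SepP X Z (32 * rr c.p c.k0 (n + 1)))
    (ha : c.A0 ≤ a) (ha' : c.A0 ≤ a') (h2 : a' ≤ 2 * a) :
    StepHyp (wX (wPl ℤ) X) Cb a a' (rr c.p c.k0 n) (rr c.p c.k0 (n + 1))
      (slC DD (wX (wPl ℤ) X) c.p c.k0 n) (W0Sx897.gwS DD (wX (wPl ℤ) X) c.p c.k0 n) 1
      (AS Dn) (ENNReal.ofReal c.Γ) 3 ((2 ^ c.p : ℕ) : ℝ≥0∞) (nearR c.p c.k0 n) := by
  obtain ⟨-, -, -, H, -⟩ := geo_v c.p
  have hG := H m X Z (32 * rr c.p c.k0 (n + 1)) hS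
  refine stepHyp_gen hc hb (abs_wX_pl X) hG (hc.r0 n) le_rfl ha ha' h2 fun i j hij => ?_
  have h1 := hS.sep i j hij
  omega

/-- the plane -/
theorem stepHyp_plane (hc : CstS Dn Cb c) (hb : W2x812.BkReg Cb) {n : ℕ} {a a' : ℝ}
    (ha : c.A0 ≤ a) (ha' : c.A0 ≤ a') (h2 : a' ≤ 2 * a) :
    StepHyp (wPl ℤ) Cb a a' (rr c.p c.k0 n) (rr c.p c.k0 (n + 1))
      (slC DD (wPl ℤ) c.p c.k0 n) (W0Sx897.gwS DD (wPl ℤ) c.p c.k0 n) 1
      (AS Dn) (ENNReal.ofReal c.Γ) 3 ((2 ^ c.p : ℕ) : ℝ≥0∞) (nearR c.p c.k0 n) := by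
  have h := stepHyp_pl (m := 0) (X := Fin.elim0) (Z := ∅) (n := n) hc hb
    ⟨fun i => Fin.elim0 i, fun _ _ i => Fin.elim0 i⟩ ha ha' h2
  rw [wX_zero] at h
  exact h

/-- discs in the coarse phase (cluster of insertions) -/
theorem stepHyp_clu (hc : CstS Dn Cb c) (hb : W2x812.BkReg Cb) {T : Set (ℤ × ℤ)} {ρ κ : ℝ}
    (hT : LatReg T ρ κ) (hκ : κ * ρ ≤ 1) {m : ℕ} {X : Fin m → ℤ × ℤ} {Z : Set (ℤ × ℤ)} {b : Bool}
    {z0 : ℤ × ℤ} {R1 n : ℕ} {a a' : ℝ}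
    (hρ : ((32 * C0v c.p : ℕ) : ℝ) * rr c.p c.k0 (n + 1) ≤ ρ)
    (hS : Clu T X z0 Z R1 (32 * rr c.p c.k0 (n + 1))) (hR1 : 4 * R1 + 8 ≤ rr c.p c.k0 n)
    (ha : c.A0 ≤ a) (ha' : c.A0 ≤ a') (h2 : a' ≤ 2 * a) :
    StepHyp (wX (wDom T b) X) Cb a a' (rr c.p c.k0 n) (rr c.p c.k0 (n + 1))
      (slC DD (wX (wDom T b) X) c.p c.k0 n) (W0Sx897.gwS DD (wX (wDom T b) X) c.p c.k0 n) 1
      (AS Dn) (ENNReal.ofReal c.Γ) 3 ((2 ^ c.p : ℕ) : ℝ≥0∞) (nearR c.p c.k0 n) := by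
  obtain ⟨-, hC1, -, -, H⟩ := geo_v c.p
  have hG := H T ρ κ hT hκ m X z0 Z b R1 (32 * rr c.p c.k0 (n + 1)) (by
    refine le_trans (le_of_eq ?_) hρ
    push_cast; ring) hS Fin.elim0
  exact stepHyp_gen hc hb (abs_wX_dom T b X) hG (max_le (hc.r0 n) hR1) le_rfl ha ha' h2
    (fun i => Fin.elim0 i)

end inst

/-! ### `EvC` form -/

/-- `StepHyp` at step `n` with the constants `c` (constants `c0 = 3`, `Λ = 2 ^ p`) -/
abbrev SH (c : Cst) (Cb : ℝ) (A : ℝ≥0∞) (w : BW ℤ) (n : ℕ) (a a' : ℝ) : Prop :=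
  StepHyp w Cb a a' (rr c.p c.k0 n) (rr c.p c.k0 (n + 1)) (slC DD w c.p c.k0 n)
    (W0Sx897.gwS DD w c.p c.k0 n) 1 A (ENNReal.ofReal c.Γ) 3 ((2 ^ c.p : ℕ) : ℝ≥0∞)
    (nearR c.p c.k0 n)

/-- **`StepHyp` for all backgrounds on `ℤ`** with the constants `c` -/
structure GoodS (c : Cst) (Cb : ℝ) (A : ℝ≥0∞) (C1 : ℕ) : Prop where
  Cb_pos : 0 < Cb
  A_one : 1 ≤ A
  A_top : A ≠ ∞
  one_le : 32 ≤ C1
  p4 : 4 ≤ c.p
  L128 : 128 * (340000 * Cb + 1) ^ 2 ≤ (2 : ℝ) ^ c.p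
  A0 : 0 < c.A0
  /-- `q` of the linear part is small by the choice of `p` only -/
  gam : (3 * ((2 ^ c.p : ℕ) : ℝ≥0∞) * A) ^ 2 ≤ ENNReal.ofReal c.Γ
  plane : ∀ (n : ℕ) (a a' : ℝ), c.A0 ≤ a → c.A0 ≤ a' → a' ≤ 2 * a → SH c Cb A (wPl ℤ) n a a'
  pl : ∀ (m : ℕ) (X : Fin m → ℤ × ℤ) (n : ℕ) (a a' : ℝ),
    (∀ i j, i ≠ j → 32 * rr c.p c.k0 (n + 1) < fd (X i) (X j)) →
    c.A0 ≤ a → c.A0 ≤ a' → a' ≤ 2 * a → SH c Cb A (wX (wPl ℤ) X) n a a'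
  dom : ∀ (T : Set (ℤ × ℤ)) (ρ κ : ℝ), LatReg T ρ κ → κ * ρ ≤ 1 →
    ∀ (m : ℕ) (X : Fin m → ℤ × ℤ) (Z : Set (ℤ × ℤ)) (b : Bool) (n : ℕ) (a a' : ℝ),
    (C1 : ℝ) * rr c.p c.k0 (n + 1) ≤ ρ → Sep T X Z (32 * rr c.p c.k0 (n + 1)) →
    c.A0 ≤ a → c.A0 ≤ a' → a' ≤ 2 * a → SH c Cb A (wX (wDom T b) X) n a a'
  clu : ∀ (T : Set (ℤ × ℤ)) (ρ κ : ℝ), LatReg T ρ κ → κ * ρ ≤ 1 →
    ∀ (m : ℕ) (X : Fin m → ℤ × ℤ) (Z : Set (ℤ × ℤ)) (b : Bool) (z0 : ℤ × ℤ) (R1 n : ℕ)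
      (a a' : ℝ),
    (C1 : ℝ) * rr c.p c.k0 (n + 1) ≤ ρ → Clu T X z0 Z R1 (32 * rr c.p c.k0 (n + 1)) →
    4 * R1 + 8 ≤ rr c.p c.k0 n →
    c.A0 ≤ a → c.A0 ≤ a' → a' ≤ 2 * a → SH c Cb A (wX (wDom T b) X) n a a'

/-- the constant of the bulk regularity -/
theorem exists_Cb : ∃ Cb : ℝ, 0 < Cb ∧ W2x812.BkReg Cb :=
  ⟨50000000 * (16 * 10 ^ 9), by norm_num, BkFinx806.bkReg⟩

/-- the conditions on the constants hold eventually -/
theorem ev_cstS (Dn : ℕ) (h : EvC (CstOK Dn)) (Cb : ℝ) : EvC (CstS Dn Cb) := by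
  have h1 : ∀ᶠ p : ℕ in atTop, 4 ≤ p ∧ 128 * (340000 * Cb + 1) ^ 2 ≤ (2 : ℝ) ^ p := by
    have h2 : Tendsto (fun p : ℕ => (2 : ℝ) ^ p) atTop atTop :=
      tendsto_pow_atTop_atTop_of_one_lt (by norm_num)
    exact (eventually_ge_atTop 4).and (h2.eventually (eventually_ge_atTop _))
  unfold EvC at h ⊢
  filter_upwards [h, h1] with p hp hp1
  filter_upwards [hp] with Γ hΓ
  filter_upwards [hΓ] with k0 hk0
  filter_upwards [hk0] with A0 hA0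
  filter_upwards [hA0] with δ hδ
  exact ⟨hδ, hp1.1, hp1.2⟩

/-- **THE THEOREM** -/
theorem goodS_ev : ∃ (Cb : ℝ) (A : ℝ≥0∞), EvC fun c => ∃ C1 : ℕ, GoodS c Cb A C1 := by
  obtain ⟨Dn, h⟩ := ev_cstOK
  obtain ⟨Cb, hb0, hb⟩ := exists_Cb
  refine ⟨Cb, AS Dn, (ev_cstS Dn h Cb).mono fun c hc => ⟨32 * C0v c.p, ?_⟩⟩
  refine ⟨hb0, one_le_AS Dn, ENNReal.ofReal_ne_top, ?_, hc.p4, hc.L128, hc.A0, gam_le hc.gam,
    ?_, ?_, ?_, ?_⟩
  · have := (geo_v c.p).2.1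
    omega
  · intro n a a' ha ha' h2
    exact stepHyp_plane hc hb ha ha' h2
  · intro m X n a a' hX ha ha' h2
    exact stepHyp_pl (Z := ∅) hc hb ⟨hX, fun u hu => absurd hu (Set.notMem_empty u)⟩ ha ha' h2
  · intro T ρ κ hT hκ m X Z b n a a' hρ hS ha ha' h2
    exact stepHyp_dom hc hb hT hκ hρ hS ha ha' h2
  · intro T ρ κ hT hκ m X Z b z0 R1 n a a' hρ hS hR1 ha ha' h2
    exact stepHyp_clu hc hb hT hκ hρ hS hR1 ha ha' h2

end Crest.Agent.R165.SrcStepHypx943
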