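import Crest.Agent.R165.StepOK_838
import Crest.Agent.R165.GeoScA_485
import Crest.Agent.R165.DomAc_117
import Crest.Agent.R165.Comp4_889
import Crest.Agent.R165.SpinDom_432
import Crest.Agent.R165.GeoG_65

/-!
# Row 165 (S0250): controlled flows (`Ctl` of `Comp4_889`) on all backgrounds (helper838)

* `ev_cstOK'` : any lower bound for `D`;  `stepOK_of_stepGeo` : the form `StepGeo` of helper420
* `str_v` : the structural hypotheses of `sys`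
* `Good.ctl_pl`, `Good.ctl_br`, `Good.ctl_cfg` : `Ctl` for the plane with marks, branch vertices, and
  the configurations of helper485
* `ctl_dom_ev` : all `C²` Jordan domains, insertions near `x`, marks near `y`
* `ctl_domF_ev` : the flows `domF` literally
-/

set_option autoImplicit false
set_option linter.unusedSectionVars false

noncomputable section

open scoped ENNReal
open Filter Topology
open Crest.ProbabilityR.IsingModel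
open Crest.Agent.R165.Geo (LatReg bdS)
open Crest.Agent.R165.Gr0x606 Crest.Agent.R165.Gr1x606 Crest.Agent.R165.GeOpsx337
open Crest.Agent.R165.Latx683 (BW wDom wX wPl Fld)
open Crest.Agent.R165.GDefx387 Crest.Agent.R165.GSysx387 Crest.Agent.R165.FRDPolyx439
open Crest.Agent.R165.Packx915 (Conn)
open Crest.Agent.R165.NSumx915 (DCount)
open Crest.Agent.R165.DefRecx915 Crest.Agent.R165.Compx889 Crest.Agent.R165.WPackx893
open Crest.Agent.R165.RegIx893 (Geo BigL EE exists_D ev_bigL bd_count)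
open Crest.Agent.R165.KFlowx337 Crest.Agent.R165.BgIsox432 Crest.Agent.R165.Bridgex915
open Crest.Agent.R165.PEndx683 Crest.Agent.R165.Constx891 Crest.Agent.R165.Outx683
open Crest.Agent.R165.Bkgx683
open Crest.Agent.R165.GeoIx838 (Sep SepP wX_zero)
open Crest.Agent.R165.XBdx915 (acS)
open Crest.Agent.R165.DomAcx117 (nbT acS_hit)
open Crest.Agent.R165.GeoScAx485 (Cfg cfg_steps)
open Crest.Agent.R165.GeoScx420 (KK StepGeo)
open Crest.Agent.R165.GeoCox838 Crest.Agent.R165.StepOKx838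

namespace Crest.Agent.R165.StepDomx838

/-! ### the constants, any lower bound for `D` -/

theorem ev_cstOK' (D0 : ℕ) : ∃ Dn : ℕ, D0 ≤ Dn ∧ EvC (CstOK Dn) := by
  obtain ⟨Dn, hD, hD2⟩ := exists_D KA (max D0 (s2 + 3))
  refine ⟨Dn, (le_max_left _ _).trans hD, ?_⟩
  have h1 : EvC fun c => BigL KA Dn 1 (1 / 8) (2 ^ c.p) :=
    ev_p (P := fun p => BigL KA Dn 1 (1 / 8) (2 ^ p))
      ((tendsto_pow_atTop_atTop_of_one_lt (by norm_num : 1 < 2)).eventually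
        (ev_bigL hD2 1 (by norm_num)))
  have h2 : EvC fun c => GamOK KA Dn (2 ^ c.p) (ENNReal.ofReal c.Γ) := by
    choose Γ0 hΓ0 hΓ using fun L => exists_gam KA Dn L
    refine (ev_Γ_ge' fun p => (Γ0 (2 ^ p)).toReal).mono fun c hc => ?_
    refine hΓ (2 ^ c.p) _ ?_ ENNReal.ofReal_ne_top
    rw [← ENNReal.ofReal_toReal (hΓ0 (2 ^ c.p))]
    exact ENNReal.ofReal_le_ofReal hc
  have h3 := ev_rr_ge fun p _ => max (r0v p) 6
  have h4 := ev_A0_ge fun p _ k0 => W0Sx897.cW0 DD p k0 0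
  have h5 := ev_A0_ge fun p _ k0 => 2 * GSysOKx439.c0 DD.C p k0
  refine (((((ev_std.and h1).and h2).and h3).and h4).and h5).mono fun c hc => ?_
  exact
    { hD := (le_max_right _ _).trans hD
      big := hc.1.1.1.1.2
      gam := hc.1.1.1.2
      r0 := fun n => (le_max_left _ _).trans (hc.1.1.2 n)
      six := fun n => (le_max_right _ _).trans (hc.1.1.2 n)
      A0 := one_pos.trans_le hc.1.1.1.1.1.A0_ge
      cw := fun n => (W0Sx897.cW0_le_zero DD c.p c.k0 n).trans hc.1.2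
      cold := by have := hc.2; linarith }

/-- **`StepOK` from the geometric inputs of helper420**, any coordinate ring -/
theorem stepOK_of_stepGeo {G : Type} [CommRing G] [CN G] [CNZ G] [DecidableEq G] [GoodG G]
    {ι : Type*} [Fintype ι] {Dn : ℕ} {c : Cst} (hc : CstOK Dn c) {Cb : ℝ} (hb : W2x812.BkReg Cb)
    (hb0 : 0 < Cb) {w : BW G} (hw : ∀ z j, |w z j| ≤ 1) {mk : Finset (G × G)}
    {K0 : Finset (G × G) → Ge (Fld G)} (hOK : (sys DD w mk c.p c.k0 K0).OK ⊥) {n r0' : ℕ}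
    {loc : ι → G × G} {B Z : Set (G × G)} {ac em : Finset (G × G) → Prop}
    (H : StepGeo w KA (2 ^ c.p) r0' Dn (2 ^ c.p) (rr c.p c.k0 n) loc B Z ac em)
    (hr0 : r0' ≤ rr c.p c.k0 n) {a a' : ℝ} (ha : c.A0 ≤ a) (ha' : c.A0 ≤ a') (h2 : a' ≤ 2 * a)
    (hcon : ∀ U, ac U → Conn fd (nearR c.p c.k0 n) U) :
    StepOK (sys DD w mk c.p c.k0 K0) w (ENNReal.ofReal c.Γ) n a a' (rr c.p c.k0 n)
      (rr c.p c.k0 (n + 1)) ac em (1 / 4) (CFv Dn Cb c.p) := by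
  have h0 : 0 < a := lt_of_lt_of_le hc.A0 ha
  obtain ⟨h3, h4, h5, h6, h7⟩ := H
  rw [← rr_succ] at h3 h4 h6 h7
  refine stepOK_of_geo hc.big h3 DD (by decide) hw rfl hc.gam le_rfl hr0 le_rfl h0 h2
    ((hc.cw n).trans ha') (fun U _ x _ => Set.mem_univ x) hcon ?_ h4 h5 h6 h7
    (xbd_v hc hb hb0 hw hOK ha ha' h2 ac)
  have h8 : 10 * rr c.p c.k0 n ≤ rr c.p c.k0 (n + 1) := by
    rw [rr_succ]
    exact Nat.mul_le_mul_right _ hc.big.ten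
  have h9 := rr_pos c.p c.k0 n
  unfold nearR
  omega

/-! ### structural hypotheses -/

/-- **`Str` of the systems of `GSys_387`** -/
theorem str_v {G : Type} [CommRing G] [CN G] [CNZ G] [DecidableEq G] [GoodG G] {c : Cst}
    (hp : 1 ≤ c.p) (hΓ : 1 ≤ ENNReal.ofReal c.Γ) {w : BW G} {mk : Finset (G × G)}
    {K0 : Finset (G × G) → Ge (Fld G)} {Λ : Set (G × G)}
    (h0 : ∀ U, K0 U ≠ 0 → acS fd (nearR c.p c.k0 0) Λ U) (K : ℕ) :
    Str (sys DD w mk c.p c.k0 K0) (rr c.p c.k0) (nearR c.p c.k0) (ENNReal.ofReal c.Γ)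
      (fun n => acS fd (nearR c.p c.k0 n) Λ)
      (fun n => emM w (mk : Set (G × G)) (rr c.p c.k0 n)) K where
  r_pos := rr_pos c.p c.k0
  r_mono k := rr_mono c.p c.k0 (Nat.le_succ k)
  Γ1 := hΓ
  vac := XBdx915.vacCt_sys DD
  near _ _ := rfl
  hac k _ U h := XBdx915.ac_sys DD h0 k U h
  ne _ _ _ h := h.1
  deep k _ := XBdx915.deep_sys hp k
  ext k _ := XBdx915.embExtr_sys DD k

theorem one_le_Γ {c : Cst} (hs : Std c) : 1 ≤ ENNReal.ofReal c.Γ := by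
  rw [← ENNReal.ofReal_one]
  exact ENNReal.ofReal_le_ofReal (by linarith [hs.Γ_ge])

/-! ### amplitudes -/

theorem amp_ge {c : Cst} (hs : Std c) (n : ℕ) : c.A0 ≤ amp c n := (Amp.lin hs).ge n

theorem amp_le_two {c : Cst} (hs : Std c) (n : ℕ) : amp c (n + 1) ≤ 2 * amp c n :=
  (Amp.lin hs).le_two hs n

/-! ### the classes -/

section cls

variable {c : Cst} {CF : ℝ≥0∞} {C1 : ℕ}

/-- **the plane with marks** -/
theorem Good.ctl_pl (H : Good c CF C1) (hs : Std c) {a : ℕ → ℝ} (ha : ∀ n, c.A0 ≤ a n)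
    (ha2 : ∀ n, a (n + 1) ≤ 2 * a n) {mk : Finset (ℤ × ℤ)}
    (hmk : ∀ u ∈ mk, ∀ v ∈ mk, fd u v ≤ rr c.p c.k0 0) {K0 : Finset (ℤ × ℤ) → Ge (Fld ℤ)}
    (hOK : (sys DD (wPl ℤ) mk c.p c.k0 K0).OK ⊥) {Λ : Set (ℤ × ℤ)}
    (h0 : ∀ U, K0 U ≠ 0 → acS fd (nearR c.p c.k0 0) Λ U) (K : ℕ) :
    Ctl c CF a (sys DD (wPl ℤ) mk c.p c.k0 K0) (wPl ℤ) (fun n => acS fd (nearR c.p c.k0 n) Λ)
      (fun n => emM (wPl ℤ) (mk : Set (ℤ × ℤ)) (rr c.p c.k0 n)) K where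
  str := str_v (by have := hs.p_pos; omega) (one_le_Γ hs) h0 K
  step k _ := Good.plane H mk K0 hOK k _ _ _
    ((MkOK.of_le fun u hu v hv => hmk u hu v hv).mono (rr_mono c.p c.k0 (Nat.zero_le k)) le_rfl)
    (fun _ h => h.2.1) (fun _ h => h.1) (ha k) (ha (k + 1)) (ha2 k)

/-- **one branch vertex in the plane** -/
theorem Good.ctl_br (H : Good c CF C1) (hs : Std c) {a : ℕ → ℝ} (ha : ∀ n, c.A0 ≤ a n)
    (ha2 : ∀ n, a (n + 1) ≤ 2 * a n) (x : ℤ × ℤ) {K0 : Finset (ℤ × ℤ) → Ge (Fld ℤ)}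
    (hOK : (sys DD (wX (wPl ℤ) ![x]) ∅ c.p c.k0 K0).OK ⊥) {Λ : Set (ℤ × ℤ)}
    (h0 : ∀ U, K0 U ≠ 0 → acS fd (nearR c.p c.k0 0) Λ U) (K : ℕ) :
    Ctl c CF a (sys DD (wX (wPl ℤ) ![x]) ∅ c.p c.k0 K0) (wX (wPl ℤ) ![x])
      (fun n => acS fd (nearR c.p c.k0 n) Λ)
      (fun n => emM (wX (wPl ℤ) ![x]) ((∅ : Finset (ℤ × ℤ)) : Set (ℤ × ℤ)) (rr c.p c.k0 n)) K where
  str := str_v (by have := hs.p_pos; omega) (one_le_Γ hs) h0 K
  step k _ := by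
    refine H.pl 1 ![x] ∅ K0 hOK k _ _ _ ⟨fun i j hij => absurd (Subsingleton.elim i j) hij,
      fun u hu => absurd hu (by simp)⟩ ?_ (fun _ h => h.2.1) (fun _ h => h.1) (ha k) (ha (k + 1))
      (ha2 k)
    intro u hu
    exact absurd hu (by simp)

/-- **configurations of helper485**: domains, discs (fine phase), plane with separated insertions -/
theorem Good.ctl_cfg (H : Good c CF C1) (hs : Std c) {a : ℕ → ℝ} (ha : ∀ n, c.A0 ≤ a n)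
    (ha2 : ∀ n, a (n + 1) ≤ 2 * a n) {T : Set (ℤ × ℤ)} {m : ℕ} {X : Fin m → ℤ × ℤ}
    {mk : Finset (ℤ × ℤ)} {b : Bool} {Kc q K : ℕ} (hKc : Kc ≤ rr c.p c.k0 0)
    (hq : q ≤ rr c.p c.k0 0)
    (hC : ∀ k < K, Cfg T X (mk : Set (ℤ × ℤ)) Kc (((C1 + 33 : ℕ) : ℝ) * rr c.p c.k0 (k + 1)))
    {K0 : Finset (ℤ × ℤ) → Ge (Fld ℤ)}
    (hOK : (sys DD (wX (wDom T b) X) mk c.p c.k0 K0).OK ⊥)
    (h0 : ∀ U, K0 U ≠ 0 → acS fd (nearR c.p c.k0 0) (nbT T q) U) :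
    Ctl c CF a (sys DD (wX (wDom T b) X) mk c.p c.k0 K0) (wX (wDom T b) X)
      (fun n => acS fd (nearR c.p c.k0 n) (nbT T q))
      (fun n => emM (wX (wDom T b) X) (mk : Set (ℤ × ℤ)) (rr c.p c.k0 n)) K where
  str := str_v (by have := hs.p_pos; omega) (one_le_Γ hs) h0 K
  step k hk := by
    have hk' := hC k hk
    obtain ⟨ρ, κ, h1, h2, h3⟩ := hk'.reg
    have hr : (1 : ℝ) ≤ rr c.p c.k0 (k + 1) := by exact_mod_cast rr_pos c.p c.k0 (k + 1)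
    have hC1 : (0 : ℝ) ≤ C1 := Nat.cast_nonneg _
    refine H.dom T ρ κ h1 h2 m X mk b K0 hOK k q _ _ _ ?_ ?_ ?_ ?_ (fun _ h => h.2.1)
      (fun _ h => acS_hit h) (ha k) (ha (k + 1)) (ha2 k)
    · refine le_trans (mul_le_mul_of_nonneg_right ?_ (by linarith)) h3
      exact_mod_cast Nat.le_add_right C1 33
    · refine hk'.sepI ?_
      push_cast
      nlinarith
    · intro u hu v hv
      rcases hk'.mcl u hu v hv with h4 | h4
      · exact Or.inl (h4.trans (hKc.trans (rr_mono c.p c.k0 (Nat.zero_le k))))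
      · right
        have h5 : ((10 * rr c.p c.k0 (k + 1) : ℕ) : ℝ) < (fd u v : ℝ) := by
          refine lt_of_le_of_lt ?_ h4
          push_cast
          nlinarith
        exact_mod_cast h5
    · refine hq.trans ((rr_mono c.p c.k0 (Nat.zero_le k)).trans ?_)
      exact Nat.le_mul_of_pos_left _ (by decide)

end cls

/-! ### domains -/

/-- **all `C²` Jordan domains** -/
theorem ctl_dom_ev (q Kc : ℕ) : EvC fun c => Std c ∧ ∃ CF : ℝ≥0∞, CF ≠ ∞ ∧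
    ∀ (D : Set ℂ), IsC2JordanDomain D → ∀ (m p : ℕ) (x : Fin m → ℂ) (y : Fin p → ℂ),
    (∀ i, x i ∈ D) → Function.Injective x → (∀ j, y j ∈ D) → (∀ i j, x i ≠ y j) →
    ∀ K0c : ℝ, ⌈2 * K0c⌉₊ ≤ Kc → ∃ δ0 > 0, ∃ δ1 > 0, ∀ δ, 0 < δ → δ ≤ δ1 → ∀ᶠ a : ℝ in 𝓝[>] 0,
    ∀ X : Fin m → ℤ × ℤ, (∀ i, ‖meshPoint a (X i) - x i‖ ≤ δ0) →
    ∀ mk : Finset (ℤ × ℤ), (∀ u ∈ mk, ∃ j, ‖meshPoint a u - y j‖ ≤ K0c * a) →
    ∀ (T : Set (ℤ × ℤ)), T = domainSites D a → ∀ (b : Bool) (A : ℕ → ℝ), (∀ n, c.A0 ≤ A n) →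
    (∀ n, A (n + 1) ≤ 2 * A n) → ∀ (K0 : Finset (ℤ × ℤ) → Ge (Fld ℤ)),
    (sys DD (wX (wDom T b) X) mk c.p c.k0 K0).OK ⊥ →
    (∀ U, K0 U ≠ 0 → acS fd (nearR c.p c.k0 0) (nbT T q) U) →
    Ctl c CF A (sys DD (wX (wDom T b) X) mk c.p c.k0 K0) (wX (wDom T b) X)
      (fun n => acS fd (nearR c.p c.k0 n) (nbT T q))
      (fun n => emM (wX (wDom T b) X) (mk : Set (ℤ × ℤ)) (rr c.p c.k0 n))
      (KK c.p c.k0 δ a) := by
  have h1 := ev_rr_ge fun _ _ => max q Kc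
  refine ((ev_std.and stepOK_ev).and h1).mono ?_
  rintro c ⟨⟨hs, CF, hCF, C1, H⟩, hr⟩
  refine ⟨hs, CF, hCF, ?_⟩
  intro D hD m p x y hx hinj hy hxy K0c hK0c
  obtain ⟨δ0, hδ0, h2⟩ := cfg_steps hD hx hinj hy hxy K0c
  obtain ⟨δ1, hδ1, h3⟩ := h2 (C1 + 33)
  refine ⟨δ0, hδ0, δ1, hδ1, fun δ hδ hδ' => ?_⟩
  filter_upwards [h3 δ hδ hδ' c.p c.k0] with a ha
  rintro X hX mk hmk T rfl b A hA hA2 K0 hOK h0
  refine Good.ctl_cfg H hs hA hA2 (hK0c.trans ((le_max_right _ _).trans (hr 0)))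
    ((le_max_left _ _).trans (hr 0)) (fun k hk => ?_) hOK h0
  exact ha X hX (mk : Set (ℤ × ℤ)) (fun u hu => hmk u hu) k hk

/-- the flow of a domain is a system of `GSys_387` -/
theorem domF_eq (c : Cst) (P : MPar) (T : Finset (ℤ × ℤ)) (b : BoundaryCondition) {m : ℕ}
    (X : Fin m → ℤ × ℤ) : domF c P T b X =
      sys DD (wX (wDom (T : Set (ℤ × ℤ)) (isF b)) X) ∅ c.p c.k0
        ((Bg.dom T b X).K0 P LinearMap.id (noSrc ℤ (Ge (Fld ℤ))) c.p c.k0) := rfl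

theorem domF_OK {c : Cst} (h5 : 5 ≤ c.p * (c.k0 + 1)) (P : MPar) (T : Finset (ℤ × ℤ))
    (b : BoundaryCondition) {m : ℕ} (X : Fin m → ℤ × ℤ) :
    (sys DD (wX (wDom (T : Set (ℤ × ℤ)) (isF b)) X) ∅ c.p c.k0
        ((Bg.dom T b X).K0 P LinearMap.id (noSrc ℤ (Ge (Fld ℤ))) c.p c.k0)).OK ⊥ :=
  SpinDomx432.fl_OK c P (Bg.dom T b X) h5

theorem domF_supp {c : Cst} (h6 : 1 ≤ nearR c.p c.k0 0) {P : MPar} {q : ℕ}
    (hq : 2 * P.R + 1 ≤ q) (hq2 : 2 ≤ q) (T : Finset (ℤ × ℤ))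
    (b : BoundaryCondition) {m : ℕ} (X : Fin m → ℤ × ℤ) (U : Finset (ℤ × ℤ))
    (hU : (Bg.dom T b X).K0 P LinearMap.id (noSrc ℤ (Ge (Fld ℤ))) c.p c.k0 U ≠ 0) :
    acS fd (nearR c.p c.k0 0) (nbT (T : Set (ℤ × ℤ)) q) U :=
  DomAcx117.K0_acS LinearMap.id hq hq2 (fun k => k.elim0) h6 (fun k => k.elim0) U hU

/-- **the flows `domF` literally**, `q = 2 R + 2` -/
theorem ctl_domF_ev (R : ℕ) : EvC fun c => Std c ∧ ∃ CF : ℝ≥0∞, CF ≠ ∞ ∧
    ∀ (D : Set ℂ), IsC2JordanDomain D → ∀ (m : ℕ) (x : Fin m → ℂ),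
    (∀ i, x i ∈ D) → Function.Injective x → ∃ δ1 > 0, ∀ δ, 0 < δ → δ ≤ δ1 →
    ∀ᶠ a : ℝ in 𝓝[>] 0, ∀ (T : Finset (ℤ × ℤ)), (T : Set (ℤ × ℤ)) = domainSites D a →
    ∀ (b : BoundaryCondition) (P : MPar), P.R ≤ R →
    Ctl c CF (amp c) (domF c P T b (fun i => meshIndex a (x i)))
      (wX (wDom (T : Set (ℤ × ℤ)) (isF b)) (fun i => meshIndex a (x i)))
      (fun n => acS fd (nearR c.p c.k0 n) (nbT (T : Set (ℤ × ℤ)) (2 * R + 2)))
      (fun n => emM (wX (wDom (T : Set (ℤ × ℤ)) (isF b)) (fun i => meshIndex a (x i)))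
        ((∅ : Finset (ℤ × ℤ)) : Set (ℤ × ℤ)) (rr c.p c.k0 n)) (KK c.p c.k0 δ a) ∧
    ∀ X0 : Fin 0 → ℤ × ℤ, Ctl c CF (amp c) (domF c P T b X0)
      (wX (wDom (T : Set (ℤ × ℤ)) (isF b)) X0)
      (fun n => acS fd (nearR c.p c.k0 n) (nbT (T : Set (ℤ × ℤ)) (2 * R + 2)))
      (fun n => emM (wX (wDom (T : Set (ℤ × ℤ)) (isF b)) X0)
        ((∅ : Finset (ℤ × ℤ)) : Set (ℤ × ℤ)) (rr c.p c.k0 n)) (KK c.p c.k0 δ a) := by
  have h1 := ev_rr_ge fun _ _ => 6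
  have h2 := ev_k0_ge fun _ _ => 5
  refine (((ctl_dom_ev (2 * R + 2) 0).and h1).and h2).mono ?_
  rintro c ⟨⟨⟨hs, CF, hCF, H⟩, hr⟩, hk0⟩
  refine ⟨hs, CF, hCF, ?_⟩
  intro D hD m x hx hinj
  obtain ⟨δ0, hδ0, δ1, hδ1, h3⟩ := H D hD m 0 x Fin.elim0 hx hinj (fun j => Fin.elim0 j)
    (fun _ j => Fin.elim0 j) 0 (by simp)
  obtain ⟨δ0', hδ0', δ1', hδ1', h3'⟩ := H D hD 0 0 Fin.elim0 Fin.elim0 (fun j => Fin.elim0 j)
    (fun j => Fin.elim0 j) (fun j => Fin.elim0 j) (fun _ j => Fin.elim0 j) 0 (by simp)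
  refine ⟨min δ1 δ1', lt_min hδ1 hδ1', fun δ hδ hδ' => ?_⟩
  have h4 : ∀ᶠ a : ℝ in 𝓝[>] 0, 2 * a ≤ δ0 := by
    filter_upwards [Ioo_mem_nhdsGT (show (0 : ℝ) < δ0 / 2 by positivity)] with a ha
    linarith [ha.2]
  have h5 : 5 ≤ c.p * (c.k0 + 1) := by
    have := hs.p_pos
    nlinarith
  have h6 : 1 ≤ nearR c.p c.k0 0 := by
    have h7 := hr 0
    have h8 := rr_succ c.p c.k0 0
    have h9 : 2 ^ 4 ≤ 2 ^ c.p := Nat.pow_le_pow_right (by norm_num) hs.p_pos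
    unfold nearR
    have h10 : 2 ^ 4 * 6 ≤ rr c.p c.k0 (0 + 1) := by
      rw [h8]; exact Nat.mul_le_mul h9 h7
    omega
  filter_upwards [h3 δ hδ (hδ'.trans (min_le_left _ _)), h3' δ hδ (hδ'.trans (min_le_right _ _)),
    h4, self_mem_nhdsWithin] with a ha ha' ha4 ha0
  intro T hT b P hP
  have hq1 : 2 * P.R + 1 ≤ 2 * R + 2 := by omega
  have hq2 : 2 ≤ 2 * R + 2 := by omega
  constructor
  · have h7 := ha (fun i => meshIndex a (x i))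
      (fun i => (GeoGx65.norm_meshPoint_meshIndex ha0 (x i)).trans ha4) ∅ (by simp)
      (T : Set (ℤ × ℤ)) hT (isF b) (amp c) (amp_ge hs) (amp_le_two hs)
      ((Bg.dom T b fun i => meshIndex a (x i)).K0 P LinearMap.id (noSrc ℤ (Ge (Fld ℤ))) c.p c.k0)
      (domF_OK h5 P T b _) (domF_supp h6 hq1 hq2 T b _)
    rw [domF_eq]
    exact h7
  · intro X0
    have h7 := ha' X0 (fun i => Fin.elim0 i) ∅ (by simp)
      (T : Set (ℤ × ℤ)) hT (isF b) (amp c) (amp_ge hs) (amp_le_two hs)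
      ((Bg.dom T b X0).K0 P LinearMap.id (noSrc ℤ (Ge (Fld ℤ))) c.p c.k0)
      (domF_OK h5 P T b _) (domF_supp h6 hq1 hq2 T b _)
    rw [domF_eq]
    exact h7

end Crest.Agent.R165.StepDomx838
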