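import Crest.Agent.R165.ZeS_915
import Crest.Agent.R165.BulkHA_915
import Crest.Agent.R165.ZeEb_922
import Crest.Agent.R165.SrcOne_54
import Crest.Agent.R165.SrcInv2_336
import Crest.Agent.R165.SrcK0B_991
import Crest.Agent.R165.SrcCstG_484
import Crest.Agent.R165.SrcDomE_697
import Crest.Agent.R165.PlB_117
import Crest.Agent.R165.SrcStepHyp_943
import Crest.Agent.R165.SrcNum_943

/-!
# Row 165 (S0250), leaf P11 (sources): the plane with one bond source (helper915)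

* `pl_srcHyp`, `pl_conn`, `pl_beta`, `pl_lead` : the hypotheses of `one_step` on the plane, `m = 1`
* `pl_step` : one step
* `zA` : total norm of the remainders, running coefficients, all scales
-/

set_option autoImplicit false
set_option linter.unusedSectionVars false

noncomputable section

open scoped ENNReal
open Filter Topology

namespace Crest.Agent.R165.ZeAx915

open Crest.Agent.R165.Gr0x606 Crest.Agent.R165.Gr1x606 Crest.Agent.R165.GeOpsx337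
  Crest.Agent.R165.ExpGx337 Crest.Agent.R165.KFlowx337
open Crest.Agent.R165.SrcDefx991 Crest.Agent.R165.SrcSysx991 Crest.Agent.R165.SrcInsx991
open Crest.Agent.R165.GSysx387 Crest.Agent.R165.GDefx387 Crest.Agent.R165.PStepx417
open Crest.Agent.R165.PNormx417 Crest.Agent.R165.FRDPolyx439 Crest.Agent.R165.BgIsox432
open Crest.Agent.R165.SrcRecx54 Crest.Agent.R165.SrcStepx54 Crest.Agent.R165.SrcInvx336
open Crest.Agent.R165.SrcSymx922 Crest.Agent.R165.ZeEbx922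
open Crest.Agent.R165.Packx915 (Conn)
open Crest.Agent.R165.NSumx915 Crest.Agent.R165.DefRecx915 Crest.Agent.R165.Compx889
open Crest.Agent.R165.Outx683 Crest.Agent.R165.PEndx683 Crest.Agent.R165.Bkgx683
open Crest.Agent.R165.J4Geox126 (faE)
open Crest.Agent.R165.Latx683 (wPl Fld xc)
open Crest.Agent.R165.SrcLimx697 Crest.Agent.R165.W2x812
open Crest.Agent.R165.ZeSx915 Crest.Agent.R165.BulkHAx915

/-! ### the plane, one source -/

section pl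

variable (c : Cst) (P : MPar) (e : Fin 1 → Bkgx683.EG ℤ)

/-- the remainders of the plane -/
abbrev ppl (n : ℕ) : Finset (ℤ × ℤ) → Ge (VS (Fld ℤ) 1) :=
  ppP Bg.pl P DD ∅ e (wpl_ne e) c.p c.k0 n

/-- the running coefficient -/
abbrev zpl (n : ℕ) : ℝ := zeP Bg.pl P DD ∅ e (wpl_ne e) c.p c.k0 n 0

/-- the total norm of the remainders -/
abbrev tpl (T : ℝ) (n : ℕ) : ℝ≥0∞ :=
  Tot (fun U => wU (wPl ℤ) (amp c n) (rr c.p c.k0 n) U)
    (fun _ : Fin 1 => ENNReal.ofReal (vS c T n)) (ENNReal.ofReal c.Γ) (rr c.p c.k0 n)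
    (ppl c P e n)

variable {c P e}

theorem sixteen (h4 : 4 ≤ c.p) (n : ℕ) : 16 * rr c.p c.k0 n ≤ rr c.p c.k0 (n + 1) := by
  rw [GSysx387.rr_succ]
  refine Nat.mul_le_mul_right _ ?_
  calc 16 = 2 ^ 4 := by norm_num
    _ ≤ 2 ^ c.p := Nat.pow_le_pow_right (by norm_num) h4

theorem pl_dp (n : ℕ) (i : Fin 1) : dpS Bg.pl.w ∅ c.p c.k0 e n i := fun f _ =>
  deep_plane c.p c.k0 n f

theorem pl_srcHyp (h4 : 4 ≤ c.p) {T : ℝ} (hT : 0 < T) (h0 : 0 < c.A0) (hδ : 0 ≤ c.δ) (n : ℕ) :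
    SrcHyp Bg.pl.w (rr c.p c.k0 n) (rr c.p c.k0 (n + 1)) ((2 ^ c.p : ℕ) : ℝ≥0∞)
      (fun _ => ENNReal.ofReal (vS c T n)) (fun _ => ENNReal.ofReal (vS c T (n + 1)))
      (srcD Bg.pl.w e (wpl_ne e)) (dpS Bg.pl.w ∅ c.p c.k0 e n) (fun i => (e i).1)
      (fun i => (e i).2) (fun i => uB Bg.pl.w (e i)) := by
  refine srcHyp_of_dp (wpl_ne e) (fun i => pl_dp n i) (sixteen h4 n)
    (fun i i' h => absurd (Subsingleton.elim i i') h) (fun _ => ?_) (fun _ => ?_)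
    (fun _ => ENNReal.ofReal_ne_top) (fun _ => ?_)
  · rw [Ne, ENNReal.ofReal_eq_zero, not_le]
    exact vS_pos hT h0 hδ n
  · rw [Ne, ENNReal.ofReal_eq_zero, not_le]
    exact vS_pos hT h0 hδ (n + 1)
  · have h1 := vS_hi hT h0 hδ n
    have h2 := (vS_pos hT h0 hδ n).le
    have h3 := (vS_pos hT h0 hδ (n + 1)).le
    rw [← ENNReal.ofReal_pow h3, ← ENNReal.ofReal_pow h2,
      show ((2 ^ c.p : ℕ) : ℝ≥0∞) = ENNReal.ofReal (2 ^ c.p) by
        rw [ENNReal.ofReal_pow (by norm_num)]; simp,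
      ← ENNReal.ofReal_mul (by positivity)]
    exact ENNReal.ofReal_le_ofReal h1

/-- the remainders live on connected sets -/
theorem pl_conn (h4 : 4 ≤ c.p) (hR : 2 * P.R + 1 ≤ nearR c.p c.k0 0) (n : ℕ)
    (U : Finset (ℤ × ℤ)) (hU : ppl c P e n U ≠ 0) : Conn fd (nearR c.p c.k0 n) U := by
  by_cases hK : (flowP Bg.pl P DD ∅ e (wpl_ne e) c.p c.k0).K n U = 0
  · have h1 := flowP_K Bg.pl P DD ∅ e (wpl_ne e) c.p c.k0 n U
    have h2 : (flow0 Bg.pl P DD ∅ c.p c.k0).K n U = 0 := by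
      have h3 := pNoS_K (rs := rr c.p c.k0) (dp := dpS Bg.pl.w ∅ c.p c.k0 e)
        (fs := fldUS fun i => faE (e i)) (R := srcD Bg.pl.w e (wpl_ne e))
        (SOK_flowP Bg.pl P DD ∅ e c.p c.k0) n U
      rw [← h3]
      have h4 : (sysP (flow0 Bg.pl P DD ∅ c.p c.k0) (srcD Bg.pl.w e (wpl_ne e)) (rr c.p c.k0)
        (dpS Bg.pl.w ∅ c.p c.k0 e) (fldUS fun i => faE (e i)) (K0P Bg.pl P e c.p c.k0)).K n U = 0 :=
        hK
      rw [h4, map_zero]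
    rw [hK, h2, map_zero, zero_add] at h1
    have h5 : LEAD (srcD Bg.pl.w e (wpl_ne e))
        (zeP Bg.pl P DD ∅ e (wpl_ne e) c.p c.k0 n) U ≠ 0 := by
      intro h0
      rw [h0, zero_add] at h1
      exact hU h1.symm
    unfold LEAD at h5
    obtain ⟨i, hi, -⟩ := Finset.exists_ne_zero_of_sum_ne_zero h5
    rw [Finset.mem_filter] at hi
    rw [← hi.2]
    exact (J4K0Lx126.conn_faE (e i)).mono (SrcCstx484.nearR_pos h4 n)
  · exact (SrcCstx484.flowP_conn h4 hR n U hK).2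

/-- the leading form -/
theorem pl_beta {Cb : ℝ} (hb : BkReg Cb) (h4 : 4 ≤ c.p) (h0 : 0 < c.A0) (hδ : 0 ≤ c.δ)
    (n : ℕ) (i : Fin 1) :
    pG (wU (wPl ℤ) (amp c (n + 1)) (rr c.p c.k0 (n + 1)) (faE (e i))) (beB (wPl ℤ) (e i)) ≤
      ENNReal.ofReal (11 * Cb ^ 2 * amp c (n + 1) ^ 2 / rr c.p c.k0 (n + 1)) := by
  have hr1 : 1 ≤ rr c.p c.k0 n := GSysx387.rr_pos c.p c.k0 n
  have hr' := sixteen h4 n
  have ha := SrcLimx697.amp_pos h0 hδ (n + 1)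
  have hs : s1 * rr c.p c.k0 (n + 1) + MM + 1 ≤ s2 * rr c.p c.k0 (n + 1) :=
    le_trans (by omega) (s1_le_s2 hr1 hr')
  have h1 := SrcDomx697.pG_beta_le (srcDat_of_dp (pl_dp (c := c) (e := e) n i)) hb ha (by omega) hs
    (faE_fst_mem (e i))
  refine h1.trans (ENNReal.ofReal_le_ofReal ?_)
  have h2 : |uB Bg.pl.w (e i)| ≤ 1 := by
    show |-(2 * xc)| ≤ 1
    have h3 : (0 : ℝ) ≤ √2 := Real.sqrt_nonneg _
    have h5 : √2 ^ 2 = (2 : ℝ) := Real.sq_sqrt (by norm_num)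
    have e1 : Latx683.xc = √2 - 1 := rfl
    rw [e1, abs_neg, abs_le]
    constructor <;> nlinarith
  have h3 : 0 ≤ 11 * Cb ^ 2 * amp c (n + 1) ^ 2 / (rr c.p c.k0 (n + 1) : ℝ) := by positivity
  calc _ ≤ 1 * (11 * Cb ^ 2 * amp c (n + 1) ^ 2 / (rr c.p c.k0 (n + 1) : ℝ)) :=
        mul_le_mul_of_nonneg_right h2 h3
    _ = _ := one_mul _

/-- the norm of the leading part -/
def TTc (c : Cst) (Cb T : ℝ) : ℝ := 198 * c.Γ * Cb ^ 2 * T

theorem pl_lead {Cb : ℝ} (hb : BkReg Cb) (h4 : 4 ≤ c.p) (h0 : 0 < c.A0) (hδ : 0 ≤ c.δ)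
    (hΓ : 0 ≤ c.Γ) {T : ℝ} (hT : 0 < T) (n : ℕ) (hz : |zpl c P e n| ≤ 2) :
    ∑ i, 9 * ENNReal.ofReal c.Γ * ((ENNReal.ofReal (vS c T (n + 1))) ^ 2 *
      (‖zeP Bg.pl P DD ∅ e (wpl_ne e) c.p c.k0 n i‖ₑ *
        pG (wU (wPl ℤ) (amp c (n + 1)) (rr c.p c.k0 (n + 1)) (faE (e i))) (beB (wPl ℤ) (e i)))) ≤
      ENNReal.ofReal (TTc c Cb T) := by
  rw [Fin.sum_univ_one]
  have h1 := pl_beta (e := e) hb h4 h0 hδ n 0
  have h2 : ‖zeP Bg.pl P DD ∅ e (wpl_ne e) c.p c.k0 n 0‖ₑ ≤ ENNReal.ofReal 2 := by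
    rw [Real.enorm_eq_ofReal_abs]
    exact ENNReal.ofReal_le_ofReal hz
  have h9 : (9 : ℝ≥0∞) = ENNReal.ofReal 9 := by simp
  have h3 := (vS_pos hT h0 hδ (n + 1)).le
  have ha := SrcLimx697.amp_pos h0 hδ (n + 1)
  have hrp := rr_pos' c (n + 1)
  calc _ ≤ 9 * ENNReal.ofReal c.Γ * ((ENNReal.ofReal (vS c T (n + 1))) ^ 2 *
        (ENNReal.ofReal 2 * ENNReal.ofReal (11 * Cb ^ 2 * amp c (n + 1) ^ 2 /
          rr c.p c.k0 (n + 1)))) := by gcongr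
    _ = ENNReal.ofReal (9 * c.Γ * (vS c T (n + 1) ^ 2 *
        (2 * (11 * Cb ^ 2 * amp c (n + 1) ^ 2 / rr c.p c.k0 (n + 1))))) := by
        rw [h9, ← ENNReal.ofReal_mul (by norm_num), ← ENNReal.ofReal_mul (by norm_num),
          ← ENNReal.ofReal_pow h3, ← ENNReal.ofReal_mul (by positivity),
          ← ENNReal.ofReal_mul (by positivity)]
    _ = _ := by
        congr 1
        rw [vS_sq hT.le, TTc]
        field_simp
        ring

/-- **one step on the plane** -/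
theorem pl_step {Cb : ℝ} {A CF ε₀ : ℝ≥0∞} {g : ℕ → Fld ℤ → ℝ≥0∞} {C1 : ℕ}
    (hG : StepOKx838.Good c CF C1)
    (h5 : 5 ≤ c.p * (c.k0 + 1)) (h4 : 4 ≤ c.p) (h0 : 0 < c.A0) (hδ : 0 ≤ c.δ) (hδ4 : c.δ ≤ 1 / 4)
    (hb : BkReg Cb) (hΓ : 1 ≤ c.Γ) (hR : 2 * P.R + 1 ≤ nearR c.p c.k0 0) (n : ℕ)
    (H : StepHyp (wPl ℤ) Cb (amp c n) (amp c (n + 1)) (rr c.p c.k0 n) (rr c.p c.k0 (n + 1))
      (slC DD (wPl ℤ) c.p c.k0 n) (g n) ε₀ A (ENNReal.ofReal c.Γ) 3 ((2 ^ c.p : ℕ) : ℝ≥0∞)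
      (nearR c.p c.k0 n))
    {T : ℝ} (hT : 0 < T) (hz : |zpl c P e n| ≤ 2) {b E : ℝ≥0∞} (hb0 : b ≠ 0)
    (hnk : CF * NK (wPl ℤ) (amp c n) (rr c.p c.k0 n) (ENNReal.ofReal c.Γ) allP
      (fun U => (((plF c P).K n U : Ge (Fld ℤ)) : Gr (Fld ℤ))) ≤ b)
    (hE : tpl c P e T n ≤ E) (hT1 : TTc c Cb T ≤ 1)
    (hsm : 16 * (nn3 (rr c.p c.k0 (n + 1)) (nearR c.p c.k0 (n + 1)) : ℝ≥0∞) *
      ((b + b) + ENNReal.ofReal (TTc c Cb T) + cone 3 ((2 ^ c.p : ℕ) : ℝ≥0∞) A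
        (ENNReal.ofReal c.Γ) Cb (rr c.p c.k0 n) (rr c.p c.k0 (n + 1)) * E +
        (b + b) * ENNReal.ofReal (TTc c Cb T)) ≤ 1) :
    tpl c P e T (n + 1) ≤
      (qL 1 ((2 ^ c.p : ℕ) : ℝ≥0∞) A (ENNReal.ofReal c.Γ) Cb (rr c.p c.k0 n)
          (rr c.p c.k0 (n + 1)) +
        cC1 (nn3 (rr c.p c.k0 (n + 1)) (nearR c.p c.k0 (n + 1)))
          (cone 3 ((2 ^ c.p : ℕ) : ℝ≥0∞) A (ENNReal.ofReal c.Γ) Cb (rr c.p c.k0 n)
            (rr c.p c.k0 (n + 1))) * ((b + b) + ENNReal.ofReal (TTc c Cb T) + E)) * E +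
        cC1 (nn3 (rr c.p c.k0 (n + 1)) (nearR c.p c.k0 (n + 1)))
          (cone 3 ((2 ^ c.p : ℕ) : ℝ≥0∞) A (ENNReal.ofReal c.Γ) Cb (rr c.p c.k0 n)
            (rr c.p c.k0 (n + 1))) * ((b + b) * ENNReal.ofReal (TTc c Cb T)) := by
  have hamp : ∀ k, c.A0 ≤ amp c k := fun k => amp_ge h0.le hδ k
  have hamp2 : amp c (n + 1) ≤ 2 * amp c n := by
    have h1 := SrcLimx697.amp_succ_le h0 hδ n
    have h2 := SrcLimx697.amp_pos h0 hδ n
    nlinarith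
  have hΓ1 : (1 : ℝ≥0∞) ≤ ENNReal.ofReal c.Γ := by
    rw [← ENNReal.ofReal_one]
    exact ENNReal.ofReal_le_ofReal hΓ
  have hstr := StrSx897.str_flow_univ (G := ℤ) Bg.pl P DD ∅ (l := c.p) (k0 := c.k0) (by omega)
    hΓ1 (n + 1)
  have hst := stepOK_plane hG h5 P n (hamp n) (hamp (n + 1)) hamp2
  have hbk := bulk_HA hstr (Nat.lt_succ_self n) hst
  have hconn0 := pl_conn (c := c) (P := P) (e := e) h4 hR n
  exact one_step (r := rr c.p c.k0 n) (r' := rr c.p c.k0 (n + 1)) (rs := rr c.p c.k0)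
    (SOK_flowP Bg.pl P DD ∅ e c.p c.k0)
    (fun U I h => K0P_sup Bg.pl P e c.p c.k0 U I h) (fun _ => 1) n rfl H
    (pl_srcHyp h4 hT h0 hδ n) hconn0
    (fun i j _ => Subsingleton.elim i j) (R' := nearR c.p c.k0 (n + 1)) rfl
    (fun i j h => absurd (Subsingleton.elim i j) h) (b1 := b) (b2 := b)
    (hbk.1.trans hnk) (hbk.2.trans hnk) (fun h => hb0 (by simpa using h))
    (pl_lead hb h4 h0 hδ (by linarith) hT n hz) hE
    (by rw [← ENNReal.ofReal_one]; exact ENNReal.ofReal_le_ofReal hT1) hsm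

/-- **the increment of the running coefficient on the plane** -/
theorem pl_zeta {Cb : ℝ} {A ε₀ c₀ : ℝ≥0∞} {g : ℕ → Fld ℤ → ℝ≥0∞} (h4 : 4 ≤ c.p) (h0 : 0 < c.A0)
    (hδ : 0 ≤ c.δ) (hΓ : 1 ≤ c.Γ) (n : ℕ)
    (H : StepHyp (wPl ℤ) Cb (amp c n) (amp c (n + 1)) (rr c.p c.k0 n) (rr c.p c.k0 (n + 1))
      (slC DD (wPl ℤ) c.p c.k0 n) (g n) ε₀ A (ENNReal.ofReal c.Γ) c₀ ((2 ^ c.p : ℕ) : ℝ≥0∞)
      (nearR c.p c.k0 n))
    {T : ℝ} (hT : 0 < T) :
    ENNReal.ofReal T * ‖zpl c P e (n + 1) - zpl c P e n‖ₑ ≤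
      ENNReal.ofReal (4 * 516 ^ 2) * tpl c P e T n := by
  have key := one_zeta (r := rr c.p c.k0 n) (r' := rr c.p c.k0 (n + 1)) (rs := rr c.p c.k0)
    (fs := fldUS fun i => faE (e i)) (SOK_flowP Bg.pl P DD ∅ e c.p c.k0) (fun _ => 1) n rfl H
    (pl_srcHyp (e := e) h4 hT h0 hδ n) 0
  have ha := SrcLimx697.amp_pos h0 hδ n
  have hrp := rr_pos' c n
  have h3 := (vS_pos hT h0 hδ n).le
  have hq : 0 < (rr c.p c.k0 n : ℝ) / amp c n ^ 2 := by positivity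
  have hΓ1 : (1 : ℝ≥0∞) ≤ ENNReal.ofReal c.Γ := by
    rw [← ENNReal.ofReal_one]
    exact ENNReal.ofReal_le_ofReal hΓ
  have h1 : ENNReal.ofReal ((rr c.p c.k0 n : ℝ) / amp c n ^ 2) *
      (ENNReal.ofReal T * ‖zpl c P e (n + 1) - zpl c P e n‖ₑ) ≤
      ENNReal.ofReal ((rr c.p c.k0 n : ℝ) / amp c n ^ 2) *
        (ENNReal.ofReal (4 * 516 ^ 2) * tpl c P e T n) := by
    calc _ = ENNReal.ofReal (vS c T n) ^ 2 * ‖zpl c P e (n + 1) - zpl c P e n‖ₑ := by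
          rw [← mul_assoc, ← ENNReal.ofReal_mul hq.le, ← ENNReal.ofReal_pow h3, vS_sq hT.le]
          congr 2
          ring
      _ ≤ ENNReal.ofReal c.Γ * (ENNReal.ofReal (vS c T n) ^ 2 *
          ‖zpl c P e (n + 1) - zpl c P e n‖ₑ) := le_mul_of_one_le_left' hΓ1
      _ ≤ ENNReal.ofReal (4 * 516 ^ 2 * rr c.p c.k0 n / amp c n ^ 2) * tpl c P e T n := key
      _ = _ := by
          rw [← mul_assoc, ← ENNReal.ofReal_mul hq.le]
          congr 2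
          ring
  exact (ENNReal.mul_le_mul_iff_right (by
    rw [Ne, ENNReal.ofReal_eq_zero, not_le]; exact hq) ENNReal.ofReal_ne_top).1 h1

end pl

/-! ### all scales -/

/-- the numbers of the steps, uniformly in the scale -/
structure PlNum (c : Cst) (Cb : ℝ) (A KC : ℝ≥0∞) : Prop where
  q8 : ∀ n, qL 1 ((2 ^ c.p : ℕ) : ℝ≥0∞) A (ENNReal.ofReal c.Γ) Cb (rr c.p c.k0 n)
    (rr c.p c.k0 (n + 1)) ≤ 1 / 8
  cC : ∀ n, cC1 (nn3 (rr c.p c.k0 (n + 1)) (nearR c.p c.k0 (n + 1)))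
    (cone 3 ((2 ^ c.p : ℕ) : ℝ≥0∞) A (ENNReal.ofReal c.Γ) Cb (rr c.p c.k0 n)
      (rr c.p c.k0 (n + 1))) ≤ KC
  sm : ∀ n, 16 * (nn3 (rr c.p c.k0 (n + 1)) (nearR c.p c.k0 (n + 1)) : ℝ≥0∞) *
    (2 + cone 3 ((2 ^ c.p : ℕ) : ℝ≥0∞) A (ENNReal.ofReal c.Γ) Cb (rr c.p c.k0 n)
      (rr c.p c.k0 (n + 1))) ≤ KC

/-- **all scales**, the plane with one bond source -/
theorem pl_all {c : Cst} {Cb : ℝ} {A CF ε₀ KC : ℝ≥0∞} {g : ℕ → Fld ℤ → ℝ≥0∞} {C1 : ℕ}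
    (hG : StepOKx838.Good c CF C1) (hCF : CF ≠ ∞)
    (h5 : 5 ≤ c.p * (c.k0 + 1)) (h4 : 4 ≤ c.p) (h0 : 0 < c.A0) (hδ : 0 ≤ c.δ) (hδ4 : c.δ ≤ 1 / 4)
    (hb : BkReg Cb) (hCb : 0 < Cb) (hΓ : 1 ≤ c.Γ)
    (H : ∀ n, StepHyp (wPl ℤ) Cb (amp c n) (amp c (n + 1)) (rr c.p c.k0 n)
      (rr c.p c.k0 (n + 1)) (slC DD (wPl ℤ) c.p c.k0 n) (g n) ε₀ A (ENNReal.ofReal c.Γ) 3
      ((2 ^ c.p : ℕ) : ℝ≥0∞) (nearR c.p c.k0 n))
    (hN : PlNum c Cb A KC) (hKC : KC ≠ ∞) :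
    ∃ T1 : ℝ, 0 < T1 ∧ ∀ M0 MP : ℝ, 0 ≤ M0 → 0 ≤ MP → ∃ M : ℝ, 0 < M ∧ ∃ ε0 : ℝ, 0 < ε0 ∧
      ∀ (P : MPar) (e : Fin 1 → Bkgx683.EG ℤ) (x T : ℝ), 2 * P.R + 1 ≤ nearR c.p c.k0 0 →
        0 < x → x ≤ ε0 → 0 < T → T ≤ T1 →
        (∀ n, NK (wPl ℤ) (amp c n) (rr c.p c.k0 n) (ENNReal.ofReal c.Γ) allP
          (fun U => (((plF c P).K n U : Ge (Fld ℤ)) : Gr (Fld ℤ))) ≤
            ENNReal.ofReal (MP * x * (1 / 2) ^ n)) →
        tpl c P e T 0 ≤ ENNReal.ofReal (M0 * x * T) →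
        ∀ n, tpl c P e T n ≤ ENNReal.ofReal (M * x * T * (1 / 2) ^ n) ∧ |zpl c P e n| ≤ 2 ∧
          |zpl c P e (n + 1) - zpl c P e n| ≤ M * x * (1 / 2) ^ n := by
  obtain ⟨T0, hT0, hclose⟩ := close_rec2 hKC
  set K1 : ℝ := 198 * c.Γ * Cb ^ 2 with hK1
  have hK1p : 0 < K1 := by positivity
  have hTT : ∀ T, TTc c Cb T = K1 * T := fun T => rfl
  refine ⟨min (T0 / K1) (1 / K1), by positivity, fun M0 MP hM0 hMP => ?_⟩
  obtain ⟨M', hM', ε', hε', hcl⟩ := hclose (M0 := ENNReal.ofReal (M0 / K1))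
    (a := ENNReal.ofReal (K1 * (4 * 516 ^ 2))) ENNReal.ofReal_ne_top ENNReal.ofReal_ne_top
  set F : ℝ := CF.toReal with hF
  have hF0 : 0 ≤ F := ENNReal.toReal_nonneg
  have eCF : CF = ENNReal.ofReal F := (ENNReal.ofReal_toReal hCF).symm
  set B : ℝ := 2 * (F + 1) * (MP + 1) with hB
  have hBp : 0 < B := by positivity
  set M : ℝ := M' * B * K1 * (4 * 516 ^ 2 + 1) with hM
  have hMp : 0 < M := by positivity
  refine ⟨M, hMp, ε' / B, by positivity, ?_⟩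
  intro P e x T hR hx hxε hT hT1 hNK h00
  have hTa : K1 * T ≤ T0 := by
    have := hT1.trans (min_le_left _ _)
    rwa [le_div_iff₀ hK1p, mul_comm] at this
  have hTb : K1 * T ≤ 1 := by
    have := hT1.trans (min_le_right _ _)
    rwa [le_div_iff₀ hK1p, mul_comm] at this
  have hKT : 0 < K1 * T := by positivity
  have hBx : B * x ≤ ε' := by rwa [le_div_iff₀ hBp, mul_comm] at hxε
  have h1 : ∀ N, ∀ k ≤ N, tpl c P e T k ≤ ENNReal.ofReal M' * ENNReal.ofReal (B * x) *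
      ENNReal.ofReal (K1 * T) * (1 / 2) ^ k ∧ ∀ i : Fin 1, ‖zpl c P e k‖ₑ ≤ 2 := by
    intro N
    refine hcl (ι := Fin 1) (b := fun k => ENNReal.ofReal (B / 2 * x * (1 / 2) ^ k) +
        ENNReal.ofReal (B / 2 * x * (1 / 2) ^ k)) (e := fun k => tpl c P e T k)
      (z := fun k _ => zpl c P e k) (N := N) (ε := ENNReal.ofReal (B * x))
      (T := ENNReal.ofReal (K1 * T)) (κ := 1 / 8) le_rfl (ENNReal.ofReal_le_ofReal hBx)
      (ENNReal.ofReal_le_ofReal hTa) (by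
        rw [Ne, ENNReal.ofReal_eq_zero, not_le]; exact hKT) ?_ ?_ ?_ ?_ ?_
    · intro k _
      rw [← ENNReal.ofReal_add (by positivity) (by positivity), half_ofReal,
        ← ENNReal.ofReal_pow (by norm_num), ← ENNReal.ofReal_mul (by positivity)]
      refine ENNReal.ofReal_le_ofReal (le_of_eq ?_)
      ring
    · refine h00.trans ?_
      rw [← ENNReal.ofReal_mul (by positivity), ← ENNReal.ofReal_mul (by positivity)]
      refine ENNReal.ofReal_le_ofReal ?_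
      have h2 : M0 / K1 * (B * x) * (K1 * T) = B * (M0 * x * T) := by
        field_simp
      rw [h2]
      have h3 : 1 ≤ B := by rw [hB]; nlinarith
      have h4 : 0 ≤ M0 * x * T := by positivity
      nlinarith
    · intro i
      show ‖zpl c P e 0‖ₑ ≤ 3 / 2
      have h2 : zpl c P e 0 = 1 := zeP_zero Bg.pl P DD ∅ e (wpl_ne e) c.p c.k0 0
      rw [h2, enorm_one]
      rw [ENNReal.le_div_iff_mul_le (Or.inl (by norm_num)) (Or.inl (by norm_num))]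
      norm_num
    · intro k _ i
      have h2 := pl_zeta (P := P) (e := e) (c₀ := 3) h4 h0 hδ hΓ k (H k) hT
      calc ENNReal.ofReal (K1 * T) * ‖zpl c P e (k + 1) - zpl c P e k‖ₑ
          = ENNReal.ofReal K1 * (ENNReal.ofReal T * ‖zpl c P e (k + 1) - zpl c P e k‖ₑ) := by
            rw [ENNReal.ofReal_mul hK1p.le, mul_assoc]
        _ ≤ ENNReal.ofReal K1 * (ENNReal.ofReal (4 * 516 ^ 2) * tpl c P e T k) :=
            mul_le_mul_right h2 _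
        _ = _ := by rw [← mul_assoc, ← ENNReal.ofReal_mul hK1p.le]
    · intro k _ he1 hsm hzk
      have hz2 : |zpl c P e k| ≤ 2 := by
        have h2 := hzk 0
        rw [Real.enorm_eq_ofReal_abs, show (2 : ℝ≥0∞) = ENNReal.ofReal 2 by simp] at h2
        exact (ENNReal.ofReal_le_ofReal_iff (by norm_num)).1 h2
      set bk : ℝ≥0∞ := ENNReal.ofReal (B / 2 * x * (1 / 2) ^ k) with hbk
      set TT : ℝ≥0∞ := ENNReal.ofReal (K1 * T) with hTTd
      have hb0 : bk ≠ 0 := by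
        rw [hbk, Ne, ENNReal.ofReal_eq_zero, not_le]
        positivity
      have hTT1 : TT ≤ 1 := by
        rw [hTTd, ← ENNReal.ofReal_one]
        exact ENNReal.ofReal_le_ofReal hTb
      have hnk : CF * NK (wPl ℤ) (amp c k) (rr c.p c.k0 k) (ENNReal.ofReal c.Γ) allP
          (fun U => (((plF c P).K k U : Ge (Fld ℤ)) : Gr (Fld ℤ))) ≤ bk := by
        refine (mul_le_mul_right (hNK k) _).trans ?_
        rw [eCF, ← ENNReal.ofReal_mul hF0, hbk]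
        refine ENNReal.ofReal_le_ofReal ?_
        have h2 : B / 2 * x * (1 / 2) ^ k = (F + 1) * ((MP + 1) * x * (1 / 2) ^ k) := by
          rw [hB]; ring
        rw [h2]
        have h3 : 0 ≤ x * (1 / 2) ^ k := by positivity
        have h4 : MP * x * (1 / 2) ^ k ≤ (MP + 1) * x * (1 / 2) ^ k := by nlinarith
        exact mul_le_mul (by linarith) h4 (by positivity) (by positivity)
      have hs2 : 16 * (nn3 (rr c.p c.k0 (k + 1)) (nearR c.p c.k0 (k + 1)) : ℝ≥0∞) *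
          ((bk + bk) + TT + cone 3 ((2 ^ c.p : ℕ) : ℝ≥0∞) A
            (ENNReal.ofReal c.Γ) Cb (rr c.p c.k0 k) (rr c.p c.k0 (k + 1)) * tpl c P e T k +
            (bk + bk) * TT) ≤ 1 := by
        refine le_trans ?_ hsm
        set cn := cone 3 ((2 ^ c.p : ℕ) : ℝ≥0∞) A
            (ENNReal.ofReal c.Γ) Cb (rr c.p c.k0 k) (rr c.p c.k0 (k + 1)) with hcn
        calc _ ≤ 16 * (nn3 (rr c.p c.k0 (k + 1)) (nearR c.p c.k0 (k + 1)) : ℝ≥0∞) *
              ((bk + bk) + TT + cn * tpl c P e T k + (bk + bk) * 1) := by gcongr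
          _ = 16 * (nn3 (rr c.p c.k0 (k + 1)) (nearR c.p c.k0 (k + 1)) : ℝ≥0∞) *
              (2 * (bk + bk) + 1 * TT + cn * tpl c P e T k) := by ring
          _ ≤ 16 * (nn3 (rr c.p c.k0 (k + 1)) (nearR c.p c.k0 (k + 1)) : ℝ≥0∞) *
              ((2 + cn) * (bk + bk) + (2 + cn) * TT + (2 + cn) * tpl c P e T k) := by
              gcongr
              · exact le_self_add
              · exact le_trans (by norm_num) (le_self_add (a := (2 : ℝ≥0∞)) (b := cn))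
              · exact le_add_self
          _ = 16 * (nn3 (rr c.p c.k0 (k + 1)) (nearR c.p c.k0 (k + 1)) : ℝ≥0∞) * (2 + cn) *
              ((bk + bk) + TT + tpl c P e T k) := by ring
          _ ≤ _ := mul_le_mul_left (hN.sm k) _
      have h2 := pl_step (P := P) (e := e) hG h5 h4 h0 hδ hδ4 hb hΓ hR k (H k) hT hz2 hb0 hnk
        le_rfl (by rw [hTT]; exact hTb) hs2
      refine h2.trans ?_
      have h3 := hN.q8 k
      have h6 := hN.cC k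
      show _ ≤ (1 / 8 + KC * (bk + bk + TT + tpl c P e T k)) * tpl c P e T k +
        KC * ((bk + bk) * TT)
      rw [← hTT] at hTTd
      rw [← hTTd]
      gcongr
  intro n
  have h2 : ∀ k, tpl c P e T k ≤ ENNReal.ofReal (M' * B * K1 * x * T * (1 / 2) ^ k) := by
    intro k
    refine (h1 k k le_rfl).1.trans (le_of_eq ?_)
    rw [half_ofReal, ← ENNReal.ofReal_pow (by norm_num), ← ENNReal.ofReal_mul (by positivity),
      ← ENNReal.ofReal_mul (by positivity), ← ENNReal.ofReal_mul (by positivity)]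
    congr 1
    ring
  have hMM : M' * B * K1 ≤ M := by
    rw [hM]
    have : 0 ≤ M' * B * K1 := by positivity
    nlinarith
  refine ⟨(h2 n).trans (ENNReal.ofReal_le_ofReal ?_), ?_, ?_⟩
  · have h3 : 0 ≤ x * T * (1 / 2) ^ n := by positivity
    calc M' * B * K1 * x * T * (1 / 2) ^ n = M' * B * K1 * (x * T * (1 / 2) ^ n) := by ring
      _ ≤ M * (x * T * (1 / 2) ^ n) := mul_le_mul_of_nonneg_right hMM h3
      _ = _ := by ring
  · have h3 := (h1 n n le_rfl).2 0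
    rw [Real.enorm_eq_ofReal_abs, show (2 : ℝ≥0∞) = ENNReal.ofReal 2 by simp] at h3
    exact (ENNReal.ofReal_le_ofReal_iff (by norm_num)).1 h3
  · have h3 := (pl_zeta (P := P) (e := e) (c₀ := 3) h4 h0 hδ hΓ n (H n) hT).trans
      (mul_le_mul_right (h2 n) _)
    rw [Real.enorm_eq_ofReal_abs, ← ENNReal.ofReal_mul hT.le, ← ENNReal.ofReal_mul (by norm_num)]
      at h3
    have h6 := (ENNReal.ofReal_le_ofReal_iff (by positivity)).1 h3
    have h7 : T * |zpl c P e (n + 1) - zpl c P e n| ≤ T * (M * x * (1 / 2) ^ n) := by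
      refine h6.trans ?_
      have h8 : 0 ≤ M' * B * K1 * (T * x * (1 / 2) ^ n) := by positivity
      have h9 : T * (M * x * (1 / 2) ^ n) =
          (4 * 516 ^ 2 + 1) * (M' * B * K1 * (T * x * (1 / 2) ^ n)) := by rw [hM]; ring
      have h10 : 4 * 516 ^ 2 * (M' * B * K1 * x * T * (1 / 2) ^ n) =
          4 * 516 ^ 2 * (M' * B * K1 * (T * x * (1 / 2) ^ n)) := by ring
      rw [h9, h10]
      linarith
    exact le_of_mul_le_mul_left h7 hT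

/-! ### the numbers -/

/-- the constant of the recursion -/
def KCs (p : ℕ) : ℝ≥0∞ := SrcNumx943.KC1 p +
  16 * ((SrcNumx943.N3 p : ℕ) : ℝ≥0∞) * (2 + 10 * ((2 ^ p : ℕ) : ℝ≥0∞))

theorem KCs_ne_top (p : ℕ) : KCs p ≠ ∞ := by
  have h1 := SrcNumx943.KC1_ne_top p
  have h2 : ((SrcNumx943.N3 p : ℕ) : ℝ≥0∞) ≠ ∞ := ENNReal.natCast_ne_top _
  have h3 : ((2 ^ p : ℕ) : ℝ≥0∞) ≠ ∞ := ENNReal.natCast_ne_top _
  unfold KCs
  finiteness

theorem plNum_of {c : Cst} {Cb : ℝ} {A : ℝ≥0∞} {C1 : ℕ} (h : SrcStepHypx943.GoodS c Cb A C1)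
    (hδ : 0 ≤ c.δ) (hδ4 : c.δ ≤ 1 / 4) : PlNum c Cb A (KCs c.p) := by
  have hamp : ∀ k, c.A0 ≤ amp c k := fun k => amp_ge h.A0.le hδ k
  have hamp2 : ∀ n, amp c (n + 1) ≤ 2 * amp c n := fun n => by
    have h1 := SrcLimx697.amp_succ_le h.A0 hδ n
    have h2 := SrcLimx697.amp_pos h.A0 hδ n
    nlinarith
  have key := fun n => SrcNumx943.step_consts
    (h.plane n _ _ (hamp n) (hamp (n + 1)) (hamp2 n)) h.L128
  refine ⟨fun n => (key n).1, fun n => (key n).2.2.trans le_self_add, fun n => ?_⟩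
  refine le_trans ?_ le_add_self
  have h1 : (nn3 (rr c.p c.k0 (n + 1)) (nearR c.p c.k0 (n + 1)) : ℝ≥0∞) ≤
      ((SrcNumx943.N3 c.p : ℕ) : ℝ≥0∞) := by exact_mod_cast SrcNumx943.nn3_le c.p c.k0 n
  have h2 := (key n).2.1
  gcongr

/-- the touching range of the first step is larger than the range of the potential -/
theorem ev_nearR (N : ℕ) : EvC fun c => N ≤ nearR c.p c.k0 0 := by
  refine ((Constx891.ev_p_ge 1).and (Constx891.ev_k0_ge fun _ _ => N + 3)).mono fun c hc => ?_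
  obtain ⟨h1, h2⟩ := hc
  unfold nearR rr
  rw [Nat.le_div_iff_mul_le (by norm_num)]
  have h3 : N + 3 ≤ c.p * (c.k0 + (0 + 1)) := by nlinarith
  calc N * 8 ≤ 2 ^ N * 8 := Nat.mul_le_mul_right _ Nat.lt_two_pow_self.le
    _ = 2 ^ (N + 3) := by rw [pow_add]; norm_num
    _ ≤ 2 ^ (c.p * (c.k0 + (0 + 1))) := Nat.pow_le_pow_right (by norm_num) h3

/-- **THE PLANE WITH ONE BOND SOURCE**: total norm of the remainders, running coefficients -/
theorem zA {J : ℝ} {R : ℕ} {V : Finset (ℤ × ℤ) → ℝ} (hV : Topx683.VHyp R V) :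
    EvC fun c => ∃ T1 : ℝ, 0 < T1 ∧ ∀ C : ℝ, ∃ ε > 0, ∃ M > 0, ∀ lam β z : ℝ, |lam| < ε →
      NearP J C lam β z → PF J R V C c lam β z → ∀ (e : Fin 1 → Bkgx683.EG ℤ) (T : ℝ), 0 < T →
        T ≤ T1 → ∀ n,
        tpl c (mpar J lam R V β z) e T n ≤ ENNReal.ofReal (M * |lam| * T * (1 / 2) ^ n) ∧
        |zpl c (mpar J lam R V β z) e n| ≤ 2 ∧
        |zpl c (mpar J lam R V β z) e (n + 1) - zpl c (mpar J lam R V β z) e n| ≤
          M * |lam| * (1 / 2) ^ n := by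
  obtain ⟨Cb, A, hS⟩ := SrcStepHypx943.goodS_ev
  have hδ4 := Constx891.ev_δ_le (fun _ _ _ _ => 1 / 4) fun _ _ _ _ => by norm_num
  have hB := ev_nearR (2 * max R 1 + 1)
  have h0 := e0_ev J R V
  have hG := StepOKx838.stepOK_ev
  have hP := PlBx117.plB (J := J) hV
  refine ((((((hS.and hδ4).and hB).and h0).and hG).and hP).and Constx891.ev_std).mono
    fun c hc => ?_
  obtain ⟨⟨⟨⟨⟨⟨⟨C1, hS⟩, hδ4⟩, hB⟩, hu0, h0⟩, CF, hCF, C1', hG⟩, hP⟩, hstd⟩ := hc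
  have hδ := hstd.δ_pos.le
  have hA0 := hS.A0
  have h5 : 5 ≤ c.p * (c.k0 + 1) := by
    have h1 := hstd.p_pos
    have h2 := hstd.k0_pos
    nlinarith
  have hamp : ∀ k, c.A0 ≤ amp c k := fun k => amp_ge hA0.le hδ k
  have hamp2 : ∀ n, amp c (n + 1) ≤ 2 * amp c n := fun n => by
    have h1 := SrcLimx697.amp_succ_le hA0 hδ n
    have h2 := SrcLimx697.amp_pos hA0 hδ n
    nlinarith
  have hSH := fun n => hS.plane n _ _ (hamp n) (hamp (n + 1)) (hamp2 n)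
  obtain ⟨T1, hT1, hall⟩ := pl_all (g := fun n => W0Sx897.gwS DD (wPl ℤ) c.p c.k0 n) hG hCF h5
    hstd.p_pos hA0 hδ hδ4 (hSH 0).bk hS.Cb_pos (by linarith [hstd.Γ_ge]) hSH (plNum_of hS hδ hδ4)
    (KCs_ne_top c.p)
  set q : ℝ := (rr c.p c.k0 0 : ℝ) / c.A0 ^ 2 with hq
  have hqp : 0 < q := by
    have := rr_pos' c 0
    positivity
  refine ⟨min T1 (u0c (max R 1) c / q), by positivity, fun C => ?_⟩
  obtain ⟨ε1, hε1, M0, hM0, h0⟩ := h0 C
  obtain ⟨ε2, hε2, MP, hMP, hP⟩ := hP C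
  obtain ⟨M, hM, ε0, hε0, hall⟩ := hall (M0 * q) MP (by positivity) hMP
  refine ⟨min (min ε1 ε2) ε0, by positivity, M, hM, ?_⟩
  intro lam β z hlam hnear hPF e T hT hTT n
  have hl1 : |lam| < ε1 := hlam.trans_le ((min_le_left _ _).trans (min_le_left _ _))
  have hl2 : |lam| < ε2 := hlam.trans_le ((min_le_left _ _).trans (min_le_right _ _))
  have hl3 : |lam| < ε0 := hlam.trans_le (min_le_right _ _)
  have hTu : T * q ≤ u0c (max R 1) c := by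
    have := hTT.trans (min_le_right _ _)
    rwa [le_div_iff₀ hqp] at this
  have hv0 := vS_pos hT hA0 hδ 0
  -- the start
  have hst : tpl c (mpar J lam R V β z) e T 0 ≤ ENNReal.ofReal (M0 * q * |lam| * T) := by
    have h1 := h0 lam β z hl1 hnear Bg.pl C0ax950.W1_pl (wPl ℤ) DD ∅ 1 e (wpl_ne e)
      (fun i j h => absurd (Subsingleton.elim i j) h) (fun _ => ENNReal.ofReal (vS c T 0))
      (ENNReal.ofReal (T * q)) (fun _ => by rw [Ne, ENNReal.ofReal_eq_zero, not_le]; exact hv0)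
      (fun _ => by
        rw [← ENNReal.ofReal_pow hv0.le, vS_sq hT.le]
        refine ENNReal.ofReal_le_ofReal (le_of_eq ?_)
        have : amp c 0 = c.A0 := by simp [Outx683.amp]
        rw [this, hq]
        ring) (ENNReal.ofReal_le_ofReal hTu)
    have e0 : amp c 0 = c.A0 := by simp [Outx683.amp]
    show Tot (fun U => wU (wPl ℤ) (amp c 0) (rr c.p c.k0 0) U) _ _ _ _ ≤ _
    rw [e0]
    refine h1.trans (le_of_eq ?_)
    rw [Nat.cast_one, one_mul, ← ENNReal.ofReal_mul (by positivity)]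
    congr 1
    ring
  -- every `x > |lam|`
  have hx : ∀ x : ℝ, |lam| < x → x ≤ ε0 →
      tpl c (mpar J lam R V β z) e T n ≤ ENNReal.ofReal (M * x * T * (1 / 2) ^ n) ∧
        |zpl c (mpar J lam R V β z) e n| ≤ 2 ∧
        |zpl c (mpar J lam R V β z) e (n + 1) - zpl c (mpar J lam R V β z) e n| ≤
          M * x * (1 / 2) ^ n := by
    intro x hx hxε
    have hx0 : 0 < x := (abs_nonneg lam).trans_lt hx
    refine hall (mpar J lam R V β z) e x T hB hx0 hxε hT (hTT.trans (min_le_left _ _))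
      (fun k => (hP lam β z hl2 hnear hPF k).trans (ENNReal.ofReal_le_ofReal ?_))
      (hst.trans (ENNReal.ofReal_le_ofReal ?_)) n
    · have : 0 ≤ MP * (1 / 2 : ℝ) ^ k := by positivity
      nlinarith
    · have : 0 ≤ M0 * q * T := by positivity
      nlinarith
  have hev : ∀ᶠ x in 𝓝[>] |lam|, |lam| < x ∧ x ≤ ε0 := by
    have h1 : Set.Ioc |lam| ε0 ∈ 𝓝[>] |lam| := Ioc_mem_nhdsGT hl3
    filter_upwards [h1] with x hx
    exact hx
  have hc1 : Tendsto (fun x : ℝ => ENNReal.ofReal (M * x * T * (1 / 2) ^ n)) (𝓝[>] |lam|)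
      (𝓝 (ENNReal.ofReal (M * |lam| * T * (1 / 2) ^ n))) := by
    refine (ENNReal.continuous_ofReal.comp ?_).continuousAt.tendsto.mono_left nhdsWithin_le_nhds
    fun_prop
  have hc2 : Tendsto (fun x : ℝ => M * x * (1 / 2) ^ n) (𝓝[>] |lam|)
      (𝓝 (M * |lam| * (1 / 2) ^ n)) := by
    refine Continuous.continuousAt (f := fun x : ℝ => M * x * (1 / 2) ^ n) ?_
      |>.tendsto.mono_left nhdsWithin_le_nhds
    fun_prop
  refine ⟨ge_of_tendsto hc1 (hev.mono fun x h => (hx x h.1 h.2).1), ?_,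
    ge_of_tendsto hc2 (hev.mono fun x h => (hx x h.1 h.2).2.2)⟩
  exact (hx ε0 hl3 le_rfl).2.1

end Crest.Agent.R165.ZeAx915
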