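import Crest.Agent.R165.SrcDomH_697
import Crest.Agent.R165.SrcGen_359
import Crest.Agent.R165.StepDom_838
import Crest.Agent.R165.ZeA_915

/-!
# Row 165 (S0250), leaf P11: the remainders of the `C²` domains (helper697)

* `genH_dom` : the inputs `GenH` (helper359) at one mesh
* `sA_dom` : **the total norms of the remainders of all `C²` Jordan domains**, all scales
-/

set_option autoImplicit false
set_option linter.unusedSectionVars false
set_option linter.unusedVariables false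

noncomputable section

namespace Crest.Agent.R165.SrcDomx697

open Finset Filter Topology
open scoped ENNReal
open Crest.ProbabilityR.IsingModel
open Crest.Agent.R165.Geo (LatReg bdS)
open Crest.Agent.R165.PNormx417
open Crest.Agent.R165.Gr0x606 Crest.Agent.R165.Gr1x606 Crest.Agent.R165.GeOpsx337
  Crest.Agent.R165.ExpGx337 Crest.Agent.R165.KFlowx337
open Crest.Agent.R165.Latx683 (BW wDom wX IsCov covS Fld HE Aop)
open Crest.Agent.R165.GDefx387 Crest.Agent.R165.GSysx387 Crest.Agent.R165.FRDPolyx439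
  Crest.Agent.R165.BgIsox432 Crest.Agent.R165.PStepx417
open Crest.Agent.R165.Bkgx683 (MPar mpar Bg cor bondSrc)
open Crest.Agent.R165.Outx683 (DD amp PF)
open Crest.Agent.R165.PEndx683 (Cst ForP NearP EvC EvC.mono EvC.and)
open Crest.Agent.R165.J4Geox126 (faE)
open Crest.Agent.R165.JRunSx408 (SrcOK eb xb q_run q0_run VolS)
open Crest.Agent.R165.SrcInsx991
open Crest.Agent.R165.SrcLimx697
open Crest.Agent.R165.GeoScx420 (KK_tendsto)
open Crest.Agent.R165.SrcGeox485 (DomEv domEv)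
open Crest.Agent.R165.EnFinex811 (FineAt)
open Crest.Agent.R165.SRdomAx900 (Lam)
open Crest.Agent.R165.SRdomx900 (Basic ev_basic amp_tendsto)
open Crest.Agent.R165.U5Px422 (TT)
open Crest.Agent.R165.Scalex900 (lastK)
open Crest.Agent.R165.SrcGenx359 (GenH C2c sA_gen)
open Crest.Agent.R165.Compx889 (DomCfg Ctl NPc Str ev_domCfg coe_TT)
open Crest.Agent.R165.Constx891 (Std)
open Crest.Agent.R165.DefRecx915 Crest.Agent.R165.NSumx915
open Crest.Agent.R165.ZeEbx922 (zE)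
open Crest.Agent.R165.Centx541 Crest.Agent.R165.Redx541 Crest.Agent.R165.Symx541
  Crest.Agent.R165.Red2x541 Crest.Agent.R165.Topx683 Crest.Agent.R165.SRx541

local notation "KA" => Crest.Agent.R165.GeoScx420.KK

theorem ofReal_half_pow {M : ℝ} (hM : 0 ≤ M) (k : ℕ) :
    ENNReal.ofReal (M * (1 / 2) ^ k) = ENNReal.ofReal M * (1 / 2) ^ k := by
  rw [ENNReal.ofReal_mul hM, ENNReal.ofReal_pow (by norm_num)]
  congr 2
  rw [ENNReal.ofReal_div_of_pos (by norm_num)]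
  simp

/-- **the inputs of the recursion at one mesh** -/
theorem genH_dom {c : Cst} {CF : ℝ≥0∞} {Cg0 C1 R : ℕ} {P : MPar} {D : Set ℂ}
    {b : BoundaryCondition} {n m : ℕ} {x : Fin n → ℂ} {y : Fin m → ℂ} {j : Fin m → Fin 2}
    {Cg Cv d a : ℝ} {ac em : ℕ → Finset (ℤ × ℤ) → Prop} {M0 : ℝ} (hM0 : 0 ≤ M0)
    (hC1 : C2c c ≤ C1) (h : DomEv c R C1 D b x y j Cg Cv d a)
    (hcfg : DomCfg c Cg0 (TT D a) (xb a x) ∅ (KA c.p c.k0 d a))
    (hctl : Ctl c CF (amp c) (Outx683.domF c P (TT D a) b (xb a x))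
      (wX (wDom ((TT D a : Finset (ℤ × ℤ)) : Set (ℤ × ℤ)) (Bkgx683.isF b)) (xb a x)) ac em
      (KA c.p c.k0 d a))
    (hnk : ∀ k ≤ KA c.p c.k0 d a, NPc c (Outx683.domF c P (TT D a) b (xb a x))
      (wX (wDom ((TT D a : Finset (ℤ × ℤ)) : Set (ℤ × ℤ)) (Bkgx683.isF b)) (xb a x)) (amp c) allP
      k ≤ ENNReal.ofReal (M0 * (1 / 2) ^ k)) :
    GenH c Cg0 P (TT D a) b (xb a x) (eb a y j) CF (ENNReal.ofReal M0) (KA c.p c.k0 d a) := by
  have hT : ((TT D a : Finset (ℤ × ℤ)) : Set (ℤ × ℤ)) = domainSites D a := by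
    rw [h.tt, Set.Finite.coe_toFinset]
  have hmono : ∀ k < KA c.p c.k0 d a, rr c.p c.k0 (k + 1) ≤ rr c.p c.k0 (KA c.p c.k0 d a) :=
    fun k hk => rr_mono c.p c.k0 hk
  refine ⟨?_, fun k hk => ⟨_, hcfg.sep.mono ?_⟩, fun k hk => ?_, fun k hk => ?_, fun k hk => ?_⟩
  · obtain ⟨ρ, κ, h1, h2, h3⟩ := hcfg.reg
    refine ⟨ρ, κ, h1, h2, fun k hk => le_trans (mul_le_mul_of_nonneg_left ?_ (Nat.cast_nonneg _)) h3⟩
    exact_mod_cast hmono k hk
  · exact Nat.mul_le_mul_left _ (hmono k hk)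
  · rw [hT]
    exact (h.ch k hk).mono (Nat.mul_le_mul_right _ hC1)
  · refine ((BulkHAx915.bulk_HA hctl.str hk (hctl.step k hk)).1).trans ?_
    refine mul_le_mul_right ?_ CF
    rw [← ofReal_half_pow hM0]
    exact hnk k hk.le
  · refine ((BulkHAx915.bulk_HA hctl.str hk (hctl.step k hk)).2).trans ?_
    refine mul_le_mul_right ?_ CF
    rw [← ofReal_half_pow hM0]
    exact hnk k hk.le

/-- **the total norms of the remainders of all `C²` Jordan domains**, all scales up to the last one,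
any number of sources -/
theorem sA_dom {J : ℝ} {R : ℕ} {V : Finset (ℤ × ℤ) → ℝ} (hV : VHyp R V) :
    EvC fun c => Std c ∧ ∃ T1 > 0, ∀ C : ℝ, ∃ ε > 0, ∃ M > 0, ∀ lam β z : ℝ, |lam| < ε →
      NearP J C lam β z → PF J R V C c lam β z → (∀ k, |zE J R V c lam β z 0 k| ≤ 2) →
      ∀ C1 : ℕ, C2c c ≤ C1 → ∀ D : Set ℂ, IsC2JordanDomain D →
      ∀ (b : BoundaryCondition) (n m : ℕ), 1 ≤ m →
      ∀ (x : Fin n → ℂ) (y : Fin m → ℂ) (j : Fin m → Fin 2), (∀ i, x i ∈ D) →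
      Function.Injective x → ∃ d2 > 0, ∀ d : ℝ, 0 < d → d ≤ d2 → ∀ᶠ a : ℝ in 𝓝[>] 0,
      ∀ Cg Cv : ℝ, DomEv c (max R 1) C1 D b x y j Cg Cv d a →
      ∀ (he : ∀ i, (Bg.dom (TT D a) b (xb a x)).w (eb a y j i).1 (eb a y j i).2 ≠ 0) (t : ℝ),
      0 < t → m * t ≤ T1 → ∀ k ≤ KA c.p c.k0 d a,
        SrcFlowx54.totP c (Bg.dom (TT D a) b (xb a x)) (mpar J lam R V β z) (eb a y j) he t k ≤
          ENNReal.ofReal (M * |lam| * (m * t) * (1 / 2) ^ k) := by
  obtain ⟨Cb, A, h0⟩ := sA_gen (J := J) hV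
  refine (EvC.and h0 (EvC.and (Compx889.dom_bd (SpPLx67.symL (J := J) hV))
    (StepDomx838.ctl_domF_ev (max R 1)))).mono fun c hc => ?_
  obtain ⟨⟨hs, h5, hnr, Cg0, hG, T1, hT1, hgen⟩, hbd, -, CF, hCF, hctl⟩ := hc
  refine ⟨hs, T1, hT1, fun C => ?_⟩
  obtain ⟨ε₂, hε₂, Mb, hMb, h2⟩ := hbd C
  obtain ⟨ε₁, hε₁, M, hM, h1⟩ := hgen C CF hCF Mb hMb
  refine ⟨min ε₁ ε₂, lt_min hε₁ hε₂, M, hM, fun lam β z hl hn hp hz C1 hC1 D hD b n m hm x y j hx
    hinj => ?_⟩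
  obtain ⟨d1, hd1, e1⟩ := h2 lam β z (hl.trans_le (min_le_right _ _)) hn hp D hD b n x hx hinj
  obtain ⟨d2, hd2, e2⟩ := hctl D hD n x hx hinj
  obtain ⟨d3, hd3, e3⟩ := ev_domCfg c Cg0 hD hx hinj
  refine ⟨min d1 (min d2 d3), lt_min hd1 (lt_min hd2 hd3), fun d hd hdd => ?_⟩
  filter_upwards [e1 d hd (hdd.trans (min_le_left _ _)),
    e2 d hd (hdd.trans ((min_le_right _ _).trans (min_le_left _ _))),
    e3 d hd (hdd.trans ((min_le_right _ _).trans (min_le_right _ _)))] with a g1 g2 g3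
  intro Cg Cv hev he t ht hmt k hk
  have hT : ((TT D a : Finset (ℤ × ℤ)) : Set (ℤ × ℤ)) = domainSites D a := by
    rw [hev.tt, Set.Finite.coe_toFinset]
  have hKA : KA c.p c.k0 d a = lastK c.p c.k0 (d * a⁻¹) := by
    rw [GeoScx420.KK, div_eq_mul_inv]
  refine h1 lam β z (hl.trans_le (min_le_left _ _)) hn hz (TT D a) b n m (xb a x) (eb a y j)
    (KA c.p c.k0 d a) hm ?_ he t ht hmt k hk
  refine genH_dom (by positivity) hC1 hev (by rw [hKA]; exact g3)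
    (g2 (TT D a) hT b (mpar J lam R V β z) le_rfl).1 fun k hk => ?_
  rw [hKA] at hk
  exact g1.nk k hk

end Crest.Agent.R165.SrcDomx697
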