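import Crest.Agent.R165.SrcDomI_697
import Crest.Agent.R165.SrcFine_484
import Crest.Agent.R165.ZeB_915

/-!
# Row 165 (S0250), leaf P11: **the energy ratios of the `C²` domains** (helper697)

* `fineC2 : FineC2 J R V (Ze J R V) (eb J R V)`
* `enD` : `ForP J (PF J R V) (ERD ..)` with the renormalisation of helper922
-/

set_option autoImplicit false
set_option linter.unusedSectionVars false
set_option linter.unusedVariables false

noncomputable section

namespace Crest.Agent.R165.SrcDomx697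

open Finset Filter Topology
open scoped ENNReal
open Crest.ProbabilityR.IsingModel
open Crest.Agent.R165.PNormx417
open Crest.Agent.R165.Gr0x606 Crest.Agent.R165.Gr1x606 Crest.Agent.R165.GeOpsx337
  Crest.Agent.R165.ExpGx337 Crest.Agent.R165.KFlowx337
open Crest.Agent.R165.Latx683 (BW wDom wX IsCov covS Fld HE Aop)
open Crest.Agent.R165.GDefx387 Crest.Agent.R165.GSysx387 Crest.Agent.R165.FRDPolyx439
  Crest.Agent.R165.BgIsox432 Crest.Agent.R165.PStepx417
open Crest.Agent.R165.Bkgx683 (MPar mpar Bg cor bondSrc)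
open Crest.Agent.R165.Outx683 (DD amp PF)
open Crest.Agent.R165.PEndx683 (Cst ForP NearP EvC EvC.mono EvC.and)
open Crest.Agent.R165.J4Geox126 (faE)
open Crest.Agent.R165.JRunSx408 (SrcOK eb xb q_run q0_run VolS)
open Crest.Agent.R165.SrcInsx991
open Crest.Agent.R165.SrcLimx697
open Crest.Agent.R165.SrcGeox485 (DomEv domEv)
open Crest.Agent.R165.EnFinex811 (FineAt)
open Crest.Agent.R165.U5Px422 (TT)
open Crest.Agent.R165.SrcGenx359 (C2c)
open Crest.Agent.R165.SrcFinex484 (FineC fineC_ev fineAt_of)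
open Crest.Agent.R165.Constx891 (Std)
open Crest.Agent.R165.Centx541 Crest.Agent.R165.Redx541 Crest.Agent.R165.Symx541
  Crest.Agent.R165.Red2x541 Crest.Agent.R165.Topx683 Crest.Agent.R165.SRx541

local notation "KA" => Crest.Agent.R165.GeoScx420.KK

/-- **the fine phase of all `C²` Jordan domains** -/
theorem fineC2 {J : ℝ} {R : ℕ} {V : Finset (ℤ × ℤ) → ℝ} (hV : VHyp R V) :
    FineC2 J R V (ZeEbx922.Ze J R V) (ZeEbx922.eb J R V) := by
  obtain ⟨Cb, hCb, hb⟩ := SrcStepHypx943.exists_Cb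
  unfold FineC2 ForP
  refine (EvC.and (EvC.and (sA_dom (J := J) hV) (ZeAx915.zA_all (J := J) hV))
    (EvC.and (ZeEbx922.hz_ev hV (ZeAx915.zInc (J := J) hV)) (fineC_ev R))).mono fun c hc C => ?_
  obtain ⟨⟨⟨hs, T1, hT1, h1⟩, h2⟩, h3, hfc⟩ := hc
  obtain ⟨ε₁, hε₁, M1, hM1, h1⟩ := h1 C
  obtain ⟨ε₂, hε₂, T2, hT2, M2, hM2, h2⟩ := h2 C
  obtain ⟨ε₃, hε₃, M3, hM3, h3⟩ := h3 C
  refine ⟨min ε₁ (min ε₂ ε₃), lt_min hε₁ (lt_min hε₂ hε₃), fun lam β z hl hn hp m hm => ?_⟩
  have hl1 : |lam| < ε₁ := hl.trans_le (min_le_left _ _)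
  have hl2 : |lam| < ε₂ := hl.trans_le ((min_le_right _ _).trans (min_le_left _ _))
  have hl3 : |lam| < ε₃ := hl.trans_le ((min_le_right _ _).trans (min_le_right _ _))
  obtain ⟨hZe, hz2, hz⟩ := h3 lam β z hl3 hn hp
  obtain ⟨-, -, hpl⟩ := h2 lam β z hl2 hn hp
  have hdom := h1 lam β z hl1 hn hp (fun k => hz2 0 k)
  clear h1 h2 h3
  refine ⟨max (C2c c) m, fun C1 hC1 D hD b n hR x y j hx hy hinj Cg Cv hCg hCv => ?_⟩
  have hm0 : (0 : ℝ) < m := by exact_mod_cast hm
  set t : ℝ := min (T1 / m) T2 with ht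
  have ht0 : 0 < t := lt_min (by positivity) hT2
  have hmt : m * t ≤ T1 := by
    have h4 : t ≤ T1 / m := min_le_left _ _
    rw [le_div_iff₀ hm0] at h4
    linarith
  obtain ⟨d2, hd2, hd⟩ := hdom C1 ((le_max_left _ _).trans hC1) D hD b n m hm x y j hx (inj_x hinj)
  set Ce : ℝ := M1 * |lam| * (m * t) + M2 * |lam| * t with hCe
  have hCe0 : 0 ≤ Ce := by positivity
  have hCz0 : 0 ≤ M3 * |lam| := by positivity
  refine ⟨t, ht0, d2, hd2, 1 / 2, 5 * Ce + (88 * Cb ^ 2 * t + 1) * (M3 * |lam|), 44 * Cb ^ 2 * t,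
    by norm_num, by norm_num, fun d hd0 hdd => ?_⟩
  filter_upwards [hd d hd0 hdd] with a ha h
  have hT : ((TT D a : Finset (ℤ × ℤ)) : Set (ℤ × ℤ)) = domainSites D a := by
    rw [h.tt, Set.Finite.coe_toFinset]
  have hrp := rr_pos c.p c.k0 (KA c.p c.k0 d a)
  have hch := h.ch (KA c.p c.k0 d a) le_rfl
  rw [← hT] at hch
  have hC2 : C2c c ≤ C1 := (le_max_left _ _).trans hC1
  refine fineAt_of hfc hb (fun U hU => h.vol.supp1 (src := bondSrc (Fld ℤ) (eb a y j))
    (P := mpar J lam R V β z) _ c.p c.k0 U hU) hch ?_ ?_ ht0 hCe0 hCz0 ?_ ?_ hz hZe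
  · have h5 : s2 + 3 ≤ C1 := le_trans (by
      unfold C2c
      have := Nat.one_le_two_pow (n := c.p)
      omega) hC2
    nlinarith [Nat.mul_le_mul_right (rr c.p c.k0 (KA c.p c.k0 d a)) h5]
  · exact Nat.mul_le_mul_right _ ((le_max_right _ _).trans hC1)
  · intro k hk
    refine (ha Cg Cv h h.he t ht0 hmt k hk).trans (ENNReal.ofReal_le_ofReal ?_)
    refine mul_le_mul_of_nonneg_right ?_ (by positivity)
    have : 0 ≤ M2 * |lam| * t := by positivity
    linarith
  · intro jj k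
    refine (hpl t ht0 (min_le_right _ _) jj k).trans (ENNReal.ofReal_le_ofReal ?_)
    refine mul_le_mul_of_nonneg_right ?_ (by positivity)
    have : 0 ≤ M1 * |lam| * (m * t) := by positivity
    linarith

/-- **the energy ratios of the `C²` domains** -/
theorem enD {J : ℝ} (hJ : 0 < J) {R : ℕ} {V : Finset (ℤ × ℤ) → ℝ} (hV : VHyp R V) :
    ForP J (PF J R V) fun c lam β z =>
      ERD J lam R V β (ZeEbx922.Ze J R V c lam β z) (ZeEbx922.eb J R V c lam β z) :=
  enD_of hJ hV (fineC2 hV)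

end Crest.Agent.R165.SrcDomx697
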