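import Crest.Agent.R165.SrcCstG_484
import Crest.Agent.R165.SrcFlow_54
import Crest.Agent.R165.SrcCh_485
import Crest.Agent.R165.ZeB_915
import Crest.Agent.R165.EnFine_811

/-!
# Row 165 (S0250): pieces of `fineAt_of` (helper915)

* `FineC`, `fineC_ev` : the conditions on the constants
* `fine_ze`, `fine_pp`, `fine_inj`, `fine_ε0` : fields of `FineAt` for a domain
-/

set_option autoImplicit false
set_option linter.unusedSectionVars false
set_option linter.unusedVariables false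

noncomputable section

open scoped ENNReal
open Crest.ProbabilityR.IsingModel

namespace Crest.Agent.R165.SrcFineCx915

open Crest.Agent.R165.Gr0x606 Crest.Agent.R165.Gr1x606 Crest.Agent.R165.GeOpsx337
  Crest.Agent.R165.KFlowx337 Crest.Agent.R165.PNormx417 Crest.Agent.R165.KStepx892
open Crest.Agent.R165.GSysx387 Crest.Agent.R165.GDefx387 Crest.Agent.R165.Latx683
  Crest.Agent.R165.FRDPolyx439 Crest.Agent.R165.Bkgx683 Crest.Agent.R165.J4Geox126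
open Crest.Agent.R165.PEndx683 Crest.Agent.R165.Outx683 Crest.Agent.R165.ZeEbx922
open Crest.Agent.R165.SrcSymx922 Crest.Agent.R165.SrcInsx991 Crest.Agent.R165.SrcLimx697
open Crest.Agent.R165.SrcCstx484 Crest.Agent.R165.SrcChx485

/-- the conditions on the constants (helper484) -/
structure FineC (c : Cst) (R : ℕ) : Prop where
  p4 : 4 ≤ c.p
  h5 : 5 ≤ c.p * (c.k0 + 1)
  r16 : 16 ≤ rr c.p c.k0 0
  nR : 2 * max R 1 + 1 ≤ nearR c.p c.k0 0
  A0 : 1 ≤ c.A0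
  cold : GSysOKx439.c0 DD.C c.p c.k0 ≤ c.A0
  δ0 : 0 ≤ c.δ
  δ2 : (1 + c.δ) ^ 2 ≤ 2
  Γ4 : 4 * 2 ^ c.p ≤ c.Γ

theorem fineC_ev (R : ℕ) : EvC fun c => FineC c R := by
  have h1 := Constx891.ev_std
  have h2 := ZeAx915.ev_nearR (2 * max R 1 + 1)
  have h3 := Constx891.ev_rr_ge fun _ _ => 16
  have h4 := Constx891.ev_A0_ge fun p _ k0 => GSysOKx439.c0 DD.C p k0
  have h5 := Constx891.ev_δ_le (fun _ _ _ _ => 1 / 4) fun _ _ _ _ => by norm_num
  have h6 := Constx891.ev_Γ_ge' fun p => 4 * 2 ^ p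
  refine (((((h1.and h2).and h3).and h4).and h5).and h6).mono fun c hc => ?_
  obtain ⟨⟨⟨⟨⟨h1, h2⟩, h3⟩, h4⟩, h5⟩, h6⟩ := hc
  have hδ := h1.δ_pos
  refine ⟨h1.p_pos, ?_, h3 0, h2, h1.A0_ge, h4, hδ.le, ?_, h6⟩
  · have h7 := h1.p_pos
    have h8 := h1.k0_pos
    nlinarith
  · nlinarith

section fields

variable {J : ℝ} {R : ℕ} {V : Finset (ℤ × ℤ) → ℝ} {c : Cst} {lam β z : ℝ}
  {T : Finset (ℤ × ℤ)} {b : BoundaryCondition} {n m : ℕ} {X : Fin n → ℤ × ℤ}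
  {e : Fin m → Bkgx683.EG ℤ} {he : ∀ i, (Bg.dom T b X).w (e i).1 (e i).2 ≠ 0} {K ρ : ℕ}

/-- **the running coefficients of a domain with `m` sources are those of the plane** -/
theorem zeP_eq_zE (hc : FineC c R) (hch : SrcCh (T : Set (ℤ × ℤ)) X e ρ)
    (hρ : (s2 + 2) * rr c.p c.k0 K + 1 ≤ ρ) (i : Fin m) :
    zeP (Bg.dom T b X) (mpar J lam R V β z) DD ∅ e he c.p c.k0 K i =
      zE J R V c lam β z (e i).2 K := by
  have hr : (s2 + 1) * rr c.p c.k0 K ≤ ρ - 1 := by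
    have : (s2 + 2) * rr c.p c.k0 K = (s2 + 1) * rr c.p c.k0 K + rr c.p c.k0 K := by ring
    omega
  have hp := rr_pos c.p c.k0 K
  have hs : 1 ≤ (s2 + 1) * rr c.p c.k0 K := Nat.mul_pos (by unfold s2; norm_num) hp
  exact zeP_dom (r := ρ - 1) (by omega) (fun j => by have := hch.sp i j; omega)
    (hch.corners i (by omega)) (fun i' hi' => by have := hch.sep i i' (Ne.symm hi'); omega)
    (fun f hf => absurd hf (Finset.notMem_empty f)) hc.p4 (by norm_num) hc.h5 K hr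

theorem fine_ε0 {C t Ce Cz : ℝ} (ht : 0 < t) (hCe : 0 ≤ Ce) (hCz : 0 ≤ Cz) (K : ℕ) :
    0 ≤ (5 * Ce + (88 * C ^ 2 * t + 1) * Cz) * (1 / 2) ^ K := by
  positivity

/-- **field `ze`** -/
theorem fine_ze (hc : FineC c R) (hch : SrcCh (T : Set (ℤ × ℤ)) X e ρ)
    (hρ : (s2 + 2) * rr c.p c.k0 K + 1 ≤ ρ) {C t Ce Cz : ℝ} (ht : 0 < t) (hCe : 0 ≤ Ce)
    (hCz : 0 ≤ Cz)
    (hz : ∀ (j : Fin 2) (k : ℕ),
      |zE J R V c lam β z j k - Ze J R V c lam β z| ≤ Cz * (1 / 2) ^ k) (i : Fin m) :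
    |zeP (Bg.dom T b X) (mpar J lam R V β z) DD ∅ e he c.p c.k0 K i - Ze J R V c lam β z| ≤
      (5 * Ce + (88 * C ^ 2 * t + 1) * Cz) * (1 / 2) ^ K := by
  rw [zeP_eq_zE hc hch hρ i]
  refine (hz _ K).trans ?_
  have h1 : (0 : ℝ) ≤ (1 / 2) ^ K := by positivity
  refine mul_le_mul_of_nonneg_right ?_ h1
  have h2 : 0 ≤ 88 * C ^ 2 * t * Cz := by positivity
  nlinarith

/-- **field `pp`** -/
theorem fine_pp {C t Ce Cz : ℝ} (ht : 0 < t) (hCe : 0 ≤ Ce) (hCz : 0 ≤ Cz)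
    (hS : ∀ k ≤ K, SrcFlowx54.totP c (Bg.dom T b X) (mpar J lam R V β z) e he t k ≤
      ENNReal.ofReal (Ce * (1 / 2) ^ k)) :
    SrcRecx54.Tot (fun U => GDefx387.wU (Bg.dom T b X).w (amp c K) (rr c.p c.k0 K) U)
      (fun _ => ENNReal.ofReal (vS c t K)) (ENNReal.ofReal c.Γ) (rr c.p c.k0 K)
      (ppP (Bg.dom T b X) (mpar J lam R V β z) DD ∅ e he c.p c.k0 K) ≤
        ENNReal.ofReal ((5 * Ce + (88 * C ^ 2 * t + 1) * Cz) * (1 / 2) ^ K) := by
  refine (hS K le_rfl).trans (ENNReal.ofReal_le_ofReal ?_)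
  have h1 : (0 : ℝ) ≤ (1 / 2) ^ K := by positivity
  refine mul_le_mul_of_nonneg_right ?_ h1
  have h2 : 0 ≤ (88 * C ^ 2 * t + 1) * Cz := by positivity
  nlinarith

/-- **field `inj`** -/
theorem fine_inj (hch : SrcCh (T : Set (ℤ × ℤ)) X e ρ) (hρ : 2 ≤ ρ) :
    Function.Injective fun i => faE (e i) := by
  intro i j hij
  by_contra hne
  have h1 : (e i).1 ∈ faE (e j) := by
    have : faE (e i) = faE (e j) := hij
    rw [← this]
    exact fst_mem_faE _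
  have h2 := hch.sep j i (Ne.symm hne)
  have h3 := fd_faE h1
  omega

theorem fine_rho2 (hρ : (s2 + 2) * rr c.p c.k0 K + 1 ≤ ρ) : 2 ≤ ρ := by
  have hp := rr_pos c.p c.k0 K
  have hs : 1 ≤ (s2 + 2) * rr c.p c.k0 K := Nat.mul_pos (by unfold s2; norm_num) hp
  omega

end fields

end Crest.Agent.R165.SrcFineCx915
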