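import Crest.Agent.R165.SrcOne_54
import Crest.Agent.R165.SrcInv2_336
import Crest.Agent.R165.SrcGeo_485
import Crest.Agent.R165.SrcCstG_484
import Crest.Agent.R165.SrcK0_991
import Crest.Agent.R165.DomAc_117

/-!
# Row 165 (S0250): the source flow in `Bg.dom T b X`, geometric inputs (helper359)

From the charts `SrcCh T X e (C2 * rr k)` of helper485 (`s2 + 4 + 2 ^ p ≤ C2`):
* `far_of`, `sep_of`, `dp_of` : separation and depth of the sources
* `ne_of`, `inj_of` : the source bonds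
* `ze_of` : the running coefficient is the one of the plane
* `ppP_conn` : the supports of the remainders
-/

set_option autoImplicit false
set_option linter.unusedSectionVars false
set_option linter.unusedVariables false

noncomputable section

open scoped ENNReal
open Crest.ProbabilityR.IsingModel
open Crest.Agent.R165.Gr0x606 Crest.Agent.R165.Gr1x606 Crest.Agent.R165.GeOpsx337
open Crest.Agent.R165.KFlowx337
open Crest.Agent.R165.Latx683 (BW wDom wX wPl Fld)
open Crest.Agent.R165.GDefx387 Crest.Agent.R165.GSysx387 Crest.Agent.R165.FRDPolyx439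
open Crest.Agent.R165.SrcDefx991 Crest.Agent.R165.SrcSysx991 Crest.Agent.R165.SrcInsx991
open Crest.Agent.R165.Bkgx683 (Bg MPar)
open Crest.Agent.R165.GDefx387 (s2)
open Crest.Agent.R165.J4Geox126 (faE)
open Crest.Agent.R165.SrcChx485 Crest.Agent.R165.SrcGeox485

namespace Crest.Agent.R165.SrcGenx359

section geo

variable {T : Finset (ℤ × ℤ)} {b : BoundaryCondition} {n m : ℕ} {X : Fin n → ℤ × ℤ}
  {e : Fin m → EZ} {l k0 C2 k : ℕ}

/-- the background -/
theorem w_dom (T : Finset (ℤ × ℤ)) (b : BoundaryCondition) {n : ℕ} (X : Fin n → ℤ × ℤ) :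
    (Bg.dom T b X).w = wX (wDom (T : Set (ℤ × ℤ)) (Bkgx683.isF b)) X := rfl

/-- different sources do not touch -/
theorem far_of (hl : 4 ≤ l) (hC : 2 ^ l ≤ C2)
    (h : SrcCh (T : Set (ℤ × ℤ)) X e (C2 * rr l k0 k)) :
    ∀ i j, i ≠ j → ¬ KStepx892.touch (near l k0 k) (faE (e i)) (faE (e j)) := by
  rintro i j hij ⟨f, hf, g, hg, hfg⟩
  have h1 := h.faces hij hf hg
  have h2 : fd f g ≤ nearR l k0 k := hfg
  have h3 : 2 ^ l * rr l k0 k ≤ C2 * rr l k0 k := Nat.mul_le_mul_right _ hC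
  have h4 : 16 ≤ 2 ^ l := by
    calc 16 = 2 ^ 4 := by norm_num
      _ ≤ 2 ^ l := Nat.pow_le_pow_right (by norm_num) hl
  have h5 := rr_pos l k0 k
  have h6 : 16 * 1 ≤ 2 ^ l * rr l k0 k := Nat.mul_le_mul h4 h5
  unfold nearR at h2
  rw [rr_succ] at h2
  omega

/-- the sources are separated -/
theorem sep_of (hC : 1 ≤ C2) (h : SrcCh (T : Set (ℤ × ℤ)) X e (C2 * rr l k0 k)) :
    ∀ i i', i ≠ i' → rr l k0 k < fd (e i).1 (e i').1 := by
  intro i i' hi
  refine lt_of_le_of_lt ?_ (h.sep i i' hi)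
  exact Nat.le_mul_of_pos_left _ hC

/-- the sources are deep -/
theorem dp_of (hC : s2 + 2 ≤ C2) (h : SrcCh (T : Set (ℤ × ℤ)) X e (C2 * rr l k0 (k + 1))) :
    ∀ i, dpS (Bg.dom T b X).w ∅ l k0 e k i := by
  intro i
  rw [w_dom]
  refine srcCh_dp h _ ?_ i
  have h1 := rr_pos l k0 (k + 1)
  nlinarith [Nat.mul_le_mul_right (rr l k0 (k + 1)) hC]

/-- the source bonds are bonds -/
theorem ne_of (hC : 1 ≤ C2) (h : SrcCh (T : Set (ℤ × ℤ)) X e (C2 * rr l k0 k)) :
    ∀ i, (Bg.dom T b X).w (e i).1 (e i).2 ≠ 0 := by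
  intro i
  rw [w_dom]
  exact srcCh_ne h (Nat.mul_pos hC (rr_pos _ _ _)) _ i

/-- the faces of the sources are different -/
theorem inj_of (hl : 4 ≤ l) (hC : 2 ^ l ≤ C2)
    (h : SrcCh (T : Set (ℤ × ℤ)) X e (C2 * rr l k0 k)) :
    Function.Injective fun i => faE (e i) := by
  intro i j hij
  by_contra hne
  have hf : (e i).1 ∈ faE (e i) := fst_mem_faE (e i)
  have hf' : (e i).1 ∈ faE (e j) := by
    have hij' : faE (e i) = faE (e j) := hij
    rw [← hij']; exact hf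
  refine far_of hl hC h i j hne ⟨_, hf, _, hf', ?_⟩
  show fd (e i).1 (e i).1 ≤ _
  rw [fd_self]
  exact Nat.zero_le _

/-- **the running coefficient of a source in `T` is the one of the plane** -/
theorem ze_of {P : MPar} {M K : ℕ} {D : FRD 16 M K} (hl : 4 ≤ l) (hK : 16 ≤ K)
    (h5 : 5 ≤ l * (k0 + 1)) (hC : s2 + 2 ≤ C2)
    (h : SrcCh (T : Set (ℤ × ℤ)) X e (C2 * rr l k0 k))
    {he : ∀ i, (Bg.dom T b X).w (e i).1 (e i).2 ≠ 0} (i : Fin m)
    (heP : ∀ j, (Bg.pl : Bg ℤ).w ((![((0, 0), (e i).2)] : Fin 1 → Bkgx683.EG ℤ) j).1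
      ((![((0, 0), (e i).2)] : Fin 1 → Bkgx683.EG ℤ) j).2 ≠ 0) :
    zeP (Bg.dom T b X) P D ∅ e he l k0 k i =
      zeP Bg.pl P D ∅ ![((0, 0), (e i).2)] heP l k0 k 0 := by
  have h1 := rr_pos l k0 k
  have hs2 : s2 = 128 := rfl
  have h3 : (s2 + 2) * rr l k0 k ≤ C2 * rr l k0 k := Nat.mul_le_mul_right _ hC
  have h4 : (s2 + 1) * rr l k0 k + 1 ≤ C2 * rr l k0 k := by
    refine le_trans ?_ h3
    rw [hs2]
    omega
  refine SrcCstx484.zeP_dom (r := (s2 + 1) * rr l k0 k) ?_ ?_ ?_ ?_ ?_ hl hK h5 k le_rfl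
  · rw [hs2]; omega
  · intro j
    have := h.sp i j
    omega
  · exact h.corners i h4
  · intro i' hi'
    have := h.sep i i' (Ne.symm hi')
    omega
  · intro f hf
    exact absurd hf (Finset.notMem_empty f)

end geo

/-! ### supports of the remainders -/

/-- **the remainders have connected supports** -/
theorem ppP_conn {m : ℕ} {B : Bg ℤ} {P : MPar} {M K : ℕ} {D : FRD 16 M K} {mk : Finset (ℤ × ℤ)}
    {e : Fin m → EZ} {he : ∀ i, B.w (e i).1 (e i).2 ≠ 0} {l k0 : ℕ} (hl : 4 ≤ l)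
    (hR : 2 * P.R + 1 ≤ nearR l k0 0) (n : ℕ) (U : Finset (ℤ × ℤ))
    (h : ppP B P D mk e he l k0 n U ≠ 0) : Packx915.Conn fd (nearR l k0 n) U := by
  by_contra hcon
  have h1 : (flowP B P D mk e he l k0).K n U = 0 := by
    by_contra h2
    exact hcon (SrcCstx484.flowP_conn hl hR n U h2).2
  have h2 : (flow0 B P D mk l k0).K n U = 0 := by
    by_contra h2
    exact hcon (DomAcx117.flow_acS_univ B P D mk (Bkgx683.noSrc ℤ (Ge (Fld ℤ)))
      (SrcCstx484.nearR_pos hl 0) (fun k => k.elim0) n U h2).2.1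
  have h3 : LEAD (srcD B.w e he) (zeP B P D mk e he l k0 n) U = 0 := by
    rw [LEAD]
    refine Finset.sum_eq_zero fun i hi => absurd ?_ hcon
    have hi' : faE (e i) = U := (Finset.mem_filter.1 hi).2
    rw [← hi']
    exact Packx915.conn_of_diam fun x hx y hy =>
      (JVolx950.faE_diam (e i) x hx y hy).trans (SrcCstx484.nearR_pos hl n)
  apply h
  have h4 := flowP_K B P D mk e he l k0 n U
  rw [h1, h2, h3, map_zero] at h4
  have h5 : (0 : Ge (VS (Fld ℤ) m)) = 0 + 0 + ppP B P D mk e he l k0 n U := h4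
  rw [add_zero, zero_add] at h5
  exact h5.symm

end Crest.Agent.R165.SrcGenx359
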