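import Crest.Agent.R165.PlBond_898
import Crest.Agent.R165.SrcLim_697

/-!
# Row 165 (S0250), leaf P11: the slices at one bond against the weights of the sources (helper813)

* `hsl_gen` : `vS² |EEG (slC D (wPl ℤ) .. k) (beB (wPl ℤ) e)| ≤ Cs t` for any family
* `hsl` : the same for the family `DD`
-/

set_option autoImplicit false
set_option linter.unusedSectionVars false

noncomputable section

namespace Crest.Agent.R165.SrcHslx813

open Crest.Agent.R165.Gr1x606 Crest.Agent.R165.GSysx387 Crest.Agent.R165.FRDPolyx439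
open Crest.Agent.R165.GeOpsx337 Crest.Agent.R165.GDefx387
open Crest.Agent.R165.Latx683 (wPl)
open Crest.Agent.R165.J1ax606 (pe qe)
open Crest.Agent.R165.SrcInsx991 Crest.Agent.R165.PEndx683 Crest.Agent.R165.Outx683
open Crest.Agent.R165.SrcLimx697 Crest.Agent.R165.FRDAbsx439

variable {M K : ℕ} (D : FRD 16 M K)

theorem rr_le_lo (l k0 k : ℕ) : (rr l k0 k : ℝ) ≤ 2 ^ (l * k0) * 2 ^ lo l k0 k := by
  by_cases hk : k = 0
  · subst hk
    rw [lo_zero, pow_zero, mul_one]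
    unfold rr
    push_cast
    rw [add_zero]
  · rw [GSysOKx439.rr_eq_lo hk]
    push_cast
    have h1 : (1 : ℝ) ≤ 2 ^ (l * k0) := one_le_pow₀ (by norm_num)
    have h2 : (0 : ℝ) < 2 ^ lo l k0 k := by positivity
    nlinarith

/-- the slice form at one bond of the plane -/
theorem abs_EEG_le (hM : MM + 1 ≤ M) (l k0 k : ℕ) (e : Bkgx683.EG ℤ) :
    |EEG (slC D (wPl ℤ) l k0 k) (beB (wPl ℤ) e)| ≤
      4 * PlBondx898.c1 D ^ 2 / 2 ^ lo l k0 k := by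
  have h1 := PlBondx898.abs_slC_le D hM l k0 k (pe e) (qe e)
  rw [EEG_beB, abs_mul]
  have h2 : |uB (wPl ℤ) e| ≤ 2 := by
    have h3 := PlBondx898.wPl_le1 e.1 e.2
    rw [uB, abs_neg, abs_mul, abs_of_pos (by norm_num : (0 : ℝ) < 2)]
    linarith
  calc |uB (wPl ℤ) e| * _ ≤ 2 * (2 * PlBondx898.c1 D ^ 2 / 2 ^ lo l k0 k) :=
        mul_le_mul h2 h1 (abs_nonneg _) (by norm_num)
    _ = _ := by ring

/-- **`hsl`**, any family of slices -/
theorem hsl_gen (hM : MM + 1 ≤ M) {c : Cst} (h0 : 1 ≤ c.A0) (hδ : 0 ≤ c.δ) {t : ℝ} (ht : 0 ≤ t)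
    (k : ℕ) (e : Bkgx683.EG ℤ) :
    vS c t k ^ 2 * |EEG (slC D (wPl ℤ) c.p c.k0 k) (beB (wPl ℤ) e)| ≤
      4 * PlBondx898.c1 D ^ 2 * 2 ^ (c.p * c.k0) * t := by
  have h1 := abs_EEG_le D hM c.p c.k0 k e
  have h2 := rr_le_lo c.p c.k0 k
  have hlo : (0 : ℝ) < 2 ^ lo c.p c.k0 k := by positivity
  have hA : 1 ≤ amp c k := amp_one h0 hδ k
  have hA2 : 1 ≤ amp c k ^ 2 := one_le_pow₀ hA
  have hr : (0 : ℝ) ≤ rr c.p c.k0 k := (rr_pos' c k).le
  rw [vS_sq ht]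
  have h3 : t * rr c.p c.k0 k / amp c k ^ 2 ≤ t * (2 ^ (c.p * c.k0) * 2 ^ lo c.p c.k0 k) :=
    (div_le_self (mul_nonneg ht hr) hA2).trans (mul_le_mul_of_nonneg_left h2 ht)
  calc _ ≤ t * (2 ^ (c.p * c.k0) * 2 ^ lo c.p c.k0 k) *
        (4 * PlBondx898.c1 D ^ 2 / 2 ^ lo c.p c.k0 k) :=
        mul_le_mul h3 h1 (abs_nonneg _) (by positivity)
    _ = _ := by field_simp

/-- **`hsl`** for the family `DD`: literally the hypothesis of 697's `finL_of` -/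
theorem hsl {c : Cst} (h0 : 1 ≤ c.A0) (hδ : 0 ≤ c.δ) {t : ℝ} (ht : 0 ≤ t) (k : ℕ)
    (e : Bkgx683.EG ℤ) :
    vS c t k ^ 2 * |EEG (slC DD (wPl ℤ) c.p c.k0 k) (beB (wPl ℤ) e)| ≤
      4 * PlBondx898.c1 DD ^ 2 * 2 ^ (c.p * c.k0) * t :=
  hsl_gen DD (by unfold MM; norm_num) h0 hδ ht k e

end Crest.Agent.R165.SrcHslx813
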