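import Crest.Agent.R165.SrcK0B_991
import Crest.Agent.R165.SrcLim_697

/-!
# Row 165 (S0250), P11: the initial remainder with the frozen source weights `vS` (helper991)

* `e0_vS` : `Tot (wU w (amp c 0) (rr 0)) (vS c t 0) Γ (rr 0) (ppP .. 0) ≤ C' |lam| (m t)` for all
  `0 < t ≤ t1`, `t1` depends on `c` only, `C'` does not depend on `m`, `t`, the background
-/

set_option autoImplicit false
set_option linter.unusedSectionVars false

noncomputable section

namespace Crest.Agent.R165.SrcInsx991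

open scoped ENNReal
open Finset Filter Topology
open Crest.Agent.R165.GDefx387 Crest.Agent.R165.GSysx387 Crest.Agent.R165.Bkgx683
open Crest.Agent.R165.FRDPolyx439 Crest.Agent.R165.J4Geox126 Crest.Agent.R165.Latx683
open Crest.Agent.R165.SrcRecx54 Crest.Agent.R165.C0x950 Crest.Agent.R165.C0ax950
open Crest.Agent.R165.PEndx683 Crest.Agent.R165.Outx683 Crest.Agent.R165.SrcLimx697

theorem amp_zero (c : Cst) : amp c 0 = c.A0 := by
  unfold amp
  simp

/-- **the initial remainder, frozen weights** -/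
theorem e0_vS (J : ℝ) (R : ℕ) (V : Finset (ℤ × ℤ) → ℝ) : EvC fun c => ∃ t1 > 0,
    ∀ C : ℝ, ∃ ε > 0, ∃ C' ≥ 0, ∀ lam β z : ℝ, |lam| < ε → NearP J C lam β z →
      ∀ B : Bg ℤ, W1 B.w → ∀ (w : BW ℤ) {M K : ℕ} (D : FRD 16 M K) (mk : Finset (ℤ × ℤ)) (m : ℕ)
        (e : Fin m → Bkgx683.EG ℤ) (he : ∀ i, B.w (e i).1 (e i).2 ≠ 0),
        (∀ i j, i ≠ j → ¬ KStepx892.touch (near c.p c.k0 0) (faE (e i)) (faE (e j))) →
        ∀ t : ℝ, 0 < t → t ≤ t1 →
          Tot (wU w (amp c 0) (rr c.p c.k0 0)) (fun _ => ENNReal.ofReal (vS c t 0))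
            (ENNReal.ofReal c.Γ) (rr c.p c.k0 0)
            (ppP B (mpar J lam R V β z) D mk e he c.p c.k0 0) ≤
            ENNReal.ofReal (C' * |lam| * (m * t)) := by
  refine EvC.mono (EvC.and (e0_ev J R V) (EvC.and evC_COK ?_)) (Q := _)
    (P := fun c => _ ∧ COK c ∧ (0 < c.A0 ∧ 0 ≤ c.δ)) ?_
  · filter_upwards with p
    filter_upwards with Γ
    filter_upwards with k0
    filter_upwards [eventually_gt_atTop (0 : ℝ)] with A0 hA
    filter_upwards [self_mem_nhdsWithin] with δ hδ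
    exact ⟨hA, le_of_lt hδ⟩
  · rintro c ⟨⟨hu, H⟩, hc, hA, hδ⟩
    have hr := rr_pos' c 0
    set q : ℝ := rr c.p c.k0 0 / c.A0 ^ 2 with hq
    have hq0 : 0 < q := by positivity
    refine ⟨u0c (max R 1) c / q, by positivity, fun C => ?_⟩
    obtain ⟨ε, hε, C', hC', H⟩ := H C
    refine ⟨ε, hε, C' * q, by positivity, ?_⟩
    intro lam β z hl hn B hw w M K D mk m e he hfar t ht0 ht1
    have hv : vS c t 0 ^ 2 = t * q := by
      rw [vS_sq ht0.le, amp_zero, hq, mul_div_assoc]
    have hvp := vS_pos ht0 hA hδ 0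
    have h1 : t * q ≤ u0c (max R 1) c := by
      calc t * q ≤ u0c (max R 1) c / q * q := by gcongr
        _ = _ := by field_simp
    have key := H lam β z hl hn B hw w D mk m e he hfar (fun _ => ENNReal.ofReal (vS c t 0))
      (ENNReal.ofReal (t * q)) (fun _ => by rw [Ne, ENNReal.ofReal_eq_zero, not_le]; exact hvp)
      (fun _ => by rw [← ENNReal.ofReal_pow hvp.le, hv]) (ENNReal.ofReal_le_ofReal h1)
    rw [amp_zero]
    refine key.trans (le_of_eq ?_)
    rw [← ENNReal.ofReal_natCast m, ← ENNReal.ofReal_mul (by positivity),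
      ← ENNReal.ofReal_mul (by positivity)]
    congr 1
    ring

end Crest.Agent.R165.SrcInsx991
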