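import Crest.Agent.R165.SrcInv2_336
import Crest.Agent.R165.DiscGeo_420
import Crest.Agent.R165.JRunS2_408
import Crest.Agent.R165.JVol_950

/-!
# Row 165 (S0250): the geometry of the bond sources (helper723)

* `SrcGeo w mk l k0 e C n` : at step `n` all sources are deep (`dpS` of 991), pairwise further than
  `C rr (n+1)` and do not touch at step `n + 1`
* `srcGeo_of_cfg` : from a configuration `Cfg` of 420
* `srcGeo_pl` : plane, one source
* `srcGeo_dom` : all steps `k < KK` of a `C²` domain;  `srcGeo_disc` : fine phase of the large discs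
-/

set_option autoImplicit false
set_option linter.unusedSectionVars false

noncomputable section

open Filter Topology
open Crest.ProbabilityR.IsingModel
open Crest.Agent.R165.Gr0x606 Crest.Agent.R165.Gr1x606 Crest.Agent.R165.GeOpsx337
open Crest.Agent.R165.Latx683 Crest.Agent.R165.GDefx387 Crest.Agent.R165.GSysx387
open Crest.Agent.R165.Geo (LatReg bdS)
open Crest.Agent.R165.Bkgx683 Crest.Agent.R165.J4Geox126 Crest.Agent.R165.J4K0x126
open Crest.Agent.R165.BgIsox432 Crest.Agent.R165.GeoScx420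
open Crest.Agent.R165.SrcInsx991 Crest.Agent.R165.DiscKx892

namespace Crest.Agent.R165.SrcSepx723

variable {m : ℕ}

/-- the geometry of the sources at step `n` -/
structure SrcGeo (w : BW ℤ) (mk : Finset (ℤ × ℤ)) (l k0 : ℕ) (e : Fin m → Bkgx683.EG ℤ)
    (C n : ℕ) : Prop where
  deep : ∀ i, dpS w mk l k0 e n i
  sep : ∀ i i', i ≠ i' → C * rr l k0 (n + 1) < fd (e i).1 (e i').1
  far : ∀ i i', i ≠ i' → ¬ KStepx892.touch (near l k0 (n + 1)) (faE (e i)) (faE (e i'))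

section gen

variable {w : BW ℤ} {mk : Finset (ℤ × ℤ)} {l k0 C n : ℕ} {e : Fin m → Bkgx683.EG ℤ}

theorem fd_faE {e : Bkgx683.EG ℤ} {f : ℤ × ℤ} (hf : f ∈ faE e) : fd e.1 f ≤ 1 :=
  JVolx950.faE_diam e _ (Bk.fst_mem_faE e) f hf

/-- no touching from the separation -/
theorem not_touch {e e' : Bkgx683.EG ℤ} (h : 2 ^ l * rr l k0 (n + 1) + 2 < fd e.1 e'.1) :
    ¬ KStepx892.touch (near l k0 (n + 1)) (faE e) (faE e') := by
  rintro ⟨u, hu, v, hv, huv⟩
  have h1 : fd u v ≤ nearR l k0 (n + 1) := huv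
  have h2 : nearR l k0 (n + 1) = rr l k0 (n + 1 + 1) / 8 := rfl
  rw [h2, rr_succ] at h1
  have h3 := fd_faE hu
  have h4 := fd_faE hv
  have h5 := fd_triangle e.1 u e'.1
  have h6 := fd_triangle u v e'.1
  rw [fd_comm v] at h6
  omega

/-- separation at the scale `n` (form of `srcHyp_of_dp`) -/
theorem SrcGeo.sep' (h : SrcGeo w mk l k0 e C n) (hC : 1 ≤ C) {i i' : Fin m} (hi : i ≠ i') :
    rr l k0 n < fd (e i).1 (e i').1 := by
  have h1 := h.sep i i' hi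
  have h2 : rr l k0 n ≤ rr l k0 (n + 1) := rr_mono l k0 (Nat.le_succ n)
  have h3 : rr l k0 (n + 1) ≤ C * rr l k0 (n + 1) := Nat.le_mul_of_pos_left _ hC
  omega

theorem SrcGeo.inj (h : SrcGeo w mk l k0 e C n) :
    Function.Injective fun i => faE (e i) := by
  intro i i' hi
  by_contra hne
  have hi' : faE (e i) = faE (e i') := hi
  refine h.far i i' hne ⟨(e i).1, Bk.fst_mem_faE (e i), (e i).1, ?_, ?_⟩
  · rw [← hi']; exact Bk.fst_mem_faE (e i)
  · show fd (e i).1 (e i).1 ≤ _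
    rw [fd_self]; exact Nat.zero_le _

theorem SrcGeo.mono {C' : ℕ} (h : SrcGeo w mk l k0 e C n) (hC : C' ≤ C) :
    SrcGeo w mk l k0 e C' n :=
  ⟨h.deep, fun i i' hi => (Nat.mul_le_mul_right _ hC).trans_lt (h.sep i i' hi), h.far⟩

end gen

/-- **from a configuration** -/
theorem srcGeo_of_cfg {T : Set (ℤ × ℤ)} {N : ℕ} {X : Fin N → ℤ × ℤ} {e : Fin m → Bkgx683.EG ℤ}
    {ρ : ℕ} (h : Cfg T X (fun i => (e i).1) ρ) (fr : Bool) {mk : Finset (ℤ × ℤ)} {l k0 C n : ℕ}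
    (hmk : ∀ i, ∀ x ∈ mk, ρ < fd (e i).1 x)
    (hρ : (C + 2 ^ l + 140) * rr l k0 (n + 1) ≤ ρ) :
    SrcGeo (wX (wDom T fr) X) mk l k0 e C n := by
  have hr := rr_pos l k0 (n + 1)
  have hs : s2 = 128 := rfl
  have e1 : (C + 2 ^ l + 140) * rr l k0 (n + 1) =
      C * rr l k0 (n + 1) + 2 ^ l * rr l k0 (n + 1) + 140 * rr l k0 (n + 1) := by ring
  rw [e1] at hρ
  generalize hx : C * rr l k0 (n + 1) = x at hρ
  generalize hy : 2 ^ l * rr l k0 (n + 1) = y at hρ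
  refine ⟨fun i f hf => ⟨?_, ?_⟩, fun i i' hi => ?_, fun i i' hi => not_touch ?_⟩
  · have h1 := fd_faE hf
    rw [fd_comm] at h1
    refine emb_of_far (u := f) (t := (e i).1) (q := 1) ?_ (Finset.mem_singleton_self f) (h.YT i) h1
      (fun z hz => ?_) (fun j => ?_) fr
    · rw [Bridgex915.size_eq_pack, Packx915.pack_le_one_iff Bridgex915.pd_fd]
      intro a ha b hb
      rw [Finset.mem_singleton.1 ha, Finset.mem_singleton.1 hb, fd_self]
      exact Nat.zero_le _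
    · have h2 := h.Yb i z hz
      have h3 := fd_triangle (e i).1 f z
      rw [fd_comm (e i).1 f] at h3
      rw [hs]
      omega
    · have h2 := h.XY j i
      have h3 := fd_triangle (e i).1 f (X j)
      rw [fd_comm (e i).1 f, fd_comm (e i).1 (X j)] at h3
      rw [hs]
      omega
  · intro x' hx'
    have h1 := fd_faE hf
    have h2 := hmk i x' hx'
    have h3 := fd_triangle (e i).1 f x'
    rw [hs]
    omega
  · have h1 := h.YY i i' hi
    rw [hx]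
    omega
  · have h1 := h.YY i i' hi
    rw [hy]
    omega

theorem srcGeo_of_cfg0 {T : Set (ℤ × ℤ)} {N : ℕ} {X : Fin N → ℤ × ℤ} {e : Fin m → Bkgx683.EG ℤ}
    {ρ : ℕ} (h : Cfg T X (fun i => (e i).1) ρ) (fr : Bool) {l k0 C n : ℕ}
    (hρ : (C + 2 ^ l + 140) * rr l k0 (n + 1) ≤ ρ) :
    SrcGeo (wX (wDom T fr) X) ∅ l k0 e C n :=
  srcGeo_of_cfg h fr (fun _ _ hx => absurd hx (Finset.notMem_empty _)) hρ

/-- the plane, one source -/
theorem srcGeo_pl (e : Fin 1 → Bkgx683.EG ℤ) (l k0 C n : ℕ) :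
    SrcGeo (wPl ℤ) ∅ l k0 e C n where
  deep _ _ _ := ⟨⟨plId _⟩, fun _ hx => absurd hx (Finset.notMem_empty _)⟩
  sep i i' hi := absurd (Subsingleton.elim i i') hi
  far i i' hi := absurd (Subsingleton.elim i i') hi

/-- **all steps of a `C²` domain** -/
theorem srcGeo_dom {D : Set ℂ} {r M : ℝ} (h : Geo.CD D r M) {N : ℕ} {x : Fin N → ℂ}
    {y : Fin m → ℂ} (hx : ∀ i, x i ∈ D) (hy : ∀ j, y j ∈ D)
    (hinj : Function.Injective (Fin.append x y)) :
    ∃ c > 0, ∀ (C l k0 : ℕ) (δ : ℝ), 0 < δ → ((C + 2 ^ l + 140 : ℕ) : ℝ) * δ ≤ c →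
      ∀ᶠ a : ℝ in 𝓝[>] 0, ∀ (j : Fin m → Fin 2) (fr : Bool), ∀ k < KK l k0 δ a,
        SrcGeo (wX (wDom (domainSites D a) fr) fun i => meshIndex a (x i)) ∅ l k0
          (fun i => (meshIndex a (y i), j i)) C k := by
  obtain ⟨c, hc, H⟩ := cfg_dom h hx hy hinj
  refine ⟨c, hc, fun C l k0 δ hδ hδc => ?_⟩
  filter_upwards [H, ev_pow_le ((2 : ℝ) ^ (l * k0)) hδ, self_mem_nhdsWithin]
    with a hcf h0 ha0 j fr k hk
  refine srcGeo_of_cfg0 (e := fun i => (meshIndex a (y i), j i)) hcf fr ?_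
  have := scale_le (C1 := C + 2 ^ l + 140) ha0 hδc h0 hk
  rwa [← rr_succ] at this

/-- **the fine phase of the large discs** -/
theorem srcGeo_disc {N : ℕ} {x : Fin N → ℂ} {y : Fin m → ℂ}
    (hinj : Function.Injective (Fin.append x y)) :
    ∃ c > 0, ∀ (C l k0 : ℕ) (δ : ℝ), 0 < δ → ((C + 2 ^ l + 140 : ℕ) : ℝ) * δ ≤ c →
      ∀ᶠ P : ℝ × ℝ in dl, ∀ (j : Fin m → Fin 2) (fr : Bool), ∀ k < k1 l k0 δ P.1,
        SrcGeo (wX (wDom (domainSites (Metric.ball (0 : ℂ) P.2) P.1) fr)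
          fun i => meshIndex P.1 (x i)) ∅ l k0 (fun i => (meshIndex P.1 (y i), j i)) C k := by
  obtain ⟨c, a0, B0, hc, ha0, hB0, H⟩ := cfg_disc hinj
  refine ⟨c, hc, fun C l k0 δ hδ hδc => ?_⟩
  have h1 : ∀ᶠ P : ℝ × ℝ in dl, P.1 ≤ a0 ∧ (2 : ℝ) ^ (l * k0) ≤ δ / P.1 ∧ 0 < P.1 :=
    ev_a (q := fun a => a ≤ a0 ∧ (2 : ℝ) ^ (l * k0) ≤ δ / a ∧ 0 < a) (by
      filter_upwards [ev_pow_le ((2 : ℝ) ^ (l * k0)) hδ, self_mem_nhdsWithin,
        nhdsWithin_le_nhds (Iic_mem_nhds ha0)] with a h0 h1 h2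
      exact ⟨h2, h0, h1⟩)
  have h2 : ∀ᶠ P : ℝ × ℝ in dl, B0 ≤ P.2 := ev_aB fun a _ => eventually_ge_atTop B0
  filter_upwards [h1, h2] with P hP hB j fr k hk
  obtain ⟨ha, h0, hpos⟩ := hP
  refine srcGeo_of_cfg0 (e := fun i => (meshIndex P.1 (y i), j i)) (H P.1 P.2 hpos ha hB) fr ?_
  have := scale_le (C1 := C + 2 ^ l + 140) hpos hδc h0 hk
  rwa [← rr_succ] at this

end Crest.Agent.R165.SrcSepx723
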