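import Crest.Agent.R165.SrcStep_54

/-!
# Row 165 (S0250), leaf P11 (sources), abstract step, part 2 (helper54)

Total sums (the source dependent activities live on sets containing a source, so they are summed
over ALL sets, without supremum and without counting).

* `marked_total` : `∑_{T connected, |T| ≥ 2} ∑_{t ∈ T} b t ∏_{T \ t} a ≤ C ε ∑_t b t 3^{sz t}`
* `mixed_le` : products with at least one factor of each kind
* `QQ3` : `QQ(b + L + P) - QQ(b) - QQ(L)` in total norm
* `NL3` : the same for the nonlinear part of one step: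
  `≤ C ((β + t + e) e + β T)` : EVERY term is proportional to the source dependent quantities
* `src_rec` : the scalar recursion
-/

set_option autoImplicit false
set_option linter.unusedSectionVars false

open scoped ENNReal
open Crest.Agent.R165.Gr0x606 Crest.Agent.R165.Gr1x606 Crest.Agent.R165.GeOpsx337
  Crest.Agent.R165.ExpGx337 Crest.Agent.R165.KFlowx337 Crest.Agent.R165.KCompx892
  Crest.Agent.R165.KStepx892 Crest.Agent.R165.Quadx897 Crest.Agent.R165.ExpAx337

namespace Crest.Agent.R165.SrcStepx54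

/-! ### the marked total sum -/

section marked

variable {ι β : Type*} [DecidableEq ι] {r : ι → ι → Prop}

open Classical in
/-- the hypothesis of the tree-free bound, from the net form -/
theorem net_hyp (a : ι → ℝ≥0∞) (sz : ι → ℕ) (nr : β → ι → Prop)
    {C ε : ℝ≥0∞} (H1 : ∀ p, ∑' t, (if nr p t then a t * 3 ^ sz t else 0) ≤ ε)
    (H2 : ∀ s, ∃ P : Finset β, (P.card : ℝ≥0∞) ≤ C * sz s ∧ ∀ t, r s t → ∃ p ∈ P, nr p t)
    (H3 : C * ε ≤ 1) (s : ι) (J : Finset ι) :
    ∏ t ∈ J.filter (fun t => r s t), (1 + a t * (1 + hfun (C * ε).toReal (sz t)))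
      ≤ 1 + hfun (C * ε).toReal (sz s) := by
  set δ : ℝ := (C * ε).toReal with hδ
  have hCε : C * ε ≠ ∞ := ne_top_of_le_ne_top ENNReal.one_ne_top H3
  have hδ0 : 0 ≤ δ := ENNReal.toReal_nonneg
  have hδ1 : δ ≤ 1 := by
    have := ENNReal.toReal_mono ENNReal.one_ne_top H3
    rw [ENNReal.toReal_one] at this
    exact this
  have hδC : ENNReal.ofReal δ = C * ε := ENNReal.ofReal_toReal hCε
  rw [one_add_hfun hδ0]
  refine prod_one_add_le _ _ (mul_nonneg hδ0 (Nat.cast_nonneg _)) ?_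
  obtain ⟨P, hP, hcov⟩ := H2 s
  calc ∑ t ∈ J.filter (fun t => r s t), a t * (1 + hfun δ (sz t))
      ≤ ∑ t ∈ J.filter (fun t => r s t), a t * 3 ^ sz t :=
        Finset.sum_le_sum fun t _ => mul_le_mul_right (one_add_hfun_le hδ0 hδ1 _) _
    _ ≤ ∑ t ∈ J.filter (fun t => r s t), ∑ p ∈ P, (if nr p t then a t * 3 ^ sz t else 0) := by
        refine Finset.sum_le_sum fun t ht => ?_
        obtain ⟨p, hp, hpt⟩ := hcov t (Finset.mem_filter.1 ht).2
        refine le_trans ?_ (Finset.single_le_sum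
          (f := fun p => if nr p t then a t * 3 ^ sz t else 0) (fun _ _ => bot_le) hp)
        show _ ≤ if nr p t then a t * 3 ^ sz t else 0
        rw [if_pos hpt]
    _ = ∑ p ∈ P, ∑ t ∈ J.filter (fun t => r s t), (if nr p t then a t * 3 ^ sz t else 0) :=
        Finset.sum_comm
    _ ≤ ∑ p ∈ P, ε := Finset.sum_le_sum fun p _ =>
        (ENNReal.sum_le_tsum _).trans (H1 p)
    _ = P.card * ε := by rw [Finset.sum_const, nsmul_eq_mul]
    _ ≤ C * sz s * ε := mul_le_mul_left hP _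
    _ = ENNReal.ofReal (δ * sz s) := by
        rw [ENNReal.ofReal_mul hδ0, hδC, ENNReal.ofReal_natCast]
        ring

open Classical in
/-- **total sum with one marked item** -/
theorem marked_total (hs : ∀ a b, r a b → r b a) (a b : ι → ℝ≥0∞) (sz : ι → ℕ)
    (nr : β → ι → Prop) {C ε : ℝ≥0∞}
    (H1 : ∀ p, ∑' t, (if nr p t then a t * 3 ^ sz t else 0) ≤ ε)
    (H2 : ∀ s, ∃ P : Finset β, (P.card : ℝ≥0∞) ≤ C * sz s ∧ ∀ t, r s t → ∃ p ∈ P, nr p t)
    (H3 : C * ε ≤ 1) :
    ∑' T : Finset ι, (if Conn r T ∧ 2 ≤ T.card then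
      ∑ t ∈ T, b t * ∏ s ∈ T.erase t, a s else 0) ≤ C * ε * ∑' t, b t * 3 ^ sz t := by
  have hCε : C * ε ≠ ∞ := ne_top_of_le_ne_top ENNReal.one_ne_top H3
  have hδ0 : 0 ≤ (C * ε).toReal := ENNReal.toReal_nonneg
  have hδ1 : (C * ε).toReal ≤ 1 := by
    have := ENNReal.toReal_mono ENNReal.one_ne_top H3
    rw [ENNReal.toReal_one] at this
    exact this
  have hδC : ENNReal.ofReal (C * ε).toReal = C * ε := ENNReal.ofReal_toReal hCε
  have hh := net_hyp (r := r) a sz nr H1 H2 H3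
  rw [ENNReal.tsum_eq_iSup_sum]
  refine iSup_le fun X => ?_
  set J : Finset ι := X.biUnion id with hJ
  have hXJ : X ⊆ J.powerset := fun T hT => Finset.mem_powerset.2 fun t ht =>
    Finset.mem_biUnion.2 ⟨T, hT, ht⟩
  calc ∑ T ∈ X, (if Conn r T ∧ 2 ≤ T.card then ∑ t ∈ T, b t * ∏ s ∈ T.erase t, a s else 0)
      ≤ ∑ T ∈ J.powerset,
          (if Conn r T ∧ 2 ≤ T.card then ∑ t ∈ T, b t * ∏ s ∈ T.erase t, a s else 0) :=
        Finset.sum_le_sum_of_subset hXJ
    _ ≤ ∑ T ∈ J.powerset, ∑ t ∈ J,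
          (if Conn r T ∧ t ∈ T ∧ 2 ≤ T.card then b t * ∏ s ∈ T.erase t, a s else 0) := by
        refine Finset.sum_le_sum fun T hT => ?_
        split_ifs with hc
        · rw [← Finset.sum_filter_add_sum_filter_not J (fun t => t ∈ T)]
          refine le_trans ?_ le_self_add
          have hsub : T ⊆ J.filter (fun t => t ∈ T) := fun t ht =>
            Finset.mem_filter.2 ⟨Finset.mem_powerset.1 hT ht, ht⟩
          refine le_trans (Finset.sum_le_sum fun t ht => ?_) (Finset.sum_le_sum_of_subset hsub)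
          rw [if_pos ⟨hc.1, ht, hc.2⟩]
        · exact bot_le
    _ = ∑ t ∈ J, ∑ T ∈ J.powerset.filter (fun T => Conn r T ∧ t ∈ T ∧ 2 ≤ T.card),
          b t * ∏ s ∈ T.erase t, a s := by
        rw [Finset.sum_comm]
        refine Finset.sum_congr rfl fun t _ => ?_
        rw [Finset.sum_filter]
    _ ≤ ∑ t ∈ J, b t * hfun (C * ε).toReal (sz t) := by
        refine Finset.sum_le_sum fun t _ => ?_
        rw [← Finset.mul_sum]
        exact mul_le_mul_right (conn_bound hs hh J t) _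
    _ ≤ ∑ t ∈ J, C * ε * (b t * 3 ^ sz t) := by
        refine Finset.sum_le_sum fun t _ => ?_
        calc b t * hfun (C * ε).toReal (sz t)
            ≤ b t * (ENNReal.ofReal (C * ε).toReal * 3 ^ sz t) :=
              mul_le_mul_right (hfun_le hδ0 hδ1 _) _
          _ = C * ε * (b t * 3 ^ sz t) := by rw [hδC]; ring
    _ ≤ ∑' t, C * ε * (b t * 3 ^ sz t) := ENNReal.sum_le_tsum J
    _ = C * ε * ∑' t, b t * 3 ^ sz t := ENNReal.tsum_mul_left

end marked

/-! ### products with both kinds of factors -/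

section mixed

variable {ι : Type*} [DecidableEq ι]

/-- `Λ ∑_{∅ ≠ S ≠ T} ∏_S l ∏_{T \ S} b ≤ ∑_t l_t ∏_{T \ t} (Λ b + l)` -/
theorem mixed_le (T : Finset ι) (b l : ι → ℝ≥0∞) {Λ : ℝ≥0∞} (hΛ : 1 ≤ Λ) :
    Λ * ∑ S ∈ T.powerset.filter (fun S => S ≠ ∅ ∧ S ≠ T), (∏ s ∈ S, l s) * ∏ s ∈ T \ S, b s ≤
      ∑ t ∈ T, l t * ∏ s ∈ T.erase t, (Λ * b s + l s) := by
  classical
  have hexp : ∀ t ∈ T, l t * ∏ s ∈ T.erase t, (Λ * b s + l s) =
      ∑ R ∈ (T.erase t).powerset, l t * ((∏ s ∈ R, Λ * b s) * ∏ s ∈ (T.erase t) \ R, l s) := by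
    intro t _
    rw [Finset.prod_add, Finset.mul_sum]
  rw [Finset.sum_congr rfl hexp, Finset.mul_sum]
  calc ∑ S ∈ T.powerset.filter (fun S => S ≠ ∅ ∧ S ≠ T), Λ * ((∏ s ∈ S, l s) * ∏ s ∈ T \ S, b s)
      ≤ ∑ S ∈ T.powerset.filter (fun S => S ≠ ∅ ∧ S ≠ T), ∑ t ∈ T, if t ∈ S then
          l t * ((∏ s ∈ T \ S, Λ * b s) * ∏ s ∈ (T.erase t) \ (T \ S), l s) else 0 := by
        refine Finset.sum_le_sum fun S hS => ?_
        rw [Finset.mem_filter, Finset.mem_powerset] at hS
        obtain ⟨hST, hS0, hS1⟩ := hS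
        obtain ⟨t, ht⟩ := Finset.nonempty_iff_ne_empty.2 hS0
        refine le_trans ?_ (Finset.single_le_sum (f := fun t => if t ∈ S then
          l t * ((∏ s ∈ T \ S, Λ * b s) * ∏ s ∈ (T.erase t) \ (T \ S), l s) else 0)
          (fun _ _ => zero_le) (hST ht))
        show _ ≤ if t ∈ S then
          l t * ((∏ s ∈ T \ S, Λ * b s) * ∏ s ∈ (T.erase t) \ (T \ S), l s) else 0
        rw [if_pos ht]
        have e1 : (T.erase t) \ (T \ S) = S.erase t := by
          ext x
          simp only [Finset.mem_sdiff, Finset.mem_erase, not_and, not_not]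
          constructor
          · rintro ⟨⟨h1, h2⟩, h3⟩; exact ⟨h1, h3 h2⟩
          · rintro ⟨h1, h2⟩; exact ⟨⟨h1, hST h2⟩, fun _ => h2⟩
        have hne : (T \ S).card ≠ 0 := by
          intro h0
          rw [Finset.card_eq_zero, Finset.sdiff_eq_empty_iff_subset] at h0
          exact hS1 (Finset.Subset.antisymm hST h0)
        have e2 : Λ ≤ Λ ^ (T \ S).card := by
          calc Λ = Λ ^ 1 := (pow_one _).symm
            _ ≤ Λ ^ (T \ S).card := pow_le_pow_right₀ hΛ (Nat.one_le_iff_ne_zero.2 hne)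
        rw [e1, Finset.prod_mul_distrib, Finset.prod_const, ← Finset.mul_prod_erase S l ht]
        calc Λ * ((l t * ∏ x ∈ S.erase t, l x) * ∏ s ∈ T \ S, b s)
            ≤ Λ ^ (T \ S).card * ((l t * ∏ x ∈ S.erase t, l x) * ∏ s ∈ T \ S, b s) :=
              mul_le_mul_left e2 _
          _ = l t * ((Λ ^ (T \ S).card * ∏ s ∈ T \ S, b s) * ∏ s ∈ S.erase t, l s) := by ring
    _ = ∑ t ∈ T, ∑ S ∈ T.powerset.filter (fun S => S ≠ ∅ ∧ S ≠ T), if t ∈ S then
          l t * ((∏ s ∈ T \ S, Λ * b s) * ∏ s ∈ (T.erase t) \ (T \ S), l s) else 0 :=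
        Finset.sum_comm
    _ ≤ ∑ t ∈ T, ∑ R ∈ (T.erase t).powerset,
          l t * ((∏ s ∈ R, Λ * b s) * ∏ s ∈ (T.erase t) \ R, l s) := by
        refine Finset.sum_le_sum fun t ht => ?_
        rw [← Finset.sum_filter]
        have hinj : Set.InjOn (fun S : Finset ι => T \ S)
            (((T.powerset.filter (fun S => S ≠ ∅ ∧ S ≠ T)).filter (fun S => t ∈ S) :
              Finset (Finset ι)) : Set (Finset ι)) := by
          intro S hS S' hS' h
          rw [Finset.mem_coe, Finset.mem_filter, Finset.mem_filter, Finset.mem_powerset] at hS hS'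
          have h' : T \ S = T \ S' := h
          rw [← Finset.sdiff_sdiff_eq_self hS.1.1, h', Finset.sdiff_sdiff_eq_self hS'.1.1]
        rw [← Finset.sum_image (f := fun R => l t * ((∏ s ∈ R, Λ * b s) *
          ∏ s ∈ (T.erase t) \ R, l s)) hinj]
        refine Finset.sum_le_sum_of_subset ?_
        intro R hR
        obtain ⟨S, hS, rfl⟩ := Finset.mem_image.1 hR
        rw [Finset.mem_filter] at hS
        rw [Finset.mem_powerset]
        intro x hx
        rw [Finset.mem_sdiff] at hx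
        exact Finset.mem_erase.2 ⟨fun h => hx.2 (h ▸ hS.2), hx.1⟩

end mixed

/-! ### norms of products -/

section norms

variable {F : Type*} [DecidableEq F] {R : Type*} [CommRing R] {nm : Finset F → R → ℝ≥0∞}

/-- the mixed part of a product -/
theorem NormFam.prod_mixed (h : NormFam nm) {κ : Type*} [DecidableEq κ] {W : Finset F}
    (T : Finset κ) (hT : T.Nonempty) (x y : κ → R) (b l : κ → ℝ≥0∞)
    (hx : ∀ t ∈ T, nm W (x t) ≤ b t) (hy : ∀ t ∈ T, nm W (y t) ≤ l t)
    (hb : ∀ t ∈ T, b t ≠ ∞) (hl : ∀ t ∈ T, l t ≠ ∞) :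
    nm W (∏ t ∈ T, (x t + y t) - ∏ t ∈ T, x t - ∏ t ∈ T, y t) ≤
      ∑ S ∈ T.powerset.filter (fun S => S ≠ ∅ ∧ S ≠ T), (∏ s ∈ S, l s) * ∏ s ∈ T \ S, b s := by
  classical
  have e : ∏ t ∈ T, (x t + y t) - ∏ t ∈ T, x t - ∏ t ∈ T, y t =
      ∑ S ∈ T.powerset.filter (fun S => S ≠ ∅ ∧ S ≠ T), (∏ s ∈ S, y s) * ∏ s ∈ T \ S, x s := by
    have h1 : ∏ t ∈ T, (x t + y t) = ∑ S ∈ T.powerset, (∏ s ∈ S, y s) * ∏ s ∈ T \ S, x s := by
      rw [← Finset.prod_add]
      exact Finset.prod_congr rfl fun t _ => add_comm _ _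
    have h2 : T.powerset = insert ∅ (insert T (T.powerset.filter (fun S => S ≠ ∅ ∧ S ≠ T))) := by
      ext S
      simp only [Finset.mem_insert, Finset.mem_filter, Finset.mem_powerset]
      constructor
      · intro hS
        by_cases h0 : S = ∅
        · exact Or.inl h0
        · by_cases h3 : S = T
          · exact Or.inr (Or.inl h3)
          · exact Or.inr (Or.inr ⟨hS, h0, h3⟩)
      · rintro (h0 | h0 | h0)
        · rw [h0]; exact Finset.empty_subset _
        · rw [h0]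
        · exact h0.1
    rw [h1]
    conv_lhs => rw [h2]
    rw [Finset.sum_insert, Finset.sum_insert]
    · simp
    · simp
    · rw [Finset.mem_insert, not_or]
      exact ⟨fun h0 => hT.ne_empty h0.symm, by simp⟩
  rw [e]
  refine (h.sum W _ _).trans (Finset.sum_le_sum fun S hS => ?_)
  rw [Finset.mem_filter, Finset.mem_powerset] at hS
  refine h.mul_le (h.prod S y l (fun t ht => hy t (hS.1 ht)) (fun t ht => hl t (hS.1 ht)))
    (h.prod (T \ S) x b (fun t ht => hx t (Finset.mem_sdiff.1 ht).1)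
      (fun t ht => hb t (Finset.mem_sdiff.1 ht).1))
    (ENNReal.prod_ne_top fun t ht => hl t (hS.1 ht))
    (ENNReal.prod_ne_top fun t ht => hb t (Finset.mem_sdiff.1 ht).1)

end norms

/-! ### total sums -/

section total

variable {F : Type*} [DecidableEq F] {β : Type*} {Wo : Finset F → ℝ≥0∞} {sz : Finset F → ℕ}
  {nr : β → Finset F → Prop} {near near' : F → F → Prop} {C : ℝ≥0∞}

/-- total summed norm, input weights -/
noncomputable def Tin (Wo : Finset F → ℝ≥0∞) (sz : Finset F → ℕ) (x : Finset F → ℝ≥0∞) : ℝ≥0∞ :=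
  Sin Wo sz (fun (_ : Unit) U => U.Nonempty) x ()

/-- total summed norm, output weights -/
noncomputable def Tout (Wo : Finset F → ℝ≥0∞) (x : Finset F → ℝ≥0∞) : ℝ≥0∞ :=
  Sout Wo (fun (_ : Unit) U => U.Nonempty) x ()

theorem Tin_mono {x y : Finset F → ℝ≥0∞} (h : ∀ U, U.Nonempty → x U ≤ y U) :
    Tin Wo sz x ≤ Tin Wo sz y := Sin_mono h

theorem Tout_mono {x y : Finset F → ℝ≥0∞} (h : ∀ U, U.Nonempty → x U ≤ y U) :
    Tout Wo x ≤ Tout Wo y := Sout_mono h

theorem Tin_add (x y : Finset F → ℝ≥0∞) :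
    Tin Wo sz (fun U => x U + y U) = Tin Wo sz x + Tin Wo sz y := Sin_add x y ()

theorem Tout_add (x y : Finset F → ℝ≥0∞) :
    Tout Wo (fun U => x U + y U) = Tout Wo x + Tout Wo y := Sout_add x y ()

theorem Tin_smul (c : ℝ≥0∞) (x : Finset F → ℝ≥0∞) :
    Tin Wo sz (fun U => c * x U) = c * Tin Wo sz x := Sin_smul c x ()

theorem Tout_smul (c : ℝ≥0∞) (x : Finset F → ℝ≥0∞) :
    Tout Wo (fun U => c * x U) = c * Tout Wo x := Sout_smul c x ()

theorem Tout_le_Tin (x : Finset F → ℝ≥0∞) : Tout Wo x ≤ Tin Wo sz x := Sout_le_Sin x ()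

theorem le_Tin (hW : ∀ U, 1 ≤ Wo U) {x : Finset F → ℝ≥0∞} {U : Finset F} (h : U.Nonempty) :
    x U ≤ Tin Wo sz x := le_Sin (nr := fun (_ : Unit) (U : Finset F) => U.Nonempty) (p := ()) hW h

theorem SumData.ne (h : SumData near' β Wo sz nr C) {p : β} {U : Finset F} (hp : nr p U) :
    U.Nonempty := by
  by_contra hc
  rw [Finset.not_nonempty_iff_eq_empty] at hc
  exact h.nempty p (hc ▸ hp)

/-- the local sums are bounded by the total sum -/
theorem Sin_le_Tin (h : SumData near' β Wo sz nr C) (x : Finset F → ℝ≥0∞) (p : β) :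
    Sin Wo sz nr x p ≤ Tin Wo sz x := by
  refine ENNReal.tsum_le_tsum fun U => ?_
  by_cases hp : nr p U
  · rw [Set.indicator_of_mem (by exact hp), Set.indicator_of_mem (by exact SumData.ne h hp)]
  · rw [Set.indicator_of_notMem (by exact hp)]
    exact bot_le

open Classical in
/-- item weights -/
noncomputable def iw (Wo : Finset F → ℝ≥0∞) (x y : Finset F → ℝ≥0∞)
    (t : Finset F ⊕ Finset F) : ℝ≥0∞ :=
  if (sp t).Nonempty then Wo (sp t) * Sum.elim x y t else 0

theorem iw_of (x y : Finset F → ℝ≥0∞) {t : Finset F ⊕ Finset F} (h : (sp t).Nonempty) :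
    iw Wo x y t = Wo (sp t) * Sum.elim x y t := if_pos h

open Classical in
theorem iw_tot (x y : Finset F → ℝ≥0∞) :
    ∑' t : Finset F ⊕ Finset F, iw Wo x y t * 3 ^ sz (sp t) = Tin Wo sz x + Tin Wo sz y := by
  rw [tsum_items]
  congr 1
  · refine tsum_congr fun U => ?_
    by_cases h : U.Nonempty
    · rw [Set.indicator_of_mem (by exact h),
        iw_of x y (show (sp (Sum.inl U : Finset F ⊕ Finset F)).Nonempty from h)]
      simp only [sp_inl, Sum.elim_inl]
      ring
    · rw [Set.indicator_of_notMem (by exact h), iw,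
        if_neg (show ¬ (sp (Sum.inl U : Finset F ⊕ Finset F)).Nonempty from h), zero_mul]
  · refine tsum_congr fun U => ?_
    by_cases h : U.Nonempty
    · rw [Set.indicator_of_mem (by exact h),
        iw_of x y (show (sp (Sum.inr U : Finset F ⊕ Finset F)).Nonempty from h)]
      simp only [sp_inr, Sum.elim_inr]
      ring
    · rw [Set.indicator_of_notMem (by exact h), iw,
        if_neg (show ¬ (sp (Sum.inr U : Finset F ⊕ Finset F)).Nonempty from h), zero_mul]

open Classical in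
theorem iw_net (h : SumData near' β Wo sz nr C) (x y : Finset F → ℝ≥0∞) (p : β) :
    ∑' t : Finset F ⊕ Finset F, (if nr p (sp t) then iw Wo x y t * 3 ^ sz (sp t) else 0)
      = Sin Wo sz nr x p + Sin Wo sz nr y p := by
  rw [tsum_items]
  congr 1
  · refine tsum_congr fun U => ?_
    by_cases hp : nr p U
    · rw [Set.indicator_of_mem (by exact hp),
        if_pos (show nr p (sp (Sum.inl U : Finset F ⊕ Finset F)) from hp),
        iw_of x y (show (sp (Sum.inl U : Finset F ⊕ Finset F)).Nonempty from SumData.ne h hp)]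
      simp only [sp_inl, Sum.elim_inl]
      ring
    · rw [Set.indicator_of_notMem (by exact hp),
        if_neg (show ¬ nr p (sp (Sum.inl U : Finset F ⊕ Finset F)) from hp)]
  · refine tsum_congr fun U => ?_
    by_cases hp : nr p U
    · rw [Set.indicator_of_mem (by exact hp),
        if_pos (show nr p (sp (Sum.inr U : Finset F ⊕ Finset F)) from hp),
        iw_of x y (show (sp (Sum.inr U : Finset F ⊕ Finset F)).Nonempty from SumData.ne h hp)]
      simp only [sp_inr, Sum.elim_inr]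
      ring
    · rw [Set.indicator_of_notMem (by exact hp),
        if_neg (show ¬ nr p (sp (Sum.inr U : Finset F ⊕ Finset F)) from hp)]

end total

/-! ### the terms with at least two items, in total norm -/

section qq

variable {F : Type*} [DecidableEq F] {R : Type*} [CommRing R] {nm : Finset F → R → ℝ≥0∞}
  {β : Type*} {Wo : Finset F → ℝ≥0∞} {sz : Finset F → ℕ}
  {nr : β → Finset F → Prop} {near near' : F → F → Prop} {C : ℝ≥0∞}

open Classical in
/-- the marked part, in total norm -/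
theorem tot_marked (hs : ∀ a b, near' a b → near' b a) (h : SumData near' β Wo sz nr C)
    (x y u v : Finset F → ℝ≥0∞) {ε η : ℝ≥0∞}
    (H : ∀ p, Sin Wo sz nr x p + Sin Wo sz nr y p ≤ ε) (H' : Tin Wo sz u + Tin Wo sz v ≤ η)
    (H3 : C * ε ≤ 1) :
    ∑' T : Finset (Finset F ⊕ Finset F), (if Conn (itr near') T ∧ 2 ≤ T.card then
      ∑ t ∈ T, iw Wo u v t * ∏ s ∈ T.erase t, iw Wo x y s else 0) ≤ C * ε * η := by
  refine (marked_total (r := itr near') (β := β) (fun a b hab => touch.symm hs hab) (iw Wo x y)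
    (iw Wo u v) (fun t => sz (sp t)) (fun p t => nr p (sp t)) (C := C) (ε := ε) ?_ ?_ H3).trans ?_
  · intro p
    exact (iw_net h x y p).le.trans (H p)
  · intro s
    obtain ⟨P, hP, hcov⟩ := h.cov (sp s)
    exact ⟨P, hP, fun t ht => hcov (sp t) ht⟩
  · exact mul_le_mul_right ((iw_tot u v).le.trans H') _

open Classical in
/-- **three kinds of items** -/
theorem QQ3 (hs : ∀ a b, near' a b → near' b a) (hN : NormFam nm)
    (h : SumData near' β Wo sz nr C) {K1 K2 K3 B1 B2 B3 : Finset F → R} {β0 t T e : ℝ≥0∞}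
    (hb : ∀ p, Sin Wo sz nr (fun U => nm U (K1 U)) p + Sin Wo sz nr (fun U => nm U (B1 U)) p ≤ β0)
    (hl : ∀ p, Sin Wo sz nr (fun U => nm U (K2 U)) p + Sin Wo sz nr (fun U => nm U (B2 U)) p ≤ t)
    (hT : Tin Wo sz (fun U => nm U (K2 U)) + Tin Wo sz (fun U => nm U (B2 U)) ≤ T)
    (hP : Tin Wo sz (fun U => nm U (K3 U)) + Tin Wo sz (fun U => nm U (B3 U)) ≤ e)
    (hC1 : 1 ≤ C) (hβ0 : β0 ≠ 0) (hβ : 2 * C * β0 ≤ 1) (ht : 2 * C * t ≤ 1)
    (hsm : C * (β0 + t + e) ≤ 1) :
    Tout Wo (fun W => nm W (QQ near near' (fun U => K1 U + K2 U + K3 U)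
        (fun U => B1 U + B2 U + B3 U) W - QQ near near' K1 B1 W - QQ near near' K2 B2 W))
      ≤ C * (β0 + t + e) * e + 2 * C * β0 * T := by
  have hβt : β0 ≠ ∞ := by
    rintro rfl
    rw [ENNReal.mul_top (mul_ne_zero (by norm_num) (fun h0 => by simp [h0] at hC1))] at hβ
    exact absurd hβ (by simp)
  have htt : t ≠ ∞ := by
    rintro rfl
    rw [ENNReal.mul_top (mul_ne_zero (by norm_num) (fun h0 => by simp [h0] at hC1))] at ht
    exact absurd ht (by simp)
  have hC0 : C ≠ 0 := fun h0 => by simp [h0] at hC1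
  have het : e ≠ ∞ := by
    rintro rfl
    rw [add_top, ENNReal.mul_top hC0] at hsm
    exact absurd hsm (by simp)
  -- the item norms
  set n1 : Finset F ⊕ Finset F → ℝ≥0∞ :=
    Sum.elim (fun U => nm U (K1 U)) (fun U => nm U (B1 U)) with hn1
  set n2 : Finset F ⊕ Finset F → ℝ≥0∞ :=
    Sum.elim (fun U => nm U (K2 U)) (fun U => nm U (B2 U)) with hn2
  set n3 : Finset F ⊕ Finset F → ℝ≥0∞ :=
    Sum.elim (fun U => nm U (K3 U)) (fun U => nm U (B3 U)) with hn3
  set a1 := iw Wo (fun U => nm U (K1 U)) (fun U => nm U (B1 U)) with ha1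
  set a2 := iw Wo (fun U => nm U (K2 U)) (fun U => nm U (B2 U)) with ha2
  set a3 := iw Wo (fun U => nm U (K3 U)) (fun U => nm U (B3 U)) with ha3
  set as := iw Wo (fun U => nm U (K1 U) + nm U (K2 U) + nm U (K3 U))
    (fun U => nm U (B1 U) + nm U (B2 U) + nm U (B3 U)) with has
  -- finiteness
  have f1 : ∀ t : Finset F ⊕ Finset F, (sp t).Nonempty → n1 t ≠ ∞ := by
    rintro (U | U) hU
    · exact h.fin hβt (fun p => le_self_add.trans (hb p)) hU
    · exact h.fin hβt (fun p => le_add_self.trans (hb p)) hU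
  have f2 : ∀ t : Finset F ⊕ Finset F, (sp t).Nonempty → n2 t ≠ ∞ := by
    rintro (U | U) hU
    · exact h.fin htt (fun p => le_self_add.trans (hl p)) hU
    · exact h.fin htt (fun p => le_add_self.trans (hl p)) hU
  have f3 : ∀ t : Finset F ⊕ Finset F, (sp t).Nonempty → n3 t ≠ ∞ := by
    rintro (U | U) hU
    · exact h.fin het (fun p => (Sin_le_Tin h _ p).trans (le_self_add.trans hP)) hU
    · exact h.fin het (fun p => (Sin_le_Tin h _ p).trans (le_add_self.trans hP)) hU
  have asum : ∀ t : Finset F ⊕ Finset F, (sp t).Nonempty → as t = a1 t + a2 t + a3 t := by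
    rintro (U | U) hU
    · rw [has, ha1, ha2, ha3, iw_of _ _ hU, iw_of _ _ hU, iw_of _ _ hU, iw_of _ _ hU]
      simp only [Sum.elim_inl]; ring
    · rw [has, ha1, ha2, ha3, iw_of _ _ hU, iw_of _ _ hU, iw_of _ _ hU, iw_of _ _ hU]
      simp only [Sum.elim_inr]; ring
  -- the bound for one set of items
  set X1 : Finset (Finset F ⊕ Finset F) → ℝ≥0∞ := fun T =>
    ∑ t ∈ T, a3 t * ∏ s ∈ T.erase t, as s with hX1
  set X2 : Finset (Finset F ⊕ Finset F) → ℝ≥0∞ := fun T =>
    ∑ S ∈ T.powerset.filter (fun S => S ≠ ∅ ∧ S ≠ T), (∏ s ∈ S, a2 s) * ∏ s ∈ T \ S, a1 s with hX2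
  have key : ∀ T : Finset (Finset F ⊕ Finset F), T.Nonempty →
      Wo (spp T) * nm (spp T) (wt near (fun U => K1 U + K2 U + K3 U)
        (fun U => B1 U + B2 U + B3 U) T - wt near K1 B1 T - wt near K2 B2 T) ≤ X1 T + X2 T := by
    intro T hT0
    unfold wt
    split_ifs with hg
    swap
    · rw [sub_zero, sub_zero, hN.zero, mul_zero]; exact bot_le
    have hne : ∀ t ∈ T, (sp t).Nonempty := fun t ht => hg.ne t ht
    have e0 : ∀ t : Finset F ⊕ Finset F, Sum.elim (fun U => K1 U + K2 U + K3 U)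
        (fun U => B1 U + B2 U + B3 U) t
        = (Sum.elim K1 B1 t + Sum.elim K2 B2 t) + Sum.elim K3 B3 t := by
      rintro (U | U) <;> rfl
    have m1 : ∀ t ∈ T, nm (spp T) (Sum.elim K1 B1 t) ≤ n1 t := by
      rintro (U | U) ht
      · exact hN.anti _ _ _ (sp_subset_spp ht)
      · exact hN.anti _ _ _ (sp_subset_spp ht)
    have m2 : ∀ t ∈ T, nm (spp T) (Sum.elim K2 B2 t) ≤ n2 t := by
      rintro (U | U) ht
      · exact hN.anti _ _ _ (sp_subset_spp ht)
      · exact hN.anti _ _ _ (sp_subset_spp ht)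
    have m3 : ∀ t ∈ T, nm (spp T) (Sum.elim K3 B3 t) ≤ n3 t := by
      rintro (U | U) ht
      · exact hN.anti _ _ _ (sp_subset_spp ht)
      · exact hN.anti _ _ _ (sp_subset_spp ht)
    have p1 := hN.prod_sub (W := spp T) T
      (fun t => (Sum.elim K1 B1 t + Sum.elim K2 B2 t) + Sum.elim K3 B3 t)
      (fun t => Sum.elim K1 B1 t + Sum.elim K2 B2 t) (fun t => n1 t + n2 t + n3 t) n3
      (fun t ht => (hN.add _ _ _).trans (add_le_add ((hN.add _ _ _).trans
        (add_le_add (m1 t ht) (m2 t ht))) (m3 t ht)))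
      (fun t ht => ((hN.add _ _ _).trans (add_le_add (m1 t ht) (m2 t ht))).trans le_self_add)
      (fun t ht => by rw [add_sub_cancel_left]; exact m3 t ht)
      (fun t ht => ENNReal.add_ne_top.2 ⟨ENNReal.add_ne_top.2 ⟨f1 t (hne t ht), f2 t (hne t ht)⟩,
        f3 t (hne t ht)⟩)
      (fun t ht => f3 t (hne t ht))
    have p2 := NormFam.prod_mixed hN (W := spp T) T hT0 (Sum.elim K1 B1) (Sum.elim K2 B2) n1 n2
      m1 m2 (fun t ht => f1 t (hne t ht)) (fun t ht => f2 t (hne t ht))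
    have e1 : ∏ t ∈ T, Sum.elim (fun U => K1 U + K2 U + K3 U) (fun U => B1 U + B2 U + B3 U) t
        - ∏ t ∈ T, Sum.elim K1 B1 t - ∏ t ∈ T, Sum.elim K2 B2 t
        = (∏ t ∈ T, ((Sum.elim K1 B1 t + Sum.elim K2 B2 t) + Sum.elim K3 B3 t)
            - ∏ t ∈ T, (Sum.elim K1 B1 t + Sum.elim K2 B2 t))
          + (∏ t ∈ T, (Sum.elim K1 B1 t + Sum.elim K2 B2 t) - ∏ t ∈ T, Sum.elim K1 B1 t
            - ∏ t ∈ T, Sum.elim K2 B2 t) := by
      rw [Finset.prod_congr rfl fun t _ => e0 t]; ring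
    rw [e1]
    refine (mul_le_mul_right ((hN.add _ _ _).trans (add_le_add p1 p2)) _).trans ?_
    rw [mul_add]
    have wp := h.wprod hT0
    refine add_le_add ?_ ?_
    · rw [hX1, Finset.mul_sum]
      refine Finset.sum_le_sum fun t ht => ?_
      calc Wo (spp T) * (n3 t * ∏ s ∈ T.erase t, (n1 s + n2 s + n3 s))
          ≤ (∏ s ∈ T, Wo (sp s)) * (n3 t * ∏ s ∈ T.erase t, (n1 s + n2 s + n3 s)) :=
            mul_le_mul_left wp _
        _ = (Wo (sp t) * n3 t) * ∏ s ∈ T.erase t, (Wo (sp s) * (n1 s + n2 s + n3 s)) := by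
            rw [← Finset.mul_prod_erase T _ ht, Finset.prod_mul_distrib]; ring
        _ = a3 t * ∏ s ∈ T.erase t, as s := by
            congr 1
            · rw [ha3, iw_of _ _ (hne t ht)]
            · refine Finset.prod_congr rfl fun s hs' => ?_
              have hs'' := hne s (Finset.mem_of_mem_erase hs')
              rw [asum s hs'', ha1, ha2, ha3, iw_of _ _ hs'', iw_of _ _ hs'', iw_of _ _ hs'']
              ring
    · rw [hX2, Finset.mul_sum]
      refine Finset.sum_le_sum fun S hS => ?_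
      rw [Finset.mem_filter, Finset.mem_powerset] at hS
      calc Wo (spp T) * ((∏ s ∈ S, n2 s) * ∏ s ∈ T \ S, n1 s)
          ≤ (∏ s ∈ T, Wo (sp s)) * ((∏ s ∈ S, n2 s) * ∏ s ∈ T \ S, n1 s) :=
            mul_le_mul_left wp _
        _ = (∏ s ∈ S, (Wo (sp s) * n2 s)) * ∏ s ∈ T \ S, (Wo (sp s) * n1 s) := by
            rw [← Finset.prod_sdiff hS.1, Finset.prod_mul_distrib, Finset.prod_mul_distrib]; ring
        _ = (∏ s ∈ S, a2 s) * ∏ s ∈ T \ S, a1 s := by
            congr 1
            · refine Finset.prod_congr rfl fun s hs' => ?_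
              rw [ha2, iw_of _ _ (hne s (hS.1 hs'))]
            · refine Finset.prod_congr rfl fun s hs' => ?_
              rw [ha1, iw_of _ _ (hne s (Finset.mem_sdiff.1 hs').1)]
  -- summation over `W`
  have step1 : Tout Wo (fun W => nm W (QQ near near' (fun U => K1 U + K2 U + K3 U)
        (fun U => B1 U + B2 U + B3 U) W - QQ near near' K1 B1 W - QQ near near' K2 B2 W))
      ≤ ∑' T : Finset (Finset F ⊕ Finset F),
        (if Conn (itr near') T ∧ 2 ≤ T.card then X1 T + X2 T else 0) := by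
    obtain ⟨q, hq⟩ : ∃ q : Finset F → Prop, ∀ W, q W ↔ W.Nonempty := ⟨_, fun W => Iff.rfl⟩
    have q1 : ∀ W : Finset F, Set.indicator {W : Finset F | W.Nonempty} (fun W => Wo W *
        nm W (QQ near near' (fun U => K1 U + K2 U + K3 U)
          (fun U => B1 U + B2 U + B3 U) W - QQ near near' K1 B1 W - QQ near near' K2 B2 W)) W
        ≤ if q W then ∑ T ∈ (itm W).powerset.filter
          (fun T => Conn (itr near') T ∧ spp T = W ∧ 2 ≤ T.card), (X1 T + X2 T) else 0 := by
      intro W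
      by_cases hW : W.Nonempty
      · rw [Set.indicator_of_mem (by exact hW), if_pos ((hq W).2 hW)]
        unfold QQ
        rw [← Finset.sum_sub_distrib, ← Finset.sum_sub_distrib]
        refine (mul_le_mul_right (hN.sum W _ _) _).trans ?_
        rw [Finset.mul_sum]
        refine Finset.sum_le_sum fun T hT => ?_
        rw [Finset.mem_filter] at hT
        obtain ⟨-, hc, hsp, -⟩ := hT
        subst hsp
        exact key T hc.1
      · rw [Set.indicator_of_notMem (by exact hW)]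
        exact bot_le
    refine (ENNReal.tsum_le_tsum q1).trans ((regroup (near' := near') _ _).trans ?_)
    refine ENNReal.tsum_le_tsum fun T => ?_
    split_ifs with hc1 hc2
    · exact le_rfl
    · exact absurd ⟨hc1.1, hc1.2.1⟩ hc2
    · exact bot_le
    · exact bot_le
  refine step1.trans ?_
  have step2 : ∑' T : Finset (Finset F ⊕ Finset F),
        (if Conn (itr near') T ∧ 2 ≤ T.card then X1 T + X2 T else 0)
      = ∑' T : Finset (Finset F ⊕ Finset F), (if Conn (itr near') T ∧ 2 ≤ T.card then X1 T else 0)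
        + ∑' T : Finset (Finset F ⊕ Finset F),
          (if Conn (itr near') T ∧ 2 ≤ T.card then X2 T else 0) := by
    rw [← ENNReal.tsum_add]
    refine tsum_congr fun T => ?_
    split_ifs
    · rfl
    · rw [add_zero]
  rw [step2]
  refine add_le_add ?_ ?_
  · refine tot_marked hs h _ _ _ _ (fun p => ?_) hP hsm
    rw [Sin_add, Sin_add, Sin_add, Sin_add]
    have g1 := hb p
    have g2 := hl p
    have g3 : Sin Wo sz nr (fun U => nm U (K3 U)) p + Sin Wo sz nr (fun U => nm U (B3 U)) p ≤ e :=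
      (add_le_add (Sin_le_Tin h _ p) (Sin_le_Tin h _ p)).trans hP
    calc _ = (Sin Wo sz nr (fun U => nm U (K1 U)) p + Sin Wo sz nr (fun U => nm U (B1 U)) p)
          + (Sin Wo sz nr (fun U => nm U (K2 U)) p + Sin Wo sz nr (fun U => nm U (B2 U)) p)
          + (Sin Wo sz nr (fun U => nm U (K3 U)) p + Sin Wo sz nr (fun U => nm U (B3 U)) p) := by
            ring
      _ ≤ β0 + t + e := add_le_add (add_le_add g1 g2) g3
  · -- the mixed part with `Λ = 1 / (2 C β0)`
    set Λ : ℝ≥0∞ := (2 * C * β0)⁻¹ with hΛ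
    have hd0 : 2 * C * β0 ≠ 0 := mul_ne_zero (mul_ne_zero (by norm_num) hC0) hβ0
    have hdt : 2 * C * β0 ≠ ∞ := ne_top_of_le_ne_top ENNReal.one_ne_top hβ
    have hΛ1 : 1 ≤ Λ := ENNReal.one_le_inv.2 hβ
    have hΛt : Λ ≠ ∞ := ENNReal.inv_ne_top.2 hd0
    have hΛ0 : Λ ≠ 0 := ENNReal.inv_ne_zero.2 hdt
    have hΛi : (2 * C * β0) * Λ = 1 := ENNReal.mul_inv_cancel hd0 hdt
    have hCΛ : C * (Λ * β0 + t) ≤ 1 := by
      have h2 : 2 * (C * (Λ * β0 + t)) ≤ 2 * 1 := by
        calc 2 * (C * (Λ * β0 + t)) = (2 * C * β0) * Λ + 2 * C * t := by ring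
          _ ≤ 1 + 1 := add_le_add hΛi.le ht
          _ = 2 * 1 := by norm_num
      exact (ENNReal.mul_le_mul_iff_right (by norm_num) (by norm_num)).1 h2
    have hmix : ∀ T : Finset (Finset F ⊕ Finset F), Λ * X2 T ≤
        ∑ t ∈ T, a2 t * ∏ s ∈ T.erase t, (Λ * a1 s + a2 s) := fun T =>
      mixed_le T a1 a2 hΛ1
    have hmixT : Λ * ∑' T : Finset (Finset F ⊕ Finset F),
        (if Conn (itr near') T ∧ 2 ≤ T.card then X2 T else 0) ≤ C * (Λ * β0 + t) * T := by
      rw [← ENNReal.tsum_mul_left]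
      refine le_trans (ENNReal.tsum_le_tsum fun S => ?_) (tot_marked (near' := near') hs h
        (fun U => Λ * nm U (K1 U) + nm U (K2 U)) (fun U => Λ * nm U (B1 U) + nm U (B2 U))
        (fun U => nm U (K2 U)) (fun U => nm U (B2 U)) (ε := Λ * β0 + t) (η := T)
        (fun p => ?_) hT hCΛ)
      · split_ifs with hc
        · refine (hmix S).trans (le_of_eq ?_)
          refine Finset.sum_congr rfl fun t _ => ?_
          congr 1
          refine Finset.prod_congr rfl fun s _ => ?_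
          rw [ha1, ha2]
          unfold iw
          split_ifs with hh
          · rcases s with U | U
            · simp only [Sum.elim_inl]; ring
            · simp only [Sum.elim_inr]; ring
          · rw [mul_zero, add_zero]
        · rw [mul_zero]
      · rw [Sin_add, Sin_add, Sin_smul, Sin_smul]
        calc _ = Λ * (Sin Wo sz nr (fun U => nm U (K1 U)) p + Sin Wo sz nr (fun U => nm U (B1 U)) p)
              + (Sin Wo sz nr (fun U => nm U (K2 U)) p + Sin Wo sz nr (fun U => nm U (B2 U)) p) := by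
                ring
          _ ≤ Λ * β0 + t := add_le_add (mul_le_mul_right (hb p) _) (hl p)
    have hfin2 : Λ * ∑' T : Finset (Finset F ⊕ Finset F),
        (if Conn (itr near') T ∧ 2 ≤ T.card then X2 T else 0) ≤ Λ * (2 * C * β0 * T) := by
      refine hmixT.trans ?_
      calc C * (Λ * β0 + t) * T ≤ 1 * T := mul_le_mul_left hCΛ _
        _ = ((2 * C * β0) * Λ) * T := by rw [hΛi]
        _ = Λ * (2 * C * β0 * T) := by ring
    exact (ENNReal.mul_le_mul_iff_right hΛ0 hΛt).1 hfin2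

end qq

/-! ### the nonlinear part of one step, in total norm -/

section nl

variable {F : Type*} [DecidableEq F] {V : Type*} [AddCommGroup V] [Module ℝ V]
  {near near' : F → F → Prop} {β : Type*} {Wo : Finset F → ℝ≥0∞} {sz : Finset F → ℕ}
  {nr : β → Finset F → Prop} {C : ℝ≥0∞} {nm : Finset F → Ge V → ℝ≥0∞}

/-- remainder of the exponential of a sum of three -/
theorem rem3 {N : Ge V → ℝ≥0∞} (hN : GN N) {a l p : Ge V} {x : ℝ≥0∞} (hx : N a + N l + N p ≤ x)
    (hx2 : x ≤ 1 / 2) :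
    N (gexp (a + l + p) - 1 - (gexp a - 1) - (gexp l - 1) - p) ≤ 6 * x * N p + 4 * (N a * N l) := by
  have e : gexp (a + l + p) - 1 - (gexp a - 1) - (gexp l - 1) - p =
      ((gexp (a + l + p) - 1 - (a + l + p)) - (gexp (a + l) - 1 - (a + l)))
        + (gexp a - 1) * (gexp l - 1) := by
    rw [gexp_add a l]; ring
  have hxt : x ≠ ∞ := ne_top_of_le_ne_top (by norm_num) hx2
  have h1 : N (a + l + p) ≤ x := ((hN.add _ _).trans (add_le_add (hN.add _ _) le_rfl)).trans hx
  have h2 : N (a + l) ≤ x := (hN.add _ _).trans (le_self_add.trans hx)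
  have hx1 : x ≤ 1 := hx2.trans (by norm_num)
  have ha : N a ≤ x := le_self_add.trans (le_self_add.trans hx)
  have hl : N l ≤ x := le_add_self.trans (le_self_add.trans hx)
  rw [e]
  refine (hN.add _ _).trans (add_le_add ?_ ?_)
  · refine (hN.rem_lip h1 h2 hx2).trans (le_of_eq ?_)
    rw [add_sub_cancel_left]
  · refine (hN.mul' (hN.one_le (ha.trans hx1)) (hN.one_le (hl.trans hx1)) ?_ ?_).trans
      (le_of_eq (by ring))
    · exact ENNReal.mul_ne_top (by norm_num) (ne_top_of_le_ne_top hxt ha)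
    · exact ENNReal.mul_ne_top (by norm_num) (ne_top_of_le_ne_top hxt hl)

/-- **the nonlinear part of one step for three kinds of activities** (1 = bulk, 2 = leading part of
the sources, 3 = rest): every term is proportional to a source dependent quantity -/
theorem NL3 (hs : ∀ a b, near' a b → near' b a) (hN : GFam nm)
    (h : SumData near' β Wo sz nr C) (hW1 : ∀ U, 1 ≤ Wo U)
    {H1 H2 H3 A1 A2 A3 : Finset F → Ge V} {β0 t T e : ℝ≥0∞}
    (hb : ∀ p, Sin Wo sz nr (fun U => nm U (H1 U)) p + Sin Wo sz nr (fun U => nm U (A1 U)) p ≤ β0)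
    (hl : ∀ p, Sin Wo sz nr (fun U => nm U (H2 U)) p + Sin Wo sz nr (fun U => nm U (A2 U)) p ≤ t)
    (hT : Tin Wo sz (fun U => nm U (H2 U)) + Tin Wo sz (fun U => nm U (A2 U)) ≤ T)
    (hP : Tin Wo sz (fun U => nm U (H3 U)) + Tin Wo sz (fun U => nm U (A3 U)) ≤ e)
    (hC1 : 1 ≤ C) (hβ0 : β0 ≠ 0) (hsm : 16 * C * (β0 + t + e + β0 * T) ≤ 1) :
    Tout Wo (fun W => nm W (NL near near' (fun U => H1 U + H2 U + H3 U)
        (fun U => A1 U + A2 U + A3 U) W - NL near near' H1 A1 W - NL near near' H2 A2 W))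
      ≤ (6 + 8 * C) * ((β0 + t + e + β0 * T) * e) + (5 + 8 * C) * (β0 * T) := by
  set σ : ℝ≥0∞ := β0 + t + e + β0 * T with hσ
  have hσ16 : 16 * σ ≤ 1 := by
    refine le_trans ?_ hsm
    calc 16 * σ = 16 * 1 * σ := by ring
      _ ≤ 16 * C * σ := mul_le_mul_left (mul_le_mul_right hC1 _) _
  have hσ2 : σ ≤ 1 / 2 := by
    rw [ENNReal.le_div_iff_mul_le (Or.inl (by norm_num)) (Or.inl (by norm_num))]
    calc σ * 2 ≤ σ * 16 := mul_le_mul_right (by norm_num) _
      _ = 16 * σ := mul_comm _ _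
      _ ≤ 1 := hσ16
  have hCσ : 4 * C * σ ≤ 1 := by
    refine le_trans ?_ hsm
    refine mul_le_mul_left (mul_le_mul_left (by norm_num) _) _
  have hbσ : β0 ≤ σ := le_self_add.trans (le_self_add.trans le_self_add)
  have htσ : t ≤ σ := le_add_self.trans (le_self_add.trans le_self_add)
  have heσ : e ≤ σ := le_add_self.trans le_self_add
  -- pointwise bounds
  have pA1 : ∀ U, U.Nonempty → nm U (A1 U) ≤ β0 := fun U hU => by
    obtain ⟨p, hp⟩ := h.hit U hU
    exact (le_Sin (sz := sz) (x := fun U => nm U (A1 U)) hW1 hp).trans (le_add_self.trans (hb p))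
  have pA2 : ∀ U, U.Nonempty → nm U (A2 U) ≤ t := fun U hU => by
    obtain ⟨p, hp⟩ := h.hit U hU
    exact (le_Sin (sz := sz) (x := fun U => nm U (A2 U)) hW1 hp).trans (le_add_self.trans (hl p))
  have pA3 : ∀ U, U.Nonempty → nm U (A3 U) ≤ e := fun U hU =>
    (le_Tin (sz := sz) (x := fun U => nm U (A3 U)) hW1 hU).trans (le_add_self.trans hP)
  have p123 : ∀ U, U.Nonempty → nm U (A1 U) + nm U (A2 U) + nm U (A3 U) ≤ σ := fun U hU =>
    (add_le_add (add_le_add (pA1 U hU) (pA2 U hU)) (pA3 U hU)).trans le_self_add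
  -- the extraction activities
  set B3 : Finset F → Ge V := fun U => Bx (fun U => A1 U + A2 U + A3 U) U - Bx A1 U - Bx A2 U
    with hB3
  have hsum : Bx (fun U => A1 U + A2 U + A3 U) = fun U => Bx A1 U + Bx A2 U + B3 U := by
    funext U; rw [hB3]; ring
  have hrem : ∀ U, U.Nonempty → nm U (B3 U - A3 U) ≤
      6 * σ * nm U (A3 U) + 4 * (β0 * nm U (A2 U)) := by
    intro U hU
    refine (rem3 (hN.gn U) (p123 U hU) hσ2).trans (add_le_add le_rfl ?_)
    exact mul_le_mul_right (mul_le_mul_left (pA1 U hU) _) _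
  have hB3' : ∀ U, U.Nonempty → nm U (B3 U) ≤ 2 * nm U (A3 U) + 4 * (β0 * nm U (A2 U)) := by
    intro U hU
    have e1 : B3 U = A3 U + (B3 U - A3 U) := by ring
    rw [e1]
    refine ((hN.gn U).add _ _).trans ((add_le_add le_rfl (hrem U hU)).trans ?_)
    calc nm U (A3 U) + (6 * σ * nm U (A3 U) + 4 * (β0 * nm U (A2 U)))
        = (1 + 6 * σ) * nm U (A3 U) + 4 * (β0 * nm U (A2 U)) := by ring
      _ ≤ (1 + 1) * nm U (A3 U) + 4 * (β0 * nm U (A2 U)) := by
          have : 6 * σ ≤ 1 := (mul_le_mul_left (by norm_num) _).trans hσ16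
          gcongr
      _ = 2 * nm U (A3 U) + 4 * (β0 * nm U (A2 U)) := by norm_num
  have hB1 : ∀ U, U.Nonempty → nm U (Bx A1 U) ≤ 2 * nm U (A1 U) := fun U hU =>
    (hN.gn U).one_le ((pA1 U hU).trans (hbσ.trans (hσ2.trans (by norm_num))))
  have hB2 : ∀ U, U.Nonempty → nm U (Bx A2 U) ≤ 2 * nm U (A2 U) := fun U hU =>
    (hN.gn U).one_le ((pA2 U hU).trans (htσ.trans (hσ2.trans (by norm_num))))
  -- summed bounds
  have sb : ∀ p, Sin Wo sz nr (fun U => nm U (H1 U)) p
      + Sin Wo sz nr (fun U => nm U (Bx A1 U)) p ≤ 2 * β0 := by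
    intro p
    have := Sin_mono (Wo := Wo) (sz := sz) (p := p) (y := fun U => 2 * nm U (A1 U))
      fun U hU => hB1 U (SumData.ne h hU)
    rw [Sin_smul] at this
    refine (add_le_add (le_mul_of_one_le_left' (by norm_num : (1 : ℝ≥0∞) ≤ 2)) this).trans ?_
    rw [← mul_add]
    exact mul_le_mul_right (hb p) _
  have sl : ∀ p, Sin Wo sz nr (fun U => nm U (H2 U)) p
      + Sin Wo sz nr (fun U => nm U (Bx A2 U)) p ≤ 2 * t := by
    intro p
    have := Sin_mono (Wo := Wo) (sz := sz) (p := p) (y := fun U => 2 * nm U (A2 U))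
      fun U hU => hB2 U (SumData.ne h hU)
    rw [Sin_smul] at this
    refine (add_le_add (le_mul_of_one_le_left' (by norm_num : (1 : ℝ≥0∞) ≤ 2)) this).trans ?_
    rw [← mul_add]
    exact mul_le_mul_right (hl p) _
  have sT : Tin Wo sz (fun U => nm U (H2 U)) + Tin Wo sz (fun U => nm U (Bx A2 U)) ≤ 2 * T := by
    have := Tin_mono (Wo := Wo) (sz := sz) (y := fun U => 2 * nm U (A2 U)) hB2
    rw [Tin_smul] at this
    refine (add_le_add (le_mul_of_one_le_left' (by norm_num : (1 : ℝ≥0∞) ≤ 2)) this).trans ?_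
    rw [← mul_add]
    exact mul_le_mul_right hT _
  have sP : Tin Wo sz (fun U => nm U (H3 U)) + Tin Wo sz (fun U => nm U (B3 U))
      ≤ 2 * e + 4 * (β0 * T) := by
    have := Tin_mono (Wo := Wo) (sz := sz)
      (y := fun U => 2 * nm U (A3 U) + 4 * (β0 * nm U (A2 U))) hB3'
    rw [Tin_add, Tin_smul, Tin_smul, Tin_smul] at this
    refine (add_le_add (le_mul_of_one_le_left' (by norm_num : (1 : ℝ≥0∞) ≤ 2)) this).trans ?_
    rw [← add_assoc, ← mul_add]
    exact add_le_add (mul_le_mul_right hP _) (mul_le_mul_right (mul_le_mul_right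
      (le_add_self.trans hT) _) _)
  -- the two parts
  have q1 : Tout Wo (fun W => nm W (B3 W - A3 W)) ≤ 6 * σ * e + 4 * (β0 * T) := by
    have := Tout_mono (Wo := Wo)
      (y := fun U => 6 * σ * nm U (A3 U) + 4 * (β0 * nm U (A2 U))) hrem
    rw [Tout_add, Tout_smul, Tout_smul, Tout_smul] at this
    refine this.trans (add_le_add (mul_le_mul_right ?_ _) (mul_le_mul_right (mul_le_mul_right
      ?_ _) _))
    · exact (Tout_le_Tin _).trans (le_add_self.trans hP)
    · exact (Tout_le_Tin _).trans (le_add_self.trans hT)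
  have q2 := QQ3 (near := near) hs hN.toNormFam h (K1 := H1) (K2 := H2) (K3 := H3) (B1 := Bx A1)
    (B2 := Bx A2) (B3 := B3) (β0 := 2 * β0) (t := 2 * t) (T := 2 * T) (e := 2 * e + 4 * (β0 * T))
    sb sl sT sP hC1 (mul_ne_zero (by norm_num) hβ0) ?_ ?_ ?_
  rotate_left
  · calc 2 * C * (2 * β0) = 4 * C * β0 := by ring
      _ ≤ 4 * C * σ := mul_le_mul_right hbσ _
      _ ≤ 1 := hCσ
  · calc 2 * C * (2 * t) = 4 * C * t := by ring
      _ ≤ 4 * C * σ := mul_le_mul_right htσ _
      _ ≤ 1 := hCσ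
  · refine le_trans ?_ hCσ
    calc C * (2 * β0 + 2 * t + (2 * e + 4 * (β0 * T)))
        ≤ C * (4 * β0 + 4 * t + (4 * e + 4 * (β0 * T))) := by gcongr <;> norm_num
      _ = 4 * C * σ := by rw [hσ]; ring
  have e1 : ∀ W, W.Nonempty → nm W (NL near near' (fun U => H1 U + H2 U + H3 U)
        (fun U => A1 U + A2 U + A3 U) W - NL near near' H1 A1 W - NL near near' H2 A2 W) ≤
      nm W (B3 W - A3 W) + nm W (QQ near near' (fun U => H1 U + H2 U + H3 U)
        (fun U => Bx A1 U + Bx A2 U + B3 U) W - QQ near near' H1 (Bx A1) W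
          - QQ near near' H2 (Bx A2) W) := by
    intro W _
    have e2 : NL near near' (fun U => H1 U + H2 U + H3 U)
        (fun U => A1 U + A2 U + A3 U) W - NL near near' H1 A1 W - NL near near' H2 A2 W =
        (B3 W - A3 W) + (QQ near near' (fun U => H1 U + H2 U + H3 U)
        (fun U => Bx A1 U + Bx A2 U + B3 U) W - QQ near near' H1 (Bx A1) W
          - QQ near near' H2 (Bx A2) W) := by
      rw [NL, NL, NL, hsum, hB3]; ring
    rw [e2]
    exact (hN.gn W).add _ _
  refine (Tout_mono e1).trans ?_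
  rw [Tout_add]
  refine (add_le_add q1 q2).trans ?_
  have h4 : C * (2 * β0 + 2 * t + (2 * e + 4 * (β0 * T))) ≤ 4 * C * σ := by
    calc C * (2 * β0 + 2 * t + (2 * e + 4 * (β0 * T)))
        ≤ C * (4 * β0 + 4 * t + (4 * e + 4 * (β0 * T))) := by gcongr <;> norm_num
      _ = 4 * C * σ := by rw [hσ]; ring
  calc 6 * σ * e + 4 * (β0 * T) + (C * (2 * β0 + 2 * t + (2 * e + 4 * (β0 * T)))
        * (2 * e + 4 * (β0 * T)) + 2 * C * (2 * β0) * (2 * T))
      ≤ 6 * σ * e + 4 * (β0 * T) + (4 * C * σ * (2 * e + 4 * (β0 * T))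
        + 2 * C * (2 * β0) * (2 * T)) := by
        gcongr
    _ = (6 + 8 * C) * (σ * e) + (4 + 8 * C) * (β0 * T) + (16 * C * σ) * (β0 * T) := by ring
    _ ≤ (6 + 8 * C) * (σ * e) + (4 + 8 * C) * (β0 * T) + 1 * (β0 * T) := by gcongr
    _ = (6 + 8 * C) * (σ * e) + (5 + 8 * C) * (β0 * T) := by ring

end nl

/-! ### the scalar recursion -/

/-- **the recursion for the total norm of the rest**: `b` = bulk, `t` = net norm of the leading
part, `T` = total norm of the leading part -/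
theorem src_rec {b e : ℕ → ℝ≥0∞} {N : ℕ} {ε t T κ C M q : ℝ≥0∞} (hq : q ≤ 1)
    (hb : ∀ k ≤ N, b k ≤ ε * q ^ k) (h0 : e 0 ≤ M * ε * T)
    (hM : (κ + C * (ε + t + M * ε * T)) * M + C ≤ M * q)
    (hstep : ∀ k < N, e k ≤ M * ε * T * q ^ k →
      e (k + 1) ≤ (κ + C * (b k + t + e k)) * e k + C * (b k * T)) :
    ∀ k ≤ N, e k ≤ M * ε * T * q ^ k := by
  intro k
  induction k with
  | zero => intro _; simpa using h0
  | succ k ih =>
    intro hk
    have ihk := ih (by omega)
    have hqk : q ^ k ≤ 1 := pow_le_one₀ (by simp) hq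
    have hbk : b k ≤ ε := (hb k (by omega)).trans (mul_le_of_le_one_right' hqk)
    have hek : e k ≤ M * ε * T := ihk.trans (mul_le_of_le_one_right' hqk)
    refine (hstep k (by omega) ihk).trans ?_
    calc (κ + C * (b k + t + e k)) * e k + C * (b k * T)
        ≤ (κ + C * (ε + t + M * ε * T)) * (M * ε * T * q ^ k) + C * (ε * q ^ k * T) := by
          gcongr
          exact hb k (by omega)
      _ = ((κ + C * (ε + t + M * ε * T)) * M + C) * (ε * T * q ^ k) := by ring
      _ ≤ (M * q) * (ε * T * q ^ k) := mul_le_mul_left hM _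
      _ = M * ε * T * q ^ (k + 1) := by rw [pow_succ]; ring

/-- a sequence with geometrically small increments stays close to its initial value -/
theorem zeta_bound {z : ℕ → ℝ} {N : ℕ} {a q : ℝ} (ha : 0 ≤ a) (hq0 : 0 ≤ q) (hq1 : q < 1)
    (h : ∀ k < N, |z (k + 1) - z k| ≤ a * q ^ k) (k j : ℕ) (hkj : k ≤ j) (hj : j ≤ N) :
    |z j - z k| ≤ a * q ^ k / (1 - q) := by
  have h1q : 0 < 1 - q := by linarith
  have key : ∀ n, k + n ≤ N → |z (k + n) - z k| ≤ a * q ^ k * (1 - q ^ n) / (1 - q) := by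
    intro n
    induction n with
    | zero => intro _; simp
    | succ n ih =>
      intro hn
      have h1 := ih (by omega)
      have h2 := h (k + n) (by omega)
      have e : z (k + (n + 1)) - z k = (z (k + n + 1) - z (k + n)) + (z (k + n) - z k) := by
        rw [← add_assoc]; ring
      rw [e]
      refine (abs_add_le _ _).trans ((add_le_add h2 h1).trans (le_of_eq ?_))
      rw [eq_div_iff h1q.ne', add_mul, div_mul_cancel₀ _ h1q.ne', pow_add, pow_succ]
      ring
  obtain ⟨n, rfl⟩ := Nat.exists_eq_add_of_le hkj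
  refine (key n hj).trans ?_
  have hqn : 0 ≤ q ^ n := pow_nonneg hq0 n
  have hqk : 0 ≤ a * q ^ k := mul_nonneg ha (pow_nonneg hq0 k)
  refine div_le_div_of_nonneg_right ?_ h1q.le
  calc a * q ^ k * (1 - q ^ n) ≤ a * q ^ k * 1 := mul_le_mul_of_nonneg_left (by linarith) hqk
    _ = a * q ^ k := mul_one _

/-- the limit of the running coefficient -/
theorem zeta_lim {z : ℕ → ℝ} {a q : ℝ} (ha : 0 ≤ a) (hq0 : 0 ≤ q) (hq1 : q < 1)
    (h : ∀ k, |z (k + 1) - z k| ≤ a * q ^ k) :
    ∃ Ze : ℝ, Filter.Tendsto z Filter.atTop (nhds Ze) ∧ ∀ k, |z k - Ze| ≤ a * q ^ k / (1 - q) := by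
  have hb : ∀ k j, k ≤ j → |z j - z k| ≤ a * q ^ k / (1 - q) := fun k j hkj =>
    zeta_bound (N := j) ha hq0 hq1 (fun k _ => h k) k j hkj le_rfl
  have hcs : CauchySeq z := by
    refine cauchySeq_of_le_geometric q a hq1 fun n => ?_
    rw [dist_comm, Real.dist_eq]
    exact h n
  obtain ⟨Ze, hZe⟩ := cauchySeq_tendsto_of_complete hcs
  refine ⟨Ze, hZe, fun k => ?_⟩
  have h1 : Filter.Tendsto (fun j => |z j - z k|) Filter.atTop (nhds |Ze - z k|) :=
    (hZe.sub_const _).abs
  rw [abs_sub_comm]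
  exact le_of_tendsto h1 (Filter.eventually_atTop.2 ⟨k, fun j hj => hb k j hj⟩)

end Crest.Agent.R165.SrcStepx54
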