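import Crest.Agent.R165.SrcSymPl_922
import Crest.Agent.R165.J4K0Sym_126
import Crest.Agent.R165.SrcK0_991

/-!
# Row 165 (S0250), P11: covariance of the initial activities with bond sources (helper922)

* `K0_lsymS` : 126's `K0_lsym` with sources
* `K0C_tau`, `K0C_rho` : translations and rotations of the plane
-/

set_option autoImplicit false
set_option linter.all false

noncomputable section

open Finset

namespace Crest.Agent.R165.SrcSymx922

section K0
open Crest.ProbabilityR.IsingModel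
open Crest.Agent.R165.KCompx892 Crest.Agent.R165.J4Actx126
open Crest.Agent.R165.J4Datx126 Crest.Agent.R165.J4Geox126 Crest.Agent.R165.J4K0x126
open Crest.Agent.R165.J4K0Mapx126 Crest.Agent.R165.J4K0Dx126 Crest.Agent.R165.J4K0Symx126
open Crest.Agent.R165.J4Defx653 Crest.Agent.R165.J4Pathx653
open Crest.Agent.R165.J4RRx653 Crest.Agent.R165.J4RRAx653
open Crest.Agent.R165.J1ax606 (HE EG pe qe pe_zero pe_one qe_zero qe_one)

variable {A : Type*} [CommRing A] [Algebra ℝ A] {A' : Type*} [CommRing A'] [Algebra ℝ A']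
  {κ : Type*} [DecidableEq κ] [Fintype κ]

/-- **covariance of the initial activities under a lattice symmetry, with sources** -/
theorem K0_lsymS {fr : Fr ℤ A} {fr' : Fr ℤ A'} {B : Bk ℤ κ A} {B' : Bk ℤ κ A'} {y0 s0 : ℝ}
    (hB : Hom B y0 s0) (hB' : Hom B' y0 s0) (htt : B'.t = B.t) (hRR : B'.R = B.R)
    (L : LSym) (hL : ∀ S, B.t (L.β S) = B.t S) (τ : A →ₐ[ℝ] A')
    (hb : ∀ e, τ (fr.b e) = fr'.b (L.E e)) (hI : ∀ f, τ (fr.I4 f) = fr'.I4 (L.ψ f))
    (hYk : ∀ k, B'.Ys k = (B.Ys k).image L.ψ) (has : ∀ k, τ (B.as k) = B'.as k)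
    (hFs : ∀ k, B'.Fs k = em L.E (B.Fs k))
    (U : Finset (ℤ × ℤ)) : τ (B.K0 fr U) = B'.K0 fr' (U.image L.ψ) := by
  rw [K0_liv, K0_liv]
  -- shapes
  have hsh : ∀ p : (ℤ × ℤ) × Finset (ℤ × ℤ), p.2 ∈ Can B.R → Even p.2.card → B.t p.2 ≠ 0 →
      (can (L.β (tr p.2 p.1))).2 ∈ Can B.R ∧ Even (can (L.β (tr p.2 p.1))).2.card ∧
        B.t (can (L.β (tr p.2 p.1))).2 = B.t p.2 := by
    intro p h1 h2 h3
    have hne : (L.β (tr p.2 p.1)).Nonempty := by
      refine L.ne ?_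
      rw [← Finset.card_pos, card_tr]
      exact (Can.nonempty h1).card_pos
    have ht : B.t (L.β (tr p.2 p.1)) = B.t p.2 := by rw [hL, hB.tT]
    refine ⟨can_mem hB.tR hne (by rw [ht]; exact h3), ?_, ?_⟩
    · unfold can
      rw [card_tr, L.card, card_tr]
      exact h2
    · unfold can
      rw [hB.tT, ht]
  have hYs : ∀ p : (ℤ × ℤ) × Finset (ℤ × ℤ),
      (Yf (can (L.β (tr p.2 p.1))).2).image (fz (G := ℤ) (can (L.β (tr p.2 p.1))).1) =
        ((Yf p.2).image (fz (G := ℤ) p.1)).image L.ψ := by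
    intro p
    rw [Yf_place, place_can, L.Yf, Yf_place]
  have hYI : ∀ i ∈ liv B U, B'.YI (mL L i) = (B.YI i).image L.ψ := by
    intro i hi
    rcases i with p | f | e | k
    · exact hYs p
    · exact (Finset.image_singleton _ _).symm
    · exact L.faE e
    · exact hYk k
  refine dat_map (m := mL L) (eb := L.E) _ _ (fun i hi => (mem_liv.1 hi).1.2) L.ψ_inj.injOn
    L.E_inj.injOn ?_ ?_ ?_ ?_ hYI ?_ ?_
  · intro e _
    unfold Bk.g
    rw [map_sub, map_one, map_smul, hb, hB.y, hB'.y, hB.s, hB'.s, hB.s, hB'.s]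
  · intro i hi
    have h0 := hYI i hi
    rw [mem_liv] at hi
    rw [mem_liv]
    refine ⟨⟨?_, ?_⟩, ?_⟩
    · rcases i with p | f | e | k
      · obtain ⟨h1, h2, -⟩ := hsh p hi.1.1.1.1 hi.1.1.1.2 hi.2
        exact ⟨⟨by rw [hRR]; exact h1, h2⟩, hB'.ok _ _⟩
      · trivial
      · trivial
      · show (B'.Ys k).Nonempty
        rw [hYk]
        exact Finset.Nonempty.image hi.1.1 _
    · rw [h0]
      exact Finset.image_subset_image hi.1.2
    · rcases i with p | f | e | k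
      · obtain ⟨-, -, h3⟩ := hsh p hi.1.1.1.1 hi.1.1.1.2 hi.2
        change B'.t (can (L.β (tr p.2 p.1))).2 ≠ 0
        rw [htt, h3]; exact hi.2
      · trivial
      · trivial
      · trivial
  · intro i hi j hj hij
    rw [Finset.mem_coe, mem_liv] at hi hj
    rcases i with p | f | e | k
    · rcases j with p' | f' | e' | k'
      · unfold mL at hij
        rw [Sum.inl.injEq] at hij
        have h1 : L.β (tr p.2 p.1) = L.β (tr p'.2 p'.1) := by
          rw [← place_can (L.β (tr p.2 p.1)), hij, place_can]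
        have h2 := L.β_inj h1
        have h3 := can_place (u := p.1) (mem_Can.1 hi.1.1.1.1).2
        have h4 := can_place (u := p'.1) (mem_Can.1 hj.1.1.1.1).2
        rw [h2, h4] at h3
        rw [Sum.inl.injEq]
        exact h3.symm
      · unfold mL at hij; cases hij
      · unfold mL at hij; cases hij
      · unfold mL at hij; cases hij
    · rcases j with p' | f' | e' | k'
      · unfold mL at hij; cases hij
      · unfold mL at hij
        rw [Sum.inr.injEq, Sum.inl.injEq] at hij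
        rw [L.ψ_inj hij]
      · unfold mL at hij; cases hij
      · unfold mL at hij; cases hij
    · rcases j with p' | f' | e' | k'
      · unfold mL at hij; cases hij
      · unfold mL at hij; cases hij
      · unfold mL at hij
        rw [Sum.inr.injEq, Sum.inr.injEq, Sum.inl.injEq] at hij
        rw [L.E_inj hij]
      · unfold mL at hij; cases hij
    · rcases j with p' | f' | e' | k'
      · unfold mL at hij; cases hij
      · unfold mL at hij; cases hij
      · unfold mL at hij; cases hij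
      · exact hij
  · intro i' hi'
    rw [mem_liv] at hi'
    obtain ⟨⟨hok, hY'⟩, hlv⟩ := hi'
    rcases i' with p | f | e | k
    · obtain ⟨B0, hB0⟩ := L.β_surj (tr p.2 p.1)
      have hok1 : p.2 ∈ Can B.R := by rw [← hRR]; exact hok.1.1
      have hne : B0.Nonempty := by
        refine L.ne' ?_
        rw [hB0, ← Finset.card_pos, card_tr]
        exact (Can.nonempty hok.1.1).card_pos
      have ht : B.t B0 = B.t p.2 := by rw [← hL, hB0, hB.tT]
      have hlv' : B.t p.2 ≠ 0 := by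
        have h9 : B'.t p.2 ≠ 0 := hlv
        rwa [htt] at h9
      have hcard : Even B0.card := by
        rw [← L.card, hB0, card_tr]; exact hok.1.2
      refine ⟨.inl (can B0), ?_, ?_⟩
      · rw [mem_liv]
        refine ⟨⟨⟨⟨can_mem hB.tR hne (by rw [ht]; exact hlv'), ?_⟩, hB.ok _ _⟩, ?_⟩, ?_⟩
        · unfold can
          rw [card_tr]; exact hcard
        · change (Yf (can B0).2).image (fz (G := ℤ) (can B0).1) ⊆ U
          rw [Yf_place, place_can]
          have h5 : (Yf B0).image L.ψ ⊆ U.image L.ψ := by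
            rw [← L.Yf, hB0, ← Yf_place]
            exact hY'
          exact (Finset.image_subset_image_iff L.ψ_inj).1 h5
        · change B.t (can B0).2 ≠ 0
          unfold can
          rw [hB.tT, ht]; exact hlv'
      · change (Sum.inl (can (L.β (tr (can B0).2 (can B0).1))) : Ix ℤ κ) = _
        rw [place_can, hB0, can_place (mem_Can.1 hok.1.1).2]
    · obtain ⟨g, hg, hg'⟩ := Finset.mem_image.1 (hY' (Finset.mem_singleton_self f))
      refine ⟨.inr (.inl g), ?_, ?_⟩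
      · rw [mem_liv]
        exact ⟨⟨trivial, Finset.singleton_subset_iff.2 hg⟩, trivial⟩
      · change (Sum.inr (Sum.inl (L.ψ g)) : Ix ℤ κ) = _
        rw [hg']
    · obtain ⟨g, hg⟩ := L.E_surj e
      refine ⟨.inr (.inr (.inl g)), ?_, ?_⟩
      · rw [mem_liv]
        refine ⟨⟨trivial, ?_⟩, trivial⟩
        change J4Geox126.faE g ⊆ U
        have h5 : (J4Geox126.faE g).image L.ψ ⊆ U.image L.ψ := by
          rw [← L.faE, hg]
          exact hY'
        exact (Finset.image_subset_image_iff L.ψ_inj).1 h5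
      · change (Sum.inr (Sum.inr (Sum.inl (L.E g))) : Ix ℤ κ) = _
        rw [hg]
    · refine ⟨.inr (.inr (.inr k)), ?_, rfl⟩
      have hok' : (B'.Ys k).Nonempty := hok
      have hY2 : B'.Ys k ⊆ U.image L.ψ := hY'
      rw [hYk] at hok' hY2
      rw [mem_liv]
      refine ⟨⟨?_, ?_⟩, trivial⟩
      · show (B.Ys k).Nonempty
        exact Finset.image_nonempty.1 hok'
      · show B.Ys k ⊆ U
        exact (Finset.image_subset_image_iff L.ψ_inj).1 hY2
  · intro i hi
    rcases i with p | f | e | k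
    · exact map_one τ
    · change τ (B.cI f • fr.I4 f + (B.cI f ^ 2 / 2) • (fr.I4 f * fr.I4 f)) =
        B'.cI (L.ψ f) • fr'.I4 (L.ψ f) + (B'.cI (L.ψ f) ^ 2 / 2) • (fr'.I4 (L.ψ f) * fr'.I4 (L.ψ f))
      have hc : B.cI f = B'.cI (L.ψ f) := by unfold Bk.cI; rw [hB.s, hB'.s]
      rw [map_add, map_smul, map_smul, map_mul, hI, hc]
    · change τ ((B.y e * (B.s (pe e).1 * B.s (qe e).1 - 1)) • fr.b e) =
        (B'.y (L.E e) * (B'.s (pe (L.E e)).1 * B'.s (qe (L.E e)).1 - 1)) • fr'.b (L.E e)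
      rw [map_smul, hb, hB.y, hB'.y, hB.s, hB'.s, hB.s, hB'.s]
    · exact has k
  · intro i hi
    rw [mem_liv] at hi
    rcases i with p | f | e | k
    · obtain ⟨h1, -, h3⟩ := hsh p hi.1.1.1.1 hi.1.1.1.2 hi.2
      have hne : (tr p.2 p.1).Nonempty := by
        rw [← Finset.card_pos, card_tr]
        exact (Can.nonempty hi.1.1.1.1).card_pos
      change em (ez (can (L.β (tr p.2 p.1))).1)
        (kB (B'.t (can (L.β (tr p.2 p.1))).2) (can (L.β (tr p.2 p.1))).2) =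
          em L.E (em (ez p.1) (kB (B.t p.2) p.2))
      rw [htt, h3, kB_place _ _ (Can.nonempty h1), place_can, L.kB _ _ hne,
        kB_place _ _ (Can.nonempty hi.1.1.1.1)]
    · exact (map_one _).symm
    · exact (map_one _).symm
    · exact hFs k

end K0

section pl

open Crest.ProbabilityR.IsingModel
open Crest.Agent.R165.Gr0x606 Crest.Agent.R165.Gr1x606 Crest.Agent.R165.GeOpsx337
open Crest.Agent.R165.KFlowx337 Crest.Agent.R165.GSysx387 Crest.Agent.R165.KInitx892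
open Crest.Agent.R165.SrcDefx991 Crest.Agent.R165.SrcSysx991 Crest.Agent.R165.FlowD4x898
open Crest.Agent.R165.GDefx387 Crest.Agent.R165.KMapx892
open Crest.Agent.R165.SrcCstx484 Crest.Agent.R165.SrcInsx991
open Crest.Agent.R165.PlaneModesx901 Crest.Agent.R165.WtD4x898 Crest.Agent.R165.Bkgx683
open Crest.Agent.R165.J4Geox126 Crest.Agent.R165.J4K0x126 Crest.Agent.R165.J4K0Symx126
open Crest.Agent.R165.FRDPolyx439 Crest.Agent.R165.PlaneSumx901
open Crest.Agent.R165.J4Defx653 Crest.Agent.R165.J4Pathx653 Crest.Agent.R165.J4RRx653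
open Crest.Agent.R165.Latx683 (xc wPl Fld)
open Crest.Agent.R165.J1ax606 (pe qe pe_zero pe_one qe_zero qe_one)

theorem homAny {κ : Type} {A : Type*} [CommRing A] [Algebra ℝ A] {J lam β z : ℝ} {R : ℕ}
    {V : Finset (ℤ × ℤ) → ℝ} (hT : TrInv V) (hR : Rng R V) (src : Srcs κ ℤ A) :
    Hom (Bg.pl.bk (mpar J lam R V β z) src) xc (Real.sqrt (1 + z)) where
  y _ := rfl
  s f := by
    show Bg.sc _ _ f = _
    exact if_pos trivial
  ok _ _ := trivial
  tT B t := tpot_lsym (lTr t) (fun e => pr_trEd t e) (fun B => hT B t) B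
  tR := J4Lnkx653.tpot_rng hR

theorem frG_map {V V' : Type*} [AddCommGroup V] [Module ℝ V] [AddCommGroup V'] [Module ℝ V']
    (p : V →ₗ[ℝ] V') (ι : Fld ℤ →ₗ[ℝ] V) (e : EG ℤ) :
    mpG p ((frG ι).b e) = (frG (p ∘ₗ ι)).b e ∧ ∀ f, mpG p ((frG ι).I4 f) = (frG (p ∘ₗ ι)).I4 f := by
  refine ⟨by rw [frG_b, frG_b, mpG_bi]; rfl, fun f => ?_⟩
  rw [frG_I4, frG_I4, map_sum]
  exact Finset.sum_congr rfl fun p _ => by rw [mpG_bi]; rfl

/-- the frames of the fields with sources, from the frames of the fields -/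
theorem frG_inl {m : ℕ} (x : EG ℤ) :
    (frG (LinearMap.inl ℝ (Fld ℤ) (Src m))).b x = inG m ((frG (LinearMap.id)).b x) ∧
      ∀ f, (frG (LinearMap.inl ℝ (Fld ℤ) (Src m))).I4 f = inG m ((frG (LinearMap.id)).I4 f) := by
  have h := frG_map (LinearMap.inl ℝ (Fld ℤ) (Src m)) (LinearMap.id : Fld ℤ →ₗ[ℝ] Fld ℤ) x
  exact ⟨h.1.symm, fun f => (h.2 f).symm⟩

variable {m : ℕ} {J lam β z : ℝ} {R : ℕ} {V : Finset (ℤ × ℤ) → ℝ}

/-- the background of the plane with bond sources -/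
abbrev bkS (P : MPar) (e : Fin m → EG ℤ) : Bk ℤ (Fin m) (Ge (VS (Fld ℤ) m)) :=
  Bg.pl.bk P (bondSrc (Fld ℤ) e)

theorem bkS_cov (hT : TrInv V) (hR : Rng R V) {p : Fld ℤ →ₗ[ℝ] Fld ℤ} (L : LSym)
    (hL : ∀ S, (mpar J lam R V β z).t (L.β S) = (mpar J lam R V β z).t S)
    (hb : ∀ e, mpG p ((frG (G := ℤ) LinearMap.id).b e) = (frG LinearMap.id).b (L.E e))
    (hI : ∀ f, mpG p ((frG (G := ℤ) LinearMap.id).I4 f) = (frG LinearMap.id).I4 (L.ψ f))
    (e : Fin m → EG ℤ) (U : Finset (ℤ × ℤ)) :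
    mpG (psS m p) ((bkS (mpar J lam R V β z) e).K0 (frG (LinearMap.inl ℝ (Fld ℤ) (Src m))) U) =
      (bkS (mpar J lam R V β z) fun i => L.E (e i)).K0
        (frG (LinearMap.inl ℝ (Fld ℤ) (Src m))) (U.image L.ψ) := by
  have hA : Hom (bkS (mpar J lam R V β z) e) xc (Real.sqrt (1 + z)) := homAny hT hR _
  have hA' : Hom (bkS (mpar J lam R V β z) fun i => L.E (e i)) xc (Real.sqrt (1 + z)) :=
    homAny hT hR _
  have h1 : ∀ x, mpG (psS m p) ((frG (LinearMap.inl ℝ (Fld ℤ) (Src m))).b x) =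
      (frG (LinearMap.inl ℝ (Fld ℤ) (Src m))).b (L.E x) := fun x => by
    rw [(frG_inl x).1, (frG_inl (L.E x)).1, psS_inG, hb]
  have h2 : ∀ f, mpG (psS m p) ((frG (LinearMap.inl ℝ (Fld ℤ) (Src m))).I4 f) =
      (frG (LinearMap.inl ℝ (Fld ℤ) (Src m))).I4 (L.ψ f) := fun f => by
    rw [(frG_inl ((0, 0), 0)).2, (frG_inl ((0, 0), 0)).2, psS_inG, hI]
  have h3 : ∀ k, (bkS (mpar J lam R V β z) fun i => L.E (e i)).Ys k =
      ((bkS (mpar J lam R V β z) e).Ys k).image L.ψ := fun k => L.faE (e k)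
  have h4 : ∀ k, mpG (psS m p) ((bkS (mpar J lam R V β z) e).as k) =
      (bkS (mpar J lam R V β z) fun i => L.E (e i)).as k := fun k => psS_tau _ k
  have h5 : ∀ k, (bkS (mpar J lam R V β z) fun i => L.E (e i)).Fs k =
      em L.E ((bkS (mpar J lam R V β z) e).Fs k) := fun k => by
    show ep (Finsupp.single (L.E (e k)) 1) - 1 = em L.E (ep (Finsupp.single (e k) 1) - 1)
    rw [map_sub, map_one, em_ep, Finsupp.mapDomain_single]
  exact K0_lsymS hA hA' rfl rfl L hL (mpG (psS m p)) h1 h2 h3 h4 h5 U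

/-- **covariance of the initial activities with bond sources, general form** -/
theorem K0C_of (hT : TrInv V) (hR : Rng R V) (l k0 : ℕ) {c : GIso (wPl ℤ) (wPl ℤ)} (L : LSym)
    (hψ : (c.φ : ℤ × ℤ → ℤ × ℤ) = L.ψ)
    (hL : ∀ S, (mpar J lam R V β z).t (L.β S) = (mpar J lam R V β z).t S)
    (hb : ∀ e, mpG c.psh ((frG (G := ℤ) LinearMap.id).b e) = (frG LinearMap.id).b (L.E e))
    (hI : ∀ f, mpG c.psh ((frG (G := ℤ) LinearMap.id).I4 f) = (frG LinearMap.id).I4 (L.ψ f))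
    (e : Fin m → EG ℤ) : K0C (mpar J lam R V β z) l k0 c e fun i => L.E (e i) := by
  intro U
  have hp : PIso (fun a b : ℤ × ℤ => a = b) (near l k0 0) (fun a b : ℤ × ℤ => a = b) (near l k0 0)
      U c.φ c.φ.symm := by
    refine ⟨fun a _ => c.φ.symm_apply_apply a, fun a _ b _ => c.φ.injective.eq_iff.symm,
      fun a _ b _ => ?_⟩
    unfold near
    rw [c.iso]
  have key : ∀ U' ⊆ U, U'.Nonempty → (mpG (psS m c.psh)).toRingHom
      ((bkS (mpar J lam R V β z) e).K0 (frG (LinearMap.inl ℝ (Fld ℤ) (Src m))) U') =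
      (bkS (mpar J lam R V β z) fun i => L.E (e i)).K0
        (frG (LinearMap.inl ℝ (Fld ℤ) (Src m))) (U'.image c.φ) := by
    intro U' _ _
    rw [hψ]
    exact bkS_cov hT hR L hL hb hI e U'
  exact K1_map hp (mpG (psS m c.psh)).toRingHom key

theorem tau_b' (t : ℤ × ℤ) (e : EG ℤ) : mpG (gTau t).psh
    ((frG (LinearMap.id : Fld ℤ →ₗ[ℝ] Fld ℤ)).b e) =
      (frG (LinearMap.id : Fld ℤ →ₗ[ℝ] Fld ℤ)).b ((lTr t).E e) := by
  rw [gTau_psh]; exact tau_b t e

theorem tau_I4' (t : ℤ × ℤ) (f : ℤ × ℤ) : mpG (gTau t).psh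
    ((frG (LinearMap.id : Fld ℤ →ₗ[ℝ] Fld ℤ)).I4 f) =
      (frG (LinearMap.id : Fld ℤ →ₗ[ℝ] Fld ℤ)).I4 ((lTr t).ψ f) := by
  rw [gTau_psh]; exact tau_I4 t f

theorem rho_b' (e : EG ℤ) : mpG (gRho 0).psh
    ((frG (LinearMap.id : Fld ℤ →ₗ[ℝ] Fld ℤ)).b e) =
      (frG (LinearMap.id : Fld ℤ →ₗ[ℝ] Fld ℤ)).b (lRho.E e) := by
  rw [gRho_psh]; exact rho_b e

theorem rho_I4' (f : ℤ × ℤ) : mpG (gRho 0).psh
    ((frG (LinearMap.id : Fld ℤ →ₗ[ℝ] Fld ℤ)).I4 f) =
      (frG (LinearMap.id : Fld ℤ →ₗ[ℝ] Fld ℤ)).I4 (lRho.ψ f) := by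
  rw [gRho_psh]; exact rho_I4 f

theorem mpar_tau (hT : TrInv V) (t : ℤ × ℤ) (S : Finset (ℤ × ℤ)) :
    (mpar J lam R V β z).t ((lTr t).β S) = (mpar J lam R V β z).t S :=
  tpot_lsym (lTr t) (fun e => pr_trEd t e) (fun B => hT B t) S

theorem mpar_rot (hr : ∀ S, V (rB S) = V S) (S : Finset (ℤ × ℤ)) :
    (mpar J lam R V β z).t (lRot.β S) = (mpar J lam R V β z).t S :=
  tpot_lsym lRot (fun e => pr_rotEd e) hr S

theorem mpar_rho (hT : TrInv V) (hr : ∀ S, V (rB S) = V S) (S : Finset (ℤ × ℤ)) :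
    (mpar J lam R V β z).t (lRho.β S) = (mpar J lam R V β z).t S := by
  have h : lRho.β S = (lTr (1, 0)).β (lRot.β S) := rfl
  rw [h, mpar_tau hT, mpar_rot hr]

/-- translations -/
theorem K0C_tau (hT : TrInv V) (hR : Rng R V) (l k0 : ℕ) (t : ℤ × ℤ) (e : Fin m → EG ℤ) :
    K0C (mpar J lam R V β z) l k0 (gTau t) e fun i => (lTr t).E (e i) :=
  K0C_of hT hR l k0 (lTr t) (gTau_φ t) (mpar_tau hT t) (tau_b' t) (tau_I4' t) e

/-- rotations -/
theorem K0C_rho (hT : TrInv V) (hR : Rng R V) (hr : ∀ S, V (rB S) = V S) (l k0 : ℕ)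
    (e : Fin m → EG ℤ) :
    K0C (mpar J lam R V β z) l k0 (gRho 0) e fun i => lRho.E (e i) :=
  K0C_of hT hR l k0 lRho rot0_eq (mpar_rho hT hr) rho_b' rho_I4' e

end pl

end Crest.Agent.R165.SrcSymx922
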