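import Crest.Agent.R165.SrcSym_922
import Crest.Agent.R165.SrcIns_991
import Crest.Agent.R165.GSysPl_387

/-!
# Row 165 (S0250), P11: the plane systems with bond sources under translations and rotations
(helper922)

* `cMass_tau`, `cMass_rho`, `muB_pl` : the coefficient functional of the plane
* `pEq_pl` : two plane systems with bond sources related by a translation or a rotation
-/

set_option autoImplicit false
set_option linter.all false

noncomputable section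

namespace Crest.Agent.R165.SrcSymx922

open scoped ENNReal
open Crest.Agent.R165.Gr0x606 Crest.Agent.R165.Gr1x606 Crest.Agent.R165.GeOpsx337
open Crest.Agent.R165.ExpGx337 Crest.Agent.R165.KFlowx337 Crest.Agent.R165.GSysx387
open Crest.Agent.R165.SrcDefx991 Crest.Agent.R165.SrcSysx991 Crest.Agent.R165.FlowD4x898
open Crest.Agent.R165.Latx683 Crest.Agent.R165.GDefx387 Crest.Agent.R165.PStepx417
open Crest.Agent.R165.GrLocx337 Crest.Agent.R165.SrcCstx484 Crest.Agent.R165.SrcInsx991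
open Crest.Agent.R165.PlaneModesx901 Crest.Agent.R165.PlaneLocx901 Crest.Agent.R165.Locx901
open Crest.Agent.R165.WtD4x898 Crest.Agent.R165.Bkgx683 Crest.Agent.R165.J4Geox126
open Crest.Agent.R165.FRDPolyx439 Crest.Agent.R165.PlaneSumx901
open Crest.Agent.R165.J1ax606 (pe qe pe_zero pe_one qe_zero qe_one)

theorem m0_eq (a b : ℝ) : m0 a b = a • m0 1 0 + b • m0 0 1 := by
  refine tst_ext ?_ ?_ ?_ ?_ <;> intro x
  · simp only [m0, lt_S, Pi.add_apply, Pi.smul_apply, smul_eq_mul]; ring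
  · simp only [m0, lt_E, Pi.add_apply, Pi.smul_apply, smul_eq_mul]; ring
  · simp only [m0, lt_N, Pi.add_apply, Pi.smul_apply, smul_eq_mul]; ring
  · simp only [m0, lt_W, Pi.add_apply, Pi.smul_apply, smul_eq_mul]; ring

theorem form_m0 (F : Gr (Fld ℤ)) (a b c d : ℝ) :
    form F (ev (m0 a b)) (ev (m0 c d)) = (a * d - b * c) * cMass F := by
  have h1 : formT F (m0 a b) (m0 c d) = (a * d - b * c) * cMass F := by
    rw [m0_eq a b, m0_eq c d]
    simp only [map_add, map_smul, LinearMap.add_apply, LinearMap.smul_apply, formT_apply,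
      smul_eq_mul, form_self]
    rw [show form F (ev (m0 0 1)) (ev (m0 1 0)) = -form F (ev (m0 1 0)) (ev (m0 0 1)) from
      form_swap _ _ _]
    rw [cMass, formL_apply]
    ring
  rwa [formT_apply] at h1

theorem cMass_tau (t : Fc) (F : Gr (Fld ℤ)) : cMass (mp (tauV t) F) = cMass F := by
  rw [cMass, formL_apply, formL_apply, form_mp, ev_tauV, ev_tauV, tauS_m0, tauS_m0]

theorem cMass_rho (y : Fc) (F : Gr (Fld ℤ)) : cMass (mp (rhoV y) F) = cMass F := by
  have h2 := r2_sq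
  have e : cMass (mp (rhoV y) F) = form F (ev (rhoS y (m0 1 0))) (ev (rhoS y (m0 0 1))) := by
    rw [cMass, formL_apply, form_mp, ev_rhoV, ev_rhoV]
  rw [e, rhoS_m0, rhoS_m0, form_m0]
  have : (r2 / 2 * (0 - 1)) * (-(r2 / 2) * (0 + 1)) - -(r2 / 2) * (1 + 0) * (r2 / 2 * (1 - 0)) =
      1 := by ring_nf; nlinarith
  rw [this, one_mul]

theorem cMass_pl {c : GIso (wPl ℤ) (wPl ℤ)} (hc : PlGen c) (hε : c.ε = 1) (F : Gr (Fld ℤ)) :
    cMass (mp c.psh F) = cMass F := by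
  rcases hc with ⟨t, rfl⟩ | rfl | rfl
  · exact cMass_tau t F
  · exact cMass_rho 0 F
  · exact absurd hε (by show (-1 : ℝ) ≠ 1; norm_num)

theorem cS_pl (z : ℤ × ℤ) (a : Ge (Fld ℤ)) : cS (wPl ℤ) z a = cMass (a : Gr (Fld ℤ)) := by
  rw [cS_apply, chP_plane, cMass_tau]

theorem uB_pl (e : EG ℤ) : uB (wPl ℤ) e = -(2 * xc) := rfl

theorem xc_ne : xc ≠ 0 := xc_pos.ne'

theorem muB_pl (e : EG ℤ) (a : Ge (Fld ℤ)) :
    muB (wPl ℤ) e a = (2 * xc)⁻¹ * cMass (a : Gr (Fld ℤ)) := by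
  rw [muB_apply, cS_beB, cS_pl, cS_pl, coe_bE, Srcx336.cMass_bb, uB_pl]
  congr 2
  ring

variable {m : ℕ}

theorem wpl_ne (e : Fin m → EG ℤ) (i : Fin m) : Bg.pl.w (e i).1 (e i).2 ≠ 0 := xc_ne

variable {MD KD : ℕ} (D : FRD 16 MD KD) (P : MPar) (l k0 : ℕ)

/-- the plane flow with bond sources -/
abbrev plP (e : Fin m → EG ℤ) : Sys (ℤ × ℤ) (VS (Fld ℤ) m) :=
  flowP Bg.pl P D ∅ e (wpl_ne e) l k0

/-- the running coefficients of the plane -/
abbrev zPl (e : Fin m → EG ℤ) (n : ℕ) (i : Fin m) : ℝ := zeP Bg.pl P D ∅ e (wpl_ne e) l k0 n i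

/-- covariance of the initial activities with sources -/
def K0C (c : GIso (wPl ℤ) (wPl ℤ)) (e e' : Fin m → EG ℤ) : Prop :=
  ∀ U, mpG (psS m c.psh) (K0P Bg.pl P e l k0 U) = K0P Bg.pl P e' l k0 (U.image c.φ)

theorem pEq_pl {c : GIso (wPl ℤ) (wPl ℤ)} (hc : PlGen c) (hε : c.ε = 1) {e e' : Fin m → EG ℤ}
    (hf : ∀ i, faE (e' i) = (faE (e i)).image c.φ) (hb : ∀ i, mpG c.psh (bE (e i)) = bE (e' i))
    (h0 : PlSym fun U =>
      ((Bg.pl.K0 P LinearMap.id (noSrc ℤ (Ge (Fld ℤ))) l k0 U : Ge (Fld ℤ)) : Gr (Fld ℤ)))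
    (hK : K0C P l k0 c e e') :
    PEq (m := m) c.φ c.psh (flow0 Bg.pl P D ∅ l k0) (flow0 Bg.pl P D ∅ l k0)
      (srcD Bg.pl.w e (wpl_ne e)) (srcD Bg.pl.w e' (wpl_ne e')) (rr l k0)
      (dpS Bg.pl.w ∅ l k0 e) (dpS Bg.pl.w ∅ l k0 e') (K0P Bg.pl P e l k0)
      (K0P Bg.pl P e' l k0) where
  base := by
    have h := (plSys D l k0 (Bg.pl.K0 P LinearMap.id (noSrc ℤ (Ge (Fld ℤ))) l k0)).sysEq h0 hc
    rw [GIso.Φ_of_one _ hε] at h
    exact h
  S k x y := by
    have := SymS.psh (symS_slC D l k0 k) hc x y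
    rw [hε, one_mul] at this
    exact this.symm
  size n U := c.size_image _ U
  sf i := hf i
  dp n i := iff_of_true (fun f _ => deep_plane l k0 n f) (fun f _ => deep_plane l k0 n f)
  mu i a := by
    show muB (wPl ℤ) (e' i) (mpG c.psh a) = muB (wPl ℤ) (e i) a
    rw [muB_pl, muB_pl, coe_mpG, cMass_pl hc hε]
  β i := by
    show mpG c.psh (beB (wPl ℤ) (e i)) = beB (wPl ℤ) (e' i)
    rw [beB, beB, map_smul, hb]
    rfl
  K0 := hK

end Crest.Agent.R165.SrcSymx922
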