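import Crest.Agent.R165.Step_470
import Crest.Agent.R165.Cov2_359

/-!
# Row 165 (S0250), block U, B1 (ii): the STEP identity, plus boundary conditions (helper470)

For a finite `T` without holes, ANY insertions `X : Fin n → ℤ × ℤ` and any covariance
`IsCov (wTX .plus T X) S`:
* `Nsum_Zs` : bridge `Nsum` (UDomC_420) / `Zs` (J2c_606)
* `J2Set_plus` : the finite-set bond identity
* `GB_plus_pos` : spin correlations are positive
* `plus_NE, plus_SW, plus_SE, plus_NW, plus_unit, plus_unit'` : the ratios, unconditionally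
-/

set_option autoImplicit false
set_option linter.unusedSectionVars false

noncomputable section

open Crest.ProbabilityR.IsingModel

namespace Crest.Agent.R165.Step2x470

open Gr0x606 Latx683 Stepx470
open Crest.Agent.R165.UDomCx420 Crest.Agent.R165.UJ2x420 Crest.Agent.R165.U5Px422
open Crest.Agent.R165.Covx359
open Crest.Agent.R165.J1cx606 (NoHole)
open Crest.Agent.R165.J2cx606 (Zs sig)
open Crest.Agent.R165.Gk1x422 (sp)

theorem spin_conf (N : Finset (ℤ × ℤ)) (z : ℤ × ℤ) : spinSign (conf N z) = sig N z := by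
  unfold conf sig
  by_cases h : z ∈ N <;> simp [h, spinSign]

theorem eps_conf (N : Finset (ℤ × ℤ)) (e : J1ax606.EG ℤ) :
    UDomAx420.eps (conf N) e = J2cx606.eps N e := by
  unfold UDomAx420.eps J2cx606.eps UDomAx420.tip
  rw [spin_conf, spin_conf]
  rfl

/-- both spin sums agree -/
theorem Nsum_Zs (T : Finset (ℤ × ℤ)) (w : BW ℤ) {n : ℕ} (X : Fin n → ℤ × ℤ)
    (A : Finset (J1ax606.EG ℤ)) :
    Nsum T (wX w X) (fun s => ∏ e ∈ A, UDomAx420.eps s e) = Zs T (un w) X A := by
  rw [← Nsum_ray]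
  unfold Nsum Zs
  refine Finset.sum_congr rfl fun N _ => ?_
  have h1 : ∏ i, spinSign (conf N (X i)) = ∏ i, sig N (X i) :=
    Finset.prod_congr rfl fun i _ => spin_conf N (X i)
  have h2 : ∏ e ∈ A, UDomAx420.eps (conf N) e = ∏ e ∈ A, J2cx606.eps N e :=
    Finset.prod_congr rfl fun e _ => eps_conf N e
  simp only [h1, h2]
  rfl

theorem Nsum_Zs_one (T : Finset (ℤ × ℤ)) (w : BW ℤ) {n : ℕ} (X : Fin n → ℤ × ℤ) :
    Nsum T (wX w X) (fun _ => 1) = Zs T (un w) X ∅ := by
  rw [← Nsum_Zs]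
  simp only [Finset.prod_empty]

/-- **the finite-set bond identity**, plus boundary conditions -/
theorem J2Set_plus {T : Finset (ℤ × ℤ)} (hT : NoHole T) {n : ℕ} {X : Fin n → ℤ × ℤ}
    {S : HE ℤ → HE ℤ → ℝ} (hc : IsCov (wX (wDom (T : Set (ℤ × ℤ)) false) X) S) :
    J2Set T (wX (wDom (T : Set (ℤ × ℤ)) false) X) (covS S hc.skew) := by
  intro A
  rw [Nsum_Zs, Nsum_Zs_one]
  have hi : J2ax606.IsInv (fun e => un (wDom (T : Set (ℤ × ℤ)) false) e * J2cx606.cut X e) S := by
    rw [← un_wX]; exact isInv_of_isCov hc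
  have h := J2cx606.J2_plus T hT (un (wDom (T : Set (ℤ × ℤ)) false)) (wDom_plus_out T) X hi A
  have hu : ∀ e : J1ax606.EG ℤ, un (wDom (T : Set (ℤ × ℤ)) false) e * J2cx606.cut X e =
      wX (wDom (T : Set (ℤ × ℤ)) false) X e.1 e.2 := fun e =>
    (congrFun (un_wX (wDom (T : Set (ℤ × ℤ)) false) X) e).symm
  have hB : J2cx606.BB (fun e => un (wDom (T : Set (ℤ × ℤ)) false) e * J2cx606.cut X e) A =
      ∏ e ∈ A, (1 - (2 * wX (wDom (T : Set (ℤ × ℤ)) false) X e.1 e.2) • J1ax606.bb e) :=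
    Finset.prod_congr rfl fun e _ => by simp only [hu e]
  rw [h, covS_eq, hB]

theorem wTX_plus {n : ℕ} (T : Finset (ℤ × ℤ)) (X : Fin n → ℤ × ℤ) :
    wTX .plus T X = wX (wDom (T : Set (ℤ × ℤ)) false) X := rfl

theorem wTX_free {n : ℕ} (T : Finset (ℤ × ℤ)) (X : Fin n → ℤ × ℤ) :
    wTX .free T X = wX (wDom (T : Set (ℤ × ℤ)) true) X := rfl

/-- spin correlations with plus boundary conditions are positive -/
theorem GB_plus_pos {T : Finset (ℤ × ℤ)} (hT : NoHole T) {n : ℕ} (X : Fin n → ℤ × ℤ) :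
    0 < GB .plus T X := by
  rw [GB_eq .plus (by simp)]
  refine div_pos ?_ (Nsum_pos T _ _)
  have h1 : sp X = fun s => (∏ i, spinSign (s (X i))) * 1 := by
    funext s; rw [mul_one]; rfl
  have h2 : decide (BoundaryCondition.plus = BoundaryCondition.free) = false := rfl
  rw [h1, Nsum_ray, h2, Nsum_Zs_one]
  refine Zs_plus_pos T hT _ (fun e he => ?_) X
  rw [wDom_plus_in T e he, abs_of_pos xc_pos]
  exact xc_lt_one

section plus

variable {T : Finset (ℤ × ℤ)} (hT : NoHole T) {n : ℕ} {X : Fin n → ℤ × ℤ} {S : HE ℤ → HE ℤ → ℝ}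
  (hc : IsCov (wTX .plus T X) S) (i : Fin n)
include hT hc

/-- **STEP `v = (1, 1)`** -/
theorem plus_NE : GB .plus T (Function.update X i (X i + (1, 1))) / GB .plus T X =
    -formS S (lSW (wTX .plus T X) (X i)) (lNE (wTX .plus T X) (X i)) :=
  ratio_NE .plus (by simp) T X S hc.skew (J2Set_plus hT hc) i (GB_plus_pos hT X).ne'
    (Stepx470.IsCov.row3 hc _)

/-- **STEP `v = (-1, -1)`** -/
theorem plus_SW : GB .plus T (Function.update X i (X i - (1, 1))) / GB .plus T X =
    -formS S (lSW (wTX .plus T X) (X i - (1, 1))) (lNE (wTX .plus T X) (X i - (1, 1))) :=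
  ratio_SW .plus (by simp) T X S hc.skew (J2Set_plus hT hc) i (GB_plus_pos hT X).ne'
    (Stepx470.IsCov.row3 hc _)

/-- **STEP `v = (1, -1)`** -/
theorem plus_SE : GB .plus T (Function.update X i (X i + (1, -1))) / GB .plus T X =
    formS S (lNW (wTX .plus T X) (X i - (0, 1))) (lSE (wTX .plus T X) (X i - (0, 1))) :=
  ratio_SE .plus (by simp) T X S hc.skew (J2Set_plus hT hc) i (GB_plus_pos hT X).ne'
    (Stepx470.IsCov.row3 hc _)

/-- **STEP `v = (-1, 1)`** -/
theorem plus_NW : GB .plus T (Function.update X i (X i + (-1, 1))) / GB .plus T X =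
    formS S (lNW (wTX .plus T X) (X i - (1, 0))) (lSE (wTX .plus T X) (X i - (1, 0))) :=
  ratio_NW .plus (by simp) T X S hc.skew (J2Set_plus hT hc) i (GB_plus_pos hT X).ne'
    (Stepx470.IsCov.row3 hc _)

/-- **STEP `v = unitVec j`** -/
theorem plus_unit (j : Fin 2) :
    GB .plus T (Function.update X i (X i + unitVec j)) / GB .plus T X =
      1 - 2 * wTX .plus T X (X i) j * S (hp (X i) j) (hq (X i) j) :=
  ratio_unit .plus (by simp) T X S hc.skew (J2Set_plus hT hc) i (GB_plus_pos hT X).ne' j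

/-- **STEP `v = -unitVec j`** -/
theorem plus_unit' (j : Fin 2) :
    GB .plus T (Function.update X i (X i - unitVec j)) / GB .plus T X =
      1 - 2 * wTX .plus T X (X i - unitVec j) j *
        S (hp (X i - unitVec j) j) (hq (X i - unitVec j) j) :=
  ratio_unit' .plus (by simp) T X S hc.skew (J2Set_plus hT hc) i (GB_plus_pos hT X).ne' j

end plus

end Crest.Agent.R165.Step2x470
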