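import Crest.Agent.R165.TailD_999
import Crest.Agent.R165.TailNA_999
import Crest.Agent.R165.SrcMid_441
import Crest.Agent.R165.SrcDomC_697
import Crest.Agent.R165.W0S_897

/-!
# Row 165 (S0250), tail with sources: `FinE` for the frozen flows (helper999)

* `flC_SLA`, `flC_OK` : locality of the cut flow at the step `K₁`; the algebraic hypotheses
* `gwS_le_same`, `gram_same` : the Gram weight of the step `n` against the local weight at the SAME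
  scale; `hvac_flC`, `hfin_gr` : the hypotheses `hvac`, `hfin` of 441's `finE_mid`
* `finE_flC` : **`FinE` at the last scale `K₁ + N` for 683's flow with bond sources**, in the form
  `hF` of 359's `runPack_of`
-/

set_option autoImplicit false
set_option linter.unusedSectionVars false
set_option linter.unusedVariables false

noncomputable section

open scoped ENNReal

namespace Crest.Agent.R165.TailDx999

open Crest.Agent.R165.Gr0x606 Crest.Agent.R165.Gr1x606 Crest.Agent.R165.GeOpsx337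
  Crest.Agent.R165.ExpGx337 Crest.Agent.R165.KStepx892 Crest.Agent.R165.KFlowx337
  Crest.Agent.R165.Latx683 Crest.Agent.R165.PNormx417 Crest.Agent.R165.GDefx387
  Crest.Agent.R165.GSysx387 Crest.Agent.R165.FRDPolyx439 Crest.Agent.R165.Bkgx683
  Crest.Agent.R165.Topx683 Crest.Agent.R165.J4Defx653 Crest.Agent.R165.J4Geox126
  Crest.Agent.R165.W0Sx897 Crest.Agent.R165.FRDAbsx439 Crest.Agent.R165.FRDInfx439
  Crest.Agent.R165.FRDLatx439 Crest.Agent.R165.ExpAx337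
open Crest.Agent.R165.SrcDefx991 (VS Src th th' tau tauP ext0 inG noS vacH vacS coP wS vS GS
  noS_inG noS_tau inG_mem tau_mem)
open Crest.Agent.R165.SrcSysx991
open Crest.Agent.R165.SrcInsx991
open Crest.Agent.R165.SrcFinx441 (lead)
open Crest.Agent.R165.SrcFinBx441 (Nw)
open Crest.Agent.R165.EnWx359 (leadB flL)
open Crest.Agent.R165.SrcTailx441 (NoX TailOf base0 PT shift shift_K shift_H)
open Crest.Agent.R165.SrcTailAllx441 (TailH ScalarT3)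
open Crest.Agent.R165.SrcTailx999 (SLA)
open Crest.Agent.R165.SrcDomx697 (KF)
open Crest.Agent.R165.SrcMidx441 (FinM finE_mid)
open Crest.Agent.R165.SrcCmpx441 (FinE)
open Crest.Agent.R165.TailNAx999

/-! ### the cut flow at the step `K₁` -/

section flows

variable {m : ℕ} (B : Bg ℤ) (P : MPar) {M K : ℕ} (Dd : FRD 16 M K) (mk : Finset (ℤ × ℤ))
  (e : Fin m → Bkgx683.EG ℤ) (he : ∀ i, B.w (e i).1 (e i).2 ≠ 0) (l k0 K₁ : ℕ)

/-- **source locality** -/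
theorem flC_SLA (U : Finset (ℤ × ℤ)) :
    (flC B P Dd mk e he l k0 K₁).K K₁ U ∈ SLA (fun i => faE (e i)) U := by
  refine ⟨flC_GS B P Dd mk e he l k0 K₁ K₁ U, fun I hI i hi => ?_⟩
  rw [flC_K B P Dd mk e he l k0 K₁ le_rfl] at hI
  exact SrcInvx336.sup_K (SOK_flowP B P Dd mk e l k0)
    (fun U I h i hi => K0P_sup B P e l k0 U I h i hi) hI hi

/-- **the algebraic hypotheses** -/
theorem flC_OK (hK : 16 ≤ K) (h : 5 ≤ l * (k0 + 1))
    (h0 : ∀ U, K0P B P e l k0 U ∈ grG (fldUS (fun i => faE (e i)) U)) :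
    (flC B P Dd mk e he l k0 K₁).OK (srcW (Fld ℤ) m) := by
  refine GSysOKx439.sysS_OK Dd hK B.w mk h _ (fun n U T hT a _ => ?_) h0
  rcases Nat.lt_or_ge n K₁ with hn | hn
  · rw [cutE_lt hn]
    exact srcE_X_mem (rr l k0 n) (srcD B.w e he) (dpS B.w mk l k0 e n)
      (fun i => beB_mem B.w (e i)) U T a
  · rw [cutE_ge hn] at hT
    exact absurd hT (Finset.notMem_empty _)

end flows

/-! ### Gram weights at the same scale -/

section gram

variable {G : Type} [CommRing G] [CN G] {M K : ℕ} (D : FRD 16 M K)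

/-- **Gram weight of the step `n` against the local weight at the same scale** -/
theorem gwS_le_same (hM : MM + 1 ≤ M) (w : BW G) (hw : ∀ z j, |w z j| ≤ 1) (l k0 n : ℕ) {A : ℝ}
    (hA : cW0 D l k0 n ≤ A) (x : G × G) (f : Fld G) :
    gwS D w l k0 n f ≤ wt w A (rr l k0 n) x f := by
  have hA0 : 0 < A := (cW0_pos D l k0 n).trans_le hA
  have hC := D.C_pos
  have key : ∀ t : ℝ, t ≤ A → ∀ y : ℝ≥0∞, ENNReal.ofReal (t / A) * y ≤ y := by
    intro t ht y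
    calc ENNReal.ofReal (t / A) * y ≤ 1 * y := by
          gcongr
          exact ENNReal.ofReal_le_one.2 (by rw [div_le_one hA0]; exact ht)
      _ = y := one_mul _
  have hL : (1 : ℝ) ≤ 2 ^ l := one_le_pow₀ (by norm_num)
  have hsq : √(D.C * 2 ^ l) ≤ √D.C * 2 ^ l := by
    rw [Real.sqrt_mul hC.le]
    refine mul_le_mul_of_nonneg_left ?_ (Real.sqrt_nonneg _)
    calc √((2 : ℝ) ^ l) ≤ √((2 ^ l) ^ 2) := Real.sqrt_le_sqrt (by nlinarith)
      _ = 2 ^ l := Real.sqrt_sq (by positivity)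
  have h6 : ((2 : ℝ) ^ l) ≤ ((2 : ℝ) ^ l) ^ MM := le_self_pow₀ hL (by decide)
  have hrr : (2 : ℝ) ^ hi l k0 n ≤ 2 ^ l * (rr l k0 n : ℕ) := by
    have e : (2 : ℝ) ^ hi l k0 n = ((rr l k0 (n + 1) : ℕ) : ℝ) := by
      rw [← hi_eq]; push_cast; rfl
    rw [e, rr_succ]
    push_cast
    exact le_rfl
  rcases n with _ | n
  · rw [cW0_zero] at hA
    have h := gw_le_wt_first D hM w (AopF_bdd w hw) (hi l k0 0) (rr l k0 0) (2 ^ l)
      (rr_pos l k0 _) hrr hA0 x f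
    unfold gwS
    rw [lo_zero]
    refine h.trans (key _ ?_ _)
    refine le_trans ?_ hA
    have hr0 : (0 : ℝ) ≤ ((rr l k0 0 : ℕ) : ℝ) ^ MM := by positivity
    calc 7 * √(D.C * 2 ^ l) * ((rr l k0 0 : ℕ) : ℝ) ^ MM
        ≤ 7 * (√D.C * ((2 : ℝ) ^ l) ^ MM) * ((rr l k0 0 : ℕ) : ℝ) ^ MM := by
          refine mul_le_mul_of_nonneg_right ?_ hr0
          refine mul_le_mul_of_nonneg_left ?_ (by norm_num)
          exact hsq.trans (mul_le_mul_of_nonneg_left h6 (Real.sqrt_nonneg _))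
      _ = 7 * √D.C * ((rr l k0 1 : ℕ) : ℝ) ^ MM := by
          rw [rr_succ l k0 0]
          push_cast
          rw [mul_pow]
          ring
  · rw [cW0_succ] at hA
    have hlo : 2 ^ lo l k0 (n + 1) = rr l k0 (n + 1) := by rw [lo_succ, hi_eq]
    have h := gw_le_wt_new D hM w (AopF_bdd w hw) (lo l k0 (n + 1)) (hi l k0 (n + 1))
      (rr l k0 (n + 1)) (2 ^ l) (by rw [hlo]) hrr hA0 x f
    refine h.trans (key _ ?_ _)
    have e : ((2 : ℝ) ^ lo l k0 (n + 1)) = ((rr l k0 (n + 1) : ℕ) : ℝ) := by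
      rw [← hlo]; push_cast; rfl
    have h0 : ((rr l k0 (n + 1) : ℕ) : ℝ) ≠ 0 := by
      have := rr_pos l k0 (n + 1)
      positivity
    rw [e, div_self h0, one_pow, mul_one]
    refine le_trans ?_ hA
    calc 7 * √(D.C * 2 ^ l) ≤ 7 * (√D.C * ((2 : ℝ) ^ l) ^ MM) := by
          refine mul_le_mul_of_nonneg_left ?_ (by norm_num)
          exact hsq.trans (mul_le_mul_of_nonneg_left h6 (Real.sqrt_nonneg _))
      _ = _ := by ring

theorem gram_le {V : Type*} [AddCommGroup V] [Module ℝ V] {S : Cov V} {g g' : V → ℝ≥0∞}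
    (h : Gram S g) (hg : ∀ x, g x ≤ g' x) : Gram S g' := fun L => (h L).trans (mwt_mono hg L)

/-- **Gram bound of the step `n` in the weights of the scale `n`** -/
theorem gram_same (hM : MM + 1 ≤ M) (w : BW G) (hw : ∀ z j, |w z j| ≤ 1) (l k0 n : ℕ) {A : ℝ}
    (hA : cW0 D l k0 n ≤ A) (U : Finset (G × G)) :
    Gram (slC D w l k0 n) (wU w A (rr l k0 n) U) := by
  classical
  refine gram_le (gramS D w hw l k0 n) fun f => ?_
  refine le_iInf₂ fun x _ => ?_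
  split_ifs
  · exact gwS_le_same D hM w hw l k0 n hA x f
  · exact le_top

end gram

/-! ### `FinE` -/

section final

variable {m : ℕ} (B : Bg ℤ) (P : MPar) {M K : ℕ} (Dd : FRD 16 M K) (mk : Finset (ℤ × ℤ))
  (e : Fin m → Bkgx683.EG ℤ) (he : ∀ i, B.w (e i).1 (e i).2 ≠ 0) (l k0 K₁ : ℕ)

/-- the hypothesis `hvac` of `finE_mid` -/
theorem hvac_flC (hM : MM + 1 ≤ M) (hw : ∀ z j, |B.w z j| ≤ 1) {g : Fld ℤ → ℝ≥0∞} (g0 : g 0 = 0)
    {v : ℝ} (hv : 0 < v) {a : ℕ → ℝ} {k : ℕ} (hA : cW0 Dd l k0 (K₁ + k) ≤ a k)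
    (U : Finset (ℤ × ℤ)) {X : Ge (VS (Fld ℤ) m)} (hX : X ∈ GS (Fld ℤ) m) :
    Nw g (fun _ => v) (vacH (cvG (ext0 m ((flow0 B P Dd mk l k0).S (K₁ + k))) X)) ≤
      nmS B.w a (fun n => rr l k0 (K₁ + n)) (fun _ => ENNReal.ofReal v) k U X :=
  SrcTailFinx441.vac_bd g0 (fun _ => hv) (gram_same Dd hM B.w hw l k0 (K₁ + k) hA U) hX

/-- the hypothesis `hfin` of `finE_mid` -/
theorem hfin_of {w : BW ℤ} {g : Fld ℤ → ℝ≥0∞} {v : ℝ} {a : ℕ → ℝ} {r : ℕ → ℕ} {N : ℕ}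
    (hg : ∀ (U : Finset (ℤ × ℤ)) (x : Fld ℤ), g x ≤ wU w (a N) (r N) U x)
    (U : Finset (ℤ × ℤ)) (X : Ge (VS (Fld ℤ) m)) :
    Nw g (fun _ => v) X ≤ nmS w a r (fun _ => ENNReal.ofReal v) N U X :=
  pnorm_le_pnorm (fun p => wS_mono (fun x => hg U x) _ p) _

theorem leadB_KF (w : BW ℤ) (Ze : ℝ) :
    leadB w e Ze = KF (fun i => faE (e i)) Ze (fun i => beB w (e i)) := rfl

theorem tL_eq (Ze : ℝ) : tL B P Dd mk e he l k0 K₁ Ze =
    shift (flC B P Dd mk e he l k0 K₁) K₁ (KF (fun i => faE (e i)) Ze fun i => beB B.w (e i)) := rfl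

/-- **`FinE` at the last scale for the flow with bond sources** -/
theorem finE_flC {J N : ℕ} {C c : ℝ≥0∞} {t0 C0 : ℝ} (h3 : ScalarT3 J c C t0 C0) (hC0 : 0 ≤ C0)
    (hCt : C ≠ ∞) {b0 : ℝ} (hb0 : 0 < b0) (hbt : b0 ≤ t0) {Λ : Finset (ℤ × ℤ)}
    {a : ℕ → ℝ} {Γ : ℝ≥0∞} (hΓ : 1 ≤ Γ) {ζ cst c0 : Fin m → ℝ} {v ε μ M' Ze : ℝ}
    (hF : FinM (flC B P Dd mk e he l k0 K₁) (flow0 B P Dd mk l k0) Λ K₁ (fun i => faE (e i)) ζ cst
      c0 (fun i => beB B.w (e i))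
      (nmS B.w a (fun n => rr l k0 (K₁ + n)) (fun _ => ENNReal.ofReal v) 0)
      (WoS (fun n => rr l k0 (K₁ + n)) Γ 0) v ε μ M' Ze)
    (het : ε * (1 + m * μ) ≤ t0) (hμt : m * (2 * μ) ≤ t0)
    {Pc : ℕ → Finset (ℤ × ℤ) → Ge (VS (Fld ℤ) m) → Prop} {q : ℕ → ℝ≥0∞}
    (h : TailH (tB B P Dd mk l k0 K₁) (tD B P Dd mk e he l k0 K₁) (tL B P Dd mk e he l k0 K₁ Ze)
      (nmS B.w a (fun n => rr l k0 (K₁ + n)) (fun _ => ENNReal.ofReal v))
      (WoS (fun n => rr l k0 (K₁ + n)) Γ) (szS fun n => rr l k0 (K₁ + n))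
      (nrS fun n => rr l k0 (K₁ + n)) Pc C c q J N b0)
    (hM : MM + 1 ≤ M) (hw : ∀ z j, |B.w z j| ≤ 1) (hA : ∀ k < N, cW0 Dd l k0 (K₁ + k) ≤ a k)
    {Sf : Cov (Fld ℤ)} {g : Fld ℤ → ℝ≥0∞} (hg : Gram Sf g) (g0 : g 0 = 0)
    (hgw : ∀ (U : Finset (ℤ × ℤ)) (x : Fld ℤ), g x ≤ wU B.w (a N) (rr l k0 (K₁ + N)) U x)
    {ε₁ : ℝ} (hε₁ : 0 ≤ ε₁)
    (hb : ∑ W ∈ nes Λ, pG g ((flow0 B P Dd mk l k0).K (K₁ + N) W) ≤ ENNReal.ofReal ε₁) :
    FinE (near l k0 (K₁ + N)) Λ ((flC B P Dd mk e he l k0 K₁).K (K₁ + N))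
      ((flL (flC B P Dd mk e he l k0 K₁) K₁ B.w e Ze).K N)
      (∑ i, cst i • tau i + (flC B P Dd mk e he l k0 K₁).E Λ (K₁ + N))
      (∑ i, (Ze * c0 i) • tau i + (flL (flC B P Dd mk e he l k0 K₁) K₁ B.w e Ze).E Λ N) Sf g
      (fun _ => v)
      (ε₁ + (m + 2 ^ m) * ε + 3 * (C0 * (ε * (1 + m * μ) + b0)))
      (m * (2 * M') + 3 * (C0 * (m * (2 * μ)))) := by
  rw [tL_eq] at h
  have H5 : ∀ k < N, ∀ U : Finset (ℤ × ℤ), U.Nonempty → ∀ X ∈ GS (Fld ℤ) m,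
      Nw g (fun _ => v) (vacH (cvG (ext0 m ((flow0 B P Dd mk l k0).S (K₁ + k))) X)) ≤
        nmS B.w a (fun n => rr l k0 (K₁ + n)) (fun _ => ENNReal.ofReal v) k U X :=
    fun k hk U _ X hX => hvac_flC B P Dd mk l k0 K₁ hM hw g0 hF.v0 (hA k hk) U hX
  have H6 : ∀ U : Finset (ℤ × ℤ), U.Nonempty → ∀ X : Ge (VS (Fld ℤ) m), Nw g (fun _ => v) X ≤
      nmS B.w a (fun n => rr l k0 (K₁ + n)) (fun _ => ENNReal.ofReal v) N U X :=
    fun U _ X => hfin_of (w := B.w) (g := g) (v := v) (a := a) (r := fun n => rr l k0 (K₁ + n))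
      (N := N) hgw U X
  exact finE_mid (D := flC B P Dd mk e he l k0 K₁) (B := flow0 B P Dd mk l k0) (K1 := K₁)
    h3 hC0 hCt hb0 hbt hF (fun U => (gfam_nmS 0).gn U) het hμt
    (fun n => tailOf_D B P Dd mk e he l k0 K₁ n)
    (fun U => flC_noS B P Dd mk e he l k0 K₁ K₁ U) (fun U => flC_SLA B P Dd mk e he l k0 K₁ U) h hg
    g0 (fun k U => one_le_WoS hΓ k U) H5 H6 hε₁ hb

end final

end Crest.Agent.R165.TailDx999
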