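import Crest.Agent.R165.TailD3_999
import Crest.Agent.R165.SrcDiscU_610

/-!
# Row 165 (S0250), tail with sources: the step hypotheses for the frozen flows of a disc (helper999)

* `Pt_adm` : the class `Pt` consists of admissible elements
* `hlead_Pt`, `hrest_Pt` : the hypotheses of 610's `tail_det` / `ev_tail`
* `THD` : `TailH` for `tB`, `tD`, `tL` in the form consumed by `runPack_disc`
* `ev_tailD` : 610's `ev_tail` for the frozen flows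
-/

set_option autoImplicit false
set_option linter.unusedSectionVars false
set_option linter.unusedVariables false

noncomputable section

open scoped ENNReal
open Filter Topology

namespace Crest.Agent.R165.TailDx999

open Crest.ProbabilityR.IsingModel
open Crest.Agent.R165.Gr0x606 Crest.Agent.R165.Gr1x606 Crest.Agent.R165.GeOpsx337
  Crest.Agent.R165.ExpGx337 Crest.Agent.R165.KStepx892 Crest.Agent.R165.KFlowx337
  Crest.Agent.R165.Latx683 Crest.Agent.R165.PNormx417 Crest.Agent.R165.GDefx387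
  Crest.Agent.R165.GSysx387 Crest.Agent.R165.FRDPolyx439 Crest.Agent.R165.Bkgx683
open Crest.Agent.R165.SrcDefx991 (VS GS)
open Crest.Agent.R165.SrcInsx991
open Crest.Agent.R165.EnWx359
open Crest.Agent.R165.SrcTailx441 (TailOf PT shift)
open Crest.Agent.R165.SrcTailAllx441 (TailH)
open Crest.Agent.R165.SrcDiscUx610
open Crest.Agent.R165.SrcDiscTx610 (Adm)
open Crest.Agent.R165.EnFinex811 (FineAt)
open Crest.Agent.R165.PEndx683 (Cst EvC)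
open Crest.Agent.R165.Outx683 (DD domF fl)
open Crest.Agent.R165.SRx541 Crest.Agent.R165.JRunSx408
open Crest.Agent.R165.TailNAx999
open Crest.Agent.R165.DiscKx892 (dl k1 k2 kf)
open Crest.Agent.R165.DiscCompx722 (aC Out3)

theorem one_le_nearR {l k0 : ℕ} (hl : 4 ≤ l) (n : ℕ) : 1 ≤ nearR l k0 n := by
  have h1 : 16 ≤ 2 ^ l := by
    calc 16 = 2 ^ 4 := by norm_num
      _ ≤ 2 ^ l := Nat.pow_le_pow_right (by norm_num) hl
  have h2 : 16 * rr l k0 n ≤ rr l k0 (n + 1) := by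
    rw [rr_succ]; exact Nat.mul_le_mul_right _ h1
  have h3 := rr_pos l k0 n
  unfold nearR
  omega

/-- admissible -/
theorem Pt_adm (c : Cst) (K₁ : ℕ) {m j : ℕ} {U : Finset (ℤ × ℤ)} {X : Ge (VS (Fld ℤ) m)}
    (h : Pt m c.p c.k0 K₁ j U X) : AdmT c K₁ j U X :=
  ⟨h.1, fun _ h0 => (h.2 h0).2⟩

section flows

variable {m : ℕ} (B : Bg ℤ) (P : MPar) (e : Fin m → Bkgx683.EG ℤ)
  (he : ∀ i, B.w (e i).1 (e i).2 ≠ 0) (c : Cst) (K₁ : ℕ)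

/-- `hlead` of `tail_det` / `ev_tail` -/
theorem hlead_Pt (hp : 4 ≤ c.p) (Ze : ℝ) (j : ℕ) (U : Finset (ℤ × ℤ)) :
    Pt m c.p c.k0 K₁ j U ((tL B P DD ∅ e he c.p c.k0 K₁ Ze).K j U) :=
  tL_P B P DD ∅ e he c.p c.k0 K₁ (one_le_nearR hp 0) Ze j U

/-- `hrest` of `tail_det` / `ev_tail` -/
theorem hrest_Pt (hp : 4 ≤ c.p) (Ze : ℝ) (j : ℕ) (U : Finset (ℤ × ℤ)) :
    Pt m c.p c.k0 K₁ j U (PT (rs (fl c P B) K₁) (tD B P DD ∅ e he c.p c.k0 K₁)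
      (tL B P DD ∅ e he c.p c.k0 K₁ Ze) j U) :=
  PT_P B P DD ∅ e he c.p c.k0 K₁ (one_le_nearR hp 0) Ze j U

end flows

/-- `TailH` for the frozen flows of the disc, with the amplitudes `aC` -/
abbrev THD (c : Cst) {R : ℕ} {a B : ℝ} {n m : ℕ} {x : Fin n → ℂ} {y : Fin m → ℂ}
    {j : Fin m → Fin 2} {K₁ : ℕ} (h : DiscEv c.p c.k0 R a B x y j K₁) (MP : MPar) (K₂ K Jn : ℕ)
    (Ze vv b0 : ℝ) : Prop :=
  TailH (tB (discBg h) MP DD ∅ c.p c.k0 K₁)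
    (tD (discBg h) MP DD ∅ (eb a y j) h.ne c.p c.k0 K₁)
    (tL (discBg h) MP DD ∅ (eb a y j) h.ne c.p c.k0 K₁ Ze)
    (nmS (discBg h).w (fun i => aC c K₁ K₂ (K₁ + i)) (fun i => rr c.p c.k0 (K₁ + i))
      fun _ => ENNReal.ofReal vv)
    (WoS (fun i => rr c.p c.k0 (K₁ + i)) (ENNReal.ofReal c.Γ))
    (szS fun i => rr c.p c.k0 (K₁ + i)) (nrS fun i => rr c.p c.k0 (K₁ + i))
    (Pt m c.p c.k0 K₁) (StepGluex897.N3 c.p : ℝ≥0∞) (2 * 3) (qT K₁ K₂) Jn (K - K₁) b0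

/-- **610's `ev_tail` for the frozen flows of the disc** -/
theorem ev_tailD (Rm : ℕ) : EvC fun c => 1 ≤ (StepGluex897.N3 c.p : ℝ≥0∞) ∧
    ∃ CB : ℝ, 0 ≤ CB ∧ ∃ c1 : ℝ, 0 < c1 ∧ ∀ n : ℕ, Even n → ∀ x : Fin n → ℂ,
    Function.Injective x → ∃ u0 v0 : ℝ, 0 < u0 ∧ u0 ≤ v0 ∧
    ∀ u v cc : ℝ, 0 < u → u ≤ u0 → v0 ≤ v → 0 < cc → cc ≤ c1 → ∃ Jn : ℕ, ∀ᶠ P in dl,
    ∀ (m R : ℕ) (y : Fin m → ℂ) (j : Fin m → Fin 2)
      (h : DiscEv c.p c.k0 R P.1 P.2 x y j (k1 c.p c.k0 u P.1)) (MP : MPar), MP.R ≤ Rm →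
    ∀ M0 M t : ℝ, 0 ≤ M * t →
    Out3 c (domF c MP h.ok.fin.toFinset .plus (xb P.1 x)) (discBg h).w
      (k1 c.p c.k0 u P.1) (k2 c.p c.k0 v P.1) (kf c.p c.k0 cc P) M0 M t →
    ∀ (Ze vv b0 : ℝ), 0 < vv → CB * (M * t) * (1 / 2) ^ k1 c.p c.k0 u P.1 ≤ b0 →
    THD c h MP (k2 c.p c.k0 v P.1) (kf c.p c.k0 cc P) Jn Ze vv b0 := by
  refine ((Constx891.ev_p_ge 4).and (ev_tail Rm)).mono ?_
  rintro c ⟨hp, h1, CB, hCB, c1, hc1, H⟩
  refine ⟨h1, CB, hCB, c1, hc1, fun n hn x hx => ?_⟩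
  obtain ⟨u0, v0, hu0, hv0, H⟩ := H n hn x hx
  refine ⟨u0, v0, hu0, hv0, fun u v cc hu huu hvv hcc hcc1 => ?_⟩
  obtain ⟨Jn, H⟩ := H u v cc hu huu hvv hcc hcc1
  refine ⟨Jn, H.mono fun P H m R y j h MP hMP M0 M t hMt hO Ze vv b0 hvv hb => ?_⟩
  exact H MP hMP h.ok.fin.toFinset h.ok.fin.coe_toFinset .plus M0 M t hMt hO m
    (tD (discBg h) MP DD ∅ (eb P.1 y j) h.ne c.p c.k0 (k1 c.p c.k0 u P.1))
    (tL (discBg h) MP DD ∅ (eb P.1 y j) h.ne c.p c.k0 (k1 c.p c.k0 u P.1) Ze)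
    (Pt m c.p c.k0 (k1 c.p c.k0 u P.1)) (fun _ _ _ hX => Pt_adm c _ hX)
    (hlead_Pt (discBg h) MP (eb P.1 y j) h.ne c _ hp Ze)
    (hrest_Pt (discBg h) MP (eb P.1 y j) h.ne c _ hp Ze)
    (fun _ => ENNReal.ofReal vv) (fun _ => ENNReal.ofReal_ne_top)
    (fun _ => (ENNReal.ofReal_pos.2 hvv).ne') b0 hb

end Crest.Agent.R165.TailDx999
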