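import Crest.Agent.R165.TorLim_917
import Crest.Agent.R165.TorRest3_63
import Crest.Agent.R165.TorK_723
import Crest.Agent.R165.TorRep_599
import Crest.Agent.R165.Comp2_889

/-!
# Row 165 (S0250), leaf T8i (helper917): the last steps of the torus in the limit `L → ∞`

`KT l k0 L` steps on the torus of side `L + 1` (723), systems `sys D (wTor ..) mk l k0 K0`.

* `tor_z` : sectors AA, AP, PA: `EEG (covS kT) (ZZ_0) = exp E * z`, `z → 1`
* `tor_p` : sector PP: `EE (cF (-BP)) (dd z2 (dd z1 ZZ_0)) = exp E * p`, `(L + 1) p → 0`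
as soon as the norm at the last scale tends to zero and the amplitude tends to infinity.
-/

set_option autoImplicit false
set_option linter.unusedSectionVars false

noncomputable section

open Finset Filter Topology
open scoped ENNReal
open Crest.Agent.R165.Packx915 Crest.Agent.R165.NSumx915 Crest.Agent.R165.Bridgex915
open Crest.Agent.R165.Latx683 Crest.Agent.R165.GDefx387 Crest.Agent.R165.Gr0x606
open Crest.Agent.R165.Gr1x606 Crest.Agent.R165.PNormx417 Crest.Agent.R165.FinBx900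
open Crest.Agent.R165.FRDPolyx439 Crest.Agent.R165.FRDAbsx439 Crest.Agent.R165.FRDLatx439
open Crest.Agent.R165.FRDInfx439 Crest.Agent.R165.FRDRestx439
open Crest.Agent.R165.KStepx892 hiding wt
open Crest.Agent.R165.KFlowx337 Crest.Agent.R165.GeOpsx337 Crest.Agent.R165.GSysx387
open Crest.Agent.R165.TorGapBx63 (Kg Kg_pos)
open Crest.Agent.R165.TorChartx723 (wTor)
open Crest.Agent.R165.TorKx723 (KT KT_ratio KT_top)
open Crest.Agent.R165.TorRepx599 (eS kT kT_skew kT_inv)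
open Crest.Agent.R165.TorLimx917
open Crest.Agent.R165.Compx889 (NP)
open Crest.Agent.R165.DefRecx915 (allP)

namespace Crest.Agent.R165.TorLim3x917

/-! ### numbers -/

/-- a quantity bounded by `C (exp (c b) - 1)` for every bound `b` of a norm tending to zero -/
theorem lim_of_bound {x : ℕ → ℝ} {N : ℕ → ℝ≥0∞} (hN : Tendsto N atTop (𝓝 0)) (C c : ℝ)
    (h : ∀ᶠ L in atTop, ∀ b : ℝ, 0 ≤ b → N L ≤ ENNReal.ofReal b →
      |x L| ≤ C * (Real.exp (c * b) - 1)) : Tendsto x atTop (𝓝 0) := by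
  have h1 : Tendsto (fun L => (N L).toReal) atTop (𝓝 0) := by
    have := (ENNReal.tendsto_toReal ENNReal.zero_ne_top).comp hN
    rw [ENNReal.toReal_zero] at this
    exact this
  have h2 : ∀ᶠ L in atTop, N L < 1 := hN.eventually_lt_const one_pos
  have h3 : Tendsto (fun L => C * (Real.exp (c * (N L).toReal) - 1)) atTop (𝓝 0) := by
    have h4 := ((Real.continuous_exp.tendsto (c * 0)).comp (h1.const_mul c)).sub_const 1
    have h5 := h4.const_mul C
    simpa using h5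
  refine squeeze_zero_norm' ?_ h3
  filter_upwards [h, h2] with L h4 h5
  rw [Real.norm_eq_abs]
  refine h4 _ ENNReal.toReal_nonneg ?_
  rw [ENNReal.ofReal_toReal h5.ne_top]

/-- the ratio of the last scale -/
def cL (l : ℕ) : ℝ := 1 / (1040 * 2 ^ l)

theorem cL_pos (l : ℕ) : 0 < cL l := by unfold cL; positivity

theorem cL_le {l k0 L : ℕ} (hl : 1 ≤ l) : cL l * ((L + 1 : ℕ) : ℝ) ≤ (rr l k0 (KT l k0 L) : ℕ) := by
  have h := KT_ratio (k0 := k0) (L := L) hl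
  have h1 : ((L + 1 : ℕ) : ℝ) ≤ 1040 * 2 ^ l * (rr l k0 (KT l k0 L) : ℕ) := by exact_mod_cast h
  unfold cL
  rw [div_mul_eq_mul_div, one_mul, div_le_iff₀ (by positivity)]
  linarith

theorem rr_le_lo {l k0 n : ℕ} (hn : n ≠ 0) : rr l k0 n ≤ 2 ^ lo l k0 n := by
  unfold lo rr
  rw [if_neg hn]

theorem eS_eq (i : Fin 2) : eS i = if i = 0 then 1 else -1 := rfl

theorem wT_eS {M : ℕ} [NeZero M] (s : Fin 2 × Fin 2) :
    Covx359.wT M s = wTor M (eS s.2) (eS s.1) := wT_eq_tor s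

theorem det_ne {M : ℕ} [NeZero M] {s : Fin 2 × Fin 2} (hs : s ≠ (0, 0)) :
    (TorDetx599.hA (wTor M (eS s.2) (eS s.1))).det ≠ 0 := by
  have h := TorBrx599.det_sec_ne M s hs
  have h1 : (fun (z : ZMod M × ZMod M) (j : Fin 2) => TorusJ1x922.sec s (z, j) * TorSecx599.xc) =
      wTor M (eS s.2) (eS s.1) := wT_eS s
  rw [h1] at h
  exact h

/-! ### sectors AA, AP, PA -/

section nz

variable {Mp K' : ℕ} (D : FRD 16 Mp K')

/-- the covariance left after the slices `j < J` in the sector `s` -/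
def rsT {M : ℕ} [NeZero M] {s : Fin 2 × Fin 2} (hs : s ≠ (0, 0)) (J : ℕ) : Cov (Fld (ZMod M)) :=
  restC D (kT_skew M (wTor M (eS s.2) (eS s.1))) (kT_inv M _ (det_ne hs))
    (fun _ => Set.toFinite _) J

/-- **the last step, sectors AA, AP, PA** -/
theorem tor_last' (hM : MM ≤ Mp) {M : ℕ} [NeZero M] {s : Fin 2 × Fin 2} (hs : s ≠ (0, 0)) {J r : ℕ}
    (hr1 : 1 ≤ r) (hr : r ≤ 2 ^ J) {c' : ℝ} (hc : 0 < c') (hcr : c' * M ≤ r) {a : ℝ}
    (ha : A0 D.C c' ≤ a) {Γ : ℝ≥0∞} (hΓ : 1 ≤ Γ) (near : ZMod M × ZMod M → ZMod M × ZMod M → Prop)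
    (K : Finset (ZMod M × ZMod M) → Ge (Fld (ZMod M))) {b : ℝ} (hb : 0 ≤ b)
    (hN : NK (wTor M (eS s.2) (eS s.1)) a r Γ (fun _ => True)
      (fun U => (K U : Gr (Fld (ZMod M)))) ≤ ENNReal.ofReal b) :
    |EE (rsT D hs J) ((ZZ near univ K : Ge (Fld (ZMod M))) : Gr (Fld (ZMod M))) - 1| ≤
      1 * (Real.exp (n0 c' * b) - 1) := by
  have hM0 : (0 : ℝ) < M := by exact_mod_cast NeZero.pos M
  have hK := Kg_pos
  have hA := A0_pos D.C_pos hc
  have ha0 : 0 < a := hA.trans_le ha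
  have hgap : ABtw (preF (Latx683.HE (ZMod M))) (AopF (wTor M (eS s.2) (eS s.1)))
      (((Kg * M)⁻¹) ^ 2) 16 := by
    rw [← wT_eS]; exact tor_gap hs
  have h1 := TorLastx723.last_step D (kT_skew M (wTor M (eS s.2) (eS s.1)))
    (kT_inv M _ (det_ne hs)) (fun _ => Set.toFinite _) hM
    (m := (Kg * M)⁻¹) (by positivity) hgap hr1 hr ha0
    (((amp_le D.C_pos hc hr1 hcr).trans (by linarith)).trans ha) hΓ
    (TorWrapx723.cov_zmod (M := M) hr1 (M / 2)) 0 (Vol := univ)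
    (fun f _ => TorWrapx723.fd_le_half _ _) near K hb hN
  refine h1.trans ?_
  have h2 := cov_card hc hr1 hcr
  have h3 : ((((2 * ((M / 2) / r) + 3) ^ 2 : ℕ)) : ℝ) * b ≤ n0 c' * b :=
    mul_le_mul_of_nonneg_right h2 hb
  linarith [Real.exp_le_exp.2 h3]

/-- **the sectors AA, AP, PA in the limit** -/
theorem tor_z (hMp : MM ≤ Mp) (hK' : 16 ≤ K') {l k0 : ℕ} (hl : 1 ≤ l) (hlk : 5 ≤ l * (k0 + 1))
    {s : Fin 2 × Fin 2} (hs : s ≠ (0, 0)) {Γ : ℝ≥0∞} (hΓ : 1 ≤ Γ) {a : ℕ → ℝ}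
    (ha : Tendsto a atTop atTop) (mk : ∀ L : ℕ, Finset (ZMod (L + 1) × ZMod (L + 1)))
    (K0 : ∀ L : ℕ, Finset (ZMod (L + 1) × ZMod (L + 1)) → Ge (Fld (ZMod (L + 1))))
    (hK0 : ∀ᶠ L in atTop, ∀ U, K0 L U ∈ grG (fldU U))
    (hNP : Tendsto (fun L => NP (sys D (wTor (L + 1) (eS s.2) (eS s.1)) (mk L) l k0 (K0 L))
      (wTor (L + 1) (eS s.2) (eS s.1)) a (rr l k0) Γ allP (KT l k0 L)) atTop (𝓝 0)) :
    ∃ z : ℕ → ℝ, Tendsto z atTop (𝓝 1) ∧ ∀ᶠ L in atTop,
      EEG (covS (kT (L + 1) (wTor (L + 1) (eS s.2) (eS s.1))) (kT_skew (L + 1) _))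
        (ZZ (near l k0 0) univ (K0 L)) =
        Real.exp (ctG ((sys D (wTor (L + 1) (eS s.2) (eS s.1)) (mk L) l k0 (K0 L)).E univ
          (KT l k0 L))) * z L := by
  refine ⟨fun L => EEG (rsT D hs (lo l k0 (KT l k0 L))) (ZZ (near l k0 (KT l k0 L)) univ
    ((sys D (wTor (L + 1) (eS s.2) (eS s.1)) (mk L) l k0 (K0 L)).K (KT l k0 L))), ?_, ?_⟩
  · have h1 : Tendsto (fun L => EEG (rsT D hs (lo l k0 (KT l k0 L))) (ZZ (near l k0 (KT l k0 L)) univ
        ((sys D (wTor (L + 1) (eS s.2) (eS s.1)) (mk L) l k0 (K0 L)).K (KT l k0 L))) - 1)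
        atTop (𝓝 0) := by
      refine lim_of_bound hNP 1 (n0 (cL l)) ?_
      filter_upwards [(ha.comp (KT_top l k0)).eventually_ge_atTop (A0 D.C (cL l)),
        (KT_top l k0).eventually_ge_atTop 1] with L h1 h2 b hb hN
      exact tor_last' D hMp hs (rr_pos l k0 _) (rr_le_lo (by omega)) (cL_pos l) (cL_le hl) h1 hΓ
        (near l k0 (KT l k0 L)) _ hb hN
    have h2 := h1.add_const 1
    rw [zero_add] at h2
    exact h2.congr fun L => by ring
  · filter_upwards [hK0] with L hL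
    exact GSysOKx439.total_sys D (kT_skew (L + 1) (wTor (L + 1) (eS s.2) (eS s.1)))
      (kT_inv (L + 1) _ (det_ne hs)) (fun _ => Set.toFinite _) hK' (mk L) hlk hL (Λ := univ)
      (fun U hU => absurd (subset_univ U) hU) (KT l k0 L)

end nz

/-! ### sector PP -/

section pp

variable {Mp K' : ℕ} (D : FRD 16 Mp K')

/-- **the sector PP in the limit** -/
theorem tor_p (hMp : MM ≤ Mp) (hK' : 16 ≤ K') {l k0 : ℕ} (hl : 1 ≤ l) (hlk : 5 ≤ l * (k0 + 1))
    {Γ : ℝ≥0∞} (hΓ : 1 ≤ Γ) {a : ℕ → ℝ}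
    (ha : Tendsto a atTop atTop) (mk : ∀ L : ℕ, Finset (ZMod (L + 1) × ZMod (L + 1)))
    (K0 : ∀ L : ℕ, Finset (ZMod (L + 1) × ZMod (L + 1)) → Ge (Fld (ZMod (L + 1))))
    (hK0 : ∀ᶠ L in atTop, ∀ U, K0 L U ∈ grG (fldU U))
    (hNP : Tendsto (fun L => NP (sys D (wTor (L + 1) 1 1) (mk L) l k0 (K0 L))
      (wTor (L + 1) 1 1) a (rr l k0) Γ allP (KT l k0 L)) atTop (𝓝 0)) :
    ∃ p : ℕ → ℝ, Tendsto (fun L : ℕ => ((L : ℝ) + 1) * p L) atTop (𝓝 0) ∧ ∀ᶠ L : ℕ in atTop,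
      EE (TorBrx599.cF (L + 1) (-(TorSecx599.BP (L + 1)))) (dd (TorBrx599.z2 (L + 1))
        (dd (TorBrx599.z1 (L + 1)) ((ZZ (near l k0 0) univ (K0 L) :
          Ge (Fld (ZMod (L + 1)))) : Gr (Fld (ZMod (L + 1)))))) =
        Real.exp (ctG ((sys D (wTor (L + 1) 1 1) (mk L) l k0 (K0 L)).E univ (KT l k0 L))) * p L := by
  have hw : ∀ L : ℕ, TorGapBx63.wT (L + 1) 1 1 = wTor (L + 1) 1 1 := fun L =>
    TorRest2x63.wT_eq_wTor 1 1
  refine ⟨fun L => EE (TorRestx63.restPP D (L + 1) (lo l k0 (KT l k0 L)))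
    (dd (TorBrx599.z2 (L + 1)) (dd (TorBrx599.z1 (L + 1)) ((ZZ (near l k0 (KT l k0 L)) univ
      ((sys D (wTor (L + 1) 1 1) (mk L) l k0 (K0 L)).K (KT l k0 L)) :
        Ge (Fld (ZMod (L + 1)))) : Gr (Fld (ZMod (L + 1)))))), ?_, ?_⟩
  · refine lim_of_bound hNP (4160 * 2 ^ l) (n0 (cL l)) ?_
    filter_upwards [(ha.comp (KT_top l k0)).eventually_ge_atTop (A0 D.C (cL l)),
      (ha.comp (KT_top l k0)).eventually_ge_atTop 1,
      (KT_top l k0).eventually_ge_atTop 1] with L h1 h1' h2 b hb hN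
    simp only [Function.comp] at h1 h1'
    set r := rr l k0 (KT l k0 L) with hr
    have hr0 : (0 : ℝ) < r := by exact_mod_cast rr_pos l k0 _
    have hr1 : 1 ≤ r := rr_pos l k0 _
    have hcr : cL l * ((L + 1 : ℕ) : ℝ) ≤ r := cL_le hl
    have hq : 28 * √(D.C / (TorRestx63.mg (L + 1) * r)) ≤ a (KT l k0 L) := by
      have h3 := amp_le (M := L + 1) D.C_pos (cL_pos l) hr1 hcr
      have h4 : TorRestx63.mg (L + 1) = (Kg * ((L + 1 : ℕ) : ℝ))⁻¹ := by
        unfold TorRestx63.mg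
        first
          | rfl
          | rw [one_div]
      rw [h4]
      linarith
    have h5 := TorRest2x63.pp_last_step D hMp hr1 (rr_le_lo (by omega))
      (lt_of_lt_of_le one_pos h1') hq hΓ
      (TorWrapx723.cov_zmod (M := L + 1) hr1 ((L + 1) / 2)) 0 (Vol := univ)
      (fun f _ => TorWrapx723.fd_le_half _ _) (near l k0 (KT l k0 L))
      ((sys D (wTor (L + 1) 1 1) (mk L) l k0 (K0 L)).K (KT l k0 L)) hb
      (by rw [hw]; exact hN) 1
    rw [one_mul, abs_one, one_mul] at h5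
    have h6 := cov_card (M := L + 1) (cL_pos l) hr1 hcr
    have h7 : ((((2 * (((L + 1) / 2) / r) + 3) ^ 2 : ℕ)) : ℝ) * b ≤ n0 (cL l) * b :=
      mul_le_mul_of_nonneg_right h6 hb
    have h8 : Real.exp ((((2 * (((L + 1) / 2) / r) + 3) ^ 2 : ℕ) : ℝ) * b) - 1 ≤
        Real.exp (n0 (cL l) * b) - 1 := by linarith [Real.exp_le_exp.2 h7]
    have h9 : 0 ≤ Real.exp (n0 (cL l) * b) - 1 := by
      linarith [Real.add_one_le_exp (n0 (cL l) * b), mul_nonneg (n0_pos (cL_pos l)).le hb]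
    rw [abs_mul, abs_of_pos (by positivity : (0 : ℝ) < (L : ℝ) + 1)]
    have h10 : (L : ℝ) + 1 ≤ 1040 * 2 ^ l * r := by
      have := KT_ratio (k0 := k0) (L := L) hl
      have h11 : ((L + 1 : ℕ) : ℝ) ≤ 1040 * 2 ^ l * (rr l k0 (KT l k0 L) : ℕ) := by exact_mod_cast this
      push_cast at h11
      exact h11
    have h12 : (1 : ℝ) ≤ a (KT l k0 L) ^ 2 := one_le_pow₀ h1'
    calc ((L : ℝ) + 1) * |_| ≤ ((L : ℝ) + 1) * (4 / (a (KT l k0 L) ^ 2 * r) *
          (Real.exp (n0 (cL l) * b) - 1)) := by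
          refine mul_le_mul_of_nonneg_left (h5.trans ?_) (by positivity)
          exact mul_le_mul_of_nonneg_left h8 (by positivity)
      _ = (((L : ℝ) + 1) / r * (4 / a (KT l k0 L) ^ 2)) * (Real.exp (n0 (cL l) * b) - 1) := by
          field_simp
      _ ≤ (1040 * 2 ^ l * 4) * (Real.exp (n0 (cL l) * b) - 1) := by
          refine mul_le_mul_of_nonneg_right ?_ h9
          refine mul_le_mul ?_ ?_ (by positivity) (by positivity)
          · rw [div_le_iff₀ hr0]; exact h10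
          · rw [div_le_iff₀ (by positivity)]; linarith
      _ = 4160 * 2 ^ l * (Real.exp (n0 (cL l) * b) - 1) := by ring
  · filter_upwards [hK0] with L hL
    refine TorRest3x63.pp_p_eq D (sys D (wTor (L + 1) 1 1) (mk L) l k0 (K0 L))
      (GSysOKx439.sys_OK D hK' (wTor (L + 1) 1 1) (mk L) hlk hL) (Vol := univ)
      (fun U hU => absurd (subset_univ U) hU) (KT l k0 L) ?_
    rw [hw]
    exact GSysOKx439.sum_slC D (wTor (L + 1) 1 1) l k0 (KT l k0 L)

end pp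

end Crest.Agent.R165.TorLim3x917
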