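import Crest.Agent.R165.TorFin2_599
import Crest.Agent.R165.TorLim3_917
import Crest.Agent.R165.Tel_337

/-!
# Row 165 (S0250), torus: the end (helper599)

* `torBonds_end` : from the exponents (723: sums over the scales of the constants), the norms at the
  last step (583), the locality of the initial activities and 917's last steps:
  `torBonds → (exp e - 1) / τ`
-/

set_option autoImplicit false
set_option linter.unusedSectionVars false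

noncomputable section

open Finset Filter Topology
open scoped ENNReal
open Crest.ProbabilityR.IsingModel

namespace Crest.Agent.R165.TorEndx599

open Crest.Agent.R165.Gr0x606 Crest.Agent.R165.Gr1x606
open Crest.Agent.R165.GeOpsx337 Crest.Agent.R165.J4Defx653 Crest.Agent.R165.J4Lnkx653
open Crest.Agent.R165.KStepx892 (ZZ)
open Crest.Agent.R165.TorChartx723 (wTor)
open Crest.Agent.R165.TorKx723 (KT KT_ratio KT_top)
open Crest.Agent.R165.Latx683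
open Crest.Agent.R165.TorRepx599
open Crest.Agent.R165.TorFinx599
open Crest.Agent.R165.Bkgx683 (Bg MPar mpar Srcs noSrc realSrc)
open Crest.Agent.R165.FRDPolyx439 Crest.Agent.R165.FRDLatx439 Crest.Agent.R165.GDefx387 Crest.Agent.R165.GSysx387
open Crest.Agent.R165.BgIsox432 (CNZ)
open Crest.Agent.R165.Telx337 (cc)
open Crest.Agent.R165.Compx889 (NP)
open Crest.Agent.R165.DefRecx915 (allP)

/-! ### the total exponent -/

/-- the total exponent of a finite lattice is the sum of the constants -/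
theorem ctG_E {G : Type} [CommRing G] [CN G] [CNZ G] [DecidableEq G] [Fintype G] {Mm K' : ℕ}
    (D : FRD 16 Mm K') (w : BW G) (mk : Finset (G × G)) (l k0 : ℕ)
    {K0 : Finset (G × G) → Ge (Fld G)} (he : K0 ∅ = 0) (n : ℕ) :
    ctG ((sys D w mk l k0 K0).E univ n) = ∑ k ∈ range n, ∑ U, cc (sys D w mk l k0 K0) k U := by
  rw [Telx337.ctE (D := sys D w mk l k0 K0) (fun U hU => absurd (subset_univ U) hU) he
    (fun a => by
      show ctG (PStepx417.vac0 (Fld G) a) = ctG a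
      rw [PStepx417.vac0_apply, AlgHom.commutes]
      rfl) n]
  refine Finset.sum_congr rfl fun k _ => ?_
  rw [tsum_fintype]

/-! ### one index (with or without source) -/

section one

variable {Mm K' : ℕ} (D : FRD 16 Mm K') (hM : MM ≤ Mm) (hK' : 16 ≤ K') {l k0 : ℕ} (hl1 : 1 ≤ l)
  (hl : 5 ≤ l * (k0 + 1)) {Γ : ℝ≥0∞} (hΓ : 1 ≤ Γ) {a : ℕ → ℝ} (ha : Tendsto a atTop atTop)
  (P : MPar) {κ : Type} [DecidableEq κ] [Fintype κ]
  (mk : ∀ L : ℕ, Finset (ZMod (L + 1) × ZMod (L + 1)))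
  (src : ∀ L : ℕ, Srcs κ (ZMod (L + 1)) (Ge (Fld (ZMod (L + 1)))))

/-- the initial activities of a sector -/
def KI (P : MPar) (l k0 : ℕ) (src : ∀ L : ℕ, Srcs κ (ZMod (L + 1)) (Ge (Fld (ZMod (L + 1)))))
    (s : Fin 2 × Fin 2) (L : ℕ) :
    Finset (ZMod (L + 1) × ZMod (L + 1)) → Ge (Fld (ZMod (L + 1))) :=
  (Bg.tor (L + 1) (eS s.2) (eS s.1)).K0 P LinearMap.id (src L) l k0

/-- the flow of a sector -/
def SI (mk : ∀ L : ℕ, Finset (ZMod (L + 1) × ZMod (L + 1)))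
    (src : ∀ L : ℕ, Srcs κ (ZMod (L + 1)) (Ge (Fld (ZMod (L + 1)))))
    (s : Fin 2 × Fin 2) (L : ℕ) :
    KFlowx337.Sys (ZMod (L + 1) × ZMod (L + 1)) (Fld (ZMod (L + 1))) :=
  sys D (wTor (L + 1) (eS s.2) (eS s.1)) (mk L) l k0 (KI P l k0 src s L)

theorem SI_eq (s : Fin 2 × Fin 2) (L : ℕ) :
    SI (l := l) (k0 := k0) D P mk src s L =
      (Bg.tor (L + 1) (eS s.2) (eS s.1)).flow P D (mk L) (src L) l k0 := rfl

/-- the exponent of a sector -/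
def EI (mk : ∀ L : ℕ, Finset (ZMod (L + 1) × ZMod (L + 1)))
    (src : ∀ L : ℕ, Srcs κ (ZMod (L + 1)) (Ge (Fld (ZMod (L + 1)))))
    (s : Fin 2 × Fin 2) (L : ℕ) : ℝ :=
  ∑ k ∈ range (KT l k0 L), ∑ U, cc (SI (l := l) (k0 := k0) D P mk src s L) k U

theorem KI_empty (s : Fin 2 × Fin 2) (L : ℕ) : KI P l k0 src s L ∅ = 0 := by
  unfold KI Bg.K0
  exact KInitx892.K1_empty _ _

include hM hK' hl1 hl hΓ ha

/-- sectors AA, AP, PA -/
theorem nz_one (s : Fin 2 × Fin 2) (hs : s ≠ (0, 0))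
    (hK0 : ∀ᶠ L in atTop, ∀ U, KI P l k0 src s L U ∈ grG (fldU U))
    (hNP : Tendsto (fun L => NP (SI (l := l) (k0 := k0) D P mk src s L)
      (wTor (L + 1) (eS s.2) (eS s.1)) a (rr l k0) Γ allP (KT l k0 L)) atTop (𝓝 0)) :
    ∃ z : ℕ → ℝ, Tendsto z atTop (𝓝 1) ∧ ∀ᶠ L : ℕ in atTop,
      ∃ (Sk : Latx683.HE (ZMod (L + 1)) → Latx683.HE (ZMod (L + 1)) → ℝ)
        (hS : IsCov (wTor (L + 1) (eS s.2) (eS s.1)) Sk),
      EEG (covS Sk hS.skew)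
        (ZZ (((Bg.tor (L + 1) (eS s.2) (eS s.1)).flow P D (mk L) (src L) l k0).near 0) univ
          ((Bg.tor (L + 1) (eS s.2) (eS s.1)).flow P D (mk L) (src L) l k0).K0) =
        Real.exp (EI (l := l) (k0 := k0) D P mk src s L) * z L := by
  obtain ⟨z, hz, h⟩ := TorLim3x917.tor_z D hM hK' hl1 hl hs hΓ ha mk (KI P l k0 src s) hK0 hNP
  refine ⟨z, hz, ?_⟩
  filter_upwards [h] with L hL
  obtain ⟨Sk, hS, _, _⟩ := Covx359.exists_isCov_torus (L + 1) s hs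
  rw [TorLim3x917.wT_eS s] at hS
  have h1 := isCov_kT hS (det_wTor_ne s hs)
  have h2 : covS Sk hS.skew = covS (kT (L + 1) (wTor (L + 1) (eS s.2) (eS s.1)))
      (kT_skew (L + 1) _) := by
    subst h1; rfl
  refine ⟨Sk, hS, ?_⟩
  rw [h2]
  refine hL.trans ?_
  rw [ctG_E D _ _ l k0 (KI_empty P src s L)]
  rfl

/-- sector PP -/
theorem pp_one
    (hK0 : ∀ᶠ L in atTop, ∀ U, KI P l k0 src (0, 0) L U ∈ grG (fldU U))
    (hNP : Tendsto (fun L => NP (SI (l := l) (k0 := k0) D P mk src (0, 0) L)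
      (wTor (L + 1) (eS (0 : Fin 2)) (eS (0 : Fin 2))) a (rr l k0) Γ allP (KT l k0 L)) atTop (𝓝 0)) :
    ∃ p : ℕ → ℝ, Tendsto (fun L : ℕ => ((L : ℝ) + 1) * p L) atTop (𝓝 0) ∧ ∀ᶠ L : ℕ in atTop,
      Gr0x606.EE (TorBrx599.cF (L + 1) (-(TorSecx599.BP (L + 1)))) (dd (TorBrx599.z2 (L + 1))
        (dd (TorBrx599.z1 (L + 1))
          ((ZZ (((Bg.tor (L + 1) 1 1).flow P D (mk L) (src L) l k0).near 0) univ
            ((Bg.tor (L + 1) 1 1).flow P D (mk L) (src L) l k0).K0 :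
              Ge (Fld (ZMod (L + 1)))) : Gr (Fld (ZMod (L + 1)))))) =
        Real.exp (EI (l := l) (k0 := k0) D P mk src (0, 0) L) * p L := by
  have e1 : eS (0 : Fin 2) = 1 := if_pos rfl
  have e2 : ∀ L, KI P l k0 src (0, 0) L = (Bg.tor (L + 1) 1 1).K0 P LinearMap.id (src L) l k0 := by
    intro L
    unfold KI
    simp only [e1]
  have hNP' : Tendsto (fun L => NP (sys D (wTor (L + 1) 1 1) (mk L) l k0
      ((Bg.tor (L + 1) 1 1).K0 P LinearMap.id (src L) l k0))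
      (wTor (L + 1) 1 1) a (rr l k0) Γ allP (KT l k0 L)) atTop (𝓝 0) := by
    refine hNP.congr fun L => ?_
    unfold SI
    simp only [e2, e1]
  obtain ⟨p, hp, h⟩ := TorLim3x917.tor_p D hM hK' hl1 hl hΓ ha mk
    (fun L => (Bg.tor (L + 1) 1 1).K0 P LinearMap.id (src L) l k0)
    (hK0.mono fun L hL U => by rw [← e2]; exact hL U) hNP'
  refine ⟨p, hp, ?_⟩
  filter_upwards [h] with L hL
  refine hL.trans ?_
  rw [ctG_E D _ _ l k0 (by rw [← e2]; exact KI_empty P src (0, 0) L)]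
  unfold EI SI
  simp only [e2, e1]

end one

/-- **the torus half of `DiscLim`** from the exponents, the norms at the last step and locality -/
theorem torBonds_end {J : ℝ} (hJ : 0 < J) {R : ℕ} {V : Finset (ℤ × ℤ) → ℝ}
    (hV : Topx683.VHyp R V) (lam β z : ℝ) (hz : 0 < 1 + z) (S : Finset ((ℤ × ℤ) × Fin 2))
    {τ : ℝ} (hτ : τ ≠ 0) {Mm K' : ℕ} (D : FRD 16 Mm K') (hM : MM ≤ Mm) (hK' : 16 ≤ K') {l k0 : ℕ}
    (hl1 : 1 ≤ l) (hl : 5 ≤ l * (k0 + 1)) {Γ : ℝ≥0∞} (hΓ : 1 ≤ Γ) {a : ℕ → ℝ}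
    (ha : Tendsto a atTop atTop)
    (mk : ∀ L : ℕ, Finset (ZMod (L + 1) × ZMod (L + 1)))
    {κ₁ κ₀ : Type} [DecidableEq κ₁] [Fintype κ₁] [DecidableEq κ₀] [Fintype κ₀]
    (src₁ : ∀ L : ℕ, Srcs κ₁ (ZMod (L + 1)) (Ge (Fld (ZMod (L + 1)))))
    (src₀ : ∀ L : ℕ, Srcs κ₀ (ZMod (L + 1)) (Ge (Fld (ZMod (L + 1)))))
    {a₁ : κ₁ → ℝ} {a₀ : κ₀ → ℝ}
    (h₁ : ∀ᶠ L in atTop, RealSrc (src₁ L) a₁) (h₀ : ∀ᶠ L in atTop, RealSrc (src₀ L) a₀)
    (q₁ : ∀ᶠ L : ℕ in atTop, ∏ k, (1 + a₁ k • (src₁ L).Fs k) = 1 + τ • epTor (L + 1) S)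
    (q₀ : ∀ᶠ L : ℕ in atTop, ∏ k, (1 + a₀ k • (src₀ L).Fs k) = 1)
    (m₁ : ∀ s, ∀ᶠ L in atTop, ∀ U, KI (mpar J lam R V β z) l k0 src₁ s L U ∈ grG (fldU U))
    (m₀ : ∀ s, ∀ᶠ L in atTop, ∀ U, KI (mpar J lam R V β z) l k0 src₀ s L U ∈ grG (fldU U))
    (N₁ : ∀ s : Fin 2 × Fin 2, Tendsto (fun L =>
      NP (SI (l := l) (k0 := k0) D (mpar J lam R V β z) mk src₁ s L)
        (wTor (L + 1) (eS s.2) (eS s.1)) a (rr l k0) Γ allP (KT l k0 L)) atTop (𝓝 0))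
    (N₀ : ∀ s : Fin 2 × Fin 2, Tendsto (fun L =>
      NP (SI (l := l) (k0 := k0) D (mpar J lam R V β z) mk src₀ s L)
        (wTor (L + 1) (eS s.2) (eS s.1)) a (rr l k0) Γ allP (KT l k0 L)) atTop (𝓝 0))
    {e : ℝ}
    (hE : ∀ s, Tendsto (fun L => EI (l := l) (k0 := k0) D (mpar J lam R V β z) mk src₁ s L -
      EI (l := l) (k0 := k0) D (mpar J lam R V β z) mk src₀ s L) atTop (𝓝 e))
    (hE' : Tendsto (fun L => EI (l := l) (k0 := k0) D (mpar J lam R V β z) mk src₀ (0, 0) L -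
      EI (l := l) (k0 := k0) D (mpar J lam R V β z) mk src₀ (1, 1) L) atTop (𝓝 0)) :
    Tendsto (fun L : ℕ => Symx541.torBonds L J lam R V β S) atTop
      (𝓝 ((Real.exp e - 1) / τ)) := by
  have Z₁ : ∀ s : Fin 2 × Fin 2, ∃ z₁ : ℕ → ℝ, s ≠ (0, 0) → Tendsto z₁ atTop (𝓝 1) ∧
      ∀ᶠ L : ℕ in atTop,
      ∃ (Sk : Latx683.HE (ZMod (L + 1)) → Latx683.HE (ZMod (L + 1)) → ℝ)
        (hS : IsCov (wTor (L + 1) (eS s.2) (eS s.1)) Sk),
      EEG (covS Sk hS.skew)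
        (ZZ (((Bg.tor (L + 1) (eS s.2) (eS s.1)).flow (mpar J lam R V β z) D (mk L) (src₁ L) l
          k0).near 0) univ
          ((Bg.tor (L + 1) (eS s.2) (eS s.1)).flow (mpar J lam R V β z) D (mk L) (src₁ L) l k0).K0) =
        Real.exp (EI (l := l) (k0 := k0) D (mpar J lam R V β z) mk src₁ s L) * z₁ L := by
    intro s
    by_cases hs : s = (0, 0)
    · exact ⟨fun _ => 0, fun h => absurd hs h⟩
    · obtain ⟨f, hf⟩ := nz_one D hM hK' hl1 hl hΓ ha (mpar J lam R V β z) mk src₁ s hs (m₁ s) (N₁ s)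
      exact ⟨f, fun _ => hf⟩
  have Z₀ : ∀ s : Fin 2 × Fin 2, ∃ z₁ : ℕ → ℝ, s ≠ (0, 0) → Tendsto z₁ atTop (𝓝 1) ∧
      ∀ᶠ L : ℕ in atTop,
      ∃ (Sk : Latx683.HE (ZMod (L + 1)) → Latx683.HE (ZMod (L + 1)) → ℝ)
        (hS : IsCov (wTor (L + 1) (eS s.2) (eS s.1)) Sk),
      EEG (covS Sk hS.skew)
        (ZZ (((Bg.tor (L + 1) (eS s.2) (eS s.1)).flow (mpar J lam R V β z) D (mk L) (src₀ L) l
          k0).near 0) univ
          ((Bg.tor (L + 1) (eS s.2) (eS s.1)).flow (mpar J lam R V β z) D (mk L) (src₀ L) l k0).K0) =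
        Real.exp (EI (l := l) (k0 := k0) D (mpar J lam R V β z) mk src₀ s L) * z₁ L := by
    intro s
    by_cases hs : s = (0, 0)
    · exact ⟨fun _ => 0, fun h => absurd hs h⟩
    · obtain ⟨f, hf⟩ := nz_one D hM hK' hl1 hl hΓ ha (mpar J lam R V β z) mk src₀ s hs (m₀ s) (N₀ s)
      exact ⟨f, fun _ => hf⟩
  choose z₁ hz₁ using Z₁
  choose z₀ hz₀ using Z₀
  obtain ⟨p₁, hp₁, Q₁⟩ := pp_one D hM hK' hl1 hl hΓ ha (mpar J lam R V β z) mk src₁ (m₁ (0, 0))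
    (N₁ (0, 0))
  obtain ⟨p₀, hp₀, Q₀⟩ := pp_one D hM hK' hl1 hl hΓ ha (mpar J lam R V β z) mk src₀ (m₀ (0, 0))
    (N₀ (0, 0))
  exact torBonds_of_bg hJ hV lam β z hz S hτ D l k0 mk src₁ src₀ h₁ h₀ q₁ q₀
    (E₁ := EI (l := l) (k0 := k0) D (mpar J lam R V β z) mk src₁)
    (E₀ := EI (l := l) (k0 := k0) D (mpar J lam R V β z) mk src₀)
    (z₁ := z₁) (z₀ := z₀) (p₁ := p₁) (p₀ := p₀)
    (fun s hs => (hz₁ s hs).2) (fun s hs => (hz₀ s hs).2) Q₁ Q₀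
    (fun s hs => (hz₁ s hs).1) (fun s hs => (hz₀ s hs).1) hp₁ hp₀ hE hE'

end Crest.Agent.R165.TorEndx599
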