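import Crest.Agent.R165.TorRep2_599

/-!
# Row 165 (S0250), torus, leaf T9 on the literal names of `Bkg_683` (helper599)

* `core` : the four-sector bookkeeping on sequences
* `torBonds_of_bg` : the flow data of `Bg.tor` with (index `1`) and without (index `0`) the real source
  give `torBonds → (exp e - 1) / τ`
-/

set_option autoImplicit false
set_option linter.unusedSectionVars false

noncomputable section

open Finset Filter Topology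
open Crest.ProbabilityR.IsingModel

namespace Crest.Agent.R165.TorFinx599

open Crest.Agent.R165.Gr0x606 Crest.Agent.R165.Gr1x606 Crest.Agent.R165.J1ax606
open Crest.Agent.R165.GeOpsx337 Crest.Agent.R165.J4Defx653 Crest.Agent.R165.J4RRx653
open Crest.Agent.R165.J4Pathx653 Crest.Agent.R165.J4Lnkx653
open Crest.Agent.R165.KStepx892 (ZZ)
open Crest.Agent.R165.TorusCombx922 Crest.Agent.R165.TorusJ1x922 Crest.Agent.R165.TorusJ2x922
open Crest.Agent.R165.TorChartx723 (wTor)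
open Crest.Agent.R165.PPdx63 (ZS)
open Crest.Agent.R165.Latx683 (BW xc IsCov covS Fld)
open Crest.Agent.R165.TorRepx599
open Crest.Agent.R165.Bkgx683 (Bg MPar mpar Srcs noSrc realSrc)
open Crest.Agent.R165.FRDPolyx439

/-- **four-sector bookkeeping** -/
theorem core {J : ℝ} (hJ : 0 < J) {R : ℕ} {V : Finset (ℤ × ℤ) → ℝ}
    (hV : Topx683.VHyp R V) (lam β : ℝ) (S : Finset ((ℤ × ℤ) × Fin 2)) {τ : ℝ} (hτ : τ ≠ 0)
    {a b : Fin 2 × Fin 2 → ℕ → ℝ} {E₁ E₀ z₁ z₀ : Fin 2 × Fin 2 → ℕ → ℝ} {p₁ p₀ : ℕ → ℝ} {e : ℝ}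
    (hrep : ∀ᶠ L : ℕ in atTop, ∃ c : ℝ, c ≠ 0 ∧ ∀ s,
      a s L = c * ZS s (GTor (L + 1) (max R 1) (tpot J lam β V) * (1 + τ • epTor (L + 1) S)) ∧
      b s L = c * ZS s (GTor (L + 1) (max R 1) (tpot J lam β V)))
    (ha : ∀ s, s ≠ (0, 0) → ∀ᶠ L : ℕ in atTop,
      a s L = ZE (fun e : Ed (L + 1) => sec s e * xc) 1 * (Real.exp (E₁ s L) * z₁ s L))
    (hb : ∀ s, s ≠ (0, 0) → ∀ᶠ L : ℕ in atTop,
      b s L = ZE (fun e : Ed (L + 1) => sec s e * xc) 1 * (Real.exp (E₀ s L) * z₀ s L))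
    (ha0 : ∀ᶠ L : ℕ in atTop,
      a (0, 0) L = TorSecx599.ZP (L + 1) * (Real.exp (E₁ (0, 0) L) * p₁ L))
    (hb0 : ∀ᶠ L : ℕ in atTop,
      b (0, 0) L = TorSecx599.ZP (L + 1) * (Real.exp (E₀ (0, 0) L) * p₀ L))
    (hz₁ : ∀ s, s ≠ (0, 0) → Tendsto (z₁ s) atTop (𝓝 1))
    (hz₀ : ∀ s, s ≠ (0, 0) → Tendsto (z₀ s) atTop (𝓝 1))
    (hp₁ : Tendsto (fun L : ℕ => ((L : ℝ) + 1) * p₁ L) atTop (𝓝 0))
    (hp₀ : Tendsto (fun L : ℕ => ((L : ℝ) + 1) * p₀ L) atTop (𝓝 0))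
    (hE : ∀ s, Tendsto (fun L => E₁ s L - E₀ s L) atTop (𝓝 e))
    (hE' : Tendsto (fun L => E₀ (0, 0) L - E₀ (1, 1) L) atTop (𝓝 0)) :
    Tendsto (fun L : ℕ => Symx541.torBonds L J lam R V β S) atTop
      (𝓝 ((Real.exp e - 1) / τ)) := by
  have hZpos : ∀ s, s ≠ (0, 0) → ∀ L : ℕ, 0 < ZE (fun e : Ed (L + 1) => sec s e * xc) 1 :=
    fun s hs L => TorBrx599.ZE_pos (L + 1) s hs
  have hz0pos : ∀ s, s ≠ (0, 0) → ∀ᶠ L in atTop, 0 < z₀ s L :=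
    fun s hs => (hz₀ s hs).eventually (lt_mem_nhds one_pos)
  -- doubly periodic sector
  have key : ∀ (x : Fin 2 × Fin 2 → ℕ → ℝ) (E : Fin 2 × Fin 2 → ℕ → ℝ) (p : ℕ → ℝ) (e' : ℝ),
      (∀ᶠ L : ℕ in atTop, x (0, 0) L = TorSecx599.ZP (L + 1) * (Real.exp (E (0, 0) L) * p L)) →
      Tendsto (fun L : ℕ => ((L : ℝ) + 1) * p L) atTop (𝓝 0) →
      Tendsto (fun L => E (0, 0) L - E₀ (1, 1) L) atTop (𝓝 e') →
      Tendsto (fun L => x (0, 0) L / b (1, 1) L) atTop (𝓝 0) := by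
    intro x E p e' h2 hp hE1
    have hE2 : Tendsto (fun L => Real.exp (E (0, 0) L - E₀ (1, 1) L)) atTop
        (𝓝 (Real.exp e')) := (Real.continuous_exp.tendsto _).comp hE1
    have h5 : Tendsto (fun L : ℕ => (2 / xc) * (Real.exp (E (0, 0) L - E₀ (1, 1) L) *
        |((L : ℝ) + 1) * p L| * |(z₀ (1, 1) L)⁻¹|)) atTop (𝓝 0) := by
      have hz1 : Tendsto (fun L => |(z₀ (1, 1) L)⁻¹|) atTop (𝓝 |(1 : ℝ)⁻¹|) :=
        ((hz₀ (1, 1) (by decide)).inv₀ one_ne_zero).abs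
      have hp1 : Tendsto (fun L : ℕ => |((L : ℝ) + 1) * p L|) atTop (𝓝 |(0 : ℝ)|) := hp.abs
      have h6 := ((hE2.mul hp1).mul hz1).const_mul (2 / xc)
      simpa using h6
    refine squeeze_zero_norm' ?_ h5
    filter_upwards [h2, hb (1, 1) (by decide), hz0pos (1, 1) (by decide)] with L e0 e1 hz0
    rw [e0, e1, Real.norm_eq_abs]
    have hA := hZpos (1, 1) (by decide) L
    have hZP := TorBrx599.ZP_le' (L + 1)
    have ex : TorSecx599.xc = xc := rfl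
    rw [ex] at hZP
    set A := ZE (fun e : Ed (L + 1) => sec (1, 1) e * xc) 1 with hAd
    set ZP := TorSecx599.ZP (L + 1) with hZPd
    have hexp : Real.exp (E (0, 0) L - E₀ (1, 1) L) =
        Real.exp (E (0, 0) L) * (Real.exp (E₀ (1, 1) L))⁻¹ := by
      rw [Real.exp_sub]; rfl
    have hx0 : 0 < Real.exp (E₀ (1, 1) L) := Real.exp_pos _
    have h7 : ZP * (Real.exp (E (0, 0) L) * p L) /
        (A * (Real.exp (E₀ (1, 1) L) * z₀ (1, 1) L)) =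
        (ZP / A) * (Real.exp (E (0, 0) L - E₀ (1, 1) L) * p L * (z₀ (1, 1) L)⁻¹) := by
      rw [hexp]
      field_simp
    rw [h7, abs_mul, abs_mul, abs_mul, abs_of_pos (Real.exp_pos _), abs_div, abs_of_pos hA]
    have h8 : |ZP| / A ≤ (2 / xc) * ((L : ℝ) + 1) := by
      rw [div_le_iff₀ hA]
      refine hZP.trans (le_of_eq ?_)
      push_cast
      ring
    have h9 : 0 ≤ Real.exp (E (0, 0) L - E₀ (1, 1) L) * |p L| * |(z₀ (1, 1) L)⁻¹| := by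
      positivity
    refine (mul_le_mul_of_nonneg_right h8 h9).trans (le_of_eq ?_)
    rw [abs_mul ((L : ℝ) + 1), abs_of_pos (by positivity : (0 : ℝ) < (L : ℝ) + 1)]
    ring
  refine torBonds_of_sectors hJ hV lam β S hτ (a := a) (b := b) (e := e) hrep ?_ ?_ ?_ ?_
  · intro s hs
    filter_upwards [hb s hs, hz0pos s hs] with L hL hL2
    rw [hL]
    exact mul_pos (hZpos s hs L) (mul_pos (Real.exp_pos _) hL2)
  · intro s hs
    have h3 : Tendsto (fun L => Real.exp (E₁ s L - E₀ s L) * (z₁ s L / z₀ s L)) atTop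
        (𝓝 (Real.exp e)) := by
      have h4 := ((Real.continuous_exp.tendsto e).comp (hE s)).mul
        ((hz₁ s hs).div (hz₀ s hs) one_ne_zero)
      rw [div_one, mul_one] at h4
      exact h4
    refine h3.congr' ?_
    filter_upwards [hb s hs, ha s hs, hz0pos s hs] with L e0 e1 hz0
    rw [e0, e1, Real.exp_sub]
    have h5 := (hZpos s hs L).ne'
    generalize ZE (fun e : Ed (L + 1) => sec s e * xc) 1 = A at h5
    have h6 := (Real.exp_pos (E₀ s L)).ne'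
    field_simp
  · refine key a E₁ p₁ (e + 0) ha0 hp₁ ?_
    refine ((hE (0, 0)).add hE').congr fun L => ?_
    ring
  · exact key b E₀ p₀ 0 hb0 hp₀ hE'

/-- **T9 on `Bkg_683`**: index `1` with the real source, index `0` without -/
theorem torBonds_of_bg {J : ℝ} (hJ : 0 < J) {R : ℕ} {V : Finset (ℤ × ℤ) → ℝ}
    (hV : Topx683.VHyp R V) (lam β z : ℝ) (hz : 0 < 1 + z) (S : Finset ((ℤ × ℤ) × Fin 2))
    {τ : ℝ} (hτ : τ ≠ 0) {MD KD : ℕ} (D : FRD 16 MD KD) (l k0 : ℕ)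
    (mk : ∀ L : ℕ, Finset (ZMod (L + 1) × ZMod (L + 1)))
    {κ₁ κ₀ : Type} [DecidableEq κ₁] [Fintype κ₁] [DecidableEq κ₀] [Fintype κ₀]
    (src₁ : ∀ L : ℕ, Srcs κ₁ (ZMod (L + 1)) (Ge (Fld (ZMod (L + 1)))))
    (src₀ : ∀ L : ℕ, Srcs κ₀ (ZMod (L + 1)) (Ge (Fld (ZMod (L + 1)))))
    {a₁ : κ₁ → ℝ} {a₀ : κ₀ → ℝ}
    (h₁ : ∀ᶠ L in atTop, RealSrc (src₁ L) a₁) (h₀ : ∀ᶠ L in atTop, RealSrc (src₀ L) a₀)
    (q₁ : ∀ᶠ L : ℕ in atTop, ∏ k, (1 + a₁ k • (src₁ L).Fs k) = 1 + τ • epTor (L + 1) S)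
    (q₀ : ∀ᶠ L : ℕ in atTop, ∏ k, (1 + a₀ k • (src₀ L).Fs k) = 1)
    {E₁ E₀ z₁ z₀ : Fin 2 × Fin 2 → ℕ → ℝ} {p₁ p₀ : ℕ → ℝ} {e : ℝ}
    (hnz₁ : ∀ s : Fin 2 × Fin 2, s ≠ (0, 0) → ∀ᶠ L : ℕ in atTop,
      ∃ (Sk : Latx683.HE (ZMod (L + 1)) → Latx683.HE (ZMod (L + 1)) → ℝ)
        (hS : IsCov (wTor (L + 1) (eS s.2) (eS s.1)) Sk),
      EEG (covS Sk hS.skew)
        (ZZ (((Bg.tor (L + 1) (eS s.2) (eS s.1)).flow (mpar J lam R V β z) D (mk L) (src₁ L) l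
          k0).near 0) univ
          ((Bg.tor (L + 1) (eS s.2) (eS s.1)).flow (mpar J lam R V β z) D (mk L) (src₁ L) l k0).K0) =
        Real.exp (E₁ s L) * z₁ s L)
    (hnz₀ : ∀ s : Fin 2 × Fin 2, s ≠ (0, 0) → ∀ᶠ L : ℕ in atTop,
      ∃ (Sk : Latx683.HE (ZMod (L + 1)) → Latx683.HE (ZMod (L + 1)) → ℝ)
        (hS : IsCov (wTor (L + 1) (eS s.2) (eS s.1)) Sk),
      EEG (covS Sk hS.skew)
        (ZZ (((Bg.tor (L + 1) (eS s.2) (eS s.1)).flow (mpar J lam R V β z) D (mk L) (src₀ L) l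
          k0).near 0) univ
          ((Bg.tor (L + 1) (eS s.2) (eS s.1)).flow (mpar J lam R V β z) D (mk L) (src₀ L) l k0).K0) =
        Real.exp (E₀ s L) * z₀ s L)
    (hPP₁ : ∀ᶠ L : ℕ in atTop,
      Gr0x606.EE (TorBrx599.cF (L + 1) (-(TorSecx599.BP (L + 1)))) (dd (TorBrx599.z2 (L + 1))
        (dd (TorBrx599.z1 (L + 1))
          ((ZZ (((Bg.tor (L + 1) 1 1).flow (mpar J lam R V β z) D (mk L) (src₁ L) l k0).near 0) univ
            ((Bg.tor (L + 1) 1 1).flow (mpar J lam R V β z) D (mk L) (src₁ L) l k0).K0 :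
              Ge (Fld (ZMod (L + 1)))) : Gr (Fld (ZMod (L + 1)))))) =
        Real.exp (E₁ (0, 0) L) * p₁ L)
    (hPP₀ : ∀ᶠ L : ℕ in atTop,
      Gr0x606.EE (TorBrx599.cF (L + 1) (-(TorSecx599.BP (L + 1)))) (dd (TorBrx599.z2 (L + 1))
        (dd (TorBrx599.z1 (L + 1))
          ((ZZ (((Bg.tor (L + 1) 1 1).flow (mpar J lam R V β z) D (mk L) (src₀ L) l k0).near 0) univ
            ((Bg.tor (L + 1) 1 1).flow (mpar J lam R V β z) D (mk L) (src₀ L) l k0).K0 :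
              Ge (Fld (ZMod (L + 1)))) : Gr (Fld (ZMod (L + 1)))))) =
        Real.exp (E₀ (0, 0) L) * p₀ L)
    (hz₁ : ∀ s, s ≠ (0, 0) → Tendsto (z₁ s) atTop (𝓝 1))
    (hz₀ : ∀ s, s ≠ (0, 0) → Tendsto (z₀ s) atTop (𝓝 1))
    (hp₁ : Tendsto (fun L : ℕ => ((L : ℝ) + 1) * p₁ L) atTop (𝓝 0))
    (hp₀ : Tendsto (fun L : ℕ => ((L : ℝ) + 1) * p₀ L) atTop (𝓝 0))
    (hE : ∀ s, Tendsto (fun L => E₁ s L - E₀ s L) atTop (𝓝 e))
    (hE' : Tendsto (fun L => E₀ (0, 0) L - E₀ (1, 1) L) atTop (𝓝 0)) :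
    Tendsto (fun L : ℕ => Symx541.torBonds L J lam R V β S) atTop
      (𝓝 ((Real.exp e - 1) / τ)) := by
  have hev : ∀ S, (mpar J lam R V β z).t S ≠ 0 → Even S.card :=
    tpot_even (J := J) (lam := lam) (β := β) hV.even
  have hcM : ∀ L : ℕ, cM (L + 1) (mpar J lam R V β z) ≠ 0 := fun L =>
    (cM_pos (L + 1) (mpar J lam R V β z) hz).ne'
  refine core hJ hV lam β S hτ
    (a := fun s L => (cM (L + 1) (mpar J lam R V β z))⁻¹ *
      ZS s (GTor (L + 1) (max R 1) (tpot J lam β V) * (1 + τ • epTor (L + 1) S)))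
    (b := fun s L => (cM (L + 1) (mpar J lam R V β z))⁻¹ *
      ZS s (GTor (L + 1) (max R 1) (tpot J lam β V)))
    (Eventually.of_forall fun L => ⟨_, inv_ne_zero (hcM L), fun s => ⟨rfl, rfl⟩⟩)
    ?_ ?_ ?_ ?_ hz₁ hz₀ hp₁ hp₀ hE hE'
  · intro s hs
    filter_upwards [h₁, q₁, hnz₁ s hs] with L e1 e2 e3
    obtain ⟨Sk, hS, e3⟩ := e3
    have h := ZS_bg_nz D (mk L) l k0 s hs (mpar J lam R V β z) hz hev (src₁ L) e1 hS
    rw [e2, e3] at h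
    change (cM (L + 1) (mpar J lam R V β z))⁻¹ *
      ZS s (GTor (L + 1) (mpar J lam R V β z).R (mpar J lam R V β z).t *
        (1 + τ • epTor (L + 1) S)) = _
    rw [h, ← mul_assoc, inv_mul_cancel₀ (hcM L), one_mul]
  · intro s hs
    filter_upwards [h₀, q₀, hnz₀ s hs] with L e1 e2 e3
    obtain ⟨Sk, hS, e3⟩ := e3
    have h := ZS_bg_nz D (mk L) l k0 s hs (mpar J lam R V β z) hz hev (src₀ L) e1 hS
    rw [e2, e3, mul_one] at h
    change (cM (L + 1) (mpar J lam R V β z))⁻¹ *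
      ZS s (GTor (L + 1) (mpar J lam R V β z).R (mpar J lam R V β z).t) = _
    rw [h, ← mul_assoc, inv_mul_cancel₀ (hcM L), one_mul]
  · filter_upwards [h₁, q₁, hPP₁] with L e1 e2 e3
    have h := ZS_bg_PP D (mk L) l k0 (mpar J lam R V β z) hz hev (src₁ L) e1
    rw [e2, e3] at h
    change (cM (L + 1) (mpar J lam R V β z))⁻¹ *
      ZS (0, 0) (GTor (L + 1) (mpar J lam R V β z).R (mpar J lam R V β z).t *
        (1 + τ • epTor (L + 1) S)) = _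
    rw [h, ← mul_assoc, inv_mul_cancel₀ (hcM L), one_mul]
  · filter_upwards [h₀, q₀, hPP₀] with L e1 e2 e3
    have h := ZS_bg_PP D (mk L) l k0 (mpar J lam R V β z) hz hev (src₀ L) e1
    rw [e2, e3, mul_one] at h
    change (cM (L + 1) (mpar J lam R V β z))⁻¹ *
      ZS (0, 0) (GTor (L + 1) (mpar J lam R V β z).R (mpar J lam R V β z).t) = _
    rw [h, ← mul_assoc, inv_mul_cancel₀ (hcM L), one_mul]

end Crest.Agent.R165.TorFinx599
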