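import Crest.Agent.R165.TorRep_599

/-!
# Row 165 (S0250), torus, leaf T9: assembly (helper599)

* `torBonds_of_sectors` : sector sums with and without the real source `1 + τ eps_S`
* `torBonds_of_flow`    : TEXT P13 (723): the flow data `E s u L`, last steps `z`, `p`, give
  `torBonds → (exp e - 1) / τ`
-/

set_option autoImplicit false
set_option linter.unusedSectionVars false

noncomputable section

open Finset Filter Topology
open Crest.ProbabilityR.IsingModel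

namespace Crest.Agent.R165.TorFinx599

open Crest.Agent.R165.Gr0x606 Crest.Agent.R165.Gr1x606 Crest.Agent.R165.J1ax606
open Crest.Agent.R165.GeOpsx337 Crest.Agent.R165.J4Defx653 Crest.Agent.R165.J4RRx653
open Crest.Agent.R165.J4Pathx653 Crest.Agent.R165.J4Lnkx653
open Crest.Agent.R165.KStepx892 (ZZ)
open Crest.Agent.R165.TorusCombx922 Crest.Agent.R165.TorusJ1x922 Crest.Agent.R165.TorusJ2x922
open Crest.Agent.R165.TorChartx723 (wTor)
open Crest.Agent.R165.PPdx63 (ZS)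
open Crest.Agent.R165.Latx683 (BW xc)
open Crest.Agent.R165.TorRepx599

theorem ZS_add {M : ℕ} [NeZero M] (s : Fin 2 × Fin 2) (F F' : RR (Ed M)) :
    ZS s (F + F') = ZS s F + ZS s F' := by
  unfold ZS THG
  rw [map_add, ZE_add]

theorem ZS_smul {M : ℕ} [NeZero M] (s : Fin 2 × Fin 2) (c : ℝ) (F : RR (Ed M)) :
    ZS s (c • F) = c * ZS s F := by
  unfold ZS THG
  rw [map_smul, ZE_smul]

/-- bonds from sector sums with a real source -/
theorem torBonds_of_sectors {J : ℝ} (hJ : 0 < J) {R : ℕ} {V : Finset (ℤ × ℤ) → ℝ}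
    (hV : Topx683.VHyp R V) (lam β : ℝ)
    (S : Finset ((ℤ × ℤ) × Fin 2)) {τ : ℝ} (hτ : τ ≠ 0)
    {a b : Fin 2 × Fin 2 → ℕ → ℝ} {e : ℝ}
    (hrep : ∀ᶠ L : ℕ in atTop, ∃ c : ℝ, c ≠ 0 ∧ ∀ s,
      a s L = c * ZS s (GTor (L + 1) (max R 1) (tpot J lam β V) * (1 + τ • epTor (L + 1) S)) ∧
      b s L = c * ZS s (GTor (L + 1) (max R 1) (tpot J lam β V)))
    (hpos : ∀ s, s ≠ (0, 0) → ∀ᶠ L in atTop, 0 < b s L)
    (hlim : ∀ s, s ≠ (0, 0) → Tendsto (fun L => a s L / b s L) atTop (𝓝 (Real.exp e)))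
    (ha : Tendsto (fun L => a (0, 0) L / b (1, 1) L) atTop (𝓝 0))
    (hb : Tendsto (fun L => b (0, 0) L / b (1, 1) L) atTop (𝓝 0)) :
    Tendsto (fun L : ℕ => Symx541.torBonds L J lam R V β S) atTop
      (𝓝 ((Real.exp e - 1) / τ)) := by
  have h1 := PPdx63.sector_tendsto hpos hlim ha hb
  have h2 : ∀ᶠ L in atTop, (∑ s, b s L) ≠ 0 := by
    filter_upwards [h1.eventually (lt_mem_nhds (Real.exp_pos e))] with L hL h0
    rw [h0, div_zero] at hL
    exact lt_irrefl _ hL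
  have h3 : Tendsto (fun L => ((∑ s, a s L) / (∑ s, b s L) - 1) / τ) atTop
      (𝓝 ((Real.exp e - 1) / τ)) := (h1.sub_const 1).div_const τ
  refine h3.congr' ?_
  filter_upwards [hrep, eventually_ge_atTop 1, h2] with L hL h1L hne
  obtain ⟨c, hc, hab⟩ := hL
  set GG := GTor (L + 1) (max R 1) (tpot J lam β V) with hGG
  have hT := torBonds_link h1L hJ.ne' lam β R V hV.trans hV.range hV.even S
  rw [hT, ← hGG]
  have e1 : (∑ s, a s L) = c * (Z4 GG + τ * Z4 (epTor (L + 1) S * GG)) := by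
    rw [PPdx63.Z4_eq, PPdx63.Z4_eq, mul_sum, ← sum_add_distrib, mul_sum]
    refine sum_congr rfl fun s _ => ?_
    rw [(hab s).1, mul_add, mul_one, ZS_add, mul_smul_comm, ZS_smul, mul_comm GG]
  have e2 : (∑ s, b s L) = c * Z4 GG := by
    rw [PPdx63.Z4_eq, mul_sum]
    exact sum_congr rfl fun s _ => (hab s).2
  rw [e2] at hne
  have hZ : Z4 GG ≠ 0 := right_ne_zero_of_mul hne
  rw [e1, e2]
  field_simp
  ring

/-- **T9**: the flow data give the limit of the bonds.  `E s u L` total constants, `z s u L` last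
step of the sectors `s ≠ (0,0)`, `p u L` last step of the doubly periodic sector. -/
theorem torBonds_of_flow {J : ℝ} (hJ : 0 < J) {R : ℕ} {V : Finset (ℤ × ℤ) → ℝ}
    (hV : Topx683.VHyp R V) (lam β : ℝ)
    (S : Finset ((ℤ × ℤ) × Fin 2)) {τ : ℝ} (hτ : τ ≠ 0) {ρ : ℝ} (hρ : ρ ≠ 0) (f₀ : ℤ × ℤ) (R' : ℕ)
    {E z : Fin 2 × Fin 2 → ℝ → ℕ → ℝ} {p : ℝ → ℕ → ℝ} {e : ℝ}
    (hnz : ∀ s, s ≠ (0, 0) → ∀ u, u = 0 ∨ u = τ → ∀ᶠ L : ℕ in atTop,
      EEG (Latx683.covS (kT (L + 1) (wTor (L + 1) (eS s.2) (eS s.1))) (kT_skew (L + 1) _))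
        (ZZ (nr (L + 1) R') univ (K0T (L + 1) s ρ (tpot J lam β V) (max R 1) u S f₀ R')) =
        Real.exp (E s u L) * z s u L)
    (hz : ∀ s, s ≠ (0, 0) → ∀ u, u = 0 ∨ u = τ → Tendsto (z s u) atTop (𝓝 1))
    (hPP : ∀ u, u = 0 ∨ u = τ → ∀ᶠ L : ℕ in atTop,
      EE (TorBrx599.cF (L + 1) (-(TorSecx599.BP (L + 1)))) (dd (TorBrx599.z2 (L + 1))
        (dd (TorBrx599.z1 (L + 1)) ((ZZ (nr (L + 1) R') univ
          (K0T (L + 1) (0, 0) ρ (tpot J lam β V) (max R 1) u S f₀ R') :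
            Ge (VI (HE (ZMod (L + 1))))) : Gr (VI (HE (ZMod (L + 1))))))) =
        Real.exp (E (0, 0) u L) * p u L)
    (hp : ∀ u, u = 0 ∨ u = τ → Tendsto (fun L : ℕ => ((L : ℝ) + 1) * p u L) atTop (𝓝 0))
    (hE : ∀ s, Tendsto (fun L => E s τ L - E s 0 L) atTop (𝓝 e))
    (hE' : Tendsto (fun L => E (0, 0) 0 L - E (1, 1) 0 L) atTop (𝓝 0)) :
    Tendsto (fun L : ℕ => Symx541.torBonds L J lam R V β S) atTop
      (𝓝 ((Real.exp e - 1) / τ)) := by
  have hev' := tpot_even (J := J) (lam := lam) (β := β) hV.even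
  set t := tpot J lam β V with ht
  -- the sector sums without the common factor
  set a : ℝ → Fin 2 × Fin 2 → ℕ → ℝ := fun u s L => (ρ ^ 4) ^ ((L + 1) ^ 2) *
    ZS s (GTor (L + 1) (max R 1) t * (1 + u • epTor (L + 1) S)) with ha
  have hc0 : ∀ L : ℕ, (ρ ^ 4) ^ ((L + 1) ^ 2) ≠ 0 := fun L => pow_ne_zero _ (pow_ne_zero _ hρ)
  have hG0 : ∀ (s : Fin 2 × Fin 2) (L : ℕ), a 0 s L = (ρ ^ 4) ^ ((L + 1) ^ 2) *
      ZS s (GTor (L + 1) (max R 1) t) := by
    intro s L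
    simp only [ha, zero_smul, add_zero, mul_one]
  have h1 : ∀ s, s ≠ (0, 0) → ∀ u, u = 0 ∨ u = τ → ∀ᶠ L : ℕ in atTop,
      a u s L = ZE (fun e : Ed (L + 1) => sec s e * xc) 1 * (Real.exp (E s u L) * z s u L) := by
    intro s hs u hu
    filter_upwards [hnz s hs u hu] with L hL
    simp only [ha]
    rw [ZS_nz (L + 1) s hs hρ hev' (max R 1) u S f₀ R', hL, mul_assoc, ← mul_assoc, 
      mul_inv_cancel₀ (hc0 L), one_mul]
  have h2 : ∀ u, u = 0 ∨ u = τ → ∀ᶠ L : ℕ in atTop,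
      a u (0, 0) L = TorSecx599.ZP (L + 1) * (Real.exp (E (0, 0) u L) * p u L) := by
    intro u hu
    filter_upwards [hPP u hu] with L hL
    simp only [ha]
    rw [ZS_PP (L + 1) hρ hev' (max R 1) u S f₀ R', hL, mul_assoc, ← mul_assoc, 
      mul_inv_cancel₀ (hc0 L), one_mul]
  have hZpos : ∀ s, s ≠ (0, 0) → ∀ L : ℕ, 0 < ZE (fun e : Ed (L + 1) => sec s e * xc) 1 :=
    fun s hs L => TorBrx599.ZE_pos (L + 1) s hs
  have hzpos : ∀ s, s ≠ (0, 0) → ∀ u, u = 0 ∨ u = τ → ∀ᶠ L in atTop, 0 < z s u L :=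
    fun s hs u hu => (hz s hs u hu).eventually (lt_mem_nhds one_pos)
  -- doubly periodic sector, both values of the source
  have key : ∀ u, u = 0 ∨ u = τ → Tendsto (fun L => a u (0, 0) L / a 0 (1, 1) L) atTop (𝓝 0) := by
    intro u hu
    have hE2 : Tendsto (fun L => Real.exp (E (0, 0) u L - E (1, 1) 0 L)) atTop
        (𝓝 (Real.exp (if u = 0 then 0 else e))) := by
      refine (Real.continuous_exp.tendsto _).comp ?_
      rcases hu with rfl | rfl
      · rw [if_pos rfl]; exact hE'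
      · rw [if_neg hτ]
        have := (hE (0, 0)).add hE'
        rw [add_zero] at this
        refine this.congr fun L => ?_
        ring
    have h5 : Tendsto (fun L : ℕ => (2 / xc) * (Real.exp (E (0, 0) u L - E (1, 1) 0 L) *
        |((L : ℝ) + 1) * p u L| * |(z (1, 1) 0 L)⁻¹|)) atTop (𝓝 0) := by
      have hz1 : Tendsto (fun L => |(z (1, 1) 0 L)⁻¹|) atTop (𝓝 |(1 : ℝ)⁻¹|) :=
        ((hz (1, 1) (by decide) 0 (Or.inl rfl)).inv₀ one_ne_zero).abs
      have hp1 : Tendsto (fun L : ℕ => |((L : ℝ) + 1) * p u L|) atTop (𝓝 |(0 : ℝ)|) :=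
        (hp u hu).abs
      have h6 := ((hE2.mul hp1).mul hz1).const_mul (2 / xc)
      simpa using h6
    refine squeeze_zero_norm' ?_ h5
    filter_upwards [h2 u hu, h1 (1, 1) (by decide) 0 (Or.inl rfl),
      hzpos (1, 1) (by decide) 0 (Or.inl rfl)] with L e0 e1 hz0
    rw [e0, e1, Real.norm_eq_abs]
    have hA := hZpos (1, 1) (by decide) L
    have hZP := TorBrx599.ZP_le' (L + 1)
    have ex : TorSecx599.xc = xc := rfl
    rw [ex] at hZP
    set A := ZE (fun e : Ed (L + 1) => sec (1, 1) e * xc) 1 with hAd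
    set ZP := TorSecx599.ZP (L + 1) with hZPd
    have hexp : Real.exp (E (0, 0) u L - E (1, 1) 0 L) =
        Real.exp (E (0, 0) u L) * (Real.exp (E (1, 1) 0 L))⁻¹ := by
      rw [Real.exp_sub]; rfl
    have hx0 : 0 < Real.exp (E (1, 1) 0 L) := Real.exp_pos _
    have h7 : ZP * (Real.exp (E (0, 0) u L) * p u L) /
        (A * (Real.exp (E (1, 1) 0 L) * z (1, 1) 0 L)) =
        (ZP / A) * (Real.exp (E (0, 0) u L - E (1, 1) 0 L) * p u L * (z (1, 1) 0 L)⁻¹) := by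
      rw [hexp]
      field_simp
    rw [h7, abs_mul, abs_mul, abs_mul, abs_of_pos (Real.exp_pos _), abs_div, abs_of_pos hA]
    have h8 : |ZP| / A ≤ (2 / xc) * ((L : ℝ) + 1) := by
      rw [div_le_iff₀ hA]
      refine hZP.trans (le_of_eq ?_)
      push_cast
      ring
    have h9 : 0 ≤ Real.exp (E (0, 0) u L - E (1, 1) 0 L) * |p u L| * |(z (1, 1) 0 L)⁻¹| := by
      positivity
    refine (mul_le_mul_of_nonneg_right h8 h9).trans (le_of_eq ?_)
    rw [abs_mul ((L : ℝ) + 1), abs_of_pos (by positivity : (0 : ℝ) < (L : ℝ) + 1)]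
    ring
  refine torBonds_of_sectors hJ hV lam β S hτ (a := a τ) (b := a 0) (e := e) ?_ ?_ ?_ ?_ ?_
  · refine Eventually.of_forall fun L => ⟨(ρ ^ 4) ^ ((L + 1) ^ 2), hc0 L, fun s => ⟨rfl, hG0 s L⟩⟩
  · intro s hs
    filter_upwards [h1 s hs 0 (Or.inl rfl), hzpos s hs 0 (Or.inl rfl)] with L hL hL2
    rw [hL]
    exact mul_pos (hZpos s hs L) (mul_pos (Real.exp_pos _) hL2)
  · intro s hs
    have h3 : Tendsto (fun L => Real.exp (E s τ L - E s 0 L) * (z s τ L / z s 0 L)) atTop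
        (𝓝 (Real.exp e)) := by
      have h4 := ((Real.continuous_exp.tendsto e).comp (hE s)).mul
        ((hz s hs τ (Or.inr rfl)).div (hz s hs 0 (Or.inl rfl)) one_ne_zero)
      rw [div_one, mul_one] at h4
      exact h4
    refine h3.congr' ?_
    filter_upwards [h1 s hs 0 (Or.inl rfl), h1 s hs τ (Or.inr rfl),
      hzpos s hs 0 (Or.inl rfl)] with L e0 e1 hz0
    rw [e0, e1, Real.exp_sub]
    have h5 := (hZpos s hs L).ne'
    generalize ZE (fun e : Ed (L + 1) => sec s e * xc) 1 = A at h5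
    have h6 := (Real.exp_pos (E s 0 L)).ne'
    field_simp
  · exact key τ (Or.inr rfl)
  · exact key 0 (Or.inl rfl)

end Crest.Agent.R165.TorFinx599
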