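import Crest.Agent.R165.TorNorm2_583
import Crest.Agent.R165.TorK_723
import Crest.Agent.R165.TorRep_599

/-!
# Row 165 (S0250): the norm flow on growing tori, four sectors (helper583)

* `tor_family` : bounds `Bd` of the constants up to `KT` (hypotheses `bd1`, `bd2` of helper723) and
  the norm of the last activities tends to `0` (hypothesis `hNP` of helper917)
-/

set_option autoImplicit false
set_option linter.unusedSectionVars false

noncomputable section

open Filter Topology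
open scoped ENNReal
open Crest.ProbabilityR.IsingModel
open Crest.Agent.R165.Gr0x606 Crest.Agent.R165.Gr1x606 Crest.Agent.R165.GeOpsx337
  Crest.Agent.R165.KFlowx337 Crest.Agent.R165.Telx337
open Crest.Agent.R165.Latx683 Crest.Agent.R165.GDefx387
open Crest.Agent.R165.NKDefx915 Crest.Agent.R165.Compx889 Crest.Agent.R165.TorChartx723
  Crest.Agent.R165.GSysx387 Crest.Agent.R165.FRDPolyx439
  Crest.Agent.R165.PEndx683 Crest.Agent.R165.TorNormx583
  Crest.Agent.R165.Bkgx683 Crest.Agent.R165.Outx683 Crest.Agent.R165.SpinSysx892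
  Crest.Agent.R165.Constx891 Crest.Agent.R165.TorNorm2x583 Crest.Agent.R165.TorKx723
  Crest.Agent.R165.TorRepx599 Crest.Agent.R165.DefRecx915 Crest.Agent.R165.DefStepx915
  Crest.Agent.R165.Bridgex915 Crest.Agent.R165.NSumx915

namespace Crest.Agent.R165.TorNorm3x583

/-- **the norm flow on growing tori** -/
theorem tor_family {J : ℝ} {R : ℕ} {V : Finset (ℤ × ℤ) → ℝ} (hpl : PlB J R V) :
    EvC fun c => ∀ C : ℝ, ∃ ε > 0, ∃ η > 0, ∀ lam β z : ℝ, |lam| < ε →
      NearP J C lam β z → PF J R V C c lam β z →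
      ∀ (κ : Type) [DecidableEq κ] [Fintype κ]
        (mk : ∀ L : ℕ, Finset (ZMod (L + 1) × ZMod (L + 1)))
        (src : ∀ L : ℕ, Srcs κ (ZMod (L + 1)) (Ge (Fld (ZMod (L + 1))))) (s : ℝ),
      0 ≤ s → s ≤ η → (∀ L, (mk L).card ≤ 1) → (∀ L, SrcOK (src L) (mk L)) →
      (∀ (σ : Fin 2 × Fin 2) (L : ℕ),
        NK (wTor (L + 1) (eS σ.2) (eS σ.1)) c.A0 (rr c.p c.k0 0) (ENNReal.ofReal c.Γ)
          (fun _ => True) (fun U => (((Bg.tor (L + 1) (eS σ.2) (eS σ.1)).K0
            (mpar J lam R V β z) LinearMap.id (src L) c.p c.k0 U :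
              Ge (Fld (ZMod (L + 1)))) : Gr (Fld (ZMod (L + 1))))) ≤ ENNReal.ofReal s) →
      ∃ E : ℕ → ℝ, (∀ k, 0 ≤ E k) ∧ Summable E ∧
        (∀ σ : Fin 2 × Fin 2, ∀ᶠ L : ℕ in atTop,
          Bd ((Bg.tor (L + 1) (eS σ.2) (eS σ.1)).flow (mpar J lam R V β z) DD (mk L) (src L)
            c.p c.k0) fd (fun k => rr c.p c.k0 (k + 1)) (nearR c.p c.k0) (ENNReal.ofReal c.Γ) E
              (KT c.p c.k0 L)) ∧
        (∀ σ : Fin 2 × Fin 2, Tendsto (fun L : ℕ =>
          NP (sys DD (wTor (L + 1) (eS σ.2) (eS σ.1)) (mk L) c.p c.k0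
            ((Bg.tor (L + 1) (eS σ.2) (eS σ.1)).K0 (mpar J lam R V β z) LinearMap.id (src L)
              c.p c.k0)) (wTor (L + 1) (eS σ.2) (eS σ.1)) (Outx683.amp c) (rr c.p c.k0)
              (ENNReal.ofReal c.Γ) allP (KT c.p c.k0 L)) atTop (𝓝 0)) := by
  refine (tor_flow hpl).mono fun c hc C => ?_
  obtain ⟨ε, hε, η, hη, C', hC', key⟩ := hc C
  refine ⟨ε, hε, η, hη, ?_⟩
  intro lam β z hlam hn hPF κ _ _ mk src s hs hsη hmk hsrc h0
  have hB : 0 ≤ C' * (|lam| + s) := by positivity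
  refine ⟨fun k => C' * (|lam| + s) * (1 / 2) ^ k, fun k => by positivity,
    (summable_geometric_of_lt_one (by norm_num) (by norm_num)).mul_left _, ?_, ?_⟩
  · intro σ
    filter_upwards [KT_583' c.p c.k0] with L hL
    exact (key lam β z hlam hn hPF s hs hsη (L + 1) (eS σ.2) (eS σ.1) (eS_sq _) (eS_sq _)
      (KT c.p c.k0 L) hL (mk L) (hmk L) κ (src L) (hsrc L) (h0 σ L)).2
  · intro σ
    have h1 : Tendsto (fun L : ℕ => ENNReal.ofReal (C' * (|lam| + s) *
        (1 / 2) ^ (KT c.p c.k0 L))) atTop (𝓝 0) := by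
      rw [← ENNReal.ofReal_zero]
      refine (ENNReal.continuous_ofReal.tendsto 0).comp ?_
      rw [← mul_zero (C' * (|lam| + s))]
      exact ((tendsto_pow_atTop_nhds_zero_of_lt_one (by norm_num) (by norm_num)).comp
        (KT_top c.p c.k0)).const_mul _
    refine tendsto_of_tendsto_of_tendsto_of_le_of_le' tendsto_const_nhds h1
      (Eventually.of_forall fun _ => zero_le) ?_
    filter_upwards [KT_583' c.p c.k0] with L hL
    exact (key lam β z hlam hn hPF s hs hsη (L + 1) (eS σ.2) (eS σ.1) (eS_sq _) (eS_sq _)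
      (KT c.p c.k0 L) hL (mk L) (hmk L) κ (src L) (hsrc L) (h0 σ L)).1 _ le_rfl

end Crest.Agent.R165.TorNorm3x583
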