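import Crest.Agent.R165.TorFin_599
import Crest.Agent.R165.TorLast_723
import Crest.Agent.R165.PPc_63
import Crest.Agent.R165.Extr_417

/-!
# Row 165 (S0250), torus: the doubly periodic sector, flow identity and last step (helper599)

* `flow_dd`  : the flow identity under two derivatives
* `z1_ev`, `z2_ev`, `l2_u1`, `l2_u2`, `Aop_u1`, `Aop_u2` : the zero modes as in `PPc_63`
* `wU_le_wt`, `wU_half`
* `pp_last`  : `|EE Sf (dd z2 (dd z1 ZZ))| ≤ 4 (exp (n b) - 1) / (r a²)`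
-/

set_option autoImplicit false
set_option linter.unusedSectionVars false

noncomputable section

open Finset Filter Topology
open scoped ENNReal

namespace Crest.Agent.R165.TorPPx599

open Crest.Agent.R165.Gr0x606 Crest.Agent.R165.Gr1x606
open Crest.Agent.R165.GeOpsx337 Crest.Agent.R165.KFlowx337 Crest.Agent.R165.ExpGx337
open Crest.Agent.R165.KStepx892 Crest.Agent.R165.PStepx417
open Crest.Agent.R165.Latx683 Crest.Agent.R165.GDefx387
open Crest.Agent.R165.Packx915 Crest.Agent.R165.NSumx915 Crest.Agent.R165.Bridgex915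
open Crest.Agent.R165.PNormx417 Crest.Agent.R165.FinBx900
open Crest.Agent.R165.TorChartx723 (wTor)
open Crest.Agent.R165.TorRepx599

section flow
variable {F : Type*} [DecidableEq F] {V : Type*} [AddCommGroup V] [Module ℝ V]

/-- without sources the total constant is a number -/
theorem E_const (Sy : Sys F V) (hv : Sy.vac = vac0 V) (Λ : Finset F) (n : ℕ) :
    Sy.E Λ n = algebraMap ℝ (Ge V) (ctG (Sy.E Λ n)) := by
  have h1 : ∀ k, Sy.vacE Λ k = algebraMap ℝ (Ge V) (ctG (Sy.vacE Λ k)) := by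
    intro k
    unfold Sys.vacE
    rw [hv]
    simp only [vac0_apply]
    rw [← map_sum, ← map_sum]
    simp
  have h2 : Sy.E Λ n = ∑ k ∈ range n, Sy.vacE Λ k := rfl
  rw [h2, map_sum, map_sum]
  exact sum_congr rfl fun k _ => h1 k

/-- **the flow identity under two derivatives** -/
theorem flow_dd (Sy : Sys F V) {src : Submodule ℝ V} (hD : Sy.OK src) (hv : Sy.vac = vac0 V)
    {Λ : Finset F} (h0 : ∀ U, ¬ U ⊆ Λ → Sy.K0 U = 0) (n : ℕ) (S Sf : Cov V)
    (hS : S = Sf + ∑ k ∈ range n, Sy.S k) (l₁ l₂ : Module.Dual ℝ V) :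
    EE S (dd l₂ (dd l₁ ((ZZ (Sy.near 0) Λ Sy.K0 : Ge V) : Gr V))) =
      Real.exp (ctG (Sy.E Λ n)) *
        EE Sf (dd l₂ (dd l₁ ((ZZ (Sy.near n) Λ (Sy.K n) : Ge V) : Gr V))) := by
  have h1 := Sys.total hD h0 n
  have h2 : conv (∑ k ∈ range n, Sy.S k) ((ZZ (Sy.near 0) Λ Sy.K0 : Ge V) : Gr V) =
      Real.exp (ctG (Sy.E Λ n)) • ((ZZ (Sy.near n) Λ (Sy.K n) : Ge V) : Gr V) := by
    rw [← coe_cvG, h1, E_const Sy hv Λ n, gexp_algebraMap, ← Algebra.smul_def, Ge.coe_smul]
    simp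
  rw [hS, ← EE_conv, conv_dd, conv_dd, h2]
  simp only [map_smul, smul_eq_mul]

end flow

section modes
variable {M : ℕ} [NeZero M]

theorem ev_single {G : Type} [CommRing G] [CN G] (φ : HE G → ℝ) (h : HE G) :
    PPcx63.ev φ (Finsupp.single h 1) = φ h := by
  rw [PPcx63.ev, Finsupp.linearCombination_single, one_smul]

theorem z1_ev : TorBrx599.z1 M = PPcx63.ev (TorSecx599.u1 M) := by
  apply Finsupp.lhom_ext'
  intro h
  apply LinearMap.ext_ring
  rw [LinearMap.comp_apply, LinearMap.comp_apply, Finsupp.lsingle_apply, TorBrx599.z1_single,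
    ev_single]

theorem z2_ev : TorBrx599.z2 M = PPcx63.ev (TorSecx599.u2 M) := by
  apply Finsupp.lhom_ext'
  intro h
  apply LinearMap.ext_ring
  rw [LinearMap.comp_apply, LinearMap.comp_apply, Finsupp.lsingle_apply, TorBrx599.z2_single,
    ev_single]

theorem Aop_u1 : Aop (wTor M 1 1) (TorSecx599.u1 M) = 0 := by
  rw [← hA_Aop, ← wS_eq]
  exact TorSecx599.hA_u1 M

theorem Aop_u2 : Aop (wTor M 1 1) (TorSecx599.u2 M) = 0 := by
  rw [← hA_Aop, ← wS_eq]
  exact TorSecx599.hA_u2 M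

theorem l2_u (M : ℕ) [NeZero M] {u : HE (ZMod M) → ℝ} (h : u ⬝ᵥ u = 1) : l2 u ≤ 1 := by
  unfold l2
  rw [tsum_fintype]
  have : ∑ b, u b ^ 2 = 1 := by
    rw [← h, dotProduct]
    exact sum_congr rfl fun b _ => by ring
  rw [this, Real.sqrt_one]

theorem summable_sq (u : HE (ZMod M) → ℝ) : Summable fun h => u h ^ 2 :=
  (hasSum_fintype _).summable

end modes

section gen
variable {G : Type} [CommRing G] [CN G] [DecidableEq G]

/-- total mass of a finite volume, weights below all `wU` -/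
theorem sum_le_NK' {w : BW G} {a : ℝ} {r s n : ℕ} {Γ : ℝ≥0∞} (hΓ : 1 ≤ Γ)
    (hcov : Cov (fd : G × G → G × G → ℕ) s r n) (f₀ : G × G) {Λ : Finset (G × G)}
    (hΛ : ∀ f ∈ Λ, fd f₀ f ≤ s) {g : Fld G → ℝ≥0∞} (hg : ∀ U ⊆ Λ, ∀ l, g l ≤ wU w a r U l)
    (K : Finset (G × G) → Gr (Fld G)) :
    ∑ U ∈ nes Λ, pnorm g (K U) ≤ n * NK w a r Γ (fun _ => True) K := by
  classical
  obtain ⟨net, hcard, hnet⟩ := hcov f₀
  rw [NK_eq_NN]
  calc ∑ U ∈ nes Λ, pnorm g (K U)
      ≤ ∑ U ∈ nes Λ, ∑ x ∈ net, Set.indicator {U | near fd r x U}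
          (fun U => Γ ^ pack fd r U * act w a r (fun _ => True) K U) U := by
        refine Finset.sum_le_sum fun U hU => ?_
        obtain ⟨hUΛ, u, hu⟩ := mem_nes.1 hU
        obtain ⟨x, hx, hxu⟩ := hnet u (hΛ u (hUΛ hu))
        refine le_trans ?_ (Finset.single_le_sum
          (f := fun x => Set.indicator {U | near fd r x U}
            (fun U => Γ ^ pack fd r U * act w a r (fun _ => True) K U) U)
          (fun _ _ => zero_le) hx)
        rw [Set.indicator_of_mem (by exact ⟨u, hu, hxu⟩), act_of trivial]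
        calc pnorm g (K U) ≤ pnorm (wU w a r U) (K U) := pnorm_le_pnorm (fun l => hg U hUΛ l) _
          _ = 1 * pnorm (wU w a r U) (K U) := (one_mul _).symm
          _ ≤ Γ ^ pack fd r U * pnorm (wU w a r U) (K U) :=
              mul_le_mul_left (one_le_pow₀ hΓ) _
    _ = ∑ x ∈ net, ∑ U ∈ nes Λ, Set.indicator {U | near fd r x U}
          (fun U => Γ ^ pack fd r U * act w a r (fun _ => True) K U) U := Finset.sum_comm
    _ ≤ ∑ x ∈ net, NN fd r Γ (act w a r (fun _ => True) K) :=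
        Finset.sum_le_sum fun x _ => (ENNReal.sum_le_tsum _).trans (bs_le_NN _ x)
    _ = net.card * NN fd r Γ (act w a r (fun _ => True) K) := by
        rw [Finset.sum_const, nsmul_eq_mul]
    _ ≤ n * NN fd r Γ (act w a r (fun _ => True) K) :=
        mul_le_mul_left (Nat.cast_le.2 hcard) _

theorem two_wU (w : BW G) {a : ℝ} (r : ℕ) (U : Finset (G × G)) (l : Fld G) :
    2 * wU w a r U l ≤ wU w (2 * a) r U l := by
  classical
  unfold wU
  refine le_iInf₂ fun x hx => ?_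
  split_ifs with h
  · have h1 : (⨅ x ∈ U, if SuppL (ball x (s0 * r)) l then wt w a r x l else ∞) ≤ wt w a r x l := by
      refine (iInf₂_le x hx).trans ?_
      rw [if_pos h]
    refine (mul_le_mul_right h1 2).trans ?_
    unfold GDefx387.wt
    rw [← mul_assoc]
    refine mul_le_mul_left ?_ _
    have h2 : (2 : ℝ≥0∞) = ENNReal.ofReal 2 := by simp
    rw [h2, ← ENNReal.ofReal_mul (by norm_num), mul_assoc]
  · exact le_top

end gen

/-- **the last step of the doubly periodic sector** -/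
theorem pp_last {M : ℕ} [NeZero M] {a : ℝ} (ha : 0 < a) {r : ℕ} (hr : 0 < r)
    {Sf : Gr0x606.Cov (Fld (ZMod M))} {g : Fld (ZMod M) → ℝ≥0∞} (hg : Gram Sf g)
    (hgw : ∀ x l, 2 * g l ≤ GDefx387.wt (wTor M 1 1) (a / 2) r x l) {Γ : ℝ≥0∞} (hΓ : 1 ≤ Γ) {s n : ℕ}
    (hcov : Cov (fd : ZMod M × ZMod M → ZMod M × ZMod M → ℕ) s r n) (f₀ : ZMod M × ZMod M)
    (hs : ∀ f, fd f₀ f ≤ s) (near : ZMod M × ZMod M → ZMod M × ZMod M → Prop)
    (K : Finset (ZMod M × ZMod M) → Ge (Fld (ZMod M))) {b : ℝ} (hb : 0 ≤ b)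
    (hN : NK (wTor M 1 1) a r Γ (fun _ => True) (fun U => (K U : Gr (Fld (ZMod M)))) ≤
      ENNReal.ofReal b) :
    |EE Sf (dd (TorBrx599.z2 M) (dd (TorBrx599.z1 M)
      ((ZZ near univ K : Ge (Fld (ZMod M))) : Gr (Fld (ZMod M)))))| ≤
      4 * (Real.exp (n * b) - 1) / (r * a ^ 2) := by
  have hη : 0 ≤ Real.exp (n * b) - 1 := by
    have := Real.add_one_le_exp (n * b)
    have h1 : 0 ≤ (n : ℝ) * b := by positivity
    linarith
  have h1 : pnorm (wU (wTor M 1 1) a r univ) (((ZZ near univ K : Ge (Fld (ZMod M))) :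
      Gr (Fld (ZMod M))) - algebraMap ℝ _ 1) ≤ ENNReal.ofReal (Real.exp (n * b) - 1) := by
    have h2 := zz_sub_one_le (rn_pnorm (wU (wTor M 1 1) a r univ)) near univ K
      (δ := n * b) (by positivity) (by
        refine (sum_le_NK' (w := wTor M 1 1) (a := a) hΓ hcov f₀ (fun f _ => hs f)
          (fun U hU l => wU_anti _ _ _ hU l) fun U => (K U : Gr (Fld (ZMod M)))).trans ?_
        rw [ENNReal.ofReal_mul (by positivity), ENNReal.ofReal_natCast]
        exact mul_le_mul_right hN _)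
    rw [map_one]
    exact h2
  have h3 := PPcx63.pp_last_wU (wTor M 1 1) (a₁ := a / 2) (a₂ := a) (by positivity) hr univ hg
    (fun l => TorLastx723.le_wU (g := fun l => 2 * g l) hgw univ l)
    (fun l => by
      have := two_wU (wTor M 1 1) (a := a / 2) r univ l
      rwa [mul_div_cancel₀ a (two_ne_zero)] at this)
    (φ₁ := TorSecx599.u2 M) (φ₂ := TorSecx599.u1 M) Aop_u2 Aop_u1 (summable_sq _) (summable_sq _)
    (l2_u M (TorSecx599.n2 M)) (l2_u M (TorSecx599.n1 M)) (Z' := 1)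
    ((ZZ near univ K : Ge (Fld (ZMod M))) : Gr (Fld (ZMod M))) 1 hη h1
  rw [one_mul, abs_one] at h3
  rw [z1_ev, z2_ev]
  refine h3.trans (le_of_eq ?_)
  have hr' : (0 : ℝ) < r := by exact_mod_cast hr
  field_simp
  ring

end Crest.Agent.R165.TorPPx599
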