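import Crest.Agent.R165.TorFin_599
import Crest.Agent.R165.Bkg_683

/-!
# Row 165 (S0250), torus: T6 and T9 on the literal names of `Bkg_683` (helper599)

* `Srcs.Real src a` : the constants of the source are the real numbers `a k`, supports nonempty
* `ZS_bg`     : `ZS s (GTor * ∏_k (1 + a_k Fs_k)) = c_M ZE (ZZ (near 0) univ K0)`, any source record
* `ZS_bg_nz`  : sectors `s ≠ (0,0)`, any `IsCov` kernel;  `ZS_bg_PP` : the doubly periodic sector
* `ez_injOn`  : the bonds of `ℤ²` in a finite set have different images in large tori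
* `torBonds_of_bg` : **T9** for the flows of `Bkg_683`, any two source records
-/

set_option autoImplicit false
set_option linter.unusedSectionVars false

noncomputable section

open Finset Filter Topology
open Crest.ProbabilityR.IsingModel

namespace Crest.Agent.R165.TorRepx599

open Crest.Agent.R165.Gr0x606 Crest.Agent.R165.Gr1x606 Crest.Agent.R165.J1ax606
open Crest.Agent.R165.GeOpsx337 Crest.Agent.R165.J4Defx653 Crest.Agent.R165.J4RRx653
open Crest.Agent.R165.J4RRAx653 Crest.Agent.R165.J4Pathx653 Crest.Agent.R165.J4Lnkx653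
open Crest.Agent.R165.J4K0x126 Crest.Agent.R165.J4Geox126
open Crest.Agent.R165.KStepx892 (ZZ)
open Crest.Agent.R165.TorusCombx922 Crest.Agent.R165.TorusJ1x922 Crest.Agent.R165.TorusJ2x922
open Crest.Agent.R165.TorChartx723 (wTor)
open Crest.Agent.R165.PPdx63 (ZS)
open Crest.Agent.R165.Latx683 (BW xc IsCov covS Fld)
open Crest.Agent.R165.Bkgx683 (Bg MPar mpar Srcs noSrc realSrc frG)
open Crest.Agent.R165.FRDPolyx439

/-- the constants of the source are real numbers, the supports are nonempty -/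
structure RealSrc {κ G : Type} [CommRing G] [DecidableEq G] {A : Type*} [CommRing A] [Algebra ℝ A]
    (src : Srcs κ G A) (a : κ → ℝ) : Prop where
  as : ∀ k, src.as k = algebraMap ℝ A (a k)
  ne : ∀ k, (src.Ys k).Nonempty

section K00
variable {M : ℕ} [NeZero M] {κ : Type} [DecidableEq κ] [Fintype κ]

theorem frG_id {G : Type} [CommRing G] [DecidableEq G] :
    frG (LinearMap.id : Fld G →ₗ[ℝ] Fld G) = frV G := rfl

theorem K00_tor (ε₁ ε₂ : ℝ) (P : MPar) (hev : ∀ S, P.t S ≠ 0 → Even S.card)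
    (src : Srcs κ (ZMod M) (Ge (Fld (ZMod M)))) {a : κ → ℝ} (ha : RealSrc src a) :
    ZZ (fun a b : ZMod M × ZMod M => a = b) univ
        ((Bg.tor M ε₁ ε₂).K00 P (LinearMap.id : Fld (ZMod M) →ₗ[ℝ] Fld (ZMod M)) src) =
      Ms (fun e => wTor M ε₁ ε₂ e.1 e.2) (fun _ => Real.sqrt (1 + P.z)) univ *
        J4RRx653.TH (J4Lnkx653.gs (fun e => wTor M ε₁ ε₂ e.1 e.2) (fun _ => Real.sqrt (1 + P.z)))
          (GTor M P.R P.t * ∏ k, (1 + a k • src.Fs k)) := by
  have h := K0_real ((Bg.tor M ε₁ ε₂).bk P src) a ha.as univ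
  have h1 : ((Bg.tor M ε₁ ε₂).bk P src).srcs univ = univ := by
    ext k
    unfold Bk.srcs
    rw [mem_filter]
    exact ⟨fun _ => mem_univ _, fun _ => ⟨mem_univ _, ha.ne k, subset_univ _⟩⟩
  have h2 := TorRepx599.PL_tor M ((Bg.tor M ε₁ ε₂).bk P src) (fun _ _ => trivial) hev
  have h3 : ((Bg.tor M ε₁ ε₂).bk P src).s = fun _ => Real.sqrt (1 + P.z) := by
    funext f
    exact if_pos trivial
  rw [h1, h2, h3] at h
  exact h

/-- **T6 on `Bkg_683`** -/
theorem ZS_K00 (s : Fin 2 × Fin 2) (P : MPar) (hz : 0 < 1 + P.z)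
    (hev : ∀ S, P.t S ≠ 0 → Even S.card)
    (src : Srcs κ (ZMod M) (Ge (Fld (ZMod M)))) {a : κ → ℝ} (ha : RealSrc src a) :
    ZS s (GTor M P.R P.t * ∏ k, (1 + a k • src.Fs k)) =
      ((Real.sqrt (1 + P.z) ^ 4) ^ (M ^ 2))⁻¹ *
      ZE (fun e : Ed M => sec s e * xc) (ZZ (fun a b : ZMod M × ZMod M => a = b) univ
        ((Bg.tor M (eS s.2) (eS s.1)).K00 P
          (LinearMap.id : Fld (ZMod M) →ₗ[ℝ] Fld (ZMod M)) src)) := by
  have hρ : Real.sqrt (1 + P.z) ≠ 0 := (Real.sqrt_pos.2 hz).ne'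
  rw [K00_tor _ _ P hev src ha, ← sy_wTor]
  have h := ZE_resc M (sy s (fun _ => xc)) (Real.sqrt (1 + P.z))
    (GTor M P.R P.t * ∏ k, (1 + a k • src.Fs k))
  have e1 : (fun e : Ed M => sec s e * xc) = sy s (fun _ => xc) := rfl
  rw [e1, h, ← mul_assoc, inv_mul_cancel₀ (pow_ne_zero _ (pow_ne_zero _ hρ)), one_mul, PPdx63.ZS]

/-- the constant of the rescaling -/
def cM (M : ℕ) (P : MPar) : ℝ := ((Real.sqrt (1 + P.z) ^ 4) ^ (M ^ 2))⁻¹

theorem cM_pos (M : ℕ) (P : MPar) (hz : 0 < 1 + P.z) : 0 < cM M P := by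
  unfold cM
  have := Real.sqrt_pos.2 hz
  positivity

variable {MD KD : ℕ} (D : FRD 16 MD KD) (mk : Finset (ZMod M × ZMod M)) (l k0 : ℕ)

/-- reclustering at the first touching relation -/
theorem ZZ_flow (B : Bg (ZMod M)) (P : MPar) (src : Srcs κ (ZMod M) (Ge (Fld (ZMod M)))) :
    ZZ (fun a b : ZMod M × ZMod M => a = b) univ
        (B.K00 P (LinearMap.id : Fld (ZMod M) →ₗ[ℝ] Fld (ZMod M)) src) =
      ZZ ((B.flow P D mk src l k0).near 0) univ (B.flow P D mk src l k0).K0 := by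
  refine KInitx892.ZZ_K1 (fun a b h => ?_) (fun a => ?_) univ _
  · change GDefx387.fd b a ≤ _
    rw [GDefx387.fd_comm]
    exact h
  · change GDefx387.fd a a ≤ _
    rw [GDefx387.fd_self]
    exact Nat.zero_le _

theorem ZS_bg (s : Fin 2 × Fin 2) (P : MPar) (hz : 0 < 1 + P.z)
    (hev : ∀ S, P.t S ≠ 0 → Even S.card)
    (src : Srcs κ (ZMod M) (Ge (Fld (ZMod M)))) {a : κ → ℝ} (ha : RealSrc src a) :
    ZS s (GTor M P.R P.t * ∏ k, (1 + a k • src.Fs k)) = cM M P *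
      ZE (fun e : Ed M => sec s e * xc)
        (ZZ (((Bg.tor M (eS s.2) (eS s.1)).flow P D mk src l k0).near 0) univ
          ((Bg.tor M (eS s.2) (eS s.1)).flow P D mk src l k0).K0) := by
  rw [ZS_K00 s P hz hev src ha, ZZ_flow D mk l k0, cM]

/-- the kernel of a covariance is the matrix inverse -/
theorem isCov_kT {w : BW (ZMod M)} {S : Latx683.HE (ZMod M) → Latx683.HE (ZMod M) → ℝ}
    (hS : IsCov w S) (hd : (TorDetx599.hA w).det ≠ 0) : S = kT M w := by
  have h1 : TorDetx599.hA w * Matrix.of S = -1 := by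
    ext g h'
    have h2 := hS.inv g h'
    rw [← hA_Aop] at h2
    rw [Matrix.mul_apply, Matrix.neg_apply, Matrix.one_apply]
    rw [Pi.single_apply] at h2
    exact h2
  have h3 : Matrix.of S = -(TorDetx599.hA w)⁻¹ := by
    have h4 := congrArg (fun X => (TorDetx599.hA w)⁻¹ * X) h1
    simp only [← Matrix.mul_assoc, Matrix.nonsing_inv_mul _ (isUnit_iff_ne_zero.2 hd),
      Matrix.one_mul] at h4
    rw [h4, Matrix.mul_neg, Matrix.mul_one]
  funext h k
  exact congrFun (congrFun h3 h) k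

theorem det_wTor_ne (s : Fin 2 × Fin 2) (hs : s ≠ (0, 0)) :
    (TorDetx599.hA (wTor M (eS s.2) (eS s.1))).det ≠ 0 := by
  have h := TorBrx599.det_sec_ne M s hs
  have ex : TorSecx599.xc = xc := rfl
  rw [ex, sec_wTor] at h
  exact h

theorem ZE_nz (s : Fin 2 × Fin 2) (hs : s ≠ (0, 0))
    {S : Latx683.HE (ZMod M) → Latx683.HE (ZMod M) → ℝ}
    (hS : IsCov (wTor M (eS s.2) (eS s.1)) S) (X : Ge (Fld (ZMod M))) :
    ZE (fun e : Ed M => sec s e * xc) X =
      ZE (fun e : Ed M => sec s e * xc) 1 * EEG (covS S hS.skew) X := by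
  have h := TorBrx599.ZE_sector M s hs X
  have ex : TorSecx599.xc = xc := rfl
  rw [ex, sec_wTor, cF_eq] at h
  have h1 := isCov_kT hS (det_wTor_ne s hs)
  have h2 : covS S hS.skew = covS (kT M (wTor M (eS s.2) (eS s.1))) (kT_skew M _) := by
    subst h1; rfl
  rw [h2]
  exact h

/-- **T6 on `Bkg_683`, sectors `s ≠ (0,0)`** -/
theorem ZS_bg_nz (s : Fin 2 × Fin 2) (hs : s ≠ (0, 0)) (P : MPar) (hz : 0 < 1 + P.z)
    (hev : ∀ S, P.t S ≠ 0 → Even S.card)
    (src : Srcs κ (ZMod M) (Ge (Fld (ZMod M)))) {a : κ → ℝ} (ha : RealSrc src a)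
    {S : Latx683.HE (ZMod M) → Latx683.HE (ZMod M) → ℝ}
    (hS : IsCov (wTor M (eS s.2) (eS s.1)) S) :
    ZS s (GTor M P.R P.t * ∏ k, (1 + a k • src.Fs k)) =
      cM M P * (ZE (fun e : Ed M => sec s e * xc) 1 *
        EEG (covS S hS.skew)
          (ZZ (((Bg.tor M (eS s.2) (eS s.1)).flow P D mk src l k0).near 0) univ
            ((Bg.tor M (eS s.2) (eS s.1)).flow P D mk src l k0).K0)) := by
  rw [ZS_bg D mk l k0 s P hz hev src ha, ZE_nz s hs hS]

/-- **T6 on `Bkg_683`, doubly periodic sector** -/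
theorem ZS_bg_PP (P : MPar) (hz : 0 < 1 + P.z)
    (hev : ∀ S, P.t S ≠ 0 → Even S.card)
    (src : Srcs κ (ZMod M) (Ge (Fld (ZMod M)))) {a : κ → ℝ} (ha : RealSrc src a) :
    ZS (0, 0) (GTor M P.R P.t * ∏ k, (1 + a k • src.Fs k)) =
      cM M P * (TorSecx599.ZP M *
        Gr0x606.EE (TorBrx599.cF M (-(TorSecx599.BP M))) (dd (TorBrx599.z2 M) (dd (TorBrx599.z1 M)
          ((ZZ (((Bg.tor M 1 1).flow P D mk src l k0).near 0) univ
            ((Bg.tor M 1 1).flow P D mk src l k0).K0 : Ge (Fld (ZMod M))) :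
              Gr (Fld (ZMod M)))))) := by
  have h := TorBrx599.ZE_PP M (ZZ (((Bg.tor M 1 1).flow P D mk src l k0).near 0) univ
            ((Bg.tor M 1 1).flow P D mk src l k0).K0)
  have ex : TorSecx599.xc = xc := rfl
  rw [ex] at h
  have e1 : eS (0 : Fin 2) = 1 := if_pos rfl
  have h2 := ZS_bg D mk l k0 (0, 0) P hz hev src ha
  simp only [e1] at h2
  rw [h2]
  exact congrArg _ h

end K00

/-! ### images of bonds -/

theorem ez_injOn (S : Finset J4Pathx653.Ed) : ∀ᶠ L : ℕ in atTop,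
    Set.InjOn (ez (0 : ZMod (L + 1) × ZMod (L + 1))) (S : Set J4Pathx653.Ed) := by
  obtain ⟨N, hN⟩ : ∃ N : ℕ, ∀ e ∈ S, |e.1.1| ≤ N ∧ |e.1.2| ≤ N := by
    refine ⟨S.sup fun e => max e.1.1.natAbs e.1.2.natAbs, fun e he => ?_⟩
    have h := Finset.le_sup (f := fun e : J4Pathx653.Ed => max e.1.1.natAbs e.1.2.natAbs) he
    have h1 := (le_max_left _ _).trans h
    have h2 := (le_max_right _ _).trans h
    constructor
    · rw [Int.abs_eq_natAbs]; exact_mod_cast h1
    · rw [Int.abs_eq_natAbs]; exact_mod_cast h2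
  filter_upwards [eventually_ge_atTop (2 * N)] with L hL e he e' he' h
  have key : ∀ x y : ℤ, |x| ≤ N → |y| ≤ N → ((x : ℤ) : ZMod (L + 1)) = ((y : ℤ) : ZMod (L + 1)) →
      x = y := by
    intro x y hx hy hxy
    rw [ZMod.intCast_eq_intCast_iff_dvd_sub] at hxy
    have h3 : |y - x| < ((L + 1 : ℕ) : ℤ) := by
      rw [abs_le] at hx hy
      rw [abs_lt]
      push_cast
      constructor <;> omega
    have h4 := Int.eq_zero_of_abs_lt_dvd hxy h3
    omega
  obtain ⟨⟨x1, x2⟩, j⟩ := e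
  obtain ⟨⟨y1, y2⟩, j'⟩ := e'
  have h1 := hN _ (Finset.mem_coe.1 he)
  have h2 := hN _ (Finset.mem_coe.1 he')
  unfold ez fz cz at h
  simp only [zero_add, Prod.mk.injEq] at h
  rw [key x1 y1 h1.1 h2.1 h.1.1, key x2 y2 h1.2 h2.2 h.1.2, h.2]

theorem prod_image_ez (S : Finset J4Pathx653.Ed) : ∀ᶠ L : ℕ in atTop,
    ∏ e ∈ S.image (ez (0 : ZMod (L + 1) × ZMod (L + 1))), (ep (Finsupp.single e 1) : RR (Ed (L + 1))) =
      epTor (L + 1) S := by
  filter_upwards [ez_injOn S] with L hL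
  rw [prod_image hL]
  rfl

end Crest.Agent.R165.TorRepx599
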