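import Crest.Agent.R165.TorSys_723
import Crest.Agent.R165.K0SrcT_722
import Crest.Agent.R165.TorRep2_599

/-!
# Row 165 (S0250), TEXT P13: the exponents of the torus flows on `Bkg_683` (helper723)

`Flow c`: `(Bg.tor (L+1) ε₁ ε₂).flow P D {pr f₀} (src L) l k0`, real source `src` (`IsReal` of
helper722) with support `Y.image pr`, bonds `S.image (ebm pr)`, parameter `t` or `0`.

* `loc0_real` : `Loc0` for real sources
* `expo_bg`   : (hE) of `TorFin2_599.torBonds_of_bg`, all sectors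
* `diff_bg`   : (hE'), any two sectors, source with `t = 0`
-/

set_option autoImplicit false
set_option linter.unusedSectionVars false

noncomputable section

open Finset Filter Topology
open scoped ENNReal
open Crest.Agent.R165.Gr0x606 Crest.Agent.R165.Gr1x606 Crest.Agent.R165.Latx683
open Crest.Agent.R165.GDefx387 Crest.Agent.R165.GeOpsx337 Crest.Agent.R165.KFlowx337
open Crest.Agent.R165.FRDPolyx439 Crest.Agent.R165.FRDLatx439 Crest.Agent.R165.BgIsox432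
open Crest.Agent.R165.GSysx387 Crest.Agent.R165.Telx337 Crest.Agent.R165.GSysOKx439
open Crest.Agent.R165.CmpBgx432 Crest.Agent.R165.TorChartx723 Crest.Agent.R165.TorTanx723
open Crest.Agent.R165.TorWrapx723 Crest.Agent.R165.MetGx723 Crest.Agent.R165.TorIsox723
open Crest.Agent.R165.Pinx723 Crest.Agent.R165.PinSysx723 Crest.Agent.R165.PinLimx723
open Crest.Agent.R165.TorKx723 Crest.Agent.R165.SpinSysx892 Crest.Agent.R165.TorSysx723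
open Crest.Agent.R165.J4K0x126 Crest.Agent.R165.J4K0Mapx126 Crest.Agent.R165.J4Geox126
open Crest.Agent.R165.Bkgx683 (Bg MPar noSrc Srcs)
open Crest.Agent.R165.K0Srcx722

namespace Crest.Agent.R165.TorSys2x723

section real

variable {l k0 : ℕ} {f₀ : ℤ × ℤ} {ε₁ ε₂ ε₁' ε₂' : ℝ} (P : MPar)
  {Y : Finset (ℤ × ℤ)} {S : Finset (Bkgx683.EG ℤ)} {t : ℝ}
  {src : Srcs (Fin 1) ℤ (Ge (Fld ℤ))}
  {srcL : (L : ℕ) → Srcs (Fin 1) (ZMod (L + 1)) (Ge (Fld (ZMod (L + 1))))}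

/-- the initial activities with real sources are locally those of the plane -/
theorem loc0_real (h₁ : ε₁ * ε₁ = 1) (h₂ : ε₂ * ε₂ = 1) (hs : IsReal src Y S t)
    (hL : ∀ L, IsReal (srcL L) (Y.image (pr (L + 1))) (S.image (ebm (pr (L + 1)))) t)
    (hSY : ∀ e ∈ S, faE e ⊆ Y) :
    Loc0 l k0 f₀ h₁ h₂ (Bg.pl.K0 P LinearMap.id src l k0)
      (fun L => (Bg.tor (L + 1) ε₁ ε₂).K0 P LinearMap.id (srcL L) l k0) where
  memP := K0_real_mem Bg.pl P hs l k0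
  mem L := K0_real_mem (Bg.tor (L + 1) ε₁ ε₂) P (hL L) l k0
  eP := K0_src_empty Bg.pl P src l k0
  eL L := K0_src_empty (Bg.tor (L + 1) ε₁ ε₂) P (srcL L) l k0
  loc R := by
    set R' : ℕ := max R (Y.sup fun g => fd f₀ g) with hR'
    filter_upwards [eventually_ge_atTop (4 * (R' + 1))] with L hL' hR U hne hU
    have hR2 : 4 * (R' + 1) ≤ L + 1 := by omega
    have hball : ball f₀ R ⊆ ball f₀ R' := by
      intro g hg
      rw [mem_ball] at hg ⊢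
      exact hg.trans (le_max_left _ _)
    exact hK0_torB h₁ h₂ f₀ hR2 P l k0 hs (hL L) hSY (fun f hf => by
      rw [mem_ball]
      exact (Finset.le_sup (f := fun g => fd f₀ g) hf).trans (le_max_right _ _)) U hne
      (hU.trans hball)

end real

section expo

variable {Md Kd : ℕ} (D : FRD 16 Md Kd) {l k0 : ℕ} {f₀ : ℤ × ℤ} (P : MPar)
  {Y : Finset (ℤ × ℤ)} {S : Finset (Bkgx683.EG ℤ)} {t : ℝ}
  {src₁ src₀ : Srcs (Fin 1) ℤ (Ge (Fld ℤ))}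
  {srcL₁ srcL₀ : (L : ℕ) → Srcs (Fin 1) (ZMod (L + 1)) (Ge (Fld (ZMod (L + 1))))}
  {Γ : ℝ} {E : ℕ → ℝ}

/-- **(hE)** one sector -/
theorem expo_bg {ε₁ ε₂ : ℝ} (h₁ : ε₁ * ε₁ = 1) (h₂ : ε₂ * ε₂ = 1) (hK : 16 ≤ Kd)
    (hl : 5 ≤ l * (k0 + 1)) (hl1 : 1 ≤ l)
    (hs₁ : IsReal src₁ Y S t) (hs₀ : IsReal src₀ Y S 0)
    (hL₁ : ∀ L, IsReal (srcL₁ L) (Y.image (pr (L + 1))) (S.image (ebm (pr (L + 1)))) t)
    (hL₀ : ∀ L, IsReal (srcL₀ L) (Y.image (pr (L + 1))) (S.image (ebm (pr (L + 1)))) 0)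
    (hSY : ∀ e ∈ S, faE e ⊆ Y) (hf : f₀ ∈ Y) (hΓ : 1 < Γ) (hE : ∀ k, 0 ≤ E k)
    (hsum : Summable E)
    (bd₁ : ∀ᶠ L in atTop, Bd ((Bg.tor (L + 1) ε₁ ε₂).flow P D {pr (L + 1) f₀} (srcL₁ L) l k0) fd
      (fun k => rr l k0 (k + 1)) (nearR l k0) (ENNReal.ofReal Γ) E (KT l k0 L))
    (bd₀ : ∀ᶠ L in atTop, Bd ((Bg.tor (L + 1) ε₁ ε₂).flow P D {pr (L + 1) f₀} (srcL₀ L) l k0) fd
      (fun k => rr l k0 (k + 1)) (nearR l k0) (ENNReal.ofReal Γ) E (KT l k0 L)) :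
    Tendsto (fun L => ∑ k ∈ range (KT l k0 L),
        ∑ U, cc ((Bg.tor (L + 1) ε₁ ε₂).flow P D {pr (L + 1) f₀} (srcL₁ L) l k0) k U -
      ∑ k ∈ range (KT l k0 L),
        ∑ U, cc ((Bg.tor (L + 1) ε₁ ε₂).flow P D {pr (L + 1) f₀} (srcL₀ L) l k0) k U) atTop
      (𝓝 (expo (Bg.pl.flow P D {f₀} src₁ l k0) (Bg.pl.flow P D {f₀} src₀ l k0))) :=
  expo_tor D hK hl hl1 (loc0_real P h₁ h₂ hs₁ hL₁ hSY) (loc0_real P h₁ h₂ hs₀ hL₀ hSY)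
    (Eventually.of_forall fun L _ hU => K0_t (Bg.tor (L + 1) ε₁ ε₂) P LinearMap.id (hL₁ L)
      (hL₀ L) l k0 (mem_image_of_mem _ hf) (mem_image_of_mem _ hf) hU)
    (fun _ hU => K0_t Bg.pl P LinearMap.id hs₁ hs₀ l k0 hf hf hU) hΓ hE hsum bd₁ bd₀

/-- **(hE')** two sectors -/
theorem diff_bg {ε₁ ε₂ ε₁' ε₂' : ℝ} (h₁ : ε₁ * ε₁ = 1) (h₂ : ε₂ * ε₂ = 1) (h₁' : ε₁' * ε₁' = 1)
    (h₂' : ε₂' * ε₂' = 1) (hK : 16 ≤ Kd) (hl : 5 ≤ l * (k0 + 1)) (hl1 : 1 ≤ l)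
    {mk : (L : ℕ) → Finset (ZMod (L + 1) × ZMod (L + 1))}
    {YL : (L : ℕ) → Finset (ZMod (L + 1) × ZMod (L + 1))}
    {SL : (L : ℕ) → Finset (Bkgx683.EG (ZMod (L + 1)))} {t : ℝ}
    (hL₀ : ∀ L, IsReal (srcL₀ L) (YL L) (SL L) t)
    (hSY : ∀ L, ∀ e ∈ SL L, faE e ⊆ YL L) (hΓ : 1 < Γ) (hE : ∀ k, 0 ≤ E k) (hsum : Summable E)
    (bd : ∀ᶠ L in atTop, Bd ((Bg.tor (L + 1) ε₁ ε₂).flow P D (mk L) (srcL₀ L) l k0) fd
      (fun k => rr l k0 (k + 1)) (nearR l k0) (ENNReal.ofReal Γ) E (KT l k0 L))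
    (bd' : ∀ᶠ L in atTop, Bd ((Bg.tor (L + 1) ε₁' ε₂').flow P D (mk L) (srcL₀ L) l k0) fd
      (fun k => rr l k0 (k + 1)) (nearR l k0) (ENNReal.ofReal Γ) E (KT l k0 L)) :
    Tendsto (fun L => ∑ k ∈ range (KT l k0 L),
        ∑ U, cc ((Bg.tor (L + 1) ε₁ ε₂).flow P D (mk L) (srcL₀ L) l k0) k U -
      ∑ k ∈ range (KT l k0 L),
        ∑ U, cc ((Bg.tor (L + 1) ε₁' ε₂').flow P D (mk L) (srcL₀ L) l k0) k U) atTop (𝓝 0) :=
  diff_tor D hK hl hl1 h₁ h₂ h₁' h₂'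
    (KL := fun L => (Bg.tor (L + 1) ε₁ ε₂).K0 P LinearMap.id (srcL₀ L) l k0)
    (KL' := fun L => (Bg.tor (L + 1) ε₁' ε₂').K0 P LinearMap.id (srcL₀ L) l k0)
    (fun L => K0_real_mem (Bg.tor (L + 1) ε₁ ε₂) P (hL₀ L) l k0)
    (fun L => K0_src_empty (Bg.tor (L + 1) ε₁ ε₂) P (srcL₀ L) l k0)
    (fun L => K0_src_empty (Bg.tor (L + 1) ε₁' ε₂') P (srcL₀ L) l k0)
    (fun L x₀ _ hR U hne hU => hK0_secB h₁ h₂ h₁' h₂' x₀ hR P l k0 (hL₀ L) (hL₀ L) (hSY L) U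
      hne hU) hΓ hE hsum bd bd'

end expo

end Crest.Agent.R165.TorSys2x723
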