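import Crest.Agent.R165.TorTop_599
import Crest.Agent.R165.PlB_117
import Crest.Agent.R165.PTop4_683

/-!
# Row 165 (S0250), torus: the literal leaf `TorL3` (helper599)

`torL3_of : VHyp → C0T → TorL3`; the plane flow is 117's `plB`.
-/

set_option autoImplicit false
set_option linter.unusedSectionVars false

noncomputable section

open Finset Filter Topology
open Crest.ProbabilityR.IsingModel

namespace Crest.Agent.R165.TorTopx599

open Crest.Agent.R165.Bkg3x683 Crest.Agent.R165.PTop4x683 Crest.Agent.R165.PTopx386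
open Crest.Agent.R165.PEndx683

theorem torL3_of {J : ℝ} (hJ : 0 < J) {R : ℕ} {V : Finset (ℤ × ℤ) → ℝ}
    (hV : Topx683.VHyp R V) (hC0 : C0T J R V) : TorL3 J R V := by
  refine PTopx386.ForP.imp (tor_top hJ hV (PlBx117.plB hV) hC0) fun c lam β z h S => ?_
  obtain ⟨t0, ht0, h1⟩ := h (boxS S) S (zero_mem_boxS S) (faE_boxS S) (boxS_conn S)
  exact ⟨t0, ht0, fun t ht htt => h1 t ht htt _ _ (isReal_box _ S t) (isReal_box _ S 0)⟩

end Crest.Agent.R165.TorTopx599
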