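import Crest.Agent.R165.TorTop2_599
import Crest.Agent.R165.C0Src_806

/-!
# Row 165 (S0250), torus: the leaf `TorL3` is a theorem (helper599)
-/

set_option autoImplicit false
set_option linter.unusedSectionVars false

noncomputable section

open Finset Filter Topology
open scoped ENNReal
open Crest.ProbabilityR.IsingModel

namespace Crest.Agent.R165.TorTopx599

open Crest.Agent.R165.PTop4x683 Crest.Agent.R165.PEndx683 Crest.Agent.R165.Latx683
open Crest.Agent.R165.J4K0Mapx126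

theorem c0T (J : ℝ) (R : ℕ) (V : Finset (ℤ × ℤ) → ℝ) : C0T J R V := by
  refine (EvC.and (C0Srcx806.c0_src_ev J R V) TorNorm2x583.ev_TC).mono fun c hc C => ?_
  obtain ⟨hc, hT⟩ := hc
  obtain ⟨ε, hε, m, hm, h⟩ := hc C
  refine ⟨ε, hε, m, hm, fun Y S _ hY => ?_⟩
  obtain ⟨mS, hmS, t0, ht0, h⟩ := h Y.card S.card
  refine ⟨t0, ht0, mS, hmS, fun lam β z hlam hn t ht htt L ε₁ ε₂ h₁ h₂ src hsrc => ?_⟩
  have key : ∀ e : ℝ, e * e = 1 → |e| ≤ 1 := fun e he => by
    rw [abs_le]
    constructor <;> nlinarith [mul_self_nonneg (e - 1), mul_self_nonneg (e + 1)]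
  have h1 := h lam β z t hlam hn (by rw [abs_of_nonneg ht]; exact htt.le) (ZMod (L + 1))
    (Bkgx683.Bg.tor (L + 1) ε₁ ε₂) (C0ax950.W1_tor (L + 1) (key _ h₁) (key _ h₂)) src _ _ hsrc
    Finset.card_image_le Finset.card_image_le
    (conn_image (MetGx723.pr (L + 1)) (fun a _ b _ h => (fd_pr_le L a b).trans h) hY)
    (TorChartx723.wTor (L + 1) ε₁ ε₂) c.A0 (by linarith [hT.num.A0_pos]) (fun _ => True)
  rw [abs_of_nonneg ht] at h1
  exact h1

/-- **the torus half of the limit of the bond expectations** -/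
theorem torL3 {J : ℝ} (hJ : 0 < J) {R : ℕ} {V : Finset (ℤ × ℤ) → ℝ}
    (hV : Topx683.VHyp R V) : TorL3 J R V :=
  torL3_of hJ hV (c0T J R V)

end Crest.Agent.R165.TorTopx599
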