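import Crest.Agent.R165.TorEnd_599
import Crest.Agent.R165.TorSys_723
import Crest.Agent.R165.TorNorm2_583
import Crest.Agent.R165.K0SrcT_722

/-!
# Row 165 (S0250), torus: assembly (helper599)

* `C0T J R V` : the initial activities of the tori with a real source are small (helper806)
* `tor_top`   : `PlB → C0T →` the torus bond expectations converge to `(exp (expo ..) - 1) / t`, any
  connected support `Y ∋ 0` of the source, any plane records
-/

set_option autoImplicit false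
set_option linter.unusedSectionVars false

noncomputable section

open Finset Filter Topology
open scoped ENNReal
open Crest.ProbabilityR.IsingModel

namespace Crest.Agent.R165.TorTopx599

open Crest.Agent.R165.Gr0x606 Crest.Agent.R165.Gr1x606
open Crest.Agent.R165.GeOpsx337 Crest.Agent.R165.J4Defx653 Crest.Agent.R165.J4Lnkx653
open Crest.Agent.R165.J4Geox126 Crest.Agent.R165.J4K0Mapx126
open Crest.Agent.R165.TorChartx723 (wTor)
open Crest.Agent.R165.TorKx723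
open Crest.Agent.R165.Latx683
open Crest.Agent.R165.TorRepx599 Crest.Agent.R165.TorFinx599 Crest.Agent.R165.TorEndx599
open Crest.Agent.R165.Bkgx683 (Bg MPar mpar Srcs noSrc realSrc)
open Crest.Agent.R165.FRDPolyx439 Crest.Agent.R165.FRDLatx439 Crest.Agent.R165.GDefx387
  Crest.Agent.R165.GSysx387
open Crest.Agent.R165.BgIsox432 (CNZ)
open Crest.Agent.R165.Telx337 (cc)
open Crest.Agent.R165.Compx889 (NP)
open Crest.Agent.R165.DefRecx915 (allP)
open Crest.Agent.R165.K0Srcx722 Crest.Agent.R165.MetGx723 Crest.Agent.R165.TorSysx723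
open Crest.Agent.R165.TorNorm2x583 Crest.Agent.R165.Outx683 Crest.Agent.R165.PEndx683
open Crest.Agent.R165.Packx915 Crest.Agent.R165.NSumx915 Crest.Agent.R165.Bridgex915
open Crest.Agent.R165.SpinSysx892 (Bd)
open Crest.Agent.R165.PinSysx723 (expo)
open Crest.Agent.R165.J1ax606 (EG)
open Crest.Agent.R165.J4RRx653 (RR ep RIn ep_mem_RIn)
open Crest.Agent.R165.J4Pathx653 (Ed)
open Crest.Agent.R165.Constx891 (ev_std Std)
open Crest.Agent.R165.DomGeox900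

/-! ### the source records on the tori -/

section rec

variable {G : Type} [CommRing G] [DecidableEq G]

/-- a real source with support `Y` -/
def rs (A : Type*) [CommRing A] [Algebra ℝ A] (Y : Finset (G × G)) (S : Finset (EG G)) (t : ℝ)
    (h : ∀ e ∈ S, faE e ⊆ Y) : Srcs (Fin 1) G A where
  Ys _ := Y
  as _ := algebraMap ℝ A t
  Fs _ := ∏ e ∈ S, ep (Finsupp.single e 1)
  Fs_mem _ := by
    refine Subalgebra.prod_mem _ fun e he => ep_mem_RIn ?_
    intro x hx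
    rw [Finsupp.support_single _ one_ne_zero, Finset.mem_coe, Finset.mem_singleton] at hx
    subst hx
    exact h _ he

theorem isReal_rs (A : Type*) [CommRing A] [Algebra ℝ A] (Y : Finset (G × G)) (S : Finset (EG G))
    (t : ℝ) (h : ∀ e ∈ S, faE e ⊆ Y) : IsReal (rs A Y S t h) Y S t := ⟨rfl, rfl, rfl⟩

theorem realSrc_of {A : Type*} [CommRing A] [Algebra ℝ A] {src : Srcs (Fin 1) G A}
    {Y : Finset (G × G)} {S : Finset (EG G)} {t : ℝ} (h : IsReal src Y S t) (hY : Y.Nonempty) :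
    RealSrc src fun _ => t where
  as k := by
    obtain rfl : k = 0 := Subsingleton.elim _ _
    exact h.as
  ne k := by
    obtain rfl : k = 0 := Subsingleton.elim _ _
    rw [h.Ys]
    exact hY

theorem prod_of {A : Type*} [CommRing A] [Algebra ℝ A] {src : Srcs (Fin 1) G A}
    {Y : Finset (G × G)} {S : Finset (EG G)} {t : ℝ} (h : IsReal src Y S t) :
    ∏ k, (1 + t • src.Fs k) = 1 + t • ∏ e ∈ S, (ep (Finsupp.single e 1) : RR (EG G)) := by
  rw [Fin.prod_univ_one, h.Fs]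

end rec

/-! ### images on the tori -/

theorem conn_image {X X' : Type*} [DecidableEq X'] {d : X → X → ℕ} {d' : X' → X' → ℕ} {R R' : ℕ}
    {U : Finset X} (φ : X → X') (hφ : ∀ a ∈ U, ∀ b ∈ U, d a b ≤ R → d' (φ a) (φ b) ≤ R')
    (h : Packx915.Conn d R U) : Packx915.Conn d' R' (U.image φ) := by
  classical
  intro A hA hne hneU
  obtain ⟨a, ha⟩ := hne
  obtain ⟨a', ha', rfl⟩ := Finset.mem_image.1 (hA ha)
  obtain ⟨x, hx, y, hy, hyA, hxy⟩ := h (U.filter fun u => φ u ∈ A) (Finset.filter_subset _ _)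
    ⟨a', Finset.mem_filter.2 ⟨ha', ha⟩⟩ (by
      intro he
      apply hneU
      refine le_antisymm hA fun v hv => ?_
      obtain ⟨u, hu, rfl⟩ := Finset.mem_image.1 hv
      rw [← he] at hu
      exact (Finset.mem_filter.1 hu).2)
  rw [Finset.mem_filter] at hx hyA
  refine ⟨φ x, hx.2, φ y, Finset.mem_image_of_mem _ hy, fun hc => hyA ⟨hy, hc⟩, ?_⟩
  exact hφ x hx.1 y hy hxy

theorem ebm_pr (L : ℕ) (e : Ed) :
    ebm (MetGx723.pr (L + 1)) e = ez (0 : ZMod (L + 1) × ZMod (L + 1)) e := by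
  obtain ⟨⟨x, y⟩, j⟩ := e
  unfold ebm MetGx723.pr ez fz cz
  simp

theorem fz_pr (L : ℕ) : fz (0 : ZMod (L + 1) × ZMod (L + 1)) = MetGx723.pr (L + 1) := by
  funext f
  unfold MetGx723.pr fz cz
  simp

theorem faE_ebm_pr (L : ℕ) (e : EG ℤ) :
    faE (ebm (MetGx723.pr (L + 1)) e) = (faE e).image (MetGx723.pr (L + 1)) := by
  rw [ebm_pr, faE_ez, fz_pr]

theorem hSY_tor {Y : Finset (ℤ × ℤ)} {S : Finset (EG ℤ)} (hSY : ∀ e ∈ S, faE e ⊆ Y) (L : ℕ) :
    ∀ e ∈ S.image (ebm (MetGx723.pr (L + 1))), faE e ⊆ Y.image (MetGx723.pr (L + 1)) := by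
  intro e he
  obtain ⟨e', he', rfl⟩ := Finset.mem_image.1 he
  rw [faE_ebm_pr]
  exact Finset.image_subset_image (hSY e' he')

/-- **the initial activities of the tori with a real source are small** -/
def C0T (J : ℝ) (R : ℕ) (V : Finset (ℤ × ℤ) → ℝ) : Prop :=
  EvC fun c => ∀ C : ℝ, ∃ ε > 0, ∃ m ≥ 0, ∀ (Y : Finset (ℤ × ℤ)) (S : Finset (EG ℤ)),
    (∀ e ∈ S, faE e ⊆ Y) → Packx915.Conn fd 1 Y → ∃ t0 > 0, ∃ mS ≥ 0, ∀ lam β z : ℝ, |lam| < ε →
      NearP J C lam β z → ∀ t : ℝ, 0 ≤ t → t < t0 → ∀ (L : ℕ) (ε₁ ε₂ : ℝ), ε₁ * ε₁ = 1 →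
      ε₂ * ε₂ = 1 → ∀ src : Srcs (Fin 1) (ZMod (L + 1)) (Ge (Fld (ZMod (L + 1)))),
      IsReal src (Y.image (MetGx723.pr (L + 1))) (S.image (ebm (MetGx723.pr (L + 1)))) t →
      NK (wTor (L + 1) ε₁ ε₂) c.A0 (rr c.p c.k0 0) (ENNReal.ofReal c.Γ) (fun _ => True)
        (fun U => (((Bg.tor (L + 1) ε₁ ε₂).K0 (mpar J lam R V β z) LinearMap.id src c.p c.k0 U :
          Ge (Fld (ZMod (L + 1)))) : Gr (Fld (ZMod (L + 1))))) ≤ ENNReal.ofReal (m * |lam| + mS * t)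

/-! ### the local comparison of the initial activities -/

theorem fd_pr_le (L : ℕ) (f g : ℤ × ℤ) :
    fd (MetGx723.pr (L + 1) f) (MetGx723.pr (L + 1) g) ≤ fd f g := by
  rw [TorWrapx723.fd_eq_zmod, TorWrapx723.fd_eq_int]
  exact dG_pr_le _ f g

/-- plane / torus, any position of the source relative to the ball -/
theorem loc0 {ε₁ ε₂ : ℝ} (h₁ : ε₁ * ε₁ = 1) (h₂ : ε₂ * ε₂ = 1) (P : MPar) (l k0 : ℕ)
    {sp : Srcs (Fin 1) ℤ (Ge (Fld ℤ))}
    {st : ∀ L : ℕ, Srcs (Fin 1) (ZMod (L + 1)) (Ge (Fld (ZMod (L + 1))))}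
    {Y : Finset (ℤ × ℤ)} {S : Finset (EG ℤ)} {t : ℝ} (hs : IsReal sp Y S t)
    (hst : ∀ L, IsReal (st L) (Y.image (MetGx723.pr (L + 1))) (S.image (ebm (MetGx723.pr (L + 1)))) t)
    (hSY : ∀ e ∈ S, faE e ⊆ Y) (f₀ : ℤ × ℤ) :
    Loc0 l k0 f₀ h₁ h₂ (Bg.pl.K0 P LinearMap.id sp l k0)
      (fun L => (Bg.tor (L + 1) ε₁ ε₂).K0 P LinearMap.id (st L) l k0) where
  memP U := K0_real_mem Bg.pl P hs l k0 U
  mem L U := K0_real_mem (Bg.tor (L + 1) ε₁ ε₂) P (hst L) l k0 U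
  eP := K0_src_empty Bg.pl P sp l k0
  eL L := K0_src_empty (Bg.tor (L + 1) ε₁ ε₂) P (st L) l k0
  loc R := by
    obtain ⟨N, hN⟩ : ∃ N : ℕ, ∀ y ∈ Y, fd f₀ y ≤ N :=
      ⟨Y.sup fun y => fd f₀ y, fun y hy => Finset.le_sup (f := fun y => fd f₀ y) hy⟩
    filter_upwards [eventually_ge_atTop (R + N)] with L hL hR U hne hU
    refine hK0_top_src (B := Bg.pl) (B' := Bg.tor (L + 1) ε₁ ε₂) (TorIsox723.torB h₁ h₂ f₀ hR) P l k0
      (fun _ => trivial) (fun _ => trivial) (fun _ _ => trivial) (fun _ _ => trivial) hs (hst L)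
      hSY U hne hU (fun _ => ⟨rfl, rfl⟩) fun h y hy => ?_
    obtain ⟨u, hu, huy⟩ := Finset.mem_image.1 (h (Finset.mem_image_of_mem _ hy))
    have h1 : u ∈ ball f₀ R := K0IsoBx900.ball_of_nbhd hU hu (BgIsox432.mem_ball_self u 1)
    rw [mem_ball] at h1
    have h2 : fd u y < L + 1 := by
      have := fd_triangle u f₀ y
      rw [fd_comm u f₀] at this
      have := hN y hy
      omega
    have h3 : u = y := pr_inj (by rw [← TorWrapx723.fd_eq_int]; exact h2) huy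
    rw [← h3]
    exact hu

/-! ### the four sectors -/

/-- the sources on the tori -/
def srT (Y : Finset (ℤ × ℤ)) (S : Finset (EG ℤ)) (hSY : ∀ e ∈ S, faE e ⊆ Y) (t : ℝ) (L : ℕ) :
    Srcs (Fin 1) (ZMod (L + 1)) (Ge (Fld (ZMod (L + 1)))) :=
  rs _ (Y.image (MetGx723.pr (L + 1))) (S.image (ebm (MetGx723.pr (L + 1)))) t (hSY_tor hSY L)

theorem isReal_srT (Y : Finset (ℤ × ℤ)) (S : Finset (EG ℤ)) (hSY : ∀ e ∈ S, faE e ⊆ Y) (t : ℝ)
    (L : ℕ) : IsReal (srT Y S hSY t L) (Y.image (MetGx723.pr (L + 1)))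
      (S.image (ebm (MetGx723.pr (L + 1)))) t := ⟨rfl, rfl, rfl⟩

theorem srcOK_srT {Y : Finset (ℤ × ℤ)} {S : Finset (EG ℤ)} (hSY : ∀ e ∈ S, faE e ⊆ Y) (t : ℝ)
    (L : ℕ) {f₀ : ℤ × ℤ} (h0 : f₀ ∈ Y) (hY : Packx915.Conn fd 1 Y) :
    SrcOK (srT Y S hSY t L) {MetGx723.pr (L + 1) f₀} where
  real _ := ⟨t, rfl⟩
  conn _ := conn_image (MetGx723.pr (L + 1)) (fun a _ b _ h => (fd_pr_le L a b).trans h) hY
  mark _ _ := ⟨_, Finset.mem_singleton_self _, Finset.mem_image_of_mem _ h0⟩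

theorem eS_sq (i : Fin 2) : eS i * eS i = 1 := by
  unfold eS
  split_ifs <;> norm_num

theorem amp_top {c : Cst} (hA : 0 < c.A0) (hδ : 0 < c.δ) :
    Tendsto (Outx683.amp c) atTop atTop := by
  unfold Outx683.amp
  refine Tendsto.const_mul_atTop hA ?_
  refine tendsto_atTop_add_const_left _ _ ?_
  exact Tendsto.const_mul_atTop hδ tendsto_natCast_atTop_atTop

/-- **the torus half** -/
theorem tor_top {J : ℝ} (hJ : 0 < J) {R : ℕ} {V : Finset (ℤ × ℤ) → ℝ}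
    (hV : Topx683.VHyp R V) (hpl : PlB J R V) (hC0 : C0T J R V) :
    ForP J (PF J R V) fun c lam β z => ∀ (Y : Finset (ℤ × ℤ)) (S : Finset (EG ℤ)),
      (0 : ℤ × ℤ) ∈ Y → (∀ e ∈ S, faE e ⊆ Y) → Packx915.Conn fd 1 Y → ∃ t0 > 0, ∀ t : ℝ, 0 < t →
      t < t0 → ∀ sp sp' : Srcs (Fin 1) ℤ (Ge (Fld ℤ)), IsReal sp Y S t → IsReal sp' Y S 0 →
      Tendsto (fun L : ℕ => Symx541.torBonds L J lam R V β S) atTop
        (𝓝 ((Real.exp (expo (Bg.pl.flow (mpar J lam R V β z) DD {0} sp c.p c.k0)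
          (Bg.pl.flow (mpar J lam R V β z) DD {0} sp' c.p c.k0)) - 1) / t)) := by
  refine (EvC.and (EvC.and (EvC.and ev_TC ev_std) (tor_flow hpl)) hC0).mono fun c hc C => ?_
  obtain ⟨⟨⟨hT, hS⟩, hF⟩, hC⟩ := hc
  obtain ⟨ε₁, hε₁, η, hη, C', hC', hF⟩ := hF C
  obtain ⟨ε₂, hε₂, m, hm, hC⟩ := hC C
  refine ⟨min ε₁ (min ε₂ (min (η / 2 / (m + 1)) (1 / 2 / (|C| + 1)))), by positivity, ?_⟩
  intro lam β z hlam hn hPF Y S h0 hSY hY
  rw [lt_min_iff, lt_min_iff, lt_min_iff] at hlam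
  obtain ⟨hl1, hl2, hl3, hl4⟩ := hlam
  obtain ⟨t0, ht0, mS, hmS, hC⟩ := hC Y S hSY hY
  refine ⟨min t0 (η / 2 / (mS + 1)), by positivity, fun t ht htt sp sp' hsp hsp' => ?_⟩
  rw [lt_min_iff] at htt
  obtain ⟨ht1, ht2⟩ := htt
  have hz : 0 < 1 + z := by
    unfold NearP at hn
    rw [lt_div_iff₀ (by positivity)] at hl4
    have h1 : |z| ≤ C * |lam| := by linarith [abs_nonneg (β - criticalBeta J)]
    have h2 : C * |lam| ≤ |C| * |lam| := mul_le_mul_of_nonneg_right (le_abs_self C) (abs_nonneg _)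
    have h3 := neg_abs_le z
    nlinarith [abs_nonneg lam]
  set P := mpar J lam R V β z with hP
  set s := m * |lam| + mS * t with hs
  have hs0 : 0 ≤ s := by positivity
  have hsη : s ≤ η := by
    rw [lt_div_iff₀ (by positivity)] at hl3 ht2
    nlinarith [abs_nonneg lam]
  set E : ℕ → ℝ := fun k => C' * (|lam| + s) * (1 / 2) ^ k with hE
  have hE0 : ∀ k, 0 ≤ E k := fun k => by positivity
  have hEs : Summable E :=
    (summable_geometric_of_lt_one (by norm_num) (by norm_num)).mul_left _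
  have hΓ9 : 9 ≤ ENNReal.ofReal c.Γ := hT.num.Γ9
  have hΓ : 1 < c.Γ := by linarith [hS.Γ_ge]
  have hp1 : 1 ≤ c.p := by linarith [hS.p_pos]
  have hreal := isReal_srT Y S hSY
  -- bounds in all sectors
  have key : ∀ u : ℝ, 0 ≤ u → u ≤ t → ∀ σ : Fin 2 × Fin 2, ∀ᶠ L : ℕ in atTop,
      (∀ k, k ≤ KT c.p c.k0 L → NK (wTor (L + 1) (eS σ.2) (eS σ.1)) (Outx683.amp c k)
        (rr c.p c.k0 k) (ENNReal.ofReal c.Γ) (fun _ => True)
        (fun U => ((((Bg.tor (L + 1) (eS σ.2) (eS σ.1)).flow P DD {MetGx723.pr (L + 1) 0}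
          (srT Y S hSY u L) c.p c.k0).K k U : Ge (Fld (ZMod (L + 1)))) :
            Gr (Fld (ZMod (L + 1))))) ≤ ENNReal.ofReal (C' * (|lam| + s) * (1 / 2) ^ k)) ∧
      Bd ((Bg.tor (L + 1) (eS σ.2) (eS σ.1)).flow P DD {MetGx723.pr (L + 1) 0}
        (srT Y S hSY u L) c.p c.k0) fd (fun k => rr c.p c.k0 (k + 1)) (nearR c.p c.k0)
        (ENNReal.ofReal c.Γ) E (KT c.p c.k0 L) := by
    intro u hu0 hut σ
    filter_upwards [KT_583' c.p c.k0] with L hL
    refine hF lam β z hl1 hn hPF s hs0 hsη (L + 1) (eS σ.2) (eS σ.1) (eS_sq _) (eS_sq _)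
      (KT c.p c.k0 L) hL {MetGx723.pr (L + 1) 0} (by simp) (Fin 1) (srT Y S hSY u L)
      (srcOK_srT hSY u L h0 hY) ?_
    refine (hC lam β z hl2 hn u hu0 (hut.trans_lt ht1) L (eS σ.2) (eS σ.1) (eS_sq _) (eS_sq _)
      (srT Y S hSY u L) (hreal u L)).trans (ENNReal.ofReal_le_ofReal ?_)
    rw [hs]
    have := mul_le_mul_of_nonneg_left hut hmS
    linarith
  have hNP : ∀ u : ℝ, 0 ≤ u → u ≤ t → ∀ σ : Fin 2 × Fin 2, Tendsto (fun L : ℕ =>
      NP (SI (l := c.p) (k0 := c.k0) DD P (fun L => {MetGx723.pr (L + 1) 0}) (srT Y S hSY u) σ L)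
        (wTor (L + 1) (eS σ.2) (eS σ.1)) (Outx683.amp c) (rr c.p c.k0) (ENNReal.ofReal c.Γ) allP
        (KT c.p c.k0 L)) atTop (𝓝 0) := by
    intro u hu0 hut σ
    have h1 : Tendsto (fun L : ℕ => ENNReal.ofReal (C' * (|lam| + s) * (1 / 2) ^ (KT c.p c.k0 L)))
        atTop (𝓝 0) := by
      rw [← ENNReal.ofReal_zero]
      refine ENNReal.tendsto_ofReal ?_
      have h2 := ((tendsto_pow_atTop_nhds_zero_of_lt_one (r := (1 / 2 : ℝ)) (by norm_num)
        (by norm_num)).comp (KT_top c.p c.k0)).const_mul (C' * (|lam| + s))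
      rw [mul_zero] at h2
      exact h2
    refine tendsto_of_tendsto_of_tendsto_of_le_of_le' tendsto_const_nhds h1
      (Eventually.of_forall fun _ => zero_le) ?_
    filter_upwards [key u hu0 hut σ] with L hL
    exact hL.1 _ le_rfl
  have hexp : ∀ σ : Fin 2 × Fin 2, Tendsto (fun L =>
      EI (l := c.p) (k0 := c.k0) DD P (fun L => {MetGx723.pr (L + 1) 0}) (srT Y S hSY t) σ L -
      EI (l := c.p) (k0 := c.k0) DD P (fun L => {MetGx723.pr (L + 1) 0}) (srT Y S hSY 0) σ L) atTop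
      (𝓝 (expo (Bg.pl.flow P DD {0} sp c.p c.k0) (Bg.pl.flow P DD {0} sp' c.p c.k0))) := by
    intro σ
    refine expo_tor (E := E) DD (by norm_num) hT.five hp1 (h₁ := eS_sq σ.2) (h₂ := eS_sq σ.1)
      (loc0 (eS_sq σ.2) (eS_sq σ.1) P c.p c.k0 hsp (hreal t) hSY 0)
      (loc0 (eS_sq σ.2) (eS_sq σ.1) P c.p c.k0 hsp' (hreal 0) hSY 0) ?_ ?_ hΓ hE0 hEs
      ((key t ht.le le_rfl σ).mono fun L hL => hL.2) ((key 0 le_rfl ht.le σ).mono fun L hL => hL.2)
    · exact Eventually.of_forall fun L U hU => K0_t (Bg.tor (L + 1) (eS σ.2) (eS σ.1)) P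
        LinearMap.id (hreal t L) (hreal 0 L) c.p c.k0 (Finset.mem_image_of_mem _ h0)
        (Finset.mem_image_of_mem _ h0) hU
    · exact fun U hU => K0_t Bg.pl P LinearMap.id hsp hsp' c.p c.k0 h0 h0 hU
  have hdiff : Tendsto (fun L =>
      EI (l := c.p) (k0 := c.k0) DD P (fun L => {MetGx723.pr (L + 1) 0}) (srT Y S hSY 0) (0, 0) L -
      EI (l := c.p) (k0 := c.k0) DD P (fun L => {MetGx723.pr (L + 1) 0}) (srT Y S hSY 0) (1, 1) L)
      atTop (𝓝 0) := by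
    refine diff_tor (E := E) DD (by norm_num) hT.five hp1 (eS_sq _) (eS_sq _) (eS_sq _) (eS_sq _)
      (fun L U => K0_real_mem _ P (hreal 0 L) c.p c.k0 U) (fun L => K0_src_empty _ P _ c.p c.k0)
      (fun L => K0_src_empty _ P _ c.p c.k0) ?_ hΓ hE0 hEs
      ((key 0 le_rfl ht.le (0, 0)).mono fun L hL => hL.2)
      ((key 0 le_rfl ht.le (1, 1)).mono fun L hL => hL.2)
    intro L x₀ R hR U hne hU
    exact hK0_secB (eS_sq _) (eS_sq _) (eS_sq _) (eS_sq _) x₀ hR P c.p c.k0 (hreal 0 L) (hreal 0 L)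
      (hSY_tor hSY L) U hne hU
  have hne : ∀ L : ℕ, (Y.image (MetGx723.pr (L + 1))).Nonempty := fun L => ⟨_, Finset.mem_image_of_mem _ h0⟩
  have hprod : ∀ u : ℝ, ∀ᶠ L : ℕ in atTop, ∏ k, (1 + u • (srT Y S hSY u L).Fs k) =
      1 + u • epTor (L + 1) S := by
    intro u
    filter_upwards [prod_image_ez S] with L hL
    rw [prod_of (hreal u L)]
    have h1 : (ebm (MetGx723.pr (L + 1)) : Ed → EG (ZMod (L + 1))) =
        ez (0 : ZMod (L + 1) × ZMod (L + 1)) := funext (ebm_pr L)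
    rw [← hL, ← h1]
  refine torBonds_end hJ hV lam β z hz S ht.ne' DD (by norm_num [MM]) (by norm_num) hp1 hT.five
    (Γ := ENNReal.ofReal c.Γ) ((by norm_num : (1 : ℝ≥0∞) ≤ 9).trans hΓ9)
    (amp_top hT.num.A0_pos hS.δ_pos) (fun L => {MetGx723.pr (L + 1) 0})
    (srT Y S hSY t) (srT Y S hSY 0) (a₁ := fun _ => t) (a₀ := fun _ => 0)
    (Eventually.of_forall fun L => realSrc_of (hreal t L) (hne L))
    (Eventually.of_forall fun L => realSrc_of (hreal 0 L) (hne L))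
    (hprod t) ((hprod 0).mono fun L hL => by rw [hL, zero_smul, add_zero])
    (fun σ => Eventually.of_forall fun L U => K0_real_mem _ P (hreal t L) c.p c.k0 U)
    (fun σ => Eventually.of_forall fun L U => K0_real_mem _ P (hreal 0 L) c.p c.k0 U)
    (hNP t ht.le le_rfl) (hNP 0 le_rfl ht.le) hexp hdiff

end Crest.Agent.R165.TorTopx599
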