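import Crest.Agent.R165.U5Props_422
import Crest.Agent.R165.Nm2_697

/-!
# Row 165 (S0250), block U5: symmetries (helper697)

* `Gt_add`, `Gt_swap` : translation and diagonal reflection on the torus
* `P_add`, `P_swap`   : the same for the plane
* `GB_add`            : translation of a finite site set
* `TT_scale`, `TT_ball_add` : scaling and translation of disc site sets
-/

set_option autoImplicit false
set_option linter.unusedSectionVars false
set_option linter.unusedVariables false

noncomputable section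

open Filter Topology Finset
open Crest.ProbabilityR.IsingModel

namespace Crest.Agent.R165.U5ax697

open Crest.Agent.R165.Gk0x422
open Crest.Agent.R165.Gk1x422
open Crest.Agent.R165.U5Px422

/-! ### torus -/

theorem image_univ_equiv {α : Type*} [Fintype α] [DecidableEq α] (φ : α → α)
    (h : Function.Surjective φ) : (univ : Finset α).image φ = univ :=
  Finset.image_univ_of_surjective h

theorem sp_image {V W : Type*} [DecidableEq V] [DecidableEq W] {n : ℕ} (φ : V → W)
    (hφ : Function.Injective φ) (u : Fin n → V) (A : Finset V) :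
    sp u (minusOn A) = sp (fun i => φ (u i)) (minusOn (A.image φ)) := by
  unfold sp
  refine Finset.prod_congr rfl fun i _ => ?_
  congr 1
  unfold minusOn
  simp [hφ.eq_iff]

theorem Gt_add (L : ℕ) [NeZero L] (K : ℝ) {n : ℕ} (u : Fin n → ℤ × ℤ) (v : ℤ × ℤ) :
    Gt L K (fun i => u i + v) = Gt L K u := by
  unfold Gt
  have hinj : Function.Injective fun z : ZMod L × ZMod L => z + toTorus L v :=
    add_left_injective _
  have hinj2 : Function.Injective
      fun e : (ZMod L × ZMod L) × Fin 2 => (e.1 + toTorus L v, e.2) := by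
    rintro ⟨z, j⟩ ⟨z', j'⟩ h
    simp only [Prod.mk.injEq, add_left_inj] at h
    rw [h.1, h.2]
  have h := EX_transfer (K := K) (p₁ := tp L) (q₁ := tq L) (p₂ := tp L) (q₂ := tq L)
    (fun z : ZMod L × ZMod L => z + toTorus L v)
    (fun e : (ZMod L × ZMod L) × Fin 2 => (e.1 + toTorus L v, e.2))
    (T := univ) (E := univ) (F₁ := sp fun i => toTorus L (u i))
    (F₂ := sp fun i => toTorus L (u i + v))
    (hinj2.injOn) (fun e _ => rfl) (fun e _ => by unfold tq; simp only; abel) (hinj.injOn)
    (fun e _ w _ h => hinj h) (fun e _ w _ h => hinj h)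
    (fun A _ => by
      rw [sp_image _ hinj]
      unfold sp
      refine Finset.prod_congr rfl fun i _ => ?_
      simp only [toTorus_add])
  rw [h, image_univ_equiv _ (add_right_surjective _), image_univ_equiv]
  rintro ⟨z, j⟩
  exact ⟨(z - toTorus L v, j), by simp⟩

theorem Gt_swap (L : ℕ) [NeZero L] (K : ℝ) {n : ℕ} (u : Fin n → ℤ × ℤ) :
    Gt L K (fun i => (u i).swap) = Gt L K u := by
  unfold Gt
  have hinj : Function.Injective fun z : ZMod L × ZMod L => z.swap := Prod.swap_injective
  have hinj2 : Function.Injective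
      fun e : (ZMod L × ZMod L) × Fin 2 => (e.1.swap, Equiv.swap (0 : Fin 2) 1 e.2) := by
    rintro ⟨z, j⟩ ⟨z', j'⟩ h
    simp only [Prod.mk.injEq, EmbeddingLike.apply_eq_iff_eq] at h
    rw [Prod.swap_injective h.1, h.2]
  have h := EX_transfer (K := K) (p₁ := tp L) (q₁ := tq L) (p₂ := tp L) (q₂ := tq L)
    (fun z : ZMod L × ZMod L => z.swap)
    (fun e : (ZMod L × ZMod L) × Fin 2 => (e.1.swap, Equiv.swap (0 : Fin 2) 1 e.2))
    (T := univ) (E := univ) (F₁ := sp fun i => toTorus L (u i))
    (F₂ := sp fun i => toTorus L (u i).swap)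
    (hinj2.injOn) (fun e _ => rfl) (fun e _ => by
      obtain ⟨⟨x, y⟩, j⟩ := e
      unfold tq
      fin_cases j <;> simp [toTorus, unitVec]) (hinj.injOn)
    (fun e _ w _ h => hinj h) (fun e _ w _ h => hinj h)
    (fun A _ => by
      rw [sp_image _ hinj]
      unfold sp
      refine Finset.prod_congr rfl fun i _ => ?_
      rfl)
  rw [h, image_univ_equiv _ Prod.swap_surjective, image_univ_equiv]
  rintro ⟨z, j⟩
  exact ⟨(z.swap, Equiv.swap (0 : Fin 2) 1 j), by simp⟩

theorem P_add {P : {n : ℕ} → (Fin n → ℤ × ℤ) → ℝ} (hP : PlaneLim P) {n : ℕ}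
    (u : Fin n → ℤ × ℤ) (v : ℤ × ℤ) : P (fun i => u i + v) = P u := by
  refine tendsto_nhds_unique (hP n _) ((hP n u).congr fun L => ?_)
  rw [Gt_add]

theorem P_swap {P : {n : ℕ} → (Fin n → ℤ × ℤ) → ℝ} (hP : PlaneLim P) {n : ℕ}
    (u : Fin n → ℤ × ℤ) : P (fun i => (u i).swap) = P u := by
  refine tendsto_nhds_unique (hP n _) ((hP n u).congr fun L => ?_)
  rw [Gt_swap]

/-! ### translation of finite site sets -/

theorem Gp_add (K : ℝ) (T : Finset (ℤ × ℤ)) {n : ℕ} (u : Fin n → ℤ × ℤ) (v : ℤ × ℤ) :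
    Gp K (T.image (· + v)) (fun i => u i + v) = Gp K T u := by
  unfold Gp
  have hinj : Function.Injective fun z : ℤ × ℤ => z + v := add_left_injective _
  have hinj2 : Function.Injective fun e : ZB => (e.1 + v, e.2) := by
    rintro ⟨z, j⟩ ⟨z', j'⟩ h
    simp only [Prod.mk.injEq, add_left_inj] at h
    rw [h.1, h.2]
  have h := EX_transfer (K := K) (p₁ := zp) (q₁ := zq) (p₂ := zp) (q₂ := zq)
    (fun z : ℤ × ℤ => z + v) (fun e : ZB => (e.1 + v, e.2))
    (T := T) (E := plusE T) (F₁ := sp u) (F₂ := sp fun i => u i + v)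
    (hinj2.injOn) (fun e _ => rfl) (fun e _ => by unfold zq; simp only; abel) (hinj.injOn)
    (fun e _ w _ h => hinj h) (fun e _ w _ h => hinj h)
    (fun A _ => sp_image _ hinj u A)
  rw [h]
  congr 1
  ext ⟨z, j⟩
  constructor
  · intro h
    rw [mem_plusE] at h
    refine mem_image.2 ⟨(z - v, j), ?_, by simp⟩
    rw [mem_plusE]
    rcases h with h | h
    · left
      obtain ⟨w, hw, hw2⟩ := mem_image.1 h
      have : z - v = w := by rw [← (show w + v = z from hw2)]; simp
      unfold zp; simp only; rw [this]; exact hw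
    · right
      obtain ⟨w, hw, hw2⟩ := mem_image.1 h
      have h3 : w + v = z + unitVec j := hw2
      have : z - v + unitVec j = w := by
        have : w = z + unitVec j - v := by rw [← h3]; simp
        rw [this]; abel
      unfold zq; simp only; rw [this]; exact hw
  · intro h
    obtain ⟨⟨z', j'⟩, h', h2⟩ := mem_image.1 h
    simp only [Prod.mk.injEq] at h2
    obtain ⟨rfl, rfl⟩ := h2
    rw [mem_plusE] at h'
    rw [mem_plusE]
    rcases h' with h | h
    · left
      exact mem_image.2 ⟨_, h, rfl⟩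
    · right
      refine mem_image.2 ⟨_, h, ?_⟩
      unfold zq; simp only; abel

theorem Gf_add (K : ℝ) (T : Finset (ℤ × ℤ)) {n : ℕ} (u : Fin n → ℤ × ℤ) (v : ℤ × ℤ) :
    Gf K (T.image (· + v)) (fun i => u i + v) = Gf K T u := by
  unfold Gf
  have hinj : Function.Injective fun z : ℤ × ℤ => z + v := add_left_injective _
  have hinj2 : Function.Injective fun e : ZB => (e.1 + v, e.2) := by
    rintro ⟨z, j⟩ ⟨z', j'⟩ h
    simp only [Prod.mk.injEq, add_left_inj] at h
    rw [h.1, h.2]
  have h := EX_transfer (K := K) (p₁ := zp) (q₁ := zq) (p₂ := zp) (q₂ := zq)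
    (fun z : ℤ × ℤ => z + v) (fun e : ZB => (e.1 + v, e.2))
    (T := T) (E := freeE T) (F₁ := sp u) (F₂ := sp fun i => u i + v)
    (hinj2.injOn) (fun e _ => rfl) (fun e _ => by unfold zq; simp only; abel) (hinj.injOn)
    (fun e _ w _ h => hinj h) (fun e _ w _ h => hinj h)
    (fun A _ => sp_image _ hinj u A)
  rw [h]
  congr 1
  have hm : ∀ z, z ∈ T.image (· + v) ↔ z - v ∈ T := by
    intro z
    rw [mem_image]
    constructor
    · rintro ⟨w, hw, rfl⟩; simpa using hw
    · intro h; exact ⟨_, h, by simp⟩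
  ext ⟨z, j⟩
  constructor
  · intro h
    obtain ⟨h1, h2⟩ := mem_freeE.1 h
    refine mem_image.2 ⟨(z - v, j), ?_, by simp⟩
    rw [mem_freeE]
    refine ⟨(hm _).1 h1, ?_⟩
    have := (hm _).1 h2
    unfold zq at this ⊢
    simp only at this ⊢
    have e : z - v + unitVec j = z + unitVec j - v := by abel
    rw [e]; exact this
  · intro h
    obtain ⟨⟨z', j'⟩, h', h2⟩ := mem_image.1 h
    simp only [Prod.mk.injEq] at h2
    obtain ⟨rfl, rfl⟩ := h2
    rw [mem_freeE] at h'
    refine mem_freeE.2 ⟨(hm _).2 (by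
      have h1 : z' ∈ T := h'.1
      unfold zp; simpa using h1), (hm _).2 ?_⟩
    have := h'.2
    unfold zq at this ⊢
    simp only at this ⊢
    have e : z' + v + unitVec j' - v = z' + unitVec j' := by abel
    rw [e]; exact this

theorem GB_plus_add (T : Finset (ℤ × ℤ)) {n : ℕ} (u : Fin n → ℤ × ℤ) (v : ℤ × ℤ) :
    GB .plus (T.image (· + v)) (fun i => u i + v) = GB .plus T u := Gp_add _ T u v

theorem GB_free_add (T : Finset (ℤ × ℤ)) {n : ℕ} (u : Fin n → ℤ × ℤ) (v : ℤ × ℤ) :
    GB .free (T.image (· + v)) (fun i => u i + v) = GB .free T u := Gf_add _ T u v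

/-! ### site sets of discs -/

theorem meshPoint_add (a : ℝ) (z w : ℤ × ℤ) :
    meshPoint a (z + w) = meshPoint a z + meshPoint a w := by
  apply Complex.ext <;> simp [meshPoint, mul_add]

theorem meshPoint_scale (a s : ℝ) (z : ℤ × ℤ) : meshPoint (a * s) z = (s : ℂ) * meshPoint a z := by
  apply Complex.ext <;> simp [meshPoint] <;> ring

theorem TT_ball_scale {a R : ℝ} (ha : 0 < a) (hR : 0 < R) :
    TT (Metric.ball (0 : ℂ) R) a = TT (Metric.ball (0 : ℂ) 1) (a / R) := by
  ext z
  rw [mem_TT Metric.isBounded_ball ha, mem_TT Metric.isBounded_ball (div_pos ha hR),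
    mem_ball_zero_iff, mem_ball_zero_iff]
  have h : meshPoint a z = (R : ℂ) * meshPoint (a / R) z := by
    rw [← meshPoint_scale, div_mul_cancel₀ _ hR.ne']
  rw [h, norm_mul, Complex.norm_real, Real.norm_of_nonneg hR.le]
  constructor
  · intro h; nlinarith
  · intro h; nlinarith

/-- a translated disc of smaller radius -/
theorem TT_ball_add {c z : ℂ} {r ρ a : ℝ} (ha : 0 < a) (h : ρ + ‖z - c‖ + 2 * a ≤ r) :
    (TT (Metric.ball (0 : ℂ) ρ) a).image (· + meshIndex a z) ⊆ TT (Metric.ball c r) a := by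
  intro w hw
  obtain ⟨y, hy, rfl⟩ := mem_image.1 hw
  rw [mem_TT Metric.isBounded_ball ha, mem_ball_zero_iff] at hy
  rw [mem_TT Metric.isBounded_ball ha, mem_ball_iff_norm, meshPoint_add]
  have e : meshPoint a y + meshPoint a (meshIndex a z) - c
      = meshPoint a y + ((meshPoint a (meshIndex a z) - z) + (z - c)) := by ring
  rw [e]
  have h1 := norm_add_le (meshPoint a y) ((meshPoint a (meshIndex a z) - z) + (z - c))
  have h2 := norm_add_le (meshPoint a (meshIndex a z) - z) (z - c)
  have h3 := meshPoint_meshIndex ha z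
  linarith

end Crest.Agent.R165.U5ax697
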