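import Crest.Agent.R165.U5c_697

/-!
# Row 165 (S0250), block U5: pairs of spins in arbitrary domains (helper697)

* `slim_of_happ` : one almost normalised configuration for every `ε` gives all scaling limits
* `PairAs C₀ b D` : merging asymptotics of the rescaled lattice two-point function
* `pairAs` : holds for plus and free in every bounded open set
* `cov_two` : conformal covariance of the two-point function (constant `1`)
* `exists_twoPt` : `TwoPt g`
-/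

set_option autoImplicit false
set_option linter.unusedSectionVars false
set_option linter.unusedVariables false

noncomputable section

open Filter Topology Finset
open Crest.ProbabilityR.IsingModel

namespace Crest.Agent.R165.U5dx697

open Crest.Agent.R165.Gk0x422
open Crest.Agent.R165.Gk1x422
open Crest.Agent.R165.U5Px422
open Crest.Agent.R165.U5ax697
open Crest.Agent.R165.U5bx697
open Crest.Agent.R165.U5cx697
open Crest.Agent.R165.Nm1x697
open Crest.Agent.R165.Nm2x697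
open Crest.Agent.R165.USpinx641 (SpinInB)

variable {P : {n : ℕ} → (Fin n → ℤ × ℤ) → ℝ}
  {Lam : (n : ℕ) → Set ℂ → (Fin n → ℂ) → ℝ}

/-- scaling limits from one almost normalised configuration for every `ε` -/
theorem slim_of_happ {b : BoundaryCondition} (hL : SpinInB b Lam) {n : ℕ} {D : Set ℂ}
    (hA : Allow b n) (hD : IsC2JordanDomain D)
    (happ : ∀ ε > (0 : ℝ), ∃ x ∈ Conf D n, ∃ L > (0 : ℝ), ∀ u, LApp u x →
      ∀ᶠ a in 𝓝[>] (0 : ℝ), L ≤ a ^ (-((n : ℝ) / 8)) * GB b (TT D a) (u a) ∧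
        a ^ (-((n : ℝ) / 8)) * GB b (TT D a) (u a) ≤ (1 + ε) * L) :
    ∃ c > (0 : ℝ), ∀ x ∈ Conf D n, SLim b D x (c * Lam n D x) := by
  obtain ⟨c, hc, h⟩ := norm_lemma (l := 𝓝[>] (0 : ℝ)) (X := {x : Fin n → ℂ // x ∈ Conf D n})
    (fun a x => GB b (TT D a) fun i => meshIndex a (x.1 i))
    (fun a => a ^ (-((n : ℝ) / 8))) (fun x => Lam n D x.1)
    (fun x => hL.pos n D hA hD x.1 x.2)
    (fun x y => hL.ratio n D hA hD x.1 x.2 y.1 y.2 _ _ (lapp_meshIndex x.1) (lapp_meshIndex y.1))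
    (fun ε hε => by
      obtain ⟨x, hx, L, hL0, h⟩ := happ ε hε
      exact ⟨⟨x, hx⟩, L, hL0, h _ (lapp_meshIndex x)⟩)
  refine ⟨c, hc, fun x hx u hu => ?_⟩
  have h1 := hL.ratio n D hA hD x hx x hx u _ hu (lapp_meshIndex x)
  have hne : Lam n D x ≠ 0 := (hL.pos n D hA hD x hx).ne'
  rw [div_self hne] at h1
  have h2 := h1.mul (h ⟨x, hx⟩)
  rw [one_mul] at h2
  refine h2.congr' ?_
  filter_upwards [h1.eventually (lt_mem_nhds one_half_lt_one)] with a ha
  have hne2 : GB b (TT D a) (fun i => meshIndex a (x i)) ≠ 0 := fun h0 => by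
    rw [h0, div_zero] at ha
    norm_num at ha
  field_simp

/-- the rescaled lattice two-point function is close to `C₀ |x - y|^{-1/4}` at merging -/
def PairAs (C₀ : ℝ) (b : BoundaryCondition) (D : Set ℂ) : Prop :=
  ∀ z ∈ D, ∀ ε > (0 : ℝ), ∃ δ > (0 : ℝ), ∀ x : Fin 2 → ℂ, x 0 ≠ x 1 → ‖x 0 - z‖ < δ →
    ‖x 1 - z‖ < δ → ∀ u, LApp u x → ∀ᶠ a in 𝓝[>] (0 : ℝ),
      (1 - ε) * (C₀ * ‖x 0 - x 1‖ ^ (-(1 : ℝ) / 4)) ≤ a ^ (-(1 : ℝ) / 4) * GB b (TT D a) (u a) ∧
      a ^ (-(1 : ℝ) / 4) * GB b (TT D a) (u a) ≤ (1 + ε) * (C₀ * ‖x 0 - x 1‖ ^ (-(1 : ℝ) / 4))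

/-- plane asymptotics (output of S2) -/
def Plane2 (P : {n : ℕ} → (Fin n → ℤ × ℤ) → ℝ) (C₀ : ℝ) : Prop :=
  ∀ x : Fin 2 → ℂ, x 0 ≠ x 1 → ∀ u : ℝ → Fin 2 → ℤ × ℤ, LApp u x →
      Tendsto (fun a : ℝ => a ^ (-(1 : ℝ) / 4) * P (u a)) (𝓝[>] 0)
        (𝓝 (C₀ * ‖x 0 - x 1‖ ^ (-(1 : ℝ) / 4)))

theorem pairAs (hP : PlaneLim P) (hM : Merge P) {C₀ : ℝ} (hC : 0 < C₀) (h2 : Plane2 P C₀)
    {b : BoundaryCondition} (hb : b ≠ .minus) {D : Set ℂ} (hDb : Bornology.IsBounded D)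
    (hDo : IsOpen D) : PairAs C₀ b D := by
  intro z hz ε hε
  obtain ⟨r, hr, hrD⟩ := Metric.isOpen_iff.1 hDo z hz
  set η := min (ε / 3) 1 with hη
  have hη0 : 0 < η := lt_min (by positivity) one_pos
  have hη1 : η ≤ 1 := min_le_right _ _
  have hη2 : η ≤ ε / 3 := min_le_left _ _
  obtain ⟨δ, hδ, hm⟩ := hM z r hr z (by simpa using hr) η hη0
  refine ⟨min δ r, lt_min hδ hr, fun x hx h0 h1 u hu => ?_⟩
  have hmem : ∀ i, x i ∈ Metric.ball z r := by
    intro i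
    rw [mem_ball_iff_norm]
    fin_cases i
    · exact h0.trans_le (min_le_right _ _)
    · exact h1.trans_le (min_le_right _ _)
  set p := C₀ * ‖x 0 - x 1‖ ^ (-(1 : ℝ) / 4) with hp
  have hp0 : 0 < p := mul_pos hC (Real.rpow_pos_of_pos (norm_pos_iff.2 (sub_ne_zero.2 hx)) _)
  have h3 := h2 x hx u hu
  have hlo : (1 - η) * p < p := by nlinarith
  have hhi : p < (1 + η) * p := by nlinarith
  filter_upwards [hm x hx (h0.trans_le (min_le_left _ _)) (h1.trans_le (min_le_left _ _)) u hu,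
    self_mem_nhdsWithin, h3.eventually (Ioo_mem_nhds hlo hhi),
    hu.mem Metric.isBounded_ball Metric.isOpen_ball hmem] with a h4 ha h5 h6
  have ha' : (0 : ℝ) < a := ha
  obtain ⟨q0, q1, q2⟩ := h4
  have hs : 0 < a ^ (-(1 : ℝ) / 4) := Real.rpow_pos_of_pos ha' _
  have hsub : TT (Metric.ball z r) a ⊆ TT D a := TT_mono hDb hrD ha'
  -- upper and lower bounds for `b`
  have hup : GB b (TT D a) (u a) ≤ GB .plus (TT (Metric.ball z r) a) (u a) := by
    refine le_trans ?_ (GB_plus_anti hsub _)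
    cases b with
    | plus => exact le_rfl
    | free => exact Gf_le_Gp Kc_nonneg _ _
    | minus => exact absurd rfl hb
  have hlow : GB .free (TT (Metric.ball z r) a) (u a) ≤ GB b (TT D a) (u a) := by
    refine (GB_free_mono hsub h6).trans ?_
    cases b with
    | plus => exact Gf_le_Gp Kc_nonneg _ _
    | free => exact le_rfl
    | minus => exact absurd rfl hb
  have hPs : 0 < a ^ (-(1 : ℝ) / 4) * P (u a) := mul_pos hs q0
  constructor
  · have e1 : (1 - η) * ((1 - η) * p) ≤ (1 - η) * (a ^ (-(1 : ℝ) / 4) * P (u a)) :=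
      mul_le_mul_of_nonneg_left h5.1.le (by linarith)
    have e2 : (1 - η) * (a ^ (-(1 : ℝ) / 4) * P (u a)) ≤ a ^ (-(1 : ℝ) / 4) * GB b (TT D a) (u a) := by
      calc (1 - η) * (a ^ (-(1 : ℝ) / 4) * P (u a)) = a ^ (-(1 : ℝ) / 4) * ((1 - η) * P (u a)) := by
            ring
        _ ≤ _ := mul_le_mul_of_nonneg_left (q2.trans hlow) hs.le
    have e3 : (1 - ε) * p ≤ (1 - η) * ((1 - η) * p) := by
      have : (1 - η) * ((1 - η) * p) = (1 - 2 * η + η ^ 2) * p := by ring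
      rw [this]
      refine mul_le_mul_of_nonneg_right ?_ hp0.le
      nlinarith
    linarith
  · have e1 : (1 + η) * (a ^ (-(1 : ℝ) / 4) * P (u a)) ≤ (1 + η) * ((1 + η) * p) :=
      mul_le_mul_of_nonneg_left h5.2.le (by linarith)
    have e2 : a ^ (-(1 : ℝ) / 4) * GB b (TT D a) (u a) ≤ (1 + η) * (a ^ (-(1 : ℝ) / 4) * P (u a)) := by
      calc _ ≤ a ^ (-(1 : ℝ) / 4) * ((1 + η) * P (u a)) :=
            mul_le_mul_of_nonneg_left (hup.trans q1) hs.le
        _ = _ := by ring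
    have e3 : (1 + η) * ((1 + η) * p) ≤ (1 + ε) * p := by
      have : (1 + η) * ((1 + η) * p) = (1 + 2 * η + η ^ 2) * p := by ring
      rw [this]
      refine mul_le_mul_of_nonneg_right ?_ hp0.le
      nlinarith
    linarith

/-- the pair `z - t`, `z + t` -/
def pr (z : ℂ) (t : ℝ) : Fin 2 → ℂ := ![z - t, z + t]

theorem pr_ne {z : ℂ} {t : ℝ} (ht : 0 < t) : pr z t 0 ≠ pr z t 1 := by
  simp only [pr, Matrix.cons_val_zero, Matrix.cons_val_one]
  intro h
  have h1 : (t : ℂ) = 0 := by linear_combination (1 / 2 : ℂ) * (-h)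
  rw [Complex.ofReal_eq_zero] at h1
  exact ht.ne' h1

theorem pr_norm (z : ℂ) {t : ℝ} (ht : 0 < t) (i : Fin 2) : ‖pr z t i - z‖ = t := by
  fin_cases i
  · simp [pr, abs_of_pos ht]
  · simp [pr, abs_of_pos ht]

theorem pr_conf {D : Set ℂ} {z : ℂ} {t r : ℝ} (ht : 0 < t) (htr : t < r)
    (h : Metric.ball z r ⊆ D) : pr z t ∈ Conf D 2 := by
  refine ⟨fun i => h ?_, fun i j hij => ?_⟩
  · rw [mem_ball_iff_norm, pr_norm z ht]; exact htr
  · fin_cases i <;> fin_cases j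
    · rfl
    · exact absurd hij (pr_ne ht)
    · exact absurd hij.symm (pr_ne ht)
    · rfl

/-- scaling limits of pairs -/
theorem slim_two {b : BoundaryCondition} (hL : SpinInB b Lam) {C₀ : ℝ} (hC : 0 < C₀)
    (hA : Allow b 2) {D : Set ℂ} (hD : IsC2JordanDomain D) (hDo : IsOpen D)
    (h : PairAs C₀ b D) : ∃ c > (0 : ℝ), ∀ x ∈ Conf D 2, SLim b D x (c * Lam 2 D x) := by
  by_cases hne : D.Nonempty
  swap
  · refine ⟨1, one_pos, fun x hx => ?_⟩
    exact absurd ⟨x 0, hx.1 0⟩ hne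
  obtain ⟨z, hz⟩ := hne
  obtain ⟨r, hr, hrD⟩ := Metric.isOpen_iff.1 hDo z hz
  refine slim_of_happ hL hA hD fun ε hε => ?_
  set η := min (ε / (2 + ε)) (1 / 2) with hη
  have hη0 : 0 < η := lt_min (by positivity) (by norm_num)
  have hη1 : η ≤ 1 / 2 := min_le_right _ _
  have hη2 : η * (2 + ε) ≤ ε := by
    have : η ≤ ε / (2 + ε) := min_le_left _ _
    rwa [le_div_iff₀ (by positivity)] at this
  obtain ⟨δ, hδ, hδ2⟩ := h z hz η hη0
  set t := min δ r / 2 with ht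
  have ht0 : 0 < t := by have := lt_min hδ hr; positivity
  have htδ : t < δ := by have := min_le_left δ r; rw [ht]; linarith [lt_min hδ hr]
  have htr : t < r := by have := min_le_right δ r; rw [ht]; linarith [lt_min hδ hr]
  set p := C₀ * ‖pr z t 0 - pr z t 1‖ ^ (-(1 : ℝ) / 4) with hp
  have hp0 : 0 < p := mul_pos hC (Real.rpow_pos_of_pos
    (norm_pos_iff.2 (sub_ne_zero.2 (pr_ne ht0))) _)
  refine ⟨pr z t, pr_conf ht0 htr hrD, (1 - η) * p, mul_pos (by linarith) hp0, fun u hu => ?_⟩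
  have e : (-(((2 : ℕ) : ℝ) / 8)) = -(1 : ℝ) / 4 := by norm_num
  rw [e]
  filter_upwards [hδ2 (pr z t) (pr_ne ht0) (by rw [pr_norm z ht0]; exact htδ)
    (by rw [pr_norm z ht0]; exact htδ) u hu] with a ha
  refine ⟨ha.1, ha.2.trans ?_⟩
  have e2 : (1 + ε) * ((1 - η) * p) = ((1 + ε) * (1 - η)) * p := by ring
  rw [e2]
  refine mul_le_mul_of_nonneg_right ?_ hp0.le
  nlinarith

/-- asymptotics of the limits of pairs -/
theorem limit_as {C₀ : ℝ} {b : BoundaryCondition} {D : Set ℂ} (h : PairAs C₀ b D)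
    {F : (Fin 2 → ℂ) → ℝ} (hF : ∀ x ∈ Conf D 2, SLim b D x (F x)) {z : ℂ} (hz : z ∈ D)
    {ε : ℝ} (hε : 0 < ε) : ∃ δ > (0 : ℝ), ∀ x ∈ Conf D 2, ‖x 0 - z‖ < δ → ‖x 1 - z‖ < δ →
      (1 - ε) * (C₀ * ‖x 0 - x 1‖ ^ (-(1 : ℝ) / 4)) ≤ F x ∧
        F x ≤ (1 + ε) * (C₀ * ‖x 0 - x 1‖ ^ (-(1 : ℝ) / 4)) := by
  obtain ⟨δ, hδ, hδ2⟩ := h z hz ε hε
  refine ⟨δ, hδ, fun x hx h0 h1 => ?_⟩
  have h01 : x 0 ≠ x 1 := fun h => by simpa using hx.2 h
  have h3 := hδ2 x h01 h0 h1 _ (lapp_meshIndex x)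
  have h4 := hF x hx _ (lapp_meshIndex x)
  have e : (-(((2 : ℕ) : ℝ) / 8)) = -(1 : ℝ) / 4 := by norm_num
  rw [e] at h4
  exact ⟨ge_of_tendsto h4 (h3.mono fun a ha => ha.1), le_of_tendsto h4 (h3.mono fun a ha => ha.2)⟩

/-- the derivative of the map does not vanish (from the covariance) -/
theorem deriv_ne {b : BoundaryCondition} (hL : SpinInB b Lam) (hA : Allow b 2) {D D' : Set ℂ}
    (hD : IsC2JordanDomain D) (hD' : IsC2JordanDomain D') (hDo : IsOpen D)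
    {φ : ℂ → ℂ} (hφ : DifferentiableOn ℂ φ D) (hbij : Set.BijOn φ D D') {z : ℂ} (hz : z ∈ D) :
    deriv φ z ≠ 0 := by
  obtain ⟨k, hk, h⟩ := hL.cov 2 D D' hA hD hD' φ hφ hbij
  obtain ⟨r, hr, hrD⟩ := Metric.isOpen_iff.1 hDo z hz
  have hx : (![z, z + (r / 2 : ℝ)] : Fin 2 → ℂ) ∈ Conf D 2 := by
    refine ⟨fun i => ?_, fun i j hij => ?_⟩
    · fin_cases i
      · exact hz
      · refine hrD ?_
        rw [mem_ball_iff_norm]
        simp [abs_of_pos hr]
        linarith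
    · have hne : z ≠ z + (r / 2 : ℝ) := by
        intro h
        have h1 : ((r / 2 : ℝ) : ℂ) = 0 := by linear_combination -h
        rw [Complex.ofReal_eq_zero] at h1
        linarith
      fin_cases i <;> fin_cases j
      · rfl
      · exact absurd hij hne
      · exact absurd hij.symm hne
      · rfl
  intro h0
  have h1 := h _ hx
  have h2 := hL.pos 2 D hA hD _ hx
  have h3 : ∏ i, ‖deriv φ ((![z, z + (r / 2 : ℝ)] : Fin 2 → ℂ) i)‖ ^ ((1 : ℝ) / 8) = 0 := by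
    refine Finset.prod_eq_zero (mem_univ 0) ?_
    simp [h0]
  rw [h3, mul_zero] at h1
  have := mul_pos hk h2
  linarith

/-- **covariance of the two-point function** -/
theorem cov_two {b : BoundaryCondition} (hL : SpinInB b Lam) {C₀ : ℝ} (hC : 0 < C₀)
    (hA : Allow b 2) {D D' : Set ℂ} (hD : IsC2JordanDomain D) (hD' : IsC2JordanDomain D')
    (hDo : IsOpen D) (hDo' : IsOpen D') (h : PairAs C₀ b D) (h' : PairAs C₀ b D')
    {F F' : (Fin 2 → ℂ) → ℝ} {c c' : ℝ} (hc : 0 < c) (hc' : 0 < c')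
    (hF : ∀ x ∈ Conf D 2, SLim b D x (F x)) (hF' : ∀ x ∈ Conf D' 2, SLim b D' x (F' x))
    (hFc : ∀ x, F x = c * Lam 2 D x) (hFc' : ∀ x, F' x = c' * Lam 2 D' x)
    {φ : ℂ → ℂ} (hφ : DifferentiableOn ℂ φ D) (hbij : Set.BijOn φ D D') :
    ∀ x ∈ Conf D 2, F x = (∏ i, ‖deriv φ (x i)‖ ^ ((1 : ℝ) / 8)) * F' (fun i => φ (x i)) := by
  by_cases hne : D.Nonempty
  swap
  · intro x hx
    exact absurd ⟨x 0, hx.1 0⟩ hne
  obtain ⟨k₀, hk₀, hk⟩ := hL.cov 2 D D' hA hD hD' φ hφ hbij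
  set k := c' * k₀ / c with hkd
  have hk0 : 0 < k := by positivity
  have hcov : ∀ x ∈ Conf D 2,
      (∏ i, ‖deriv φ (x i)‖ ^ ((1 : ℝ) / 8)) * F' (fun i => φ (x i)) = k * F x := by
    intro x hx
    have := hk x hx
    rw [hFc, hFc', hkd]
    field_simp
    linear_combination this
  suffices hk1 : k = 1 by
    intro x hx
    rw [hcov x hx, hk1, one_mul]
  obtain ⟨z, hz⟩ := hne
  obtain ⟨r, hr, hrD⟩ := Metric.isOpen_iff.1 hDo z hz
  have hz' : φ z ∈ D' := hbij.mapsTo hz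
  have hdz : deriv φ z ≠ 0 := deriv_ne hL hA hD hD' hDo hφ hbij hz
  have hder : HasDerivAt φ (deriv φ z) z := (hφ.differentiableAt (hDo.mem_nhds hz)).hasDerivAt
  have hcont : ContinuousAt φ z := hder.continuousAt
  have hdcont : ContinuousAt (deriv φ) z :=
    ((hφ.analyticAt (hDo.mem_nhds hz)).deriv).continuousAt
  -- limits along pairs
  have hpm : Tendsto (fun t : ℝ => z - t) (𝓝[>] 0) (𝓝 z) := by
    have : Tendsto (fun t : ℝ => z - (t : ℂ)) (𝓝 0) (𝓝 (z - ((0 : ℝ) : ℂ))) :=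
      (continuous_const.sub Complex.continuous_ofReal).tendsto 0
    rw [Complex.ofReal_zero, sub_zero] at this
    exact this.mono_left nhdsWithin_le_nhds
  have hpp : Tendsto (fun t : ℝ => z + t) (𝓝[>] 0) (𝓝 z) := by
    have : Tendsto (fun t : ℝ => z + (t : ℂ)) (𝓝 0) (𝓝 (z + ((0 : ℝ) : ℂ))) :=
      (continuous_const.add Complex.continuous_ofReal).tendsto 0
    rw [Complex.ofReal_zero, add_zero] at this
    exact this.mono_left nhdsWithin_le_nhds
  -- the difference quotient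
  set d := ‖deriv φ z‖ with hd
  have hd0 : 0 < d := norm_pos_iff.2 hdz
  have hquot : Tendsto (fun t : ℝ => ‖φ (z - t) - φ (z + t)‖ / (2 * t)) (𝓝[>] 0) (𝓝 d) := by
    have g1 : HasDerivAt (fun t : ℝ => φ (z + (t : ℂ))) (deriv φ z * 1) 0 := by
      have h0 : HasDerivAt φ (deriv φ z) (z + ((0 : ℝ) : ℂ)) := by simpa using hder
      exact HasDerivAt.comp_ofReal (e := fun w : ℂ => φ (z + w)) (by
        have := h0
        rw [Complex.ofReal_zero] at this ⊢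
        exact this.comp (0 : ℂ) ((hasDerivAt_id (0 : ℂ)).const_add z)) 
    have g2 : HasDerivAt (fun t : ℝ => φ (z - (t : ℂ))) (deriv φ z * (-1)) 0 := by
      have h0 : HasDerivAt φ (deriv φ z) (z - ((0 : ℝ) : ℂ)) := by simpa using hder
      exact HasDerivAt.comp_ofReal (e := fun w : ℂ => φ (z - w)) (by
        have := h0
        rw [Complex.ofReal_zero] at this ⊢
        exact this.comp (0 : ℂ) ((hasDerivAt_id (0 : ℂ)).const_sub z))
    have g3 := (g2.sub g1).tendsto_slope_zero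
    have g4 : Tendsto (fun t : ℝ => t⁻¹ • ((φ (z - (t : ℂ)) - φ (z + (t : ℂ))))) (𝓝[>] 0)
        (𝓝 (deriv φ z * (-1) - deriv φ z * 1)) := by
      refine (g3.mono_left (nhdsWithin_mono _ fun t ht => ne_of_gt ht)).congr fun t => ?_
      simp
    have g5 := g4.norm
    have g6 := g5.div_const 2
    have e1 : ‖deriv φ z * (-1) - deriv φ z * 1‖ / 2 = d := by
      have : deriv φ z * (-1) - deriv φ z * 1 = (-2 : ℂ) * deriv φ z := by ring
      rw [this, norm_mul, hd]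
      norm_num
    rw [e1] at g6
    refine g6.congr' ?_
    filter_upwards [self_mem_nhdsWithin] with t ht
    have ht' : (0 : ℝ) < t := ht
    rw [norm_smul, norm_inv, Real.norm_of_nonneg ht'.le]
    field_simp
  have hQ : Tendsto (fun t : ℝ => (∏ i, ‖deriv φ (pr z t i)‖ ^ ((1 : ℝ) / 8)) *
      (‖φ (z - t) - φ (z + t)‖ / (2 * t)) ^ (-(1 : ℝ) / 4)) (𝓝[>] 0) (𝓝 1) := by
    have g1 : Tendsto (fun t : ℝ => ‖deriv φ (z - t)‖ ^ ((1 : ℝ) / 8)) (𝓝[>] 0)
        (𝓝 (d ^ ((1 : ℝ) / 8))) :=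
      ((hdcont.tendsto.comp hpm).norm).rpow_const (Or.inl hd0.ne')
    have g2 : Tendsto (fun t : ℝ => ‖deriv φ (z + t)‖ ^ ((1 : ℝ) / 8)) (𝓝[>] 0)
        (𝓝 (d ^ ((1 : ℝ) / 8))) :=
      ((hdcont.tendsto.comp hpp).norm).rpow_const (Or.inl hd0.ne')
    have g3 := hquot.rpow_const (p := -(1 : ℝ) / 4) (Or.inl hd0.ne')
    have g4 := (g1.mul g2).mul g3
    have e1 : d ^ ((1 : ℝ) / 8) * d ^ ((1 : ℝ) / 8) * d ^ (-(1 : ℝ) / 4) = 1 := by
      rw [← Real.rpow_add hd0, ← Real.rpow_add hd0]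
      norm_num
    rw [e1] at g4
    refine g4.congr fun t => ?_
    simp [pr, Fin.prod_univ_two]
  -- two-sided bounds for `k`
  have key : ∀ ε : ℝ, 0 < ε → ε < 1 → k * (1 - ε) ≤ 1 + ε ∧ 1 - ε ≤ k * (1 + ε) := by
    intro ε hε hε1
    obtain ⟨δ, hδ, h1⟩ := limit_as h hF hz hε
    obtain ⟨δ', hδ', h2⟩ := limit_as h' hF' hz' hε
    have hb1 : ∀ᶠ t : ℝ in 𝓝[>] 0, ‖φ (z - t) - φ z‖ < δ' := by
      have := (hcont.tendsto.comp hpm)
      have h3 := (tendsto_iff_norm_sub_tendsto_zero.1 this).eventually (gt_mem_nhds hδ')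
      exact h3
    have hb2 : ∀ᶠ t : ℝ in 𝓝[>] 0, ‖φ (z + t) - φ z‖ < δ' := by
      have := (hcont.tendsto.comp hpp)
      have h3 := (tendsto_iff_norm_sub_tendsto_zero.1 this).eventually (gt_mem_nhds hδ')
      exact h3
    have hev : ∀ᶠ t : ℝ in 𝓝[>] 0, k * (1 - ε) ≤ (1 + ε) * ((∏ i, ‖deriv φ (pr z t i)‖ ^ ((1 : ℝ) / 8)) *
          (‖φ (z - t) - φ (z + t)‖ / (2 * t)) ^ (-(1 : ℝ) / 4)) ∧
        (1 - ε) * ((∏ i, ‖deriv φ (pr z t i)‖ ^ ((1 : ℝ) / 8)) *
          (‖φ (z - t) - φ (z + t)‖ / (2 * t)) ^ (-(1 : ℝ) / 4)) ≤ k * (1 + ε) := by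
      filter_upwards [self_mem_nhdsWithin, eventually_lt_nhdsGT (lt_min hδ hr), hb1, hb2]
        with t ht htm hb1 hb2
      have ht' : (0 : ℝ) < t := ht
      have htδ : t < δ := htm.trans_le (min_le_left _ _)
      have htr : t < r := htm.trans_le (min_le_right _ _)
      have hx : pr z t ∈ Conf D 2 := pr_conf ht' htr hrD
      have hx' : (fun i => φ (pr z t i)) ∈ Conf D' 2 :=
        ⟨fun i => hbij.mapsTo (hx.1 i), fun i j hij => hx.2 (hbij.injOn (hx.1 i) (hx.1 j) hij)⟩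
      have q1 := h1 _ hx (by rw [pr_norm z ht']; exact htδ) (by rw [pr_norm z ht']; exact htδ)
      have q2 := h2 _ hx' (by simpa [pr] using hb1) (by simpa [pr] using hb2)
      have q3 := hcov _ hx
      have n1 : ‖pr z t 0 - pr z t 1‖ = 2 * t := by
        have : pr z t 0 - pr z t 1 = ((-(2 * t) : ℝ) : ℂ) := by
          simp only [pr, Matrix.cons_val_zero, Matrix.cons_val_one]
          push_cast; ring
        rw [this, Complex.norm_real, norm_neg, Real.norm_of_nonneg (by positivity)]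
      have n2 : ‖φ (pr z t 0) - φ (pr z t 1)‖ = ‖φ (z - t) - φ (z + t)‖ := by simp [pr]
      simp only [n1] at q1
      simp only [n2] at q2
      set Pr := ∏ i, ‖deriv φ (pr z t i)‖ ^ ((1 : ℝ) / 8) with hPr
      have hPr0 : 0 ≤ Pr := Finset.prod_nonneg fun i _ => Real.rpow_nonneg (norm_nonneg _) _
      set N := ‖φ (z - t) - φ (z + t)‖ with hN
      have hN0 : 0 ≤ N := norm_nonneg _
      have h2t : 0 < (2 * t) ^ (-(1 : ℝ) / 4) := Real.rpow_pos_of_pos (by positivity) _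
      have hdiv : (N / (2 * t)) ^ (-(1 : ℝ) / 4) = N ^ (-(1 : ℝ) / 4) / (2 * t) ^ (-(1 : ℝ) / 4) :=
        Real.div_rpow hN0 (by positivity) _
      rw [hdiv]
      constructor
      · have s1 : k * ((1 - ε) * (C₀ * (2 * t) ^ (-(1 : ℝ) / 4))) ≤
            Pr * ((1 + ε) * (C₀ * N ^ (-(1 : ℝ) / 4))) := by
          refine (mul_le_mul_of_nonneg_left q1.1 hk0.le).trans ?_
          rw [← q3]
          exact mul_le_mul_of_nonneg_left q2.2 hPr0
        have s2 : k * (1 - ε) * (C₀ * (2 * t) ^ (-(1 : ℝ) / 4)) ≤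
            ((1 + ε) * (Pr * (N ^ (-(1 : ℝ) / 4) / (2 * t) ^ (-(1 : ℝ) / 4)))) *
              (C₀ * (2 * t) ^ (-(1 : ℝ) / 4)) := by
          have : ((1 + ε) * (Pr * (N ^ (-(1 : ℝ) / 4) / (2 * t) ^ (-(1 : ℝ) / 4)))) *
              (C₀ * (2 * t) ^ (-(1 : ℝ) / 4)) = Pr * ((1 + ε) * (C₀ * N ^ (-(1 : ℝ) / 4))) := by
            field_simp
          rw [this]; linarith
        exact le_of_mul_le_mul_right s2 (mul_pos hC h2t)
      · have s1 : Pr * ((1 - ε) * (C₀ * N ^ (-(1 : ℝ) / 4))) ≤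
            k * ((1 + ε) * (C₀ * (2 * t) ^ (-(1 : ℝ) / 4))) := by
          refine (mul_le_mul_of_nonneg_left q2.1 hPr0).trans ?_
          rw [q3]
          exact mul_le_mul_of_nonneg_left q1.2 hk0.le
        have s2 : ((1 - ε) * (Pr * (N ^ (-(1 : ℝ) / 4) / (2 * t) ^ (-(1 : ℝ) / 4)))) *
              (C₀ * (2 * t) ^ (-(1 : ℝ) / 4)) ≤ k * (1 + ε) * (C₀ * (2 * t) ^ (-(1 : ℝ) / 4)) := by
          have : ((1 - ε) * (Pr * (N ^ (-(1 : ℝ) / 4) / (2 * t) ^ (-(1 : ℝ) / 4)))) *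
              (C₀ * (2 * t) ^ (-(1 : ℝ) / 4)) = Pr * ((1 - ε) * (C₀ * N ^ (-(1 : ℝ) / 4))) := by
            field_simp
          rw [this]; linarith
        exact le_of_mul_le_mul_right s2 (mul_pos hC h2t)
    have l1 := ge_of_tendsto (hQ.const_mul (1 + ε)) (hev.mono fun t ht => ht.1)
    have l2 := le_of_tendsto (hQ.const_mul (1 - ε)) (hev.mono fun t ht => ht.2)
    rw [mul_one] at l1 l2
    exact ⟨l1, l2⟩
  -- let `ε → 0`
  refine le_antisymm ?_ ?_
  · have hT : Tendsto (fun ε : ℝ => (1 + ε) - k * (1 - ε)) (𝓝[>] 0) (𝓝 ((1 + 0) - k * (1 - 0))) := by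
      have : Continuous fun ε : ℝ => (1 + ε) - k * (1 - ε) := by fun_prop
      exact (this.tendsto 0).mono_left nhdsWithin_le_nhds
    have := ge_of_tendsto hT (b := 0) (by
      filter_upwards [self_mem_nhdsWithin, eventually_lt_nhdsGT one_pos] with ε h1 h2
      have := (key ε h1 h2).1
      linarith)
    linarith
  · have hT : Tendsto (fun ε : ℝ => k * (1 + ε) - (1 - ε)) (𝓝[>] 0) (𝓝 (k * (1 + 0) - (1 - 0))) := by
      have : Continuous fun ε : ℝ => k * (1 + ε) - (1 - ε) := by fun_prop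
      exact (this.tendsto 0).mono_left nhdsWithin_le_nhds
    have := ge_of_tendsto hT (b := 0) (by
      filter_upwards [self_mem_nhdsWithin, eventually_lt_nhdsGT one_pos] with ε h1 h2
      have := (key ε h1 h2).2
      linarith)
    linarith

end Crest.Agent.R165.U5dx697
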