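import Crest.Agent.R165.U5d_697

/-!
# Row 165 (S0250), block U5: many spins (helper697)

* `exists_twoPt` : `TwoPt g`
* `Hn C₀ n`      : in every disc and for every `ε` there are configurations for which the free and
                   the plus correlations agree up to `ε` after rescaling (`n` even)
* `hn_even`      : `Hn` for all even `n`
-/

set_option autoImplicit false
set_option linter.unusedSectionVars false
set_option linter.unusedVariables false

noncomputable section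

open Filter Topology Finset
open Crest.ProbabilityR.IsingModel

namespace Crest.Agent.R165.U5ex697

open Crest.Agent.R165.Gk0x422
open Crest.Agent.R165.Gk1x422
open Crest.Agent.R165.U5Px422
open Crest.Agent.R165.U5ax697
open Crest.Agent.R165.U5bx697
open Crest.Agent.R165.U5cx697
open Crest.Agent.R165.U5dx697
open Crest.Agent.R165.Nm1x697
open Crest.Agent.R165.Nm2x697
open Crest.Agent.R165.USpinx641 (SpinInB)

variable {P : {n : ℕ} → (Fin n → ℤ × ℤ) → ℝ}
  {Lam : (n : ℕ) → Set ℂ → (Fin n → ℂ) → ℝ}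

/-- **TwoPt** -/
theorem exists_twoPt (hP : PlaneLim P) (hL : SpinInB .plus Lam) (hb : BallC2) (hM : Merge P)
    {C₀ : ℝ} (hC : 0 < C₀) (h2 : Plane2 P C₀) : ∃ g, TwoPt g := by
  have hA : Allow .plus 2 := Or.inl rfl
  have hpair : ∀ (c : ℂ) (r : ℝ), PairAs C₀ .plus (Metric.ball c r) := fun c r =>
    pairAs hP hM hC h2 (by decide) Metric.isBounded_ball Metric.isOpen_ball
  have hex : ∀ (c : ℂ) (r : ℝ), 0 < r → ∃ k > (0 : ℝ), ∀ x ∈ Conf (Metric.ball c r) 2,
      SLim .plus (Metric.ball c r) x (k * Lam 2 (Metric.ball c r) x) := fun c r hr =>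
    slim_two hL hC hA (hb c r hr) Metric.isOpen_ball (hpair c r)
  choose! k hk hk2 using hex
  refine ⟨fun c r x => k c r * Lam 2 (Metric.ball c r) x, ?_, hk2, ?_⟩
  · intro c r hr x hx
    exact mul_pos (hk c r hr) (hL.pos 2 _ hA (hb c r hr) x hx)
  · intro c r hr x hx
    have hr0 : (r : ℂ) ≠ 0 := Complex.ofReal_ne_zero.2 hr.ne'
    have hbij : Set.BijOn (fun z : ℂ => c + r * z) (Metric.ball (0 : ℂ) 1) (Metric.ball c r) := by
      refine ⟨fun z hz => ?_, fun z _ z' _ h => ?_, fun z hz => ?_⟩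
      · rw [mem_ball_zero_iff] at hz
        rw [mem_ball_iff_norm]
        simp only [add_sub_cancel_left]
        rw [norm_mul, Complex.norm_real, Real.norm_of_nonneg hr.le]
        nlinarith
      · have : (r : ℂ) * z = r * z' := add_left_cancel h
        exact mul_left_cancel₀ hr0 this
      · rw [mem_ball_iff_norm] at hz
        refine ⟨(z - c) / r, ?_, ?_⟩
        · rw [mem_ball_zero_iff, norm_div, Complex.norm_real, Real.norm_of_nonneg hr.le,
            div_lt_one hr]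
          exact hz
        · simp only
          rw [mul_div_cancel₀ _ hr0]
          ring
    have hd : ∀ z : ℂ, ‖deriv (fun z : ℂ => c + r * z) z‖ = r := by
      intro z
      rw [deriv_const_add, deriv_const_mul_field, deriv_id'', mul_one, Complex.norm_real,
        Real.norm_of_nonneg hr.le]
    have h := cov_two hL hC hA (hb 0 1 one_pos) (hb c r hr) Metric.isOpen_ball Metric.isOpen_ball
      (hpair 0 1) (hpair c r) (hk 0 1 one_pos) (hk c r hr) (hk2 0 1 one_pos) (hk2 c r hr)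
      (fun _ => rfl) (fun _ => rfl)
      (φ := fun z => c + r * z)
      (((differentiable_id.const_mul (r : ℂ)).const_add c).differentiableOn) hbij x hx
    simp only [hd, Fin.prod_univ_two] at h
    rw [h, ← mul_assoc, ← mul_assoc, ← Real.rpow_add hr, ← Real.rpow_add hr]
    norm_num

/-- free and plus agree up to `ε` for suitable configurations in every disc -/
def Hn (n : ℕ) : Prop :=
  ∀ (z : ℂ) (ρ : ℝ), 0 < ρ → ∀ ε > (0 : ℝ), ∃ x ∈ Conf (Metric.ball z ρ) n, ∃ L > (0 : ℝ),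
    ∀ u, LApp u x → ∀ᶠ a in 𝓝[>] (0 : ℝ),
      L ≤ a ^ (-((n : ℝ) / 8)) * GB .free (TT (Metric.ball z ρ) a) (u a) ∧
      a ^ (-((n : ℝ) / 8)) * GB .plus (TT (Metric.ball z ρ) a) (u a) ≤ (1 + ε) * L

theorem sp_zero {V : Type*} (u : Fin 0 → V) : sp u = fun _ => (1 : ℝ) := by
  funext s; simp [sp]

theorem GB_zero {b : BoundaryCondition} (hb : b ≠ .minus) (T : Finset (ℤ × ℤ))
    (u : Fin 0 → ℤ × ℤ) : GB b T u = 1 := by
  have h : ∀ E : Finset ZB, EX Kc zp zq T E (fun _ => (1 : ℝ)) = 1 := fun E =>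
    div_self ZZ_one_pos.ne'
  cases b with
  | plus => show Gp Kc T u = 1; unfold Gp; rw [sp_zero]; exact h _
  | free => show Gf Kc T u = 1; unfold Gf; rw [sp_zero]; exact h _
  | minus => exact absurd rfl hb

theorem hn_zero : Hn 0 := by
  intro z ρ hρ ε hε
  refine ⟨fun i => i.elim0, ⟨fun i => i.elim0, fun i => i.elim0⟩, 1, one_pos, fun u hu => ?_⟩
  filter_upwards [self_mem_nhdsWithin] with a ha
  rw [GB_zero (by decide), GB_zero (by decide)]
  norm_num
  linarith

theorem hn_two (hP : PlaneLim P) (hM : Merge P) {C₀ : ℝ} (hC : 0 < C₀) (h2 : Plane2 P C₀) :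
    Hn 2 := by
  intro z ρ hρ ε hε
  set η := min (ε / (2 + ε)) (1 / 2) with hη
  have hη0 : 0 < η := lt_min (by positivity) (by norm_num)
  have hη1 : η ≤ 1 / 2 := min_le_right _ _
  have hη2 : η * (2 + ε) ≤ ε := by
    have : η ≤ ε / (2 + ε) := min_le_left _ _
    rwa [le_div_iff₀ (by positivity)] at this
  have hz : z ∈ Metric.ball z ρ := by simpa using hρ
  obtain ⟨δ₁, hδ₁, g1⟩ := pairAs hP hM hC h2 (b := .plus) (by decide)
    (D := Metric.ball z ρ) Metric.isBounded_ball Metric.isOpen_ball z hz η hη0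
  obtain ⟨δ₂, hδ₂, g2⟩ := pairAs hP hM hC h2 (b := .free) (by decide)
    (D := Metric.ball z ρ) Metric.isBounded_ball Metric.isOpen_ball z hz η hη0
  set t := min (min δ₁ δ₂) ρ / 2 with ht
  have hm : 0 < min (min δ₁ δ₂) ρ := lt_min (lt_min hδ₁ hδ₂) hρ
  have ht0 : 0 < t := by positivity
  have ht1 : t < δ₁ := by
    have := (min_le_left (min δ₁ δ₂) ρ).trans (min_le_left _ _); rw [ht]; linarith
  have ht2 : t < δ₂ := by
    have := (min_le_left (min δ₁ δ₂) ρ).trans (min_le_right _ _); rw [ht]; linarith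
  have ht3 : t < ρ := by have := min_le_right (min δ₁ δ₂) ρ; rw [ht]; linarith
  set p := C₀ * ‖pr z t 0 - pr z t 1‖ ^ (-(1 : ℝ) / 4) with hp
  have hp0 : 0 < p := mul_pos hC (Real.rpow_pos_of_pos
    (norm_pos_iff.2 (sub_ne_zero.2 (pr_ne ht0))) _)
  refine ⟨pr z t, pr_conf ht0 ht3 (Set.Subset.refl _), (1 - η) * p,
    mul_pos (by linarith) hp0, fun u hu => ?_⟩
  have e : (-(((2 : ℕ) : ℝ) / 8)) = -(1 : ℝ) / 4 := by norm_num
  rw [e]
  filter_upwards [g1 (pr z t) (pr_ne ht0) (by rw [pr_norm z ht0]; exact ht1)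
    (by rw [pr_norm z ht0]; exact ht1) u hu, g2 (pr z t) (pr_ne ht0)
    (by rw [pr_norm z ht0]; exact ht2) (by rw [pr_norm z ht0]; exact ht2) u hu] with a h1 h2
  refine ⟨h2.1, h1.2.trans ?_⟩
  have e2 : (1 + ε) * ((1 - η) * p) = ((1 + ε) * (1 - η)) * p := by ring
  rw [e2]
  refine mul_le_mul_of_nonneg_right ?_ hp0.le
  nlinarith

/-! ### two separated discs -/

theorem lapp_append {n m : ℕ} {x : Fin n → ℂ} {y : Fin m → ℂ} {u : ℝ → Fin (n + m) → ℤ × ℤ}
    (h : LApp u (Fin.append x y)) :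
    LApp (fun a i => u a (Fin.castAdd m i)) x ∧ LApp (fun a i => u a (Fin.natAdd n i)) y := by
  refine ⟨fun i => ?_, fun i => ?_⟩
  · have := h (Fin.castAdd m i)
    rwa [Fin.append_left] at this
  · have := h (Fin.natAdd n i)
    rwa [Fin.append_right] at this

theorem append_eq {n m : ℕ} {α : Type*} (u : Fin (n + m) → α) :
    Fin.append (fun i => u (Fin.castAdd m i)) (fun i => u (Fin.natAdd n i)) = u :=
  Fin.append_castAdd_natAdd

theorem nonTouch_balls {z₁ z₂ : ℂ} {r₁ r₂ a : ℝ} (ha : 0 < a)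
    (h : r₁ + r₂ + a ≤ ‖z₁ - z₂‖) :
    NonTouch (TT (Metric.ball z₁ r₁) a) (TT (Metric.ball z₂ r₂) a) := by
  have key : ∀ z w : ℤ × ℤ, z ∈ TT (Metric.ball z₁ r₁) a → w ∈ TT (Metric.ball z₂ r₂) a →
      a < ‖meshPoint a z - meshPoint a w‖ := by
    intro z w hz hw
    rw [mem_TT Metric.isBounded_ball ha, mem_ball_iff_norm] at hz hw
    have e : z₁ - z₂ = -(meshPoint a z - z₁) + (meshPoint a z - meshPoint a w)
      + (meshPoint a w - z₂) := by ring
    have h1 := norm_add_le (-(meshPoint a z - z₁) + (meshPoint a z - meshPoint a w))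
      (meshPoint a w - z₂)
    have h2 := norm_add_le (-(meshPoint a z - z₁)) (meshPoint a z - meshPoint a w)
    rw [← e] at h1
    rw [norm_neg] at h2
    linarith
  refine ⟨?_, fun e => ⟨fun h => ?_, fun h => ?_⟩⟩
  · rw [Finset.disjoint_left]
    intro z h1 h2
    have := key z z h1 h2
    rw [sub_self, norm_zero] at this
    linarith
  · have := key _ _ h.1 h.2
    have e1 : meshPoint a (zp e) - meshPoint a (zq e) = -meshPoint a (unitVec e.2) := by
      unfold zp zq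
      rw [meshPoint_add]; ring
    rw [e1, norm_neg, unitVec_norm, abs_of_pos ha] at this
    exact lt_irrefl _ this
  · have := key _ _ h.2 h.1
    have e1 : meshPoint a (zq e) - meshPoint a (zp e) = meshPoint a (unitVec e.2) := by
      unfold zp zq
      rw [meshPoint_add]; ring
    rw [e1, unitVec_norm, abs_of_pos ha] at this
    exact lt_irrefl _ this

/-- lower and upper product bounds for two separated discs -/
theorem two_discs {D : Set ℂ} (hD : Bornology.IsBounded D) {z₁ z₂ : ℂ} {r₁ r₂ : ℝ}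
    (h1 : Metric.ball z₁ r₁ ⊆ D) (h2 : Metric.ball z₂ r₂ ⊆ D) (h12 : r₁ + r₂ < ‖z₁ - z₂‖)
    {n m : ℕ} {x : Fin n → ℂ} {y : Fin m → ℂ} (hx : x ∈ Conf (Metric.ball z₁ r₁) n)
    (hy : y ∈ Conf (Metric.ball z₂ r₂) m) {u : ℝ → Fin (n + m) → ℤ × ℤ}
    (hu : LApp u (Fin.append x y)) : ∀ᶠ a in 𝓝[>] (0 : ℝ),
      GB .free (TT (Metric.ball z₁ r₁) a) (fun i => u a (Fin.castAdd m i)) *
        GB .free (TT (Metric.ball z₂ r₂) a) (fun i => u a (Fin.natAdd n i))
          ≤ GB .free (TT D a) (u a) ∧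
      GB .plus (TT D a) (u a) ≤
        GB .plus (TT (Metric.ball z₁ r₁) a) (fun i => u a (Fin.castAdd m i)) *
        GB .plus (TT (Metric.ball z₂ r₂) a) (fun i => u a (Fin.natAdd n i)) := by
  obtain ⟨hu1, hu2⟩ := lapp_append hu
  filter_upwards [self_mem_nhdsWithin, hu1.mem Metric.isBounded_ball Metric.isOpen_ball hx.1,
    hu2.mem Metric.isBounded_ball Metric.isOpen_ball hy.1,
    eventually_lt_nhdsGT (sub_pos.2 h12)] with a ha m1 m2 hsm
  have ha' : (0 : ℝ) < a := ha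
  have s1 : TT (Metric.ball z₁ r₁) a ⊆ TT D a := TT_mono hD h1 ha'
  have s2 : TT (Metric.ball z₂ r₂) a ⊆ TT D a := TT_mono hD h2 ha'
  constructor
  · have g := GB_free_mul_le (TT D a) (fun i => u a (Fin.castAdd m i))
      (fun i => u a (Fin.natAdd n i))
    rw [append_eq (u a)] at g
    refine le_trans ?_ g
    exact mul_le_mul (GB_free_mono s1 m1) (GB_free_mono s2 m2)
      (GB_nonneg (by decide) _ _) (GB_nonneg (by decide) _ _)
  · have g := Gp_split (K := Kc) Kc_nonneg (T := TT D a)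
      (nonTouch_balls (z₁ := z₁) (z₂ := z₂) (r₁ := r₁) (r₂ := r₂) ha' (by linarith))
      (union_subset s1 s2) m1 m2
    rw [append_eq (u a)] at g
    exact g

theorem conf_append {D : Set ℂ} {z₁ z₂ : ℂ} {r₁ r₂ : ℝ}
    (h1 : Metric.ball z₁ r₁ ⊆ D) (h2 : Metric.ball z₂ r₂ ⊆ D) (h12 : r₁ + r₂ < ‖z₁ - z₂‖)
    {n m : ℕ} {x : Fin n → ℂ} {y : Fin m → ℂ} (hx : x ∈ Conf (Metric.ball z₁ r₁) n)
    (hy : y ∈ Conf (Metric.ball z₂ r₂) m) : Fin.append x y ∈ Conf D (n + m) := by
  have hne : ∀ i j, x i ≠ y j := by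
    intro i j h
    have a1 := hx.1 i
    have a2 := hy.1 j
    rw [mem_ball_iff_norm] at a1 a2
    rw [← h] at a2
    have e : z₁ - z₂ = -(x i - z₁) + (x i - z₂) := by ring
    have := norm_add_le (-(x i - z₁)) (x i - z₂)
    rw [← e, norm_neg] at this
    linarith
  refine ⟨fun i => ?_, fun i j hij => ?_⟩
  · refine Fin.addCases (fun i => ?_) (fun i => ?_) i
    · rw [Fin.append_left]; exact h1 (hx.1 i)
    · rw [Fin.append_right]; exact h2 (hy.1 i)
  · revert hij
    refine Fin.addCases (fun i => ?_) (fun i => ?_) i <;>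
      refine Fin.addCases (fun j => ?_) (fun j => ?_) j <;>
      intro hij <;> simp only [Fin.append_left, Fin.append_right] at hij
    · rw [hx.2 hij]
    · exact absurd hij (hne i j)
    · exact absurd hij.symm (hne j i)
    · rw [hy.2 hij]

/-- separated subdiscs of a disc -/
theorem subdiscs (z : ℂ) {ρ : ℝ} (hρ : 0 < ρ) :
    Metric.ball (z - (ρ / 2 : ℝ)) (ρ / 4) ⊆ Metric.ball z ρ ∧
    Metric.ball (z + (ρ / 2 : ℝ)) (ρ / 4) ⊆ Metric.ball z ρ ∧
    ρ / 4 + ρ / 4 < ‖(z - (ρ / 2 : ℝ)) - (z + (ρ / 2 : ℝ))‖ := by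
  refine ⟨?_, ?_, ?_⟩
  · refine Metric.ball_subset_ball' ?_
    rw [dist_eq_norm]
    have : z - ((ρ / 2 : ℝ) : ℂ) - z = ((-(ρ / 2) : ℝ) : ℂ) := by push_cast; ring
    rw [this, Complex.norm_real, norm_neg, Real.norm_of_nonneg (by positivity)]
    linarith
  · refine Metric.ball_subset_ball' ?_
    rw [dist_eq_norm]
    have : z + ((ρ / 2 : ℝ) : ℂ) - z = ((ρ / 2 : ℝ) : ℂ) := by ring
    rw [this, Complex.norm_real, Real.norm_of_nonneg (by positivity)]
    linarith
  · have : z - ((ρ / 2 : ℝ) : ℂ) - (z + ((ρ / 2 : ℝ) : ℂ)) = ((-ρ : ℝ) : ℂ) := by push_cast; ring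
    rw [this, Complex.norm_real, norm_neg, Real.norm_of_nonneg hρ.le]
    linarith

theorem hn_add {n m : ℕ} (hn : Hn n) (hm : Hn m) : Hn (n + m) := by
  intro z ρ hρ ε hε
  set η := min (ε / 3) 1 with hη
  have hη0 : 0 < η := lt_min (by positivity) one_pos
  have hη1 : η ≤ 1 := min_le_right _ _
  have hη2 : η ≤ ε / 3 := min_le_left _ _
  obtain ⟨h1, h2, h12⟩ := subdiscs z hρ
  obtain ⟨x, hx, L₁, hL₁, g1⟩ := hn (z - (ρ / 2 : ℝ)) (ρ / 4) (by positivity) η hη0
  obtain ⟨y, hy, L₂, hL₂, g2⟩ := hm (z + (ρ / 2 : ℝ)) (ρ / 4) (by positivity) η hη0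
  refine ⟨Fin.append x y, conf_append h1 h2 h12 hx hy, L₁ * L₂, mul_pos hL₁ hL₂, fun u hu => ?_⟩
  obtain ⟨hu1, hu2⟩ := lapp_append hu
  filter_upwards [self_mem_nhdsWithin, g1 _ hu1, g2 _ hu2,
    two_discs Metric.isBounded_ball h1 h2 h12 hx hy hu] with a ha q1 q2 q3
  have ha' : (0 : ℝ) < a := ha
  have e : a ^ (-(((n + m : ℕ) : ℝ) / 8)) = a ^ (-((n : ℝ) / 8)) * a ^ (-((m : ℝ) / 8)) := by
    rw [← Real.rpow_add ha']
    congr 1
    push_cast; ring
  have s1 : 0 < a ^ (-((n : ℝ) / 8)) := Real.rpow_pos_of_pos ha' _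
  have s2 : 0 < a ^ (-((m : ℝ) / 8)) := Real.rpow_pos_of_pos ha' _
  rw [e]
  constructor
  · refine (mul_le_mul q1.1 q2.1 hL₂.le (mul_nonneg s1.le (GB_nonneg (by decide) _ _))).trans ?_
    have := mul_le_mul_of_nonneg_left q3.1 (mul_pos s1 s2).le
    linarith
  · have := mul_le_mul_of_nonneg_left q3.2 (mul_pos s1 s2).le
    refine this.trans ?_
    have g3 := mul_le_mul q1.2 q2.2 (mul_nonneg s2.le (GB_nonneg (by decide) _ _))
      (by positivity)
    have g4 : (1 + η) * L₁ * ((1 + η) * L₂) ≤ (1 + ε) * (L₁ * L₂) := by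
      have e2 : (1 + η) * L₁ * ((1 + η) * L₂) = (1 + 2 * η + η ^ 2) * (L₁ * L₂) := by ring
      rw [e2]
      refine mul_le_mul_of_nonneg_right ?_ (mul_pos hL₁ hL₂).le
      nlinarith
    linarith

/-- `Hn` for all even `n` -/
theorem hn_even (hP : PlaneLim P) (hM : Merge P) {C₀ : ℝ} (hC : 0 < C₀) (h2 : Plane2 P C₀)
    {n : ℕ} (hn : Even n) : Hn n := by
  obtain ⟨m, rfl⟩ := hn
  induction m with
  | zero => exact hn_zero
  | succ m ih =>
    have e : m + 1 + (m + 1) = (m + m) + 2 := by ring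
    rw [e]
    exact hn_add ih (hn_two hP hM hC h2)

end Crest.Agent.R165.U5ex697
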