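import Crest.Agent.R165.U5e_697

/-!
# Row 165 (S0250), block U5, step S6: free boundary conditions (helper697)

* `Fam n F` : scaling limits of the free `n`-point functions with covariance up to a constant
* `cov_add` : the constant is one for `n + m` points if it is one for `n` and for `m` points
* `spinOut_free` : `SpinOut .free n` for even `n`
-/

set_option autoImplicit false
set_option linter.unusedSectionVars false
set_option linter.unusedVariables false

noncomputable section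

open Filter Topology Finset
open Crest.ProbabilityR.IsingModel

namespace Crest.Agent.R165.U5fx697

open Crest.Agent.R165.Gk0x422
open Crest.Agent.R165.Gk1x422
open Crest.Agent.R165.U5Px422
open Crest.Agent.R165.U5ax697
open Crest.Agent.R165.U5bx697
open Crest.Agent.R165.U5cx697
open Crest.Agent.R165.U5dx697
open Crest.Agent.R165.U5ex697
open Crest.Agent.R165.Nm1x697
open Crest.Agent.R165.Nm2x697
open Crest.Agent.R165.USpinx641 (SpinInB)

variable {P : {n : ℕ} → (Fin n → ℤ × ℤ) → ℝ}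
  {Lam : (n : ℕ) → Set ℂ → (Fin n → ℂ) → ℝ}

/-- scaling limits of the free `n`-point functions -/
structure Fam (n : ℕ) (F : Set ℂ → (Fin n → ℂ) → ℝ) : Prop where
  pos : ∀ D, IsC2JordanDomain D → ∀ x ∈ Conf D n, 0 < F D x
  lim : ∀ D, IsC2JordanDomain D → ∀ x ∈ Conf D n, SLim .free D x (F D x)
  cov : ∀ D D', IsC2JordanDomain D → IsC2JordanDomain D' → ∀ φ : ℂ → ℂ,
    DifferentiableOn ℂ φ D → Set.BijOn φ D D' → ∃ k : ℝ, 0 < k ∧ ∀ x ∈ Conf D n,
      (∏ i, ‖deriv φ (x i)‖ ^ ((1 : ℝ) / 8)) * F D' (fun i => φ (x i)) = k * F D x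

/-- covariance with constant one -/
def Cov1 {n : ℕ} (F : Set ℂ → (Fin n → ℂ) → ℝ) : Prop :=
  ∀ D D', IsC2JordanDomain D → IsC2JordanDomain D' → ∀ φ : ℂ → ℂ,
    DifferentiableOn ℂ φ D → Set.BijOn φ D D' → ∀ x ∈ Conf D n,
      F D x = (∏ i, ‖deriv φ (x i)‖ ^ ((1 : ℝ) / 8)) * F D' (fun i => φ (x i))

/-- existence of the free limits -/
theorem exists_fam (hP : PlaneLim P) (hL : SpinInB .free Lam) (hM : Merge P)
    {C₀ : ℝ} (hC : 0 < C₀) (h2 : Plane2 P C₀) {n : ℕ} (hn : Even n) :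
    ∃ c : Set ℂ → ℝ, (∀ D, 0 < c D) ∧ Fam n fun D x => c D * Lam n D x := by
  have hA : Allow .free n := Or.inr ⟨rfl, hn⟩
  have hex : ∀ D : Set ℂ, ∃ c > (0 : ℝ), IsC2JordanDomain D → ∀ x ∈ Conf D n,
      SLim .free D x (c * Lam n D x) := by
    intro D
    by_cases hD : IsC2JordanDomain D
    swap
    · exact ⟨1, one_pos, fun h => absurd h hD⟩
    have hDo : IsOpen D := Red2x541.isOpen_of_C2 hD
    have hDb : Bornology.IsBounded D := Redx541.bounded_of_C2 hD
    by_cases hne : D.Nonempty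
    swap
    · rcases Nat.eq_zero_or_pos n with h0 | h0
      · subst h0
        refine ⟨(Lam 0 D fun i => i.elim0)⁻¹, inv_pos.2 (hL.pos 0 D hA hD _
          ⟨fun i => i.elim0, fun i => i.elim0⟩), fun _ x hx u hu => ?_⟩
        have e : x = fun i => i.elim0 := funext fun i => i.elim0
        rw [e, inv_mul_cancel₀ (hL.pos 0 D hA hD _ ⟨fun i => i.elim0, fun i => i.elim0⟩).ne']
        refine tendsto_const_nhds.congr' ?_
        filter_upwards [self_mem_nhdsWithin] with a ha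
        rw [GB_zero (by decide)]; norm_num
      · exact ⟨1, one_pos, fun _ x hx => absurd ⟨x ⟨0, h0⟩, hx.1 _⟩ hne⟩
    obtain ⟨z, hz⟩ := hne
    obtain ⟨r, hr, hrD⟩ := Metric.isOpen_iff.1 hDo z hz
    obtain ⟨c, hc, h⟩ := slim_of_happ hL hA hD fun ε hε => by
      obtain ⟨x, hx, L, hL0, g⟩ := hn_even hP hM hC h2 hn z r hr ε hε
      refine ⟨x, ⟨fun i => hrD (hx.1 i), hx.2⟩, L, hL0, fun u hu => ?_⟩
      filter_upwards [g u hu, self_mem_nhdsWithin,
        hu.mem Metric.isBounded_ball Metric.isOpen_ball hx.1] with a g1 ha m1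
      have ha' : (0 : ℝ) < a := ha
      have hs : 0 < a ^ (-((n : ℝ) / 8)) := Real.rpow_pos_of_pos ha' _
      have hsub : TT (Metric.ball z r) a ⊆ TT D a := TT_mono hDb hrD ha'
      refine ⟨g1.1.trans (mul_le_mul_of_nonneg_left (GB_free_mono hsub m1) hs.le),
        le_trans (mul_le_mul_of_nonneg_left ?_ hs.le) g1.2⟩
      exact (Gf_le_Gp Kc_nonneg _ _).trans (GB_plus_anti hsub _)
    exact ⟨c, hc, fun _ => h⟩
  choose c hc hc2 using hex
  refine ⟨c, hc, fun D hD x hx => mul_pos (hc D) (hL.pos n D hA hD x hx), fun D hD => hc2 D hD, ?_⟩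
  intro D D' hD hD' φ hφ hbij
  obtain ⟨k, hk, hk2⟩ := hL.cov n D D' hA hD hD' φ hφ hbij
  refine ⟨c D' * k / c D, div_pos (mul_pos (hc D') hk) (hc D), fun x hx => ?_⟩
  have := hk2 x hx
  have h0 := (hc D).ne'
  have e : c D' * k / c D * (c D * Lam n D x) = c D' * (k * Lam n D x) := by field_simp
  rw [e]
  linear_combination (c D') * this

theorem fam_zero {F : Set ℂ → (Fin 0 → ℂ) → ℝ} (h : Fam 0 F) {D : Set ℂ}
    (hD : IsC2JordanDomain D) (x : Fin 0 → ℂ) : F D x = 1 := by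
  have hx : x ∈ Conf D 0 := ⟨fun i => i.elim0, fun i => i.elim0⟩
  have h1 := h.lim D hD x hx _ (lapp_meshIndex x)
  refine tendsto_nhds_unique h1 (tendsto_const_nhds.congr' ?_)
  filter_upwards [self_mem_nhdsWithin] with a ha
  rw [GB_zero (by decide)]; norm_num

theorem cov1_zero {F : Set ℂ → (Fin 0 → ℂ) → ℝ} (h : Fam 0 F) : Cov1 F := by
  intro D D' hD hD' φ hφ hbij x hx
  rw [fam_zero h hD, fam_zero h hD']
  simp

/-- Griffiths II for the limits -/
theorem lim_mul_le {n m : ℕ} {F : Set ℂ → (Fin n → ℂ) → ℝ} {G : Set ℂ → (Fin m → ℂ) → ℝ}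
    {H : Set ℂ → (Fin (n + m) → ℂ) → ℝ} (hF : Fam n F) (hG : Fam m G) (hH : Fam (n + m) H)
    {D : Set ℂ} (hD : IsC2JordanDomain D) {x : Fin n → ℂ} {y : Fin m → ℂ} (hx : x ∈ Conf D n)
    (hy : y ∈ Conf D m) (hxy : Fin.append x y ∈ Conf D (n + m)) :
    F D x * G D y ≤ H D (Fin.append x y) := by
  have hu := lapp_meshIndex (Fin.append x y)
  obtain ⟨hu1, hu2⟩ := lapp_append hu
  refine le_of_tendsto_of_tendsto ((hF.lim D hD x hx _ hu1).mul (hG.lim D hD y hy _ hu2))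
    (hH.lim D hD _ hxy _ hu) ?_
  filter_upwards [self_mem_nhdsWithin] with a ha
  have ha' : (0 : ℝ) < a := ha
  have e : a ^ (-(((n + m : ℕ) : ℝ) / 8)) = a ^ (-((n : ℝ) / 8)) * a ^ (-((m : ℝ) / 8)) := by
    rw [← Real.rpow_add ha']
    congr 1
    push_cast; ring
  have s1 : 0 < a ^ (-((n : ℝ) / 8)) := Real.rpow_pos_of_pos ha' _
  have s2 : 0 < a ^ (-((m : ℝ) / 8)) := Real.rpow_pos_of_pos ha' _
  have g := GB_free_mul_le (TT D a)
    (fun i => (fun i => meshIndex a (Fin.append x y i)) (Fin.castAdd m i))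
    (fun i => (fun i => meshIndex a (Fin.append x y i)) (Fin.natAdd n i))
  rw [append_eq (fun i => meshIndex a (Fin.append x y i))] at g
  rw [e]
  have := mul_le_mul_of_nonneg_left g (mul_pos s1 s2).le
  linarith

/-- near equality for suitable points -/
theorem near_eq {n m : ℕ} (hn : Hn n) (hm : Hn m) {F : Set ℂ → (Fin n → ℂ) → ℝ}
    {G : Set ℂ → (Fin m → ℂ) → ℝ} {H : Set ℂ → (Fin (n + m) → ℂ) → ℝ} (hF : Fam n F)
    (hG : Fam m G) (hH : Fam (n + m) H) {D : Set ℂ} (hD : IsC2JordanDomain D)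
    (hne : D.Nonempty) {ε : ℝ} (hε : 0 < ε) : ∃ x ∈ Conf D n, ∃ y ∈ Conf D m,
      Fin.append x y ∈ Conf D (n + m) ∧
        H D (Fin.append x y) ≤ ((1 + ε) * F D x) * ((1 + ε) * G D y) := by
  have hDo : IsOpen D := Red2x541.isOpen_of_C2 hD
  have hDb : Bornology.IsBounded D := Redx541.bounded_of_C2 hD
  obtain ⟨z, hz⟩ := hne
  obtain ⟨ρ, hρ, hrD⟩ := Metric.isOpen_iff.1 hDo z hz
  obtain ⟨h1, h2, h12⟩ := subdiscs z hρ
  obtain ⟨x, hx, L₁, hL₁, g1⟩ := hn (z - (ρ / 2 : ℝ)) (ρ / 4) (by positivity) ε hε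
  obtain ⟨y, hy, L₂, hL₂, g2⟩ := hm (z + (ρ / 2 : ℝ)) (ρ / 4) (by positivity) ε hε
  have hx' : x ∈ Conf D n := ⟨fun i => hrD (h1 (hx.1 i)), hx.2⟩
  have hy' : y ∈ Conf D m := ⟨fun i => hrD (h2 (hy.1 i)), hy.2⟩
  have hxy : Fin.append x y ∈ Conf D (n + m) :=
    conf_append (h1.trans hrD) (h2.trans hrD) h12 hx hy
  refine ⟨x, hx', y, hy', hxy, ?_⟩
  have hu := lapp_meshIndex (Fin.append x y)
  obtain ⟨hu1, hu2⟩ := lapp_append hu
  -- lower bounds for `F` and `G`
  have hF1 : L₁ ≤ F D x := by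
    refine ge_of_tendsto (hF.lim D hD x hx' _ hu1) ?_
    filter_upwards [g1 _ hu1, self_mem_nhdsWithin,
      hu1.mem Metric.isBounded_ball Metric.isOpen_ball hx.1] with a q ha m1
    have ha' : (0 : ℝ) < a := ha
    exact q.1.trans (mul_le_mul_of_nonneg_left
      (GB_free_mono (TT_mono hDb (h1.trans hrD) ha') m1) (Real.rpow_nonneg ha'.le _))
  have hG1 : L₂ ≤ G D y := by
    refine ge_of_tendsto (hG.lim D hD y hy' _ hu2) ?_
    filter_upwards [g2 _ hu2, self_mem_nhdsWithin,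
      hu2.mem Metric.isBounded_ball Metric.isOpen_ball hy.1] with a q ha m1
    have ha' : (0 : ℝ) < a := ha
    exact q.1.trans (mul_le_mul_of_nonneg_left
      (GB_free_mono (TT_mono hDb (h2.trans hrD) ha') m1) (Real.rpow_nonneg ha'.le _))
  have hH1 : H D (Fin.append x y) ≤ ((1 + ε) * L₁) * ((1 + ε) * L₂) := by
    refine le_of_tendsto (hH.lim D hD _ hxy _ hu) ?_
    filter_upwards [g1 _ hu1, g2 _ hu2, self_mem_nhdsWithin,
      two_discs hDb (h1.trans hrD) (h2.trans hrD) h12 hx hy hu] with a q1 q2 ha q3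
    have ha' : (0 : ℝ) < a := ha
    have e : a ^ (-(((n + m : ℕ) : ℝ) / 8)) = a ^ (-((n : ℝ) / 8)) * a ^ (-((m : ℝ) / 8)) := by
      rw [← Real.rpow_add ha']
      congr 1
      push_cast; ring
    have s1 : 0 < a ^ (-((n : ℝ) / 8)) := Real.rpow_pos_of_pos ha' _
    have s2 : 0 < a ^ (-((m : ℝ) / 8)) := Real.rpow_pos_of_pos ha' _
    rw [e]
    have g0 : GB .free (TT D a) (fun i => meshIndex a (Fin.append x y i)) ≤
        GB .plus (TT D a) (fun i => meshIndex a (Fin.append x y i)) := Gf_le_Gp Kc_nonneg _ _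
    have := mul_le_mul_of_nonneg_left (g0.trans q3.2) (mul_pos s1 s2).le
    refine this.trans ?_
    have g3 := mul_le_mul q1.2 q2.2 (mul_nonneg s2.le (GB_nonneg (by decide) _ _))
      (by positivity)
    linarith
  refine hH1.trans ?_
  exact mul_le_mul (mul_le_mul_of_nonneg_left hF1 (by positivity))
    (mul_le_mul_of_nonneg_left hG1 (by positivity)) (by positivity)
    (mul_nonneg (by positivity) (hL₁.le.trans hF1))

theorem append_map {n m : ℕ} (φ : ℂ → ℂ) (x : Fin n → ℂ) (y : Fin m → ℂ) :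
    (fun i => φ (Fin.append x y i)) = Fin.append (fun i => φ (x i)) (fun i => φ (y i)) := by
  funext i
  refine Fin.addCases (fun i => ?_) (fun i => ?_) i <;> simp

theorem conf_map {n : ℕ} {D D' : Set ℂ} {φ : ℂ → ℂ} (hbij : Set.BijOn φ D D') {x : Fin n → ℂ}
    (hx : x ∈ Conf D n) : (fun i => φ (x i)) ∈ Conf D' n :=
  ⟨fun i => hbij.mapsTo (hx.1 i), fun i j hij => hx.2 (hbij.injOn (hx.1 i) (hx.1 j) hij)⟩

theorem conf_pull {n : ℕ} {D D' : Set ℂ} {φ : ℂ → ℂ} (hbij : Set.BijOn φ D D') {y : Fin n → ℂ}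
    (hy : y ∈ Conf D' n) : ∃ x ∈ Conf D n, (fun i => φ (x i)) = y := by
  choose x hx hx2 using fun i => hbij.surjOn (hy.1 i)
  refine ⟨x, ⟨hx, fun i j hij => hy.2 ?_⟩, funext hx2⟩
  rw [← hx2 i, ← hx2 j, hij]

/-- **the constant for `n + m` points is one** -/
theorem cov_add {n m : ℕ} (hn : Hn n) (hm : Hn m) {F : Set ℂ → (Fin n → ℂ) → ℝ}
    {G : Set ℂ → (Fin m → ℂ) → ℝ} {H : Set ℂ → (Fin (n + m) → ℂ) → ℝ} (hF : Fam n F)
    (hG : Fam m G) (hH : Fam (n + m) H) (cF : Cov1 F) (cG : Cov1 G) : Cov1 H := by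
  intro D D' hD hD' φ hφ hbij
  by_cases hne : D.Nonempty
  swap
  · intro v hv
    rcases Nat.eq_zero_or_pos (n + m) with h0 | h0
    · have hn0 : n = 0 := by omega
      have hm0 : m = 0 := by omega
      subst hn0; subst hm0
      exact cov1_zero hH D D' hD hD' φ hφ hbij v hv
    · exact absurd ⟨v ⟨0, h0⟩, hv.1 _⟩ hne
  obtain ⟨k, hk, hk2⟩ := hH.cov D D' hD hD' φ hφ hbij
  have hne' : D'.Nonempty := by
    obtain ⟨z, hz⟩ := hne
    exact ⟨φ z, hbij.mapsTo hz⟩
  suffices h1 : k = 1 by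
    intro v hv
    rw [hk2 v hv, h1, one_mul]
  -- product formula for the derivative factors
  have hprod : ∀ (x : Fin n → ℂ) (y : Fin m → ℂ),
      (∏ i, ‖deriv φ (Fin.append x y i)‖ ^ ((1 : ℝ) / 8)) =
        (∏ i, ‖deriv φ (x i)‖ ^ ((1 : ℝ) / 8)) * ∏ i, ‖deriv φ (y i)‖ ^ ((1 : ℝ) / 8) := by
    intro x y
    rw [Fin.prod_univ_add]
    simp
  have hPi0 : ∀ {l : ℕ} (x : Fin l → ℂ), 0 ≤ ∏ i, ‖deriv φ (x i)‖ ^ ((1 : ℝ) / 8) := fun x =>
    Finset.prod_nonneg fun i _ => Real.rpow_nonneg (norm_nonneg _) _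
  have key : ∀ ε : ℝ, 0 < ε → 1 ≤ k * ((1 + ε) * (1 + ε)) ∧ k ≤ (1 + ε) * (1 + ε) := by
    intro ε hε
    constructor
    · obtain ⟨x, hx, y, hy, hxy, hle⟩ := near_eq hn hm hF hG hH hD hne hε
      have q1 := hk2 _ hxy
      have q2 := lim_mul_le hF hG hH hD' (conf_map hbij hx) (conf_map hbij hy)
        (by rw [← append_map]; exact conf_map hbij hxy)
      rw [← append_map] at q2
      have q3 := mul_le_mul_of_nonneg_left q2 (hPi0 (Fin.append x y))
      rw [q1, hprod] at q3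
      have q4 : (∏ i, ‖deriv φ (x i)‖ ^ ((1 : ℝ) / 8)) * (∏ i, ‖deriv φ (y i)‖ ^ ((1 : ℝ) / 8)) *
          ((F D' fun i => φ (x i)) * G D' fun i => φ (y i)) = F D x * G D y := by
        rw [cF D D' hD hD' φ hφ hbij x hx, cG D D' hD hD' φ hφ hbij y hy]
        ring
      rw [q4] at q3
      have hH0 := hH.pos D hD _ hxy
      have q5 : H D (Fin.append x y) ≤ (k * ((1 + ε) * (1 + ε))) * H D (Fin.append x y) := by
        refine hle.trans ?_
        have : (1 + ε) * F D x * ((1 + ε) * G D y) = ((1 + ε) * (1 + ε)) * (F D x * G D y) := by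
          ring
        rw [this]
        refine (mul_le_mul_of_nonneg_left q3 (by positivity)).trans (le_of_eq ?_)
        ring
      by_contra hlt
      push Not at hlt
      have := mul_lt_mul_of_pos_right hlt hH0
      linarith
    · obtain ⟨x', hx', y', hy', hxy', hle⟩ := near_eq hn hm hF hG hH hD' hne' hε
      obtain ⟨x, hx, rfl⟩ := conf_pull hbij hx'
      obtain ⟨y, hy, rfl⟩ := conf_pull hbij hy'
      have hxy : Fin.append x y ∈ Conf D (n + m) := by
        refine ⟨fun i => ?_, fun i j hij => hxy'.2 ?_⟩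
        · refine Fin.addCases (fun i => ?_) (fun i => ?_) i
          · rw [Fin.append_left]; exact hx.1 i
          · rw [Fin.append_right]; exact hy.1 i
        · rw [← append_map]; simp only [hij]
      have q1 := hk2 _ hxy
      rw [append_map] at q1
      have q3 := mul_le_mul_of_nonneg_left hle (hPi0 (Fin.append x y))
      rw [q1, hprod] at q3
      have q4 : (∏ i, ‖deriv φ (x i)‖ ^ ((1 : ℝ) / 8)) * (∏ i, ‖deriv φ (y i)‖ ^ ((1 : ℝ) / 8)) *
          (((1 + ε) * F D' fun i => φ (x i)) * ((1 + ε) * G D' fun i => φ (y i)))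
            = ((1 + ε) * (1 + ε)) * (F D x * G D y) := by
        rw [cF D D' hD hD' φ hφ hbij x hx, cG D D' hD hD' φ hφ hbij y hy]
        ring
      rw [q4] at q3
      have q5 := lim_mul_le hF hG hH hD hx hy hxy
      have hH0 := hH.pos D hD _ hxy
      have q6 : k * H D (Fin.append x y) ≤ ((1 + ε) * (1 + ε)) * H D (Fin.append x y) :=
        q3.trans (mul_le_mul_of_nonneg_left q5 (by positivity))
      exact le_of_mul_le_mul_right q6 hH0
  refine le_antisymm ?_ ?_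
  · have hT : Tendsto (fun ε : ℝ => (1 + ε) * (1 + ε)) (𝓝[>] 0) (𝓝 ((1 + 0) * (1 + 0))) := by
      have : Continuous fun ε : ℝ => (1 + ε) * (1 + ε) := by fun_prop
      exact (this.tendsto 0).mono_left nhdsWithin_le_nhds
    have := ge_of_tendsto hT (b := k) (by
      filter_upwards [self_mem_nhdsWithin] with ε h1
      exact (key ε h1).2)
    linarith
  · have hT : Tendsto (fun ε : ℝ => k * ((1 + ε) * (1 + ε))) (𝓝[>] 0)
        (𝓝 (k * ((1 + 0) * (1 + 0)))) := by
      have : Continuous fun ε : ℝ => k * ((1 + ε) * (1 + ε)) := by fun_prop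
      exact (this.tendsto 0).mono_left nhdsWithin_le_nhds
    have := ge_of_tendsto hT (b := 1) (by
      filter_upwards [self_mem_nhdsWithin] with ε h1
      exact (key ε h1).1)
    linarith

/-- the two-point function is covariant -/
theorem cov1_two (hP : PlaneLim P) (hL : SpinInB .free Lam) (hM : Merge P)
    {C₀ : ℝ} (hC : 0 < C₀) (h2 : Plane2 P C₀) {c : Set ℂ → ℝ} (hc : ∀ D, 0 < c D)
    (hF : Fam 2 fun D x => c D * Lam 2 D x) : Cov1 (n := 2) fun D x => c D * Lam 2 D x := by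
  intro D D' hD hD' φ hφ hbij
  have hDo := Red2x541.isOpen_of_C2 hD
  have hDo' := Red2x541.isOpen_of_C2 hD'
  have hDb : Bornology.IsBounded D := Redx541.bounded_of_C2 hD
  have hDb' : Bornology.IsBounded D' := Redx541.bounded_of_C2 hD'
  exact cov_two hL hC (Or.inr ⟨rfl, even_two⟩) hD hD' hDo hDo'
    (pairAs hP hM hC h2 (by decide) hDb hDo) (pairAs hP hM hC h2 (by decide) hDb' hDo')
    (hc D) (hc D') (hF.lim D hD) (hF.lim D' hD') (fun _ => rfl) (fun _ => rfl) hφ hbij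

/-- **S6** -/
theorem spinOut_free (hP : PlaneLim P) (hL : SpinInB .free Lam) (hM : Merge P)
    {C₀ : ℝ} (hC : 0 < C₀) (h2 : Plane2 P C₀) {n : ℕ} (hn : Even n) : SpinOut .free n := by
  have hall : ∀ m : ℕ, ∃ F : Set ℂ → (Fin (m + m) → ℂ) → ℝ, Fam (m + m) F ∧ Cov1 F := by
    intro m
    induction m with
    | zero =>
      obtain ⟨c, hc, hF⟩ := exists_fam hP hL hM hC h2 (n := 0) Even.zero
      exact ⟨_, hF, cov1_zero hF⟩
    | succ m ih =>
      have e : m + 1 + (m + 1) = (m + m) + 2 := by ring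
      rw [e]
      obtain ⟨F, hF, cF⟩ := ih
      obtain ⟨c, hc, hG⟩ := exists_fam hP hL hM hC h2 (n := 2) even_two
      obtain ⟨d, hd, hH⟩ := exists_fam hP hL hM hC h2 (n := m + m + 2)
        ((Even.add_self m).add even_two)
      exact ⟨_, hH, cov_add (hn_even hP hM hC h2 (Even.add_self m)) (hn_two hP hM hC h2) hF hG hH
        cF (cov1_two hP hL hM hC h2 hc hG)⟩
  obtain ⟨m, rfl⟩ := hn
  obtain ⟨F, hF, cF⟩ := hall m
  exact ⟨F, fun D hD x hx => ⟨hF.pos D hD x hx, hF.lim D hD x hx⟩, cF⟩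

end Crest.Agent.R165.U5fx697
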