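import Crest.Agent.R165.U5g_697

/-!
# Row 165 (S0250), block U5 (helper697): the plane input `PlIn` from logarithmic derivatives

`LDPl g` : one-step expansions of the plane correlations on `Conf n ℂ`, `n` even.
`plIn_of_LDPl : LDPl g → PlIn Pc LamPl`, and `In5.spPl_of : In5 → LDPl g → SpPl`.
-/

set_option autoImplicit false

noncomputable section

open Filter Topology Finset
open Crest.ProbabilityR.IsingModel

namespace Crest.Agent.R165.U5hx697

open Crest.Agent.R165.ConfTopx641 Crest.Agent.R165.PathIntx641 Crest.Agent.R165.PathGlx641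
open Crest.Agent.R165.UPlx641
open Crest.Agent.R165.U5Px422 (LApp)
open Crest.Agent.R165.U5gx697

/-- logarithmic derivatives of the plane correlations, `n` even -/
def LDPl (g : (n : ℕ) → Fin n → Fin 2 → (Fin n → ℂ) → ℝ) : Prop :=
  ∀ n, Even n → LDD n Set.univ (fun _ u => Pc u) (g n)

/-- reference configuration -/
def xref (n : ℕ) : Fin n → ℂ := fun i => (i.1 : ℂ)

theorem xref_mem (n : ℕ) : xref n ∈ Conf n Set.univ := by
  refine ⟨fun _ => Set.mem_univ _, fun i j h => ?_⟩
  unfold xref at h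
  exact Fin.ext (by exact_mod_cast h)

/-- normalised plane limits -/
def LamPl (n : ℕ) (x : Fin n → ℂ) : ℝ := Gl (fun _ u => Pc u) (xref n) x

theorem plIn_of_LDPl {g : (n : ℕ) → Fin n → Fin 2 → (Fin n → ℂ) → ℝ} (H : LDPl g) :
    PlIn @Pc LamPl where
  pos n hn x hx := (H n hn).gl_pos (xref_mem n) ⟨fun _ => Set.mem_univ _, hx⟩
  ratio n hn x x' hx hx' u u' hu hu' := by
    have hxm : x ∈ Conf n Set.univ := ⟨fun _ => Set.mem_univ _, hx⟩
    have hxm' : x' ∈ Conf n Set.univ := ⟨fun _ => Set.mem_univ _, hx'⟩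
    have L := H n hn
    have e : LamPl n x / LamPl n x' = Gl (fun _ u => Pc u) x' x := by
      unfold LamPl
      rw [div_eq_iff (L.gl_pos (xref_mem n) hxm').ne', mul_comm, L.gl_mul (xref_mem n) hxm' hxm]
    rw [e]
    exact L.rel_gl hxm' hxm _ le_rfl _ _ (USpinx641.lapp_mc hu') (USpinx641.lapp_mc hu)

/-- **plane spin limits from logarithmic derivatives** -/
theorem In5.spPl_of {Lam : (n : ℕ) → Set ℂ → (Fin n → ℂ) → ℝ} {B : ℂ → ℂ → ℝ} (h : In5 Lam B)
    {g : (n : ℕ) → Fin n → Fin 2 → (Fin n → ℂ) → ℝ} (H : LDPl g) : SpPl :=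
  h.spPl (plIn_of_LDPl H)

end Crest.Agent.R165.U5hx697
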