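import Crest.Agent.R165.UAsm_641
import Crest.Agent.R165.Pl4_654
import Crest.Agent.R165.TorusUT_922
import Crest.Agent.R165.U3Two_697
import Crest.Agent.R165.SpFr3_422

/-!
# Row 165 (S0250): ASSEMBLY OF BLOCK U, second form (helper641)

`torPl` (922), `discTwo` (697), `exCovPl`, `j2Pl` (654), `spinInB_free` (422) are theorems;
the remaining leaves are the fields of `ULeaves2`.
-/

set_option autoImplicit false

noncomputable section

open Filter Topology Set
open Crest.ProbabilityR.IsingModel

namespace Crest.Agent.R165.UAsm2x641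

open Crest.Agent.R165.USpinx641 Crest.Agent.R165.UB3x641 Crest.Agent.R165.UBrLx641
  Crest.Agent.R165.UPlx641 Crest.Agent.R165.UAsmx641 Crest.Agent.R165.U3x719
open Crest.Agent.R165.UKerPlx304 Crest.Agent.R165.Red2x541
open Crest.Agent.R165.U5gx697

theorem torPl : Spx583.TorPl := fun S =>
  TorusUTx922.torBonds_tendsto one_ne_zero 0 (fun _ => 0) S

/-- the leaves of block U which are still open -/
structure ULeaves2 : Prop where
  mac : MacLeaf
  br : BrLeaf
  ld : LdLeaf
  uniq : Uniq
  kerFree : KerAll .free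
  kerPl : UPlx641.KerPl
  plLd : PlLd

theorem spinPlus (H : ULeaves2) : SpinInB .plus Lam :=
  spinInB_plus (fun _ hD => ldf_dom H.ld hD) (covA_of (aiCov H.uniq) H.br)

theorem brLim (H : ULeaves2) : Kw9x871.BrLim Kw9x871.kapB := brLim_of H.br U3Twox697.discTwo

theorem in5' (H : ULeaves2) : In5 Lam Kw9x871.kapB where
  ut := Spx583.UTb_of torPl
  spin := spinPlus H
  mu := Kw9x871.muIn_kapB (brLim H)
  wu := Spx583.wu_Pc torPl

theorem spinOut_one (H : ULeaves2) : U5Px422.SpinOut .plus 1 := by
  obtain ⟨g, hg⟩ := (in5' H).twoPt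
  exact Nm7x422.spinOut_plus' (spinPlus H) hg 1

theorem spinFree (H : ULeaves2) : SpinInB .free SpFr3x422.LamF :=
  SpFr3x422.spinInB_free H.ld H.br H.uniq (brLim H) (spinOut_one H)

theorem leaves (H : ULeaves2) : ULeaves where
  tor := torPl
  mac := H.mac
  br := H.br
  ld := H.ld
  uniq := H.uniq
  disc := U3Twox697.discTwo
  kerFree := H.kerFree
  spFree := ⟨_, spinFree H⟩
  kerPl := H.kerPl
  plLd := H.plLd
  exPl := Pl4x654.exCovPl
  j2Pl := Pl4x654.j2Pl torPl

/-- **BLOCK U** from the seven open leaves -/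
theorem ulimB (H : ULeaves2) : ULimB := UAsmx641.ulimB (leaves H)

end Crest.Agent.R165.UAsm2x641
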