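import Crest.Agent.R165.UB3_641
import Crest.Agent.R165.UKerPl_304
import Crest.Agent.R165.UJ4_420
import Crest.Agent.R165.U3Cov4_67
import Crest.Agent.R165.GeoRc_416
import Crest.Agent.R165.GeoC_65

/-!
# Row 165 (S0250), block U: covariance wiring, plus boundary conditions (helper894)

* `aiCov_of : Uniq → AiCov`
* `kerExB_plus : MacLeaf → KerExB .plus`
* `kerCvB_plus : Uniq → MacLeaf → KerCvB .plus`
* `covA_AAf : Uniq → BrLeaf → CovA AAf`
-/

set_option autoImplicit false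

noncomputable section

open Filter Topology Set
open Crest.ProbabilityR.IsingModel

namespace Crest.Agent.R165.UCovx894

open Crest.Agent.R165.ConfTopx641 Crest.Agent.R165.UB3x641 Crest.Agent.R165.U3x719
open Crest.Agent.R165.UKerx420 Crest.Agent.R165.UFinx420 Crest.Agent.R165.UKerPlx304
open Crest.Agent.R165.USpinx641 (CovA)
open Crest.Agent.R165.Red2x541 (Rel)

/-- a conformal bijection between nonempty `C²` Jordan domains is bi-Lipschitz -/
theorem biL_of {D D' : Set ℂ} (hD : IsC2JordanDomain D) (hD' : IsC2JordanDomain D')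
    {φ : ℂ → ℂ} (hφ : DifferentiableOn ℂ φ D) (hb : Set.BijOn φ D D') (hne : D.Nonempty) :
    (∃ r M : ℝ, Geo.CD D r M) ∧ Tp416.BiL D D' φ := by
  obtain ⟨r, M, h⟩ := GeoCx65.exists_CD hD hne
  obtain ⟨z, hz⟩ := hne
  obtain ⟨r', M', h'⟩ := GeoCx65.exists_CD hD' ⟨φ z, hb.mapsTo hz⟩
  exact ⟨⟨r, M, h⟩, Geo.CD.biL h' h hφ hb⟩

/-- **covariance of the logarithmic derivatives** -/
theorem aiCov_of (hU : Uniq) : AiCov := by
  intro D D' hD hD' φ hφ hbij n x hx i g g' hg hg'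
  obtain ⟨⟨r, M, hCD⟩, hL⟩ := biL_of hD hD' hφ hbij ⟨x i, hx.1 i⟩
  rw [U3Covx67.Ai_cov hU hCD hL hx.2 hx.1 hg hg']
  congr 1
  push_cast
  rw [div_mul_eq_div_div_swap]
  ring

/-- **`CovA`** -/
theorem covA_AAf (hU : Uniq) (hB : BrLeaf) : CovA AAf := covA_of (aiCov_of hU) hB

/-- **kernel limits exist**, plus -/
theorem kerExB_plus (h : MacLeaf) : KerExB .plus := by
  intro n _ D hD x hx hinj
  exact kerD_plus h hD ⟨hx, hinj⟩

/-- **kernel limits are covariant**, plus -/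
theorem kerCvB_plus (hU : Uniq) (h : MacLeaf) : KerCvB .plus := by
  intro n hR D D' hD hD' φ hφ hbij x hx hinj bl rg bl' rg' L L'
  rcases D.eq_empty_or_nonempty with he | hne
  · refine ⟨fun _ => 0, fun z hz => ?_, fun z _ hz => ?_, fun z hz => ?_⟩ <;>
      · rw [he] at hz
        exact absurd hz (Set.notMem_empty _)
  have hx' : ∀ i, φ (x i) ∈ D' := fun i => hbij.mapsTo (hx i)
  have hinj' : Function.Injective (fun i => φ (x i)) := fun i j e =>
    hinj (hbij.injOn (hx i) (hx j) e)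
  have hc : x ∈ Conf n D := ⟨hx, hinj⟩
  have hc' : (fun i => φ (x i)) ∈ Conf n D' := ⟨hx', hinj'⟩
  obtain ⟨⟨r, M, hCD⟩, hL⟩ := biL_of hD hD' hφ hbij hne
  obtain ⟨b0, r0, g, h1, h2, h3, h4, h5, h6⟩ := h D hD n x hc
  obtain ⟨b0', r0', g', h1', h2', h3', h4', h5', h6'⟩ := h D' hD' n _ hc'
  have K : KerD false D x b0 r0 :=
    (h6 _ _ (bgFam_dom hD) (U5Px422.lapp_meshIndex x)).kerD h4 h5
  have K' : KerD false D' (fun i => φ (x i)) b0' r0' :=
    (h6' _ _ (bgFam_dom hD') (U5Px422.lapp_meshIndex _)).kerD h4' h5'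
  have hex := UJ4x420.exCov .plus n hR D hD x hx hinj
  have hex' := UJ4x420.exCov .plus n hR D' hD' _ hx' hinj'
  obtain ⟨ρ, p1, p2, p3⟩ := U3Covx67.ker_cov hU hCD hL hinj hx
    (fun y hy hxy c => h1 y hy hxy c) (fun y hy hxy c => h1' y hy hxy c)
  have hne' : ∀ z, z ∈ D → (∀ i, x i ≠ z) → ∀ i, φ (x i) ≠ φ z := fun z hz hxz i e =>
    hxz i (hbij.injOn (hx i) hz e)
  refine ⟨ρ, p1, fun z z' hz hz' hzz hxz hxz' c c' => ?_, fun z hz hxz c c' => ?_⟩
  · have hzz' : φ z ≠ φ z' := fun e => hzz (hbij.injOn hz hz' e)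
    rw [off_unique L K hex hz hz' hzz hxz hxz',
      off_unique L' K' hex' (hbij.mapsTo hz) (hbij.mapsTo hz') hzz' (hne' z hz hxz)
        (hne' z' hz' hxz'),
      h2 z hz z' hz' hzz hxz hxz' c c',
      h2' _ (hbij.mapsTo hz) _ (hbij.mapsTo hz') hzz' (hne' z hz hxz) (hne' z' hz' hxz') _ _,
      p2 z z' hz hz' hzz hxz hxz' c c']
  · rw [diag_unique L K hex hz hxz,
      diag_unique L' K' hex' (hbij.mapsTo hz) (hne' z hz hxz),
      h3 z hz hxz c c', h3' _ (hbij.mapsTo hz) (hne' z hz hxz) _ _, p3 z hz hxz c c']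

end Crest.Agent.R165.UCovx894
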