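import Crest.Agent.R165.PlMacR_654
import Crest.Agent.R165.PlMacG_422
import Crest.Agent.R165.MacL2_943

/-! # Row 165 (S0250): resolvent convergence on the plane, closed (helper641) -/

set_option autoImplicit false

noncomputable section

namespace Crest.Agent.R165.UPlanex641

theorem locComp : PlHx811.LocComp := by
  intro O n x a w V H hO hx K hK g φ hg hbg hbφ he U hU
  exact MacL2x943.comp_loc H hO hx hK (Filter.Eventually.of_forall hg) hbg hbφ
    (Filter.Eventually.of_forall he) U hU

theorem resPl : ∀ n : ℕ, Even n → ∀ x : Fin n → ℂ, Function.Injective x →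
      ∃ Q, MacIx622.ResConv (Mac0x622.Om Set.univ x) x (PlOutx304.PlSeq x) Q :=
  PlRx654.resPl locComp PlMacGx422.glue_prop

end Crest.Agent.R165.UPlanex641
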