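import Crest.Agent.R165.UFree_641
import Crest.Agent.R165.U3Uniq_719
import Crest.Agent.R165.MacC6_943
import Crest.Agent.R165.LatSeq_416
import Crest.Agent.R165.LogE_813
import Crest.Agent.R165.PlLd_817
import Crest.Agent.R165.UPlane_641

/-!
# Row 165 (S0250): the open leaves of block U (helper641)

`UOpen` : the list; `uLim : UOpen → ULimB`
-/

set_option autoImplicit false

noncomputable section

open Filter Topology Set MeasureTheory
open Crest.ProbabilityR.IsingModel

namespace Crest.Agent.R165.UOpenx641

open Crest.Agent.R165.UB3x641 Crest.Agent.R165.UAsmx641 Crest.Agent.R165.UFreex641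
open Crest.Agent.R165.Red2x541

/-- uniqueness of `L²` spinors (719) in `C²` domains -/
theorem uniqL2 (D : Set ℂ) (hD : IsC2JordanDomain D) : MacIx610.UniqL2 D := by
  rcases D.eq_empty_or_nonempty with rfl | hne
  · intro n x _ _ K _ _ F₁ F₂ _ _ _ _ d _ _
    have : (volume.restrict (∅ : Set ℂ)) = 0 := Measure.restrict_empty
    rw [this, ae_zero]
    exact Filter.eventually_bot
  · obtain ⟨r, M, h⟩ := GeoCx65.exists_CD hD hne
    exact U3x719.uniqL2 h

/-- compactness of the lattice resolvents (943) in `C²` domains -/
theorem comp (D : Set ℂ) (hD : IsC2JordanDomain D) : MacIx610.Comp D :=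
  MacC6x943.comp' (Red2x541.isOpen_of_C2 hD) (Redx541.bounded_of_C2 hD)
    (LatSeqx416.volume_frontier hD)

/-- **kernel limits**, closed -/
theorem macLeaf : MacLeaf := MacLfx304.macLeaf comp uniqL2

/-- the leaves of block U which are still open -/
structure UOpen : Prop where
  /-- branch limits (576, 644) -/
  brK : LogEx813.BrLeafK

/-- **block U** from the open leaves -/
theorem uLim (H : UOpen) : ULimB :=
  ulimB3 ⟨comp, uniqL2, LogEx813.brLeaf_of H.brK, LogEx813.ldLeaf_of H.brK U3x719.uniq,
    U3x719.uniq, UPlanex641.resPl,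
    PlLdx817.plLd_of UPlanex641.resPl⟩

end Crest.Agent.R165.UOpenx641
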